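import Crest.Agent.R62.Stub

/-!
R62: bridge from the stub-indexed recursion (functions `ℕ → ℕ → ℝ`, zero on dead stubs; stub `j`
sits at vertex `j / d`; list of joined pairs, newest first) to `Stub.exact_layer`.
-/

set_option autoImplicit false
set_option linter.unusedSectionVars false
set_option linter.unusedSimpArgs false
set_option linter.unusedVariables false
open scoped Matrix BigOperators

namespace Crest.Agent.R62.Bridge

open Crest.Agent.R62.Stub

/-- initial stub matrix, `μ = (1-γ²)/(b-γ d)` -/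
noncomputable def K0 (γ s μ : ℝ) (n d : ℕ) : ℕ → ℕ → ℝ := fun i j =>
  if i < n * d ∧ j < n * d then
    (if i / d = j / d then μ else 0) - (if i = j then γ else 0) + (γ + s) / (n * d) - μ / n
  else 0

/-- the determinant -/
def Del (s : ℝ) (K : ℕ → ℕ → ℝ) (x y : ℕ) : ℝ := (1 - s * K x y) ^ 2 - K x x * K y y

/-- one step -/
noncomputable def upd (s : ℝ) (K : ℕ → ℕ → ℝ) (x y : ℕ) : ℕ → ℕ → ℝ := fun i j =>
  if i = x ∨ i = y ∨ j = x ∨ j = y then 0
  else K i j + (K y y * K i x * K x j + K x x * K i y * K y j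
    + s * (1 - s * K x y) * (K i x * K y j + K i y * K x j)) / Del s K x y

/-- stub matrix after a list of pairs, newest first -/
noncomputable def Kof (γ s μ : ℝ) (n d : ℕ) : List (ℕ × ℕ) → ℕ → ℕ → ℝ
  | [] => K0 γ s μ n d
  | p :: L => upd s (Kof γ s μ n d L) p.1 p.2

/-- dead stubs -/
def dead (L : List (ℕ × ℕ)) (i : ℕ) : Prop := ∃ p ∈ L, i = p.1 ∨ i = p.2

/-- legal (partial) matching of the `n*d` stubs without loops -/
def Mat (n d : ℕ) : List (ℕ × ℕ) → Prop
  | [] => True
  | p :: L => Mat n d L ∧ p.1 < n * d ∧ p.2 < n * d ∧ ¬ dead L p.1 ∧ ¬ dead L p.2 ∧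
      p.1 / d ≠ p.2 / d

/-- vertex of a stub -/
def vtx (n d : ℕ) [NeZero n] (x : ℕ) : Fin n := Fin.ofNat n (x / d)

def mapL (n d : ℕ) [NeZero n] (L : List (ℕ × ℕ)) : List (Fin n × Fin n) :=
  L.map fun p => (vtx n d p.1, vtx n d p.2)

lemma vtx_eq {n d : ℕ} [NeZero n] {x y : ℕ} (hx : x < n * d) (hy : y < n * d) :
    vtx n d x = vtx n d y ↔ x / d = y / d := by
  have h1 : x / d < n := Nat.div_lt_of_lt_mul (by rwa [mul_comm] at hx)
  have h2 : y / d < n := Nat.div_lt_of_lt_mul (by rwa [mul_comm] at hy)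
  constructor
  · intro h
    have := congrArg Fin.val h
    simp only [vtx, Fin.val_ofNat, Nat.mod_eq_of_lt h1, Nat.mod_eq_of_lt h2] at this
    exact this
  · intro h
    simp only [vtx, h]

lemma runM_symm {V : Type*} [Fintype V] [DecidableEq V] (γ s μ d : ℝ) (L : List (V × V))
    (t u : V) : runM γ s μ d L t u = runM γ s μ d L u t := by
  induction L generalizing t u with
  | nil => simp only [runM, eq_comm]
  | cons p L ih =>
    simp only [runM, stepM]
    rw [ih t u, mul_comm (runM γ s μ d L t p.1), mul_comm (runM γ s μ d L t p.2)]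
    ring

lemma dead_cons (p : ℕ × ℕ) (L : List (ℕ × ℕ)) (i : ℕ) :
    dead (p :: L) i ↔ (i = p.1 ∨ i = p.2) ∨ dead L i := by
  simp [dead]

/-- the stub-level recursion is the vertex-level recursion -/
lemma Kof_eq (γ s μ : ℝ) (n d : ℕ) [NeZero n] (L : List (ℕ × ℕ))
    (hL : Mat n d L) (i j : ℕ) (hi : i < n * d) (hj : j < n * d) (hdi : ¬ dead L i)
    (hdj : ¬ dead L j) :
    Kof γ s μ n d L i j
      = runM γ s μ d (mapL n d L) (vtx n d i) (vtx n d j) - (if i = j then γ else 0) := by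
  induction L generalizing i j with
  | nil =>
    simp only [Kof, K0, mapL, List.map_nil, runM, hi, hj, and_self, if_true, vtx_eq hi hj,
      Fintype.card_fin]
    split_ifs <;> ring
  | cons p L ih =>
    obtain ⟨x, y⟩ := p
    obtain ⟨h1, hx, hy, hdx, hdy, hxy⟩ := hL
    simp only at hx hy hdx hdy hxy
    rw [dead_cons] at hdi hdj
    push Not at hdi hdj
    obtain ⟨⟨hix, hiy⟩, hdi⟩ := hdi
    obtain ⟨⟨hjx, hjy⟩, hdj⟩ := hdj
    simp only at hix hiy hjx hjy
    have hxy' : x ≠ y := fun h => hxy (by rw [h])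
    have exx := ih h1 x x hx hx hdx hdx
    have eyy := ih h1 y y hy hy hdy hdy
    have exy := ih h1 x y hx hy hdx hdy
    have eix := ih h1 i x hi hx hdi hdx
    have eiy := ih h1 i y hi hy hdi hdy
    have exj := ih h1 x j hx hj hdx hdj
    have eyj := ih h1 y j hy hj hdy hdj
    have eij := ih h1 i j hi hj hdi hdj
    simp only [if_true, if_neg hxy', if_neg hix, if_neg hiy, if_neg (Ne.symm hjx),
      if_neg (Ne.symm hjy), sub_zero] at exx eyy exy eix eiy exj eyj
    simp only [Kof, upd, Del, exx, eyy, exy, eix, eiy, exj, eyj, eij, hix, hiy, hjx, hjy, or_self,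
      if_false, mapL, List.map_cons, runM, stepM, Dm]
    simp only [mapL] at *
    rw [runM_symm γ s μ d _ (vtx n d x) (vtx n d j), runM_symm γ s μ d _ (vtx n d y) (vtx n d j)]
    ring

lemma Kof_dead (γ s μ : ℝ) (n d : ℕ) (L : List (ℕ × ℕ)) (i j : ℕ)
    (h : dead L i ∨ dead L j) : Kof γ s μ n d L i j = 0 := by
  induction L generalizing i j with
  | nil => simp [dead] at h
  | cons p L ih =>
    by_cases h2 : i = p.1 ∨ i = p.2 ∨ j = p.1 ∨ j = p.2
    · simp only [Kof, upd, if_pos h2]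
    · have hd : dead L i ∨ dead L j := by
        rw [dead_cons, dead_cons] at h
        tauto
      have h3 : ∀ a, (Kof γ s μ n d L i a = 0 ∨ Kof γ s μ n d L a j = 0) := fun a => by
        rcases hd with hd | hd
        · left; exact ih i a (Or.inl hd)
        · right; exact ih a j (Or.inr hd)
      simp only [Kof, upd, if_neg h2]
      rw [ih i j hd]
      rcases hd with hd | hd
      · rw [ih i p.1 (Or.inl hd), ih i p.2 (Or.inl hd)]; simp
      · rw [ih p.1 j (Or.inr hd), ih p.2 j (Or.inr hd)]; simp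

lemma Kof_out (γ s μ : ℝ) (n d : ℕ) (L : List (ℕ × ℕ)) (i j : ℕ)
    (h : n * d ≤ i ∨ n * d ≤ j) : Kof γ s μ n d L i j = 0 := by
  induction L generalizing i j with
  | nil =>
    simp only [Kof, K0]
    rw [if_neg]
    rintro ⟨h1, h2⟩
    omega
  | cons p L ih =>
    by_cases h2 : i = p.1 ∨ i = p.2 ∨ j = p.1 ∨ j = p.2
    · simp only [Kof, upd, if_pos h2]
    · simp only [Kof, upd, if_neg h2]
      rw [ih i j h]
      rcases h with hd | hd
      · rw [ih i p.1 (Or.inl hd), ih i p.2 (Or.inl hd)]; simp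
      · rw [ih p.1 j (Or.inr hd), ih p.2 j (Or.inr hd)]; simp

open Classical in
/-- the live stubs -/
noncomputable def live (n d : ℕ) (L : List (ℕ × ℕ)) : Finset ℕ :=
  (Finset.range (n * d)).filter fun i => ¬ dead L i

lemma mem_live {n d : ℕ} {L : List (ℕ × ℕ)} {i : ℕ} :
    i ∈ live n d L ↔ i < n * d ∧ ¬ dead L i := by
  simp [live]

lemma live_cons {n d : ℕ} {L : List (ℕ × ℕ)} (x y : ℕ) :
    live n d ((x, y) :: L) = ((live n d L).erase x).erase y := by
  ext i
  simp only [mem_live, Finset.mem_erase, dead_cons]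
  tauto

lemma sum_range_vtx (n d m : ℕ) (φ : ℕ → ℝ) :
    ∑ i ∈ Finset.range (m * d), φ (i / d) = ∑ k ∈ Finset.range m, (d : ℝ) * φ k := by
  rcases Nat.eq_zero_or_pos d with h0 | h0
  · subst h0; simp
  induction m with
  | zero => simp
  | succ m ih =>
    rw [Nat.succ_mul, Finset.sum_range_add, ih, Finset.sum_range_succ]
    congr 1
    have : ∀ x ∈ Finset.range d, φ ((m * d + x) / d) = φ m := fun x hx => by
      rw [mul_comm m d, Nat.mul_add_div h0, Nat.div_eq_of_lt (Finset.mem_range.mp hx), add_zero]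
    rw [Finset.sum_congr rfl this]
    simp

/-- sums over live stubs of functions of the vertex -/
lemma sum_live {n d : ℕ} [NeZero n] (L : List (ℕ × ℕ)) (hL : Mat n d L) (φ : Fin n → ℝ) :
    ∑ i ∈ live n d L, φ (vtx n d i) = ∑ v, runR d (mapL n d L) v * φ v := by
  induction L with
  | nil =>
    have h1 : live n d [] = Finset.range (n * d) := by
      ext i; simp [mem_live, dead]
    rw [h1]
    have h2 := sum_range_vtx n d n (fun k => φ (Fin.ofNat n k))
    have h3 : ∀ i, φ (vtx n d i) = φ (Fin.ofNat n (i / d)) := fun i => rfl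
    simp only [h3]
    rw [h2, Finset.sum_range]
    refine Finset.sum_congr rfl fun v _ => ?_
    simp [mapL, runR]
  | cons p L ih =>
    obtain ⟨x, y⟩ := p
    obtain ⟨h1, hx, hy, hdx, hdy, hxy⟩ := hL
    simp only at hx hy hdx hdy hxy
    have hxy' : x ≠ y := fun h => hxy (by rw [h])
    have hx' : x ∈ live n d L := mem_live.mpr ⟨hx, hdx⟩
    have hy' : y ∈ (live n d L).erase x :=
      Finset.mem_erase.mpr ⟨Ne.symm hxy', mem_live.mpr ⟨hy, hdy⟩⟩
    rw [live_cons]
    have e1 := Finset.add_sum_erase _ (fun i => φ (vtx n d i)) hx'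
    have e2 := Finset.add_sum_erase _ (fun i => φ (vtx n d i)) hy'
    have e3 : ∑ v, runR (d : ℝ) (mapL n d ((x, y) :: L)) v * φ v
        = ∑ v, runR (d : ℝ) (mapL n d L) v * φ v - φ (vtx n d x) - φ (vtx n d y) := by
      simp only [mapL, List.map_cons, runR, pairV, Pi.sub_apply, Pi.add_apply, sub_mul, add_mul,
        Finset.sum_sub_distrib, Finset.sum_add_distrib, Pi.single_apply]
      simp
      ring
    rw [e3, ← ih h1]
    linarith


lemma runR_eq_card {n d : ℕ} [NeZero n] (L : List (ℕ × ℕ)) (hL : Mat n d L) (v : Fin n) :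
    runR (d : ℝ) (mapL n d L) v
      = (((live n d L).filter fun i => vtx n d i = v).card : ℝ) := by
  have h := sum_live L hL (fun w => if w = v then 1 else 0)
  simp only [mul_ite, mul_one, mul_zero, Finset.sum_ite_eq', Finset.mem_univ, if_true] at h
  rw [← h, Finset.card_filter]
  push_cast
  rfl

lemma runR_nat {n d : ℕ} [NeZero n] (L : List (ℕ × ℕ)) (hL : Mat n d L) (v : Fin n) :
    runR (d : ℝ) (mapL n d L) v = 0 ∨ 1 ≤ runR (d : ℝ) (mapL n d L) v := by
  rw [runR_eq_card L hL v]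
  rcases Nat.eq_zero_or_pos ((live n d L).filter fun i => vtx n d i = v).card with h | h
  · left; rw [h]; simp
  · right; exact_mod_cast h

lemma sum_runR {n d : ℕ} [NeZero n] (L : List (ℕ × ℕ)) :
    ∑ v, runR (d : ℝ) (mapL n d L) v = (n : ℝ) * d - 2 * (L.length : ℝ) := by
  induction L with
  | nil => simp [mapL, runR]
  | cons p L ih =>
    have e3 : ∑ v, runR (d : ℝ) (mapL n d (p :: L)) v
        = ∑ v, runR (d : ℝ) (mapL n d L) v - 2 := by
      simp only [mapL, List.map_cons, runR, pairV, Pi.sub_apply, Pi.add_apply,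
        Finset.sum_sub_distrib, Finset.sum_add_distrib, Pi.single_apply]
      simp
      ring
    rw [e3, ih, List.length_cons]
    push_cast
    ring

lemma runA_append {V : Type*} [Fintype V] [DecidableEq V] (L2 L1 : List (V × V)) :
    runA (L2 ++ L1) = runA L1 + runA L2 := by
  induction L2 with
  | nil => simp [runA]
  | cons p L ih => rw [List.cons_append, runA, runA, ih, add_assoc]

lemma runR_append {V : Type*} [Fintype V] [DecidableEq V] (d : ℝ) (L2 L1 : List (V × V)) (v : V) :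
    runR d (L2 ++ L1) v = runR d L1 v - ∑ w, runA L2 v w := by
  induction L2 with
  | nil => simp [runA]
  | cons p L ih =>
    rw [List.cons_append]
    simp only [runR, runA, Pi.sub_apply, Matrix.add_apply, Finset.sum_add_distrib]
    rw [ih]
    have : ∑ w, edgeM p.1 p.2 v w = pairV p.1 p.2 v := by
      simp only [edgeM, pairV, Matrix.add_apply, Matrix.vecMulVec_apply, Pi.add_apply,
        Pi.single_apply, Finset.sum_add_distrib]
      simp
    rw [this]
    ring

lemma runA_symm {V : Type*} [Fintype V] [DecidableEq V] (L : List (V × V)) :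
    (runA L)ᵀ = runA L := by
  induction L with
  | nil => simp [runA]
  | cons p L ih => rw [runA, Matrix.transpose_add, ih, edgeM_symm]

lemma runA_nonneg {V : Type*} [Fintype V] [DecidableEq V] (L : List (V × V)) (v w : V) :
    0 ≤ runA L v w := by
  induction L with
  | nil => simp [runA]
  | cons p L ih =>
    rw [runA, Matrix.add_apply]
    refine add_nonneg ih ?_
    simp only [edgeM, Matrix.add_apply, Matrix.vecMulVec_apply, Pi.single_apply]
    split_ifs <;> norm_num

lemma Mat_append {n d : ℕ} {L2 L1 : List (ℕ × ℕ)} (h : Mat n d (L2 ++ L1)) : Mat n d L1 := by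
  induction L2 with
  | nil => exact h
  | cons p L ih => exact ih h.1

lemma mapL_length {n d : ℕ} [NeZero n] (L : List (ℕ × ℕ)) : (mapL n d L).length = L.length := by
  simp [mapL]

lemma mapL_append {n d : ℕ} [NeZero n] (L2 L1 : List (ℕ × ℕ)) :
    mapL n d (L2 ++ L1) = mapL n d L2 ++ mapL n d L1 := by
  simp [mapL]

/-- all determinants positive along the list -/
def DelPos (γ s μ : ℝ) (n d : ℕ) : List (ℕ × ℕ) → Prop
  | [] => True
  | p :: L => DelPos γ s μ n d L ∧ 0 < Del s (Kof γ s μ n d L) p.1 p.2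

lemma good_of_delPos {γ s μ : ℝ} {n d : ℕ} [NeZero n] (L : List (ℕ × ℕ)) (hL : Mat n d L)
    (hlen : 2 * L.length < n * d) (hD : DelPos γ s μ n d L) :
    Good γ s μ (d : ℝ) (mapL n d L) := by
  induction L with
  | nil => simp [mapL, Good]
  | cons p L ih =>
    obtain ⟨x, y⟩ := p
    obtain ⟨h1, hx, hy, hdx, hdy, hxy⟩ := hL
    obtain ⟨hD1, hD2⟩ := hD
    simp only at hx hy hdx hdy hxy hD2
    have hxy' : x ≠ y := fun h => hxy (by rw [h])
    have hl : 2 * L.length + 2 < n * d := by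
      rw [List.length_cons] at hlen; omega
    refine ⟨ih h1 (by omega) hD1, ?_, ?_, ?_⟩
    · intro h
      exact hxy ((vtx_eq hx hy).mp h)
    · have h2 : ((2 * L.length + 2 : ℕ) : ℝ) < ((n * d : ℕ) : ℝ) := by exact_mod_cast hl
      push_cast at h2
      have h3 := mapL_length (n := n) (d := d) L
      simp only [mapL] at h3
      rw [Fintype.card_fin, h3]
      linarith
    · have e1 := Kof_eq γ s μ n d L h1 x y hx hy hdx hdy
      have e2 := Kof_eq γ s μ n d L h1 x x hx hx hdx hdx
      have e3 := Kof_eq γ s μ n d L h1 y y hy hy hdy hdy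
      simp only [Del, e1, e2, e3, if_true, if_neg hxy', sub_zero] at hD2
      exact hD2

/-- the trace condition on stub level -/
lemma endX_of {γ s μ : ℝ} {n d : ℕ} [NeZero n] (L : List (ℕ × ℕ)) (hL : Mat n d L)
    (hX : ∑ i ∈ Finset.range (n * d), ∑ j ∈ Finset.range (n * d), Kof γ s μ n d L i j ^ 2 < 2) :
    EndX γ s μ (d : ℝ) (mapL n d L) := by
  classical
  unfold EndX
  set M := runM γ s μ (d : ℝ) (mapL n d L) with hM
  set r := runR (d : ℝ) (mapL n d L) with hr
  have h1 : ∑ i ∈ Finset.range (n * d), ∑ j ∈ Finset.range (n * d), Kof γ s μ n d L i j ^ 2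
      = ∑ i ∈ live n d L, ∑ j ∈ live n d L, Kof γ s μ n d L i j ^ 2 := by
    have hsub : live n d L ⊆ Finset.range (n * d) := Finset.filter_subset _ _
    symm
    rw [← Finset.sum_subset hsub]
    · refine Finset.sum_congr rfl fun i _ => ?_
      apply Finset.sum_subset hsub
      intro j hj hj'
      have : dead L j := by
        by_contra h
        exact hj' (mem_live.mpr ⟨Finset.mem_range.mp hj, h⟩)
      rw [Kof_dead γ s μ n d L i j (Or.inr this)]; simp
    · intro i hi hi'
      have : dead L i := by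
        by_contra h
        exact hi' (mem_live.mpr ⟨Finset.mem_range.mp hi, h⟩)
      exact Finset.sum_eq_zero fun j _ => by
        rw [Kof_dead γ s μ n d L i j (Or.inl this)]; simp
  have h2 : ∑ i ∈ live n d L, ∑ j ∈ live n d L, Kof γ s μ n d L i j ^ 2
      = ∑ i ∈ live n d L, ∑ j ∈ live n d L, M (vtx n d i) (vtx n d j) ^ 2
        + ∑ i ∈ live n d L, (γ ^ 2 - 2 * γ * M (vtx n d i) (vtx n d i)) := by
    rw [← Finset.sum_add_distrib]
    refine Finset.sum_congr rfl fun i hi => ?_
    have hi' := mem_live.mp hi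
    have e1 : ∀ j ∈ live n d L, Kof γ s μ n d L i j ^ 2 = M (vtx n d i) (vtx n d j) ^ 2
        + (if i = j then (γ ^ 2 - 2 * γ * M (vtx n d i) (vtx n d j)) else 0) := fun j hj => by
      have hj' := mem_live.mp hj
      rw [Kof_eq γ s μ n d L hL i j hi'.1 hj'.1 hi'.2 hj'.2]
      split_ifs <;> ring
    rw [Finset.sum_congr rfl e1, Finset.sum_add_distrib, Finset.sum_ite_eq, if_pos hi]
  have h3 : ∑ i ∈ live n d L, ∑ j ∈ live n d L, M (vtx n d i) (vtx n d j) ^ 2
      = ∑ v, ∑ w, r v * r w * M v w ^ 2 := by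
    have e1 : ∀ i, ∑ j ∈ live n d L, M (vtx n d i) (vtx n d j) ^ 2
        = ∑ w, r w * M (vtx n d i) w ^ 2 := fun i =>
      sum_live L hL (fun w => M (vtx n d i) w ^ 2)
    simp only [e1]
    rw [sum_live L hL (fun v => ∑ w, r w * M v w ^ 2)]
    refine Finset.sum_congr rfl fun v _ => ?_
    rw [Finset.mul_sum]
    exact Finset.sum_congr rfl fun w _ => by ring
  have h4 : ∑ i ∈ live n d L, (γ ^ 2 - 2 * γ * M (vtx n d i) (vtx n d i))
      = γ ^ 2 * ((n : ℝ) * d - 2 * (L.length : ℝ)) - 2 * γ * ∑ v, r v * M v v := by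
    rw [sum_live L hL (fun v => γ ^ 2 - 2 * γ * M v v), ← sum_runR L, Finset.mul_sum,
      Finset.mul_sum, ← Finset.sum_sub_distrib]
    exact Finset.sum_congr rfl fun v _ => by ring
  rw [h1, h2, h3, h4] at hX
  rw [Fintype.card_fin, mapL_length]
  linarith

/-- BRIDGE: the full spectral conclusion from the stub-indexed recursion. -/
theorem spectral {n d : ℕ} [NeZero n] (hd : 0 < d) {γ b : ℝ} (hγ0 : 0 < γ) (hγ1 : γ < 1)
    (hb : 0 < b - γ * d) (L2 L1 : List (ℕ × ℕ)) (hL : Mat n d (L2 ++ L1))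
    (hfull : 2 * (L2 ++ L1).length = n * d) (hlen : 2 * L1.length < n * d)
    (hD : ∀ s : ℝ, s = 1 ∨ s = -1 → DelPos γ s ((1 - γ ^ 2) / (b - γ * d)) n d L1)
    (hX : ∀ s : ℝ, s = 1 ∨ s = -1 → ∑ i ∈ Finset.range (n * d), ∑ j ∈ Finset.range (n * d),
      Kof γ s ((1 - γ ^ 2) / (b - γ * d)) n d L1 i j ^ 2 < 2)
    (f : Fin n → ℝ) (hf : f ≠ 0) (hf0 : ∑ v, f v = 0) :
    |f ⬝ᵥ (runA (mapL n d (L2 ++ L1)) *ᵥ f)| < b * (f ⬝ᵥ f) := by
  have hL1 : Mat n d L1 := Mat_append hL
  have hdr : (d : ℝ) ≠ 0 := by exact_mod_cast hd.ne'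
  rw [mapL_append, runA_append]
  have hρ : (0 : ℝ) < (Fintype.card (Fin n) : ℝ) * d - 2 * ((mapL n d L1).length : ℝ) := by
    rw [Fintype.card_fin, mapL_length]
    have : ((2 * L1.length : ℕ) : ℝ) < ((n * d : ℕ) : ℝ) := by exact_mod_cast hlen
    push_cast at this
    linarith
  refine exact_layer hγ0 hγ1 hb hdr (mapL n d L1) (fun s hs => good_of_delPos L1 hL1 hlen (hD s hs))
    hρ (fun v => runR_nat L1 hL1 v) (fun s hs => endX_of L1 hL1 (hX s hs)) (runA (mapL n d L2))
    (runA_symm _) (runA_nonneg _) ?_ f hf hf0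
  intro v
  have h1 := runR_append (d : ℝ) (mapL n d L2) (mapL n d L1) v
  rw [← mapL_append] at h1
  have h2 : runR (d : ℝ) (mapL n d (L2 ++ L1)) v = 0 := by
    have h3 := sum_runR (n := n) (d := d) (L2 ++ L1)
    have h4 : (n : ℝ) * d - 2 * ((L2 ++ L1).length : ℝ) = 0 := by
      have : ((2 * (L2 ++ L1).length : ℕ) : ℝ) = ((n * d : ℕ) : ℝ) := by exact_mod_cast hfull
      push_cast at this
      push_cast
      linarith
    rw [h4] at h3
    have h5 : ∀ w ∈ (Finset.univ : Finset (Fin n)), 0 ≤ runR (d : ℝ) (mapL n d (L2 ++ L1)) w :=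
      fun w _ => by rcases runR_nat (L2 ++ L1) hL w with h | h <;> linarith
    exact (Finset.sum_eq_zero_iff_of_nonneg h5).mp h3 v (Finset.mem_univ v)
  rw [h2] at h1
  linarith

end Crest.Agent.R62.Bridge
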