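import Crest.Agent.R62.SpecBridge
import Crest.Agent.R062.MachDefs

/-!
R62: glue.  From the data `Mach.Spec` (with the machine theorem as a hypothesis) and the end
condition to the statement S0084.
-/

set_option autoImplicit false
set_option linter.unusedSectionVars false
set_option linter.unusedSimpArgs false
set_option linter.unusedVariables false
open scoped Matrix BigOperators

namespace Crest.Agent.R62.Glue

open Crest.Agent.R62.Stub
open Crest.Agent.R062
open Crest.Agent.Lib.PT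

lemma K0_eq (γ s μ : ℝ) (n d : ℕ) : Mach.K0 γ s μ n d = Bridge.K0 γ s μ n d := rfl

lemma Del_eq (s : ℝ) (K : ℕ → ℕ → ℝ) (x y : ℕ) : Mach.Del s K x y = Bridge.Del s K x y := rfl

lemma upd_eq (s : ℝ) (K : ℕ → ℕ → ℝ) (x y : ℕ) : Mach.upd s K x y = Bridge.upd s K x y := by
  funext i j
  simp only [Mach.upd, Bridge.upd, Mach.updNum, Del_eq]
  split_ifs
  · rfl
  · ring

lemma Kof_eq (γ s μ : ℝ) (n d : ℕ) (L : List (ℕ × ℕ)) :
    Mach.Kof γ s μ n d L = Bridge.Kof γ s μ n d L := by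
  induction L with
  | nil => rfl
  | cons p L ih => simp only [Mach.Kof, Bridge.Kof, ih, upd_eq]

/-- `μ` as a function of `γ` for `b = 2 √(d-1)` -/
noncomputable def muOf (d : ℕ) (γ : ℝ) : ℝ := (1 - γ ^ 2) / (2 * Real.sqrt ((d : ℝ) - 1) - γ * d)

lemma delPos_of {γ s μ : ℝ} {n d : ℕ} (L : List (ℕ × ℕ))
    (h : ∀ p L', (p :: L') <:+ L → 0 < Mach.Del s (Mach.Kof γ s μ n d L') p.1 p.2) :
    Bridge.DelPos γ s μ n d L := by
  induction L with
  | nil => trivial
  | cons p L ih =>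
    refine ⟨ih fun q L' hq => h q L' (hq.trans (List.suffix_cons p L)), ?_⟩
    have := h p L (List.suffix_refl _)
    rw [Kof_eq] at this
    exact this

/-- spectral property from a list with positive determinants, in the machine's notation -/
theorem spec_of_mach {d n : ℕ} (hd : 3 ≤ d) (hn : 0 < n) {γ : ℝ} (hγ0 : 0 < γ) (hγ1 : γ < 1)
    (hb : 0 < 2 * Real.sqrt ((d : ℝ) - 1) - γ * d) (P : List (ℕ × ℕ))
    (hlen : 2 * P.length < n * d)
    (hD : ∀ b : Bool, ∀ p L', (p :: L') <:+ P →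
      0 < Mach.Del (Mach.sg b) (Mach.Kof γ (Mach.sg b) (muOf d γ) n d L') p.1 p.2)
    (hX : ∀ b : Bool, ∑ i ∈ Finset.range (n * d), ∑ j ∈ Finset.range (n * d),
      Mach.Kof γ (Mach.sg b) (muOf d γ) n d P i j ^ 2 < 2)
    (Q : List (ℕ × ℕ)) (hPQ : P <:+ Q) (hQ : Pairs.Valid d n Q) (hfull : 2 * Q.length = n * d) :
    Out.Spec d n Q := by
  have h1 : (Mach.sg true : ℝ) = 1 := by simp [Mach.sg]
  have h2 : (Mach.sg false : ℝ) = -1 := by simp [Mach.sg]
  refine SpecBridge.spec_of hd hn hγ0 hγ1 hb P hlen ?_ ?_ Q hPQ hQ hfull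
  · rintro s (rfl | rfl)
    · exact delPos_of P fun p L' h => by have := hD true p L' h; rw [h1] at this; exact this
    · exact delPos_of P fun p L' h => by have := hD false p L' h; rw [h2] at this; exact this
  · rintro s (rfl | rfl)
    · have := hX true
      rw [h1, Kof_eq] at this
      exact this
    · have := hX false
      rw [h2, Kof_eq] at this
      exact this

/-- suffixes of good lists are good -/
lemma good_suffix {P : Mach.Par} {d n : ℕ} {cs : List Mach.E} {l : List (ℕ × ℕ)}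
    (h : Mach.Good P d n cs l) {l' : List (ℕ × ℕ)} (hl : l' <:+ l) : Mach.Good P d n cs l' := by
  induction l with
  | nil => rw [List.suffix_nil] at hl; subst hl; exact h
  | cons p l ih =>
    rw [List.suffix_cons_iff] at hl
    rcases hl with rfl | hl
    · exact h
    · exact ih h.1 hl

open Classical in
/-- THE GLUE -/
theorem glue {d : ℕ} (hd : 3 ≤ d) (S : Mach.Spec d) (n1 : ℕ)
    (hmach : ∃ n2 : ℕ, ∃ sel : Un → List (ℕ × ℕ), PTF sel ∧ ∀ n, n2 ≤ n → Even n →
      Mach.Good S.P d n S.cs (sel ⟨n⟩) ∧ (sel ⟨n⟩).length = S.T n)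
    (hγ : ∀ n, n1 ≤ n → Even n → 0 < S.P.gam.v n ∧ S.P.gam.v n < 1 ∧
      0 < 2 * Real.sqrt ((d : ℝ) - 1) - S.P.gam.v n * d)
    (hμ : ∀ n, n1 ≤ n → Even n → S.P.mu.v n = muOf d (S.P.gam.v n))
    (hT : ∀ n, n1 ≤ n → Even n → 2 * S.T n + EndComplete.thr d ≤ n * d + 1)
    (hend : ∀ n, n1 ≤ n → Even n → ∀ l, Mach.Good S.P d n S.cs l → l.length = S.T n →
      ∀ b : Bool, ∑ i ∈ Finset.range (n * d), ∑ j ∈ Finset.range (n * d),
        S.P.K d n b l i j ^ 2 < 2) :
    ∃ n₀ : ℕ, ∃ F : List Bool → List Bool, Crest.Complexity.PolyTime F ∧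
      ∀ n : ℕ, n₀ ≤ n → Even n →
        (Crest.CombinatoricsR.GraphCode.adjGraph n
            (F (Crest.CombinatoricsR.GraphCode.unary n))).IsRegularOfDegree d ∧
        ∀ x : Fin n → ℝ, ∑ i, x i = 0 → x ≠ 0 →
          |x ⬝ᵥ ((Crest.CombinatoricsR.GraphCode.adjGraph n
              (F (Crest.CombinatoricsR.GraphCode.unary n))).adjMatrix ℝ *ᵥ x)| <
            2 * Real.sqrt ((d : ℝ) - 1) * (x ⬝ᵥ x) := by
  obtain ⟨n2, sel, hsel, hgood⟩ := hmach
  refine Out.result_of d hd sel hsel (max (max n1 n2) (max S.n0 1)) ?_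
  intro n hn hev
  have hn1 : n1 ≤ n := le_trans (le_trans (le_max_left _ _) (le_max_left _ _)) hn
  have hn2 : n2 ≤ n := le_trans (le_trans (le_max_right _ _) (le_max_left _ _)) hn
  have hn0 : S.n0 ≤ n := le_trans (le_trans (le_max_left _ _) (le_max_right _ _)) hn
  have hnpos : 0 < n := lt_of_lt_of_le Nat.one_pos
    (le_trans (le_trans (le_max_right _ _) (le_max_right _ _)) hn)
  obtain ⟨hG, hlen⟩ := hgood n hn2 hev
  have hT' := hT n hn1 hev
  have hthr : 2 ≤ EndComplete.thr d := by unfold EndComplete.thr; omega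
  refine ⟨hG.valid, by rw [hlen]; exact hT', ?_⟩
  intro Q hPQ hQ hfull
  obtain ⟨hγ0, hγ1, hb⟩ := hγ n hn1 hev
  have hμ' := hμ n hn1 hev
  refine spec_of_mach hd hnpos hγ0 hγ1 hb (sel ⟨n⟩) (by rw [hlen]; omega) ?_ ?_ Q hPQ hQ hfull
  · intro b p L' hp
    have hg := good_suffix hG hp
    have hlt : L'.length < S.T n := by
      have := hp.length_le
      rw [List.length_cons, hlen] at this
      omega
    have := S.bndD n hn0 hev L' hg.1 hlt p hg.2.1 hg.2.2 b
    rw [← hμ']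
    unfold Mach.Par.K at this
    linarith
  · intro b
    have := hend n hn1 hev (sel ⟨n⟩) hG hlen b
    unfold Mach.Par.K at this
    rw [← hμ']
    exact this

end Crest.Agent.R62.Glue
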