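import Crest.Agent.R62.Bridge

/-!
R62: START VALUES.  The initial stub matrix `K0 γ s μ n d` as a matrix on `Fin (n*d)`,
its powers, mixed products, traces and diagonal entries, all exact; and the explicit values for
`b = 2√q`, `μ = (1-γ²)/(b-γd)`, `γ = (1-δ)/√q`.
-/

set_option autoImplicit false
set_option linter.unusedSectionVars false
set_option linter.unusedSimpArgs false
set_option linter.unusedVariables false

open scoped Matrix BigOperators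
open Matrix Finset

namespace Crest.Agent.R62.Start

open Crest.Agent.R62.Bridge

/-- same-vertex indicator matrix -/
def BB (n d : ℕ) : Matrix (Fin (n * d)) (Fin (n * d)) ℝ :=
  fun i j => if (i : ℕ) / d = (j : ℕ) / d then 1 else 0

/-- all ones -/
def JJ (n d : ℕ) : Matrix (Fin (n * d)) (Fin (n * d)) ℝ := fun _ _ => 1

/-- the start matrix on `Fin (n*d)` -/
noncomputable def K0m (γ s μ : ℝ) (n d : ℕ) : Matrix (Fin (n * d)) (Fin (n * d)) ℝ :=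
  fun i j => K0 γ s μ n d i j

lemma K0m_apply (γ s μ : ℝ) (n d : ℕ) (i j : Fin (n * d)) :
    K0m γ s μ n d i j = (if (i : ℕ) / d = (j : ℕ) / d then μ else 0) - (if i = j then γ else 0)
      + (γ + s) / (n * d) - μ / n := by
  simp only [K0m, K0, i.isLt, j.isLt, and_self, if_true, Fin.ext_iff]

/-- number of stubs at the vertex of stub `i` -/
lemma card_block (n d : ℕ) (i : Fin (n * d)) :
    (Finset.univ.filter fun j : Fin (n * d) => (i : ℕ) / d = (j : ℕ) / d).card = d := by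
  have hd : 0 < d := by
    rcases Nat.eq_zero_or_pos d with h | h
    · subst h; exact absurd i.isLt (by simp)
    · exact h
  have hlt : (i : ℕ) / d < n := Nat.div_lt_of_lt_mul (by have := i.isLt; rw [mul_comm d n]; exact this)
  have key : (Finset.univ.filter fun j : Fin (n * d) => (i : ℕ) / d = (j : ℕ) / d).card
      = (Finset.range d).card := by
    refine Finset.card_bij (fun (j : Fin (n * d)) _ => (j : ℕ) % d) ?_ ?_ ?_
    · intro j _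
      exact Finset.mem_range.2 (Nat.mod_lt _ hd)
    · intro j hj j' hj' h
      simp only [Finset.mem_filter, Finset.mem_univ, true_and] at hj hj'
      apply Fin.ext
      rw [← Nat.div_add_mod' (j : ℕ) d, ← Nat.div_add_mod' (j' : ℕ) d, ← hj, ← hj', h]
    · intro k hk
      have hk' : k < d := Finset.mem_range.1 hk
      have hb : (i : ℕ) / d * d + k < n * d := by
        calc (i : ℕ) / d * d + k < (i : ℕ) / d * d + d := by omega
          _ = ((i : ℕ) / d + 1) * d := by ring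
          _ ≤ n * d := Nat.mul_le_mul_right _ hlt
      refine ⟨⟨(i : ℕ) / d * d + k, hb⟩, ?_, ?_⟩
      · simp only [Finset.mem_filter, Finset.mem_univ, true_and]
        rw [Nat.add_comm ((i : ℕ) / d * d) k, Nat.add_mul_div_right _ _ hd,
          Nat.div_eq_of_lt hk', zero_add]
      · simp only
        rw [Nat.add_comm ((i : ℕ) / d * d) k, Nat.add_mul_mod_self_right,
          Nat.mod_eq_of_lt hk']
  rw [key, Finset.card_range]

lemma BB_mul_BB (n d : ℕ) : BB n d * BB n d = (d : ℝ) • BB n d := by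
  ext i j
  rw [Matrix.mul_apply, Matrix.smul_apply, smul_eq_mul]
  simp only [BB]
  have : ∀ k : Fin (n * d), (if (i : ℕ) / d = (k : ℕ) / d then (1:ℝ) else 0) *
      (if (k : ℕ) / d = (j : ℕ) / d then 1 else 0)
      = (if (i : ℕ) / d = (j : ℕ) / d then (1:ℝ) else 0) *
        (if (i : ℕ) / d = (k : ℕ) / d then 1 else 0) := by
    intro k
    by_cases h1 : (i : ℕ) / d = (k : ℕ) / d
    · rw [if_pos h1, ← h1]; ring
    · rw [if_neg h1]; ring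
  rw [Finset.sum_congr rfl fun k _ => this k, ← Finset.mul_sum, Finset.sum_boole, card_block]
  ring

lemma sum_BB (n d : ℕ) (i : Fin (n * d)) : ∑ j, BB n d i j = d := by
  simp only [BB]
  rw [Finset.sum_boole, card_block]

lemma BB_symm (n d : ℕ) (i j : Fin (n * d)) : BB n d i j = BB n d j i := by
  simp only [BB, eq_comm]

lemma BB_mul_JJ (n d : ℕ) : BB n d * JJ n d = (d : ℝ) • JJ n d := by
  ext i j
  rw [Matrix.mul_apply, Matrix.smul_apply, smul_eq_mul]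
  simp only [JJ, mul_one]
  exact sum_BB n d i

lemma JJ_mul_BB (n d : ℕ) : JJ n d * BB n d = (d : ℝ) • JJ n d := by
  ext i j
  rw [Matrix.mul_apply, Matrix.smul_apply, smul_eq_mul]
  simp only [JJ, mul_one, one_mul]
  rw [Finset.sum_congr rfl fun k _ => BB_symm n d k j]
  exact sum_BB n d j

lemma JJ_mul_JJ (n d : ℕ) : JJ n d * JJ n d = ((n : ℝ) * d) • JJ n d := by
  ext i j
  rw [Matrix.mul_apply, Matrix.smul_apply, smul_eq_mul]
  simp [JJ]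

/-- the three eigenprojections combined: `F a b c = a P₁ + b (P_B - P₁) + c (1 - P_B)` -/
noncomputable def F (n d : ℕ) (a b c : ℝ) : Matrix (Fin (n * d)) (Fin (n * d)) ℝ :=
  (a / (n * d)) • JJ n d + b • ((1 / (d:ℝ)) • BB n d - (1 / ((n:ℝ) * d)) • JJ n d)
    + c • (1 - (1 / (d:ℝ)) • BB n d)

lemma F_apply (n d : ℕ) (a b c : ℝ) (i j : Fin (n * d)) :
    F n d a b c i j = a / (n * d) + b * ((if (i : ℕ) / d = (j : ℕ) / d then 1 / (d:ℝ) else 0)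
      - 1 / (n * d)) + c * ((if i = j then 1 else 0)
        - (if (i : ℕ) / d = (j : ℕ) / d then 1 / (d:ℝ) else 0)) := by
  simp only [F, Matrix.add_apply, Matrix.smul_apply, Matrix.sub_apply, JJ, BB, smul_eq_mul,
    Matrix.one_apply, mul_one]
  split_ifs <;> ring

lemma F_mul (n d : ℕ) (hn : 0 < n) (hd : 0 < d) (a b c a' b' c' : ℝ) :
    F n d a b c * F n d a' b' c' = F n d (a * a') (b * b') (c * c') := by
  have hn' : (n : ℝ) ≠ 0 := by positivity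
  have hd' : (d : ℝ) ≠ 0 := by positivity
  have e : ∀ a b c : ℝ, F n d a b c
      = ((a - b) / (n * d)) • JJ n d + ((b - c) / d) • BB n d + c • 1 := by
    intro a b c
    ext i j
    simp only [F, Matrix.add_apply, Matrix.smul_apply, Matrix.sub_apply, smul_eq_mul]
    ring
  rw [e a b c, e a' b' c', e (a * a') (b * b') (c * c')]
  simp only [add_mul, mul_add, Matrix.smul_mul, Matrix.mul_smul, JJ_mul_JJ, BB_mul_BB, BB_mul_JJ,
    JJ_mul_BB, mul_one, one_mul]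
  ext i j
  simp only [Matrix.add_apply, Matrix.smul_apply, smul_eq_mul]
  field_simp
  ring

lemma F_pow (n d : ℕ) (hn : 0 < n) (hd : 0 < d) (a b c : ℝ) (p : ℕ) :
    F n d a b c ^ p = F n d (a ^ p) (b ^ p) (c ^ p) := by
  induction p with
  | zero =>
    ext i j
    rw [pow_zero, F_apply]
    simp only [pow_zero, Matrix.one_apply]
    have hn' : (n : ℝ) ≠ 0 := by positivity
    have hd' : (d : ℝ) ≠ 0 := by positivity
    split_ifs <;> ring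
  | succ p ih => rw [pow_succ, ih, F_mul n d hn hd, ← pow_succ, ← pow_succ, ← pow_succ]

lemma K0m_eq_F (γ s μ : ℝ) (n d : ℕ) (hn : 0 < n) (hd : 0 < d) :
    K0m γ s μ n d = F n d s (μ * d - γ) (-γ) := by
  have hn' : (n : ℝ) ≠ 0 := by positivity
  have hd' : (d : ℝ) ≠ 0 := by positivity
  ext i j
  rw [K0m_apply, F_apply]
  split_ifs <;> field_simp
  all_goals ring

lemma K0m_pow (γ s μ : ℝ) (n d : ℕ) (hn : 0 < n) (hd : 0 < d) (p : ℕ) :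
    K0m γ s μ n d ^ p = F n d (s ^ p) ((μ * d - γ) ^ p) ((-γ) ^ p) := by
  rw [K0m_eq_F γ s μ n d hn hd, F_pow n d hn hd]

lemma K0m_mul (γ s t μ : ℝ) (n d : ℕ) (hn : 0 < n) (hd : 0 < d) (p r : ℕ) :
    K0m γ s μ n d ^ p * K0m γ t μ n d ^ r
      = F n d (s ^ p * t ^ r) ((μ * d - γ) ^ (p + r)) ((-γ) ^ (p + r)) := by
  rw [K0m_pow γ s μ n d hn hd, K0m_pow γ t μ n d hn hd, F_mul n d hn hd, ← pow_add, ← pow_add]

lemma F_diag (n d : ℕ) (hn : 0 < n) (hd : 0 < d) (a b c : ℝ) (i : Fin (n * d)) :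
    F n d a b c i i = (a + (n - 1) * b + n * (d - 1) * c) / (n * d) := by
  have hn' : (n : ℝ) ≠ 0 := by positivity
  have hd' : (d : ℝ) ≠ 0 := by positivity
  rw [F_apply, if_pos rfl, if_pos rfl]
  field_simp

lemma F_trace (n d : ℕ) (hn : 0 < n) (hd : 0 < d) (a b c : ℝ) :
    (F n d a b c).trace = a + (n - 1) * b + n * (d - 1) * c := by
  have hn' : (n : ℝ) ≠ 0 := by positivity
  have hd' : (d : ℝ) ≠ 0 := by positivity
  rw [Matrix.trace]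
  simp only [Matrix.diag_apply, F_diag n d hn hd, Finset.sum_const, Finset.card_univ,
    Fintype.card_fin, nsmul_eq_mul, Nat.cast_mul]
  field_simp

/-- **Traces of powers of the start matrix.** -/
theorem trace_pow (γ s μ : ℝ) (n d : ℕ) (hn : 0 < n) (hd : 0 < d) (p : ℕ) :
    (K0m γ s μ n d ^ p).trace
      = s ^ p + (n - 1) * (μ * d - γ) ^ p + n * (d - 1) * (-γ) ^ p := by
  rw [K0m_pow γ s μ n d hn hd, F_trace n d hn hd]

/-- **Mixed traces.** -/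
theorem trace_mul (γ s t μ : ℝ) (n d : ℕ) (hn : 0 < n) (hd : 0 < d) (p r : ℕ) :
    (K0m γ s μ n d ^ p * K0m γ t μ n d ^ r).trace
      = s ^ p * t ^ r + (n - 1) * (μ * d - γ) ^ (p + r) + n * (d - 1) * (-γ) ^ (p + r) := by
  rw [K0m_mul γ s t μ n d hn hd, F_trace n d hn hd]

/-- **Diagonal entries of powers.** -/
theorem pow_diag (γ s μ : ℝ) (n d : ℕ) (hn : 0 < n) (hd : 0 < d) (p : ℕ) (i : Fin (n * d)) :
    (K0m γ s μ n d ^ p) i i
      = (s ^ p + (n - 1) * (μ * d - γ) ^ p + n * (d - 1) * (-γ) ^ p) / (n * d) := by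
  rw [K0m_pow γ s μ n d hn hd, F_diag n d hn hd]

/-- every diagonal entry of a power is the trace divided by `n d` -/
theorem pow_diag' (γ s μ : ℝ) (n d : ℕ) (hn : 0 < n) (hd : 0 < d) (p : ℕ) (i : Fin (n * d)) :
    (K0m γ s μ n d ^ p) i i = (K0m γ s μ n d ^ p).trace / (n * d) := by
  rw [pow_diag γ s μ n d hn hd, trace_pow γ s μ n d hn hd]

/-- symmetric -/
theorem K0m_symm (γ s μ : ℝ) (n d : ℕ) : (K0m γ s μ n d).IsSymm := by
  ext i j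
  rw [Matrix.transpose_apply, K0m_apply, K0m_apply]
  simp only [eq_comm]

/-- row sums -/
theorem row_sum (γ s μ : ℝ) (n d : ℕ) (hn : 0 < n) (hd : 0 < d) (i : Fin (n * d)) :
    ∑ j, K0m γ s μ n d i j = s := by
  have hn' : (n : ℝ) ≠ 0 := by positivity
  have hd' : (d : ℝ) ≠ 0 := by positivity
  have h : ∀ j, K0m γ s μ n d i j = μ * BB n d i j - (if i = j then γ else 0)
      + ((γ + s) / (n * d) - μ / n) := by
    intro j
    rw [K0m_apply]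
    simp only [BB]
    split_ifs <;> ring
  rw [Finset.sum_congr rfl fun j _ => h j]
  rw [Finset.sum_add_distrib, Finset.sum_sub_distrib, ← Finset.mul_sum, sum_BB,
    Finset.sum_ite_eq, Finset.sum_const, Finset.card_univ, Fintype.card_fin]
  simp only [Finset.mem_univ, if_true, nsmul_eq_mul, Nat.cast_mul]
  field_simp
  ring

/-! ### Explicit values for `b = 2√q`, `q = d - 1`, `γ = (1-δ)/√q`, `μ = (1-γ²)/(2√q-γd)` -/

/-- `γ = (1-δ)/√q` -/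
noncomputable def gam (d : ℕ) (δ : ℝ) : ℝ := (1 - δ) / Real.sqrt ((d : ℝ) - 1)

/-- `μ = (1-γ²)/(2√q-γd)` -/
noncomputable def muOf (d : ℕ) (γ : ℝ) : ℝ := (1 - γ ^ 2) / (2 * Real.sqrt ((d : ℝ) - 1) - γ * d)

/-- `λ = μ d - γ`, the eigenvalue on block-constant sum-zero vectors -/
noncomputable def lam (d : ℕ) (δ : ℝ) : ℝ := muOf d (gam d δ) * d - gam d δ

/-- `τ = λ - qγ = √q d δ²/(q-1+dδ)` -/
noncomputable def tau (d : ℕ) (δ : ℝ) : ℝ :=
  Real.sqrt ((d : ℝ) - 1) * d * δ ^ 2 / ((d : ℝ) - 2 + d * δ)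

section explicit

variable (d : ℕ) (hd : 3 ≤ d) (δ : ℝ) (h0 : 0 ≤ δ) (h1 : δ ≤ 1)

include hd in
lemma sqrt_pos' : 0 < Real.sqrt ((d : ℝ) - 1) := by
  apply Real.sqrt_pos.2
  have : (3:ℝ) ≤ d := by exact_mod_cast hd
  linarith

include hd in
lemma sqrt_sq' : Real.sqrt ((d : ℝ) - 1) ^ 2 = (d : ℝ) - 1 := by
  apply Real.sq_sqrt
  have : (3:ℝ) ≤ d := by exact_mod_cast hd
  linarith

include hd h0 h1 in
lemma gam_nonneg : 0 ≤ gam d δ := by
  unfold gam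
  have := sqrt_pos' d hd
  apply div_nonneg (by linarith) this.le

include hd h0 h1 in
lemma gam_sq : ((d:ℝ) - 1) * gam d δ ^ 2 = (1 - δ) ^ 2 := by
  unfold gam
  have h := sqrt_pos' d hd
  rw [div_pow, sqrt_sq' d hd]
  have h3 : (3:ℝ) ≤ d := by exact_mod_cast hd
  have h5 : (d:ℝ) - 1 ≠ 0 := by linarith
  rw [mul_div_assoc', mul_div_cancel_left₀ _ h5]

include hd h0 h1 in
lemma den_eq : 2 * Real.sqrt ((d : ℝ) - 1) - gam d δ * d
    = ((d:ℝ) - 2 + d * δ) / Real.sqrt ((d : ℝ) - 1) := by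
  unfold gam
  have h := sqrt_pos' d hd
  have h2 := sqrt_sq' d hd
  field_simp
  rw [h2]
  ring

include hd h0 h1 in
lemma den_pos : 0 < 2 * Real.sqrt ((d : ℝ) - 1) - gam d δ * d := by
  rw [den_eq d hd δ h0 h1]
  have h3 : (3:ℝ) ≤ d := by exact_mod_cast hd
  have := sqrt_pos' d hd
  apply div_pos _ this
  nlinarith

include hd h0 h1 in
lemma lam_eq : lam d δ = Real.sqrt ((d : ℝ) - 1) * ((d:ℝ) - 2 + 2 * δ) / ((d:ℝ) - 2 + d * δ) := by
  unfold lam muOf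
  rw [den_eq d hd δ h0 h1]
  have h3 : (3:ℝ) ≤ d := by exact_mod_cast hd
  have h := sqrt_pos' d hd
  have h2 := sqrt_sq' d hd
  have h4 : (d:ℝ) - 2 + d * δ ≠ 0 := by nlinarith
  have h5 : (d:ℝ) - 1 ≠ 0 := by linarith
  rw [div_div_eq_mul_div, sub_mul, one_mul]
  have h6 : gam d δ ^ 2 = (1 - δ) ^ 2 / ((d:ℝ) - 1) := by
    rw [eq_div_iff h5, mul_comm]; exact gam_sq d hd δ h0 h1
  rw [h6]
  unfold gam
  field_simp
  have h7 : Real.sqrt ((d : ℝ) - 1) ^ 2 = (d:ℝ) - 1 := h2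
  have h8 : Real.sqrt ((d : ℝ) - 1) ^ 4 = ((d:ℝ) - 1) ^ 2 := by
    calc Real.sqrt ((d : ℝ) - 1) ^ 4 = (Real.sqrt ((d : ℝ) - 1) ^ 2) ^ 2 := by ring
      _ = _ := by rw [h7]
  simp only [h7, h8]
  ring

include hd h0 h1 in
lemma gam_eq : gam d δ * Real.sqrt ((d : ℝ) - 1) = 1 - δ := by
  unfold gam
  exact div_mul_cancel₀ _ (sqrt_pos' d hd).ne'

include hd h0 h1 in
lemma q_gam : ((d:ℝ) - 1) * gam d δ = Real.sqrt ((d : ℝ) - 1) * (1 - δ) := by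
  calc ((d:ℝ) - 1) * gam d δ = Real.sqrt ((d : ℝ) - 1) ^ 2 * gam d δ := by rw [sqrt_sq' d hd]
    _ = Real.sqrt ((d : ℝ) - 1) * (gam d δ * Real.sqrt ((d : ℝ) - 1)) := by ring
    _ = _ := by rw [gam_eq d hd δ h0 h1]

include hd h0 h1 in
lemma tau_nonneg : 0 ≤ tau d δ := by
  unfold tau
  have h3 : (3:ℝ) ≤ d := by exact_mod_cast hd
  have := sqrt_pos' d hd
  apply div_nonneg (by positivity)
  nlinarith

include hd h0 h1 in
/-- `λ = qγ + τ` -/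
lemma lam_eq_add : lam d δ = ((d:ℝ) - 1) * gam d δ + tau d δ := by
  rw [lam_eq d hd δ h0 h1, q_gam d hd δ h0 h1]
  unfold tau
  have h3 : (3:ℝ) ≤ d := by exact_mod_cast hd
  have h4 : (d:ℝ) - 2 + d * δ ≠ 0 := by nlinarith
  field_simp
  ring

include hd h0 h1 in
lemma tau_le : tau d δ ≤ 3 * Real.sqrt ((d : ℝ) - 1) * δ ^ 2 := by
  unfold tau
  have h3 : (3:ℝ) ≤ d := by exact_mod_cast hd
  have h := sqrt_pos' d hd
  have h4 : 0 < (d:ℝ) - 2 + d * δ := by nlinarith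
  rw [div_le_iff₀ h4]
  have h5 : 0 ≤ Real.sqrt ((d : ℝ) - 1) * δ ^ 2 := by positivity
  have h6 : (d:ℝ) ≤ 3 * ((d:ℝ) - 2 + d * δ) := by nlinarith
  nlinarith [mul_le_mul_of_nonneg_left h6 h5]

include hd h0 h1 in
lemma le_tau : Real.sqrt ((d : ℝ) - 1) / 2 * δ ^ 2 ≤ tau d δ := by
  unfold tau
  have h3 : (3:ℝ) ≤ d := by exact_mod_cast hd
  have h := sqrt_pos' d hd
  have h4 : 0 < (d:ℝ) - 2 + d * δ := by nlinarith
  rw [le_div_iff₀ h4]
  have h5 : 0 ≤ Real.sqrt ((d : ℝ) - 1) * δ ^ 2 := by positivity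
  have h6 : ((d:ℝ) - 2 + d * δ) / 2 ≤ d := by nlinarith
  nlinarith [mul_le_mul_of_nonneg_left h6 h5]

include hd h0 h1 in
lemma lam_le : lam d δ ≤ Real.sqrt ((d : ℝ) - 1) := by
  rw [lam_eq d hd δ h0 h1]
  have h3 : (3:ℝ) ≤ d := by exact_mod_cast hd
  have h := sqrt_pos' d hd
  have h4 : 0 < (d:ℝ) - 2 + d * δ := by nlinarith
  rw [div_le_iff₀ h4]
  apply mul_le_mul_of_nonneg_left _ h.le
  nlinarith

include hd h0 h1 in
lemma q_gam_le_lam : ((d:ℝ) - 1) * gam d δ ≤ lam d δ := by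
  rw [lam_eq_add d hd δ h0 h1]
  have := tau_nonneg d hd δ h0 h1
  linarith

include hd h0 h1 in
lemma lam_nonneg : 0 ≤ lam d δ := by
  have h := q_gam_le_lam d hd δ h0 h1
  have h2 := gam_nonneg d hd δ h0 h1
  have h3 : (3:ℝ) ≤ d := by exact_mod_cast hd
  have : 0 ≤ ((d:ℝ) - 1) * gam d δ := mul_nonneg (by linarith) h2
  linarith

include hd h0 h1 in
lemma lam_sq_le : lam d δ ^ 2 ≤ (d:ℝ) - 1 := by
  rw [← sqrt_sq' d hd]
  exact pow_le_pow_left₀ (lam_nonneg d hd δ h0 h1) (lam_le d hd δ h0 h1) 2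

include hd h0 h1 in
lemma gam_sq_le : ((d:ℝ) - 1) * gam d δ ^ 2 ≤ 1 := by
  rw [gam_sq d hd δ h0 h1]
  nlinarith

include hd h0 h1 in
lemma gam_lt_one : gam d δ < 1 := by
  have h := gam_sq_le d hd δ h0 h1
  have h3 : (3:ℝ) ≤ d := by exact_mod_cast hd
  have h2 := gam_nonneg d hd δ h0 h1
  nlinarith [sq_nonneg (gam d δ)]

variable (n : ℕ) (hn : 0 < n) (s : ℝ)

/-- the start matrix with the explicit parameters -/
noncomputable def KS (d : ℕ) (δ : ℝ) (n : ℕ) (s : ℝ) : Matrix (Fin (n * d)) (Fin (n * d)) ℝ :=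
  K0m (gam d δ) s (muOf d (gam d δ)) n d

include hd hn in
/-- `Tr K^p = s^p + (n-1) λ^p + n (d-1) (-γ)^p` -/
theorem KS_trace_pow (p : ℕ) : (KS d δ n s ^ p).trace
    = s ^ p + (n - 1) * lam d δ ^ p + n * (d - 1) * (-gam d δ) ^ p :=
  trace_pow _ _ _ n d hn (by omega) p

include hd hn in
theorem KS_trace_mul (t : ℝ) (p r : ℕ) : (KS d δ n s ^ p * KS d δ n t ^ r).trace
    = s ^ p * t ^ r + (n - 1) * lam d δ ^ (p + r) + n * (d - 1) * (-gam d δ) ^ (p + r) :=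
  trace_mul _ _ _ _ n d hn (by omega) p r

include hd hn in
theorem KS_diag (p : ℕ) (i : Fin (n * d)) :
    (KS d δ n s ^ p) i i = (KS d δ n s ^ p).trace / (n * d) :=
  pow_diag' _ _ _ n d hn (by omega) p i

include hd hn in
theorem KS_row_sum (i : Fin (n * d)) : ∑ j, KS d δ n s i j = s :=
  row_sum _ _ _ n d hn (by omega) i

theorem KS_symm : (KS d δ n s).IsSymm := K0m_symm _ _ _ _ _

include hd hn h0 h1 in
/-- `X_1 = s - λ + n τ` -/
theorem X1_eq : (KS d δ n s).trace = s - lam d δ + n * tau d δ := by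
  have h := KS_trace_pow d hd δ n hn s 1
  rw [pow_one, pow_one, pow_one, pow_one] at h
  rw [h, lam_eq_add d hd δ h0 h1]
  ring

include hd hn h0 h1 in
theorem X1_le (hs : s ≤ 1) :
    (KS d δ n s).trace ≤ 1 + 3 * Real.sqrt ((d : ℝ) - 1) * δ ^ 2 * n := by
  rw [X1_eq d hd δ h0 h1 n hn s]
  have h := lam_nonneg d hd δ h0 h1
  have h2 := tau_le d hd δ h0 h1
  have h3 : (n:ℝ) * tau d δ ≤ n * (3 * Real.sqrt ((d : ℝ) - 1) * δ ^ 2) :=
    mul_le_mul_of_nonneg_left h2 (Nat.cast_nonneg n)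
  linarith

include hd hn h0 h1 in
theorem le_X1 (hs : -1 ≤ s) : -1 - Real.sqrt ((d : ℝ) - 1)
    + Real.sqrt ((d : ℝ) - 1) / 2 * δ ^ 2 * n ≤ (KS d δ n s).trace := by
  rw [X1_eq d hd δ h0 h1 n hn s]
  have h := lam_le d hd δ h0 h1
  have h2 := le_tau d hd δ h0 h1
  have h3 : (n:ℝ) * (Real.sqrt ((d : ℝ) - 1) / 2 * δ ^ 2) ≤ n * tau d δ :=
    mul_le_mul_of_nonneg_left h2 (Nat.cast_nonneg n)
  linarith

include hd h0 h1 in
lemma lam_sq_add_le : lam d δ ^ 2 + ((d:ℝ) - 1) * gam d δ ^ 2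
    ≤ d * (1 - 2 * δ + 7 * δ ^ 2) := by
  have hg := gam_sq d hd δ h0 h1
  have h3 : (3:ℝ) ≤ d := by exact_mod_cast hd
  have h4 := lam_eq_add d hd δ h0 h1
  have hq := q_gam d hd δ h0 h1
  have hr := sqrt_pos' d hd
  have hr2 := sqrt_sq' d hd
  have hl := lam_le d hd δ h0 h1
  have htn := tau_nonneg d hd δ h0 h1
  set r := Real.sqrt ((d : ℝ) - 1) with hrdef
  -- λ² = (qγ)² + τ(λ + qγ)
  have e1 : lam d δ ^ 2 = (((d:ℝ) - 1) * gam d δ) ^ 2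
      + tau d δ * (lam d δ + ((d:ℝ) - 1) * gam d δ) := by
    rw [h4]; ring
  have e2 : (((d:ℝ) - 1) * gam d δ) ^ 2 = ((d:ℝ) - 1) * (1 - δ) ^ 2 := by
    rw [hq, mul_pow, hr2]
  have e3 : tau d δ * (lam d δ + ((d:ℝ) - 1) * gam d δ) ≤ tau d δ * (2 * r) := by
    apply mul_le_mul_of_nonneg_left _ htn
    rw [hq]
    nlinarith
  -- τ * 2r = 2 (d-1) d δ²/(d-2+dδ) ≤ 4 d δ² ... using (d-1) ≤ 2 (d-2)
  have e4 : tau d δ * (2 * r) ≤ 4 * d * δ ^ 2 := by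
    unfold tau
    have h5 : 0 < (d:ℝ) - 2 + d * δ := by nlinarith
    rw [div_mul_eq_mul_div, div_le_iff₀ h5]
    have h6 : r * d * δ ^ 2 * (2 * r) = 2 * r ^ 2 * (d * δ ^ 2) := by ring
    rw [← hrdef, h6, hr2]
    have h7 : 0 ≤ (d:ℝ) * δ ^ 2 := by positivity
    have h8 : 2 * ((d:ℝ) - 1) ≤ 4 * ((d:ℝ) - 2 + d * δ) := by nlinarith
    nlinarith [mul_le_mul_of_nonneg_right h8 h7]
  rw [e1, e2, hg]
  nlinarith [mul_nonneg (by linarith : (0:ℝ) ≤ d) (sq_nonneg δ)]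

include hd h0 h1 in
lemma le_lam_sq_add : (d:ℝ) * (1 - 2 * δ) ≤ lam d δ ^ 2 + ((d:ℝ) - 1) * gam d δ ^ 2 := by
  have hg := gam_sq d hd δ h0 h1
  have h3 : (3:ℝ) ≤ d := by exact_mod_cast hd
  have hq := q_gam d hd δ h0 h1
  have hr2 := sqrt_sq' d hd
  have h4 := q_gam_le_lam d hd δ h0 h1
  have h5 : 0 ≤ ((d:ℝ) - 1) * gam d δ :=
    mul_nonneg (by linarith) (gam_nonneg d hd δ h0 h1)
  have e2 : (((d:ℝ) - 1) * gam d δ) ^ 2 = ((d:ℝ) - 1) * (1 - δ) ^ 2 := by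
    rw [hq, mul_pow, hr2]
  have e3 : (((d:ℝ) - 1) * gam d δ) ^ 2 ≤ lam d δ ^ 2 := pow_le_pow_left₀ h5 h4 2
  rw [hg]
  nlinarith [mul_nonneg (by linarith : (0:ℝ) ≤ (d:ℝ)) (sq_nonneg δ)]

include hd hn h0 h1 in
/-- `X_2 ≤ 1 + n d (1 - 2δ + 7δ²)` -/
theorem X2_le (hs : s ^ 2 = 1) :
    (KS d δ n s ^ 2).trace ≤ 1 + n * d * (1 - 2 * δ + 7 * δ ^ 2) := by
  rw [KS_trace_pow d hd δ n hn s 2, hs]
  have h := lam_sq_add_le d hd δ h0 h1
  have h2 : (n:ℝ) * (lam d δ ^ 2 + ((d:ℝ) - 1) * gam d δ ^ 2)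
      ≤ n * (d * (1 - 2 * δ + 7 * δ ^ 2)) := mul_le_mul_of_nonneg_left h (Nat.cast_nonneg n)
  nlinarith [sq_nonneg (lam d δ)]

include hd hn h0 h1 in
/-- `n d (1-2δ) - d ≤ X_2` -/
theorem le_X2 (hs : s ^ 2 = 1) :
    n * d * (1 - 2 * δ) + 2 - d ≤ (KS d δ n s ^ 2).trace := by
  rw [KS_trace_pow d hd δ n hn s 2, hs]
  have h := le_lam_sq_add d hd δ h0 h1
  have h2 : (n:ℝ) * (d * (1 - 2 * δ)) ≤ n * (lam d δ ^ 2 + ((d:ℝ) - 1) * gam d δ ^ 2) :=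
    mul_le_mul_of_nonneg_left h (Nat.cast_nonneg n)
  have h3 := lam_sq_le d hd δ h0 h1
  nlinarith

include hd h0 h1 in
lemma lam_cube_le : lam d δ ^ 3 ≤ ((d:ℝ) - 1) ^ 2 := by
  have h := lam_le d hd δ h0 h1
  have hn := lam_nonneg d hd δ h0 h1
  have h2 := lam_sq_le d hd δ h0 h1
  have h3 : (3:ℝ) ≤ d := by exact_mod_cast hd
  have hl : lam d δ ≤ (d:ℝ) - 1 := by nlinarith [sq_nonneg (lam d δ - 1)]
  calc lam d δ ^ 3 = lam d δ ^ 2 * lam d δ := by ring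
    _ ≤ ((d:ℝ) - 1) * ((d:ℝ) - 1) := mul_le_mul h2 hl hn (by linarith)
    _ = _ := by ring

include hd hn h0 h1 in
/-- `X_3 ≤ 1 + n (d-1)²` -/
theorem X3_le (hs : s ≤ 1) (hs' : -1 ≤ s) :
    (KS d δ n s ^ 3).trace ≤ 1 + n * ((d:ℝ) - 1) ^ 2 := by
  rw [KS_trace_pow d hd δ n hn s 3]
  have h := lam_cube_le d hd δ h0 h1
  have h2 := gam_nonneg d hd δ h0 h1
  have hl := lam_nonneg d hd δ h0 h1
  have h3 : (3:ℝ) ≤ d := by exact_mod_cast hd
  have h4 : 0 ≤ (n:ℝ) * ((d:ℝ) - 1) * gam d δ ^ 3 := by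
    apply mul_nonneg (mul_nonneg (Nat.cast_nonneg n) (by linarith)) (pow_nonneg h2 3)
  have h5 : (n:ℝ) * lam d δ ^ 3 ≤ n * ((d:ℝ) - 1) ^ 2 :=
    mul_le_mul_of_nonneg_left h (Nat.cast_nonneg n)
  have h6 : s ^ 3 ≤ 1 := by nlinarith [sq_nonneg s, sq_nonneg (s - 1), sq_nonneg (s + 1)]
  have h7 : 0 ≤ lam d δ ^ 3 := pow_nonneg hl 3
  have h8 : (-gam d δ) ^ 3 = -(gam d δ ^ 3) := by ring
  rw [h8]
  nlinarith

include hd h0 h1 in
/-- `λ³ - qγ³ ≥ 2 (1-δ)³` -/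
lemma le_lam_cube : 2 * (1 - δ) ^ 3 ≤ lam d δ ^ 3 - ((d:ℝ) - 1) * gam d δ ^ 3 := by
  have h3 : (3:ℝ) ≤ d := by exact_mod_cast hd
  have hq := q_gam d hd δ h0 h1
  have hr := sqrt_pos' d hd
  have hr2 := sqrt_sq' d hd
  have h4 := q_gam_le_lam d hd δ h0 h1
  have hg := gam_eq d hd δ h0 h1
  have hg0 := gam_nonneg d hd δ h0 h1
  have h5 : 0 ≤ ((d:ℝ) - 1) * gam d δ := mul_nonneg (by linarith) hg0
  have e3 : (((d:ℝ) - 1) * gam d δ) ^ 3 ≤ lam d δ ^ 3 := pow_le_pow_left₀ h5 h4 3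
  set r := Real.sqrt ((d : ℝ) - 1) with hrdef
  have hr1 : 1 ≤ r := by nlinarith
  -- (qγ)³ = r³ (1-δ)³ and qγ³ r = (1-δ)³ 
  have e4 : (((d:ℝ) - 1) * gam d δ) ^ 3 = r * ((d:ℝ) - 1) * (1 - δ) ^ 3 := by
    rw [hq, ← hr2]; ring
  have e5 : ((d:ℝ) - 1) * gam d δ ^ 3 * r = (1 - δ) ^ 3 := by
    rw [← hg, ← hr2]; ring
  have e6 : 0 ≤ (1 - δ) ^ 3 := pow_nonneg (by linarith) 3
  have e7 : ((d:ℝ) - 1) * gam d δ ^ 3 ≤ (1 - δ) ^ 3 / r := by
    rw [le_div_iff₀ hr, e5]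
  -- need r q - 1/r ≥ 2
  have e8 : (1 - δ) ^ 3 / r ≤ (1 - δ) ^ 3 * (r * ((d:ℝ) - 1) - 2) := by
    rw [div_le_iff₀ hr, mul_assoc]
    have h9 : 1 ≤ (r * ((d:ℝ) - 1) - 2) * r := by
      have h10 : r ^ 2 = (d:ℝ) - 1 := hr2
      have h11 : (2:ℝ) ≤ r ^ 2 := by rw [h10]; linarith
      have h12 : (7/5:ℝ) ≤ r := by nlinarith
      rw [← h10]
      nlinarith [mul_nonneg (by linarith : (0:ℝ) ≤ r - 7/5) (by linarith : (0:ℝ) ≤ r), pow_pos hr 3]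
    nlinarith
  nlinarith

include hd hn h0 h1 in
/-- `X_3 ≥ 2 (1-δ)³ n - 1 - (d-1)²` -/
theorem le_X3 (hs : s ≤ 1) (hs' : -1 ≤ s) :
    2 * (1 - δ) ^ 3 * n - 1 - ((d:ℝ) - 1) ^ 2 ≤ (KS d δ n s ^ 3).trace := by
  rw [KS_trace_pow d hd δ n hn s 3]
  have h := lam_cube_le d hd δ h0 h1
  have h2 := le_lam_cube d hd δ h0 h1
  have h5 : (n:ℝ) * (2 * (1 - δ) ^ 3) ≤ n * (lam d δ ^ 3 - ((d:ℝ) - 1) * gam d δ ^ 3) :=
    mul_le_mul_of_nonneg_left h2 (Nat.cast_nonneg n)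
  have h6 : -1 ≤ s ^ 3 := by nlinarith [sq_nonneg s, sq_nonneg (s - 1), sq_nonneg (s + 1)]
  have h8 : (-gam d δ) ^ 3 = -(gam d δ ^ 3) := by ring
  rw [h8]
  nlinarith

include hd h0 h1 in
lemma lam_four_le : lam d δ ^ 4 + ((d:ℝ) - 1) * gam d δ ^ 4 ≤ ((d:ℝ) - 1) ^ 2 + 1 := by
  have h := lam_sq_le d hd δ h0 h1
  have hg := gam_sq_le d hd δ h0 h1
  have hg0 := gam_nonneg d hd δ h0 h1
  have hg1 := gam_lt_one d hd δ h0 h1
  have h3 : (3:ℝ) ≤ d := by exact_mod_cast hd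
  have h4 : lam d δ ^ 4 ≤ ((d:ℝ) - 1) ^ 2 := by
    have := pow_le_pow_left₀ (sq_nonneg (lam d δ)) h 2
    calc lam d δ ^ 4 = (lam d δ ^ 2) ^ 2 := by ring
      _ ≤ _ := this
  have h5 : ((d:ℝ) - 1) * gam d δ ^ 4 ≤ 1 := by
    have h6 : gam d δ ^ 2 ≤ 1 := by nlinarith
    calc ((d:ℝ) - 1) * gam d δ ^ 4 = (((d:ℝ) - 1) * gam d δ ^ 2) * gam d δ ^ 2 := by ring
      _ ≤ 1 * 1 := mul_le_mul hg h6 (sq_nonneg _) (by norm_num)
      _ = 1 := by norm_num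
  linarith

include hd hn h0 h1 in
/-- `X_4 ≤ 1 + n ((d-1)² + 1)` -/
theorem X4_le (hs : s ^ 2 = 1) :
    (KS d δ n s ^ 4).trace ≤ 1 + n * (((d:ℝ) - 1) ^ 2 + 1) := by
  rw [KS_trace_pow d hd δ n hn s 4]
  have h := lam_four_le d hd δ h0 h1
  have h5 : (n:ℝ) * (lam d δ ^ 4 + ((d:ℝ) - 1) * gam d δ ^ 4) ≤ n * (((d:ℝ) - 1) ^ 2 + 1) :=
    mul_le_mul_of_nonneg_left h (Nat.cast_nonneg n)
  have h6 : s ^ 4 = 1 := by
    calc s ^ 4 = (s ^ 2) ^ 2 := by ring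
      _ = 1 := by rw [hs]; norm_num
  have h7 : 0 ≤ lam d δ ^ 4 := by positivity
  have h8 : (-gam d δ) ^ 4 = gam d δ ^ 4 := by ring
  rw [h6, h8]
  nlinarith

include hd hn h0 h1 in
/-- `M_22 = Tr (K^+)²(K^-)² ≤ 1 + n ((d-1)² + 1)` -/
theorem M22_le (t : ℝ) (hs : s ^ 2 = 1) (ht : t ^ 2 = 1) :
    (KS d δ n s ^ 2 * KS d δ n t ^ 2).trace ≤ 1 + n * (((d:ℝ) - 1) ^ 2 + 1) := by
  rw [KS_trace_mul d hd δ n hn s t 2 2]
  have h := lam_four_le d hd δ h0 h1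
  have h5 : (n:ℝ) * (lam d δ ^ 4 + ((d:ℝ) - 1) * gam d δ ^ 4) ≤ n * (((d:ℝ) - 1) ^ 2 + 1) :=
    mul_le_mul_of_nonneg_left h (Nat.cast_nonneg n)
  have h7 : 0 ≤ lam d δ ^ 4 := by positivity
  have h8 : (-gam d δ) ^ 4 = gam d δ ^ 4 := by ring
  rw [hs, ht, show 2 + 2 = 4 from rfl, h8]
  nlinarith

include hd hn h0 h1 in
/-- `|M_12| = |Tr K^s (K^t)²| ≤ 2 + 2 n (d-1)²` -/
theorem abs_M12_le (t : ℝ) (hs : |s| ≤ 1) (ht : t ^ 2 = 1) :
    |(KS d δ n s ^ 1 * KS d δ n t ^ 2).trace| ≤ 2 + 2 * n * ((d:ℝ) - 1) ^ 2 := by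
  rw [KS_trace_mul d hd δ n hn s t 1 2, ht, show 1 + 2 = 3 from rfl]
  have h := lam_cube_le d hd δ h0 h1
  have h2 := gam_nonneg d hd δ h0 h1
  have hg1 := gam_lt_one d hd δ h0 h1
  have hl := lam_nonneg d hd δ h0 h1
  have h3 : (3:ℝ) ≤ d := by exact_mod_cast hd
  have hn1 : (1:ℝ) ≤ n := by exact_mod_cast hn
  have h6 : 0 ≤ ((n:ℝ) - 1) * lam d δ ^ 3 := mul_nonneg (by linarith) (pow_nonneg hl 3)
  have h7 : ((n:ℝ) - 1) * lam d δ ^ 3 ≤ n * ((d:ℝ) - 1) ^ 2 := by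
    have := mul_le_mul_of_nonneg_left h (by linarith : (0:ℝ) ≤ (n:ℝ) - 1)
    nlinarith [sq_nonneg ((d:ℝ) - 1)]
  have h8 : (-gam d δ) ^ 3 = -(gam d δ ^ 3) := by ring
  have h9 : gam d δ ^ 3 ≤ 1 := pow_le_one₀ h2 hg1.le
  have h10 : 0 ≤ gam d δ ^ 3 := pow_nonneg h2 3
  have h11 : (n:ℝ) * ((d:ℝ) - 1) * gam d δ ^ 3 ≤ n * ((d:ℝ) - 1) ^ 2 := by
    have : ((d:ℝ) - 1) * gam d δ ^ 3 ≤ ((d:ℝ) - 1) ^ 2 := by nlinarith
    nlinarith
  have h12 : 0 ≤ (n:ℝ) * ((d:ℝ) - 1) * gam d δ ^ 3 :=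
    mul_nonneg (mul_nonneg (by linarith) (by linarith)) h10
  obtain ⟨hs1, hs2⟩ := abs_le.1 hs
  rw [abs_le, h8, pow_one]
  constructor <;> nlinarith

include hd hn h0 h1 in
/-- all diagonal entries equal `X_1/(nd)`: `V = X_1²/(nd)` -/
theorem V_eq : ∑ i, (KS d δ n s) i i ^ 2 = (KS d δ n s).trace ^ 2 / (n * d) := by
  have hn' : (n : ℝ) ≠ 0 := by positivity
  have hd' : (d : ℝ) ≠ 0 := by have : 0 < d := by omega
                               positivity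
  have h : ∀ i, (KS d δ n s) i i ^ 2 = ((KS d δ n s).trace / (n * d)) ^ 2 := by
    intro i
    have := KS_diag d hd δ n hn s 1 i
    rw [pow_one] at this
    rw [this]
  rw [Finset.sum_congr rfl fun i _ => h i, Finset.sum_const, Finset.card_univ, Fintype.card_fin,
    nsmul_eq_mul]
  push_cast
  field_simp

include hd hn h0 h1 in
/-- `R2 = Σ ((K²)_ii)² = X_2²/(nd)` -/
theorem R2_eq : ∑ i, (KS d δ n s ^ 2) i i ^ 2 = (KS d δ n s ^ 2).trace ^ 2 / (n * d) := by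
  have hn' : (n : ℝ) ≠ 0 := by positivity
  have hd' : (d : ℝ) ≠ 0 := by have : 0 < d := by omega
                               positivity
  have h : ∀ i, (KS d δ n s ^ 2) i i ^ 2 = ((KS d δ n s ^ 2).trace / (n * d)) ^ 2 := by
    intro i
    rw [KS_diag d hd δ n hn s 2 i]
  rw [Finset.sum_congr rfl fun i _ => h i, Finset.sum_const, Finset.card_univ, Fintype.card_fin,
    nsmul_eq_mul]
  push_cast
  field_simp

end explicit

end Crest.Agent.R62.Start
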