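import Mathlib

/-!
R62 (helper230): scalar barrier calculus.

* `posSq_add_le`, `avg_posSq`, `quad_step`, `quad_step'`, `lin_step` : one-step inequalities for
  potentials `((F - b)₊)² / w²` and `F / w`;
* `ff r ρ = ρ / (ρ + r)` and its powers: one-step ratios, exact differences of the barriers
  `φ₂ = ρ f`, `n f³`, `(n²/ρ) f⁴`;
* harmonic sums `Σ 1/ρ_t ≤ 1 + log N`;
* `rt K n = ⌊n^(1/K)⌋` and comparisons `C m^a ≤ m^b`.
-/

set_option autoImplicit false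

open scoped BigOperators

namespace Crest.Agent.R62.Barrier

/-! ## positive parts -/

/-- `a ↦ (a₊)²` has second derivative at most `2` -/
lemma posSq_add_le (a δ : ℝ) :
    (max (a + δ) 0) ^ 2 ≤ (max a 0) ^ 2 + 2 * max a 0 * δ + δ ^ 2 := by
  rcases le_total 0 a with ha | ha
  · rw [max_eq_left ha]
    rcases le_total 0 (a + δ) with h | h
    · rw [max_eq_left h]; nlinarith
    · rw [max_eq_right h]; nlinarith [sq_nonneg (a + δ)]
  · rw [max_eq_right ha]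
    rcases le_total 0 (a + δ) with h | h
    · rw [max_eq_left h]; nlinarith
    · rw [max_eq_right h]; nlinarith [sq_nonneg δ]

lemma posSq_nonneg (a : ℝ) : 0 ≤ (max a 0) ^ 2 := sq_nonneg _

lemma posSq_le_sq (a : ℝ) : (max a 0) ^ 2 ≤ a ^ 2 := by
  rcases le_total 0 a with ha | ha
  · rw [max_eq_left ha]
  · rw [max_eq_right ha]; nlinarith [sq_nonneg a]

/-- from a bound of the potential to a bound of the functional -/
lemma le_of_posSq_le {F b w P : ℝ} (hw : 0 < w) (h : (max (F - b) 0) ^ 2 / w ^ 2 ≤ P) :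
    F ≤ b + Real.sqrt P * w := by
  have hP : 0 ≤ P := le_trans (div_nonneg (sq_nonneg _) (sq_nonneg _)) h
  have h1 : (max (F - b) 0) ^ 2 ≤ (Real.sqrt P * w) ^ 2 := by
    rw [div_le_iff₀ (by positivity)] at h
    rw [mul_pow, Real.sq_sqrt hP]
    exact h
  have h2 := (sq_le_sq₀ (le_max_right _ _) (mul_nonneg (Real.sqrt_nonneg _) hw.le)).1 h1
  have h3 := le_max_left (F - b) 0
  linarith

lemma le_of_posSq_le_one {F b w : ℝ} (hw : 0 < w) (h : (max (F - b) 0) ^ 2 / w ^ 2 ≤ 1) :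
    F ≤ b + w := by
  have := le_of_posSq_le hw h
  simpa using this

variable {ι : Type*}

/-- average of `(F' - b')₊²` for a (sub)probability weight -/
lemma avg_posSq (S : Finset ι) (μ : ι → ℝ) (hμ : ∀ i ∈ S, 0 ≤ μ i) (F : ℝ) (F' : ι → ℝ)
    (b b' : ℝ) :
    ∑ i ∈ S, μ i * (max (F' i - b') 0) ^ 2 ≤
      (∑ i ∈ S, μ i) * (max (F - b) 0) ^ 2 +
        2 * max (F - b) 0 * ((∑ i ∈ S, μ i * (F' i - F)) - (∑ i ∈ S, μ i) * (b' - b)) +
        ∑ i ∈ S, μ i * (F' i - F - (b' - b)) ^ 2 := by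
  have h : ∀ i ∈ S, μ i * (max (F' i - b') 0) ^ 2 ≤
      μ i * (max (F - b) 0) ^ 2 +
        2 * max (F - b) 0 * (μ i * (F' i - F) - μ i * (b' - b)) +
        μ i * (F' i - F - (b' - b)) ^ 2 := by
    intro i hi
    have h1 := mul_le_mul_of_nonneg_left (posSq_add_le (F - b) (F' i - F - (b' - b))) (hμ i hi)
    have h2 : F - b + (F' i - F - (b' - b)) = F' i - b' := by ring
    rw [h2] at h1
    calc _ ≤ _ := h1
      _ = _ := by ring
  calc _ ≤ _ := Finset.sum_le_sum h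
    _ = _ := by
      rw [Finset.sum_add_distrib, Finset.sum_add_distrib, ← Finset.mul_sum,
        Finset.sum_sub_distrib, Finset.sum_mul, Finset.sum_mul]

/-- ONE STEP, quadratic potential, upper barrier. The drift hypothesis is only needed when `F`
is above the barrier `b`. -/
theorem quad_step (S : Finset ι) (μ : ι → ℝ) (hμ : ∀ i ∈ S, 0 ≤ μ i) (hμ1 : ∑ i ∈ S, μ i = 1)
    (F : ℝ) (F' : ι → ℝ) {b b' w w' η ν lam : ℝ} (hw : 0 < w) (hw' : 0 < w')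
    (hdrift : b < F → ∑ i ∈ S, μ i * (F' i - F) ≤ (b' - b) - lam / 2 * (F - b) + η)
    (hvar : ∑ i ∈ S, μ i * (F' i - F - (b' - b)) ^ 2 ≤ ν)
    (hww : w ^ 2 * (1 - lam) ≤ w' ^ 2) :
    ∑ i ∈ S, μ i * ((max (F' i - b') 0) ^ 2 / w' ^ 2) ≤
      (max (F - b) 0) ^ 2 / w ^ 2 + (2 * max (F - b) 0 * η + ν) / w' ^ 2 := by
  have h0 := avg_posSq S μ hμ F F' b b'
  rw [hμ1, one_mul, one_mul] at h0
  have h1 : 2 * max (F - b) 0 * ((∑ i ∈ S, μ i * (F' i - F)) - (b' - b)) ≤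
      2 * max (F - b) 0 * (- (lam / 2) * max (F - b) 0 + η) := by
    rcases le_or_gt F b with hF | hF
    · rw [max_eq_right (by linarith)]; simp
    · rw [max_eq_left (by linarith)]
      have := hdrift hF
      apply mul_le_mul_of_nonneg_left _ (by linarith)
      linarith
  have h2 : ∑ i ∈ S, μ i * (max (F' i - b') 0) ^ 2 ≤
      (1 - lam) * (max (F - b) 0) ^ 2 + (2 * max (F - b) 0 * η + ν) := by
    nlinarith
  have h3 : (1 - lam) * (max (F - b) 0) ^ 2 ≤ w' ^ 2 * ((max (F - b) 0) ^ 2 / w ^ 2) := by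
    have h4 : (1 - lam) ≤ w' ^ 2 / w ^ 2 := by
      rw [le_div_iff₀ (by positivity)]; linarith
    calc (1 - lam) * (max (F - b) 0) ^ 2 ≤ w' ^ 2 / w ^ 2 * (max (F - b) 0) ^ 2 :=
          mul_le_mul_of_nonneg_right h4 (sq_nonneg _)
      _ = _ := by ring
  calc ∑ i ∈ S, μ i * ((max (F' i - b') 0) ^ 2 / w' ^ 2)
      = (∑ i ∈ S, μ i * (max (F' i - b') 0) ^ 2) / w' ^ 2 := by
        rw [Finset.sum_div]
        exact Finset.sum_congr rfl fun i _ => by ring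
    _ ≤ (w' ^ 2 * ((max (F - b) 0) ^ 2 / w ^ 2) + (2 * max (F - b) 0 * η + ν)) / w' ^ 2 := by
        apply div_le_div_of_nonneg_right _ (by positivity)
        linarith
    _ = _ := by
        rw [add_div, mul_div_cancel_left₀]
        positivity

/-- version of `quad_step` when the potential is known to be at most `P0 ≤ 4` (so
`(F-b)₊ ≤ 2 w`) -/
theorem quad_step' (S : Finset ι) (μ : ι → ℝ) (hμ : ∀ i ∈ S, 0 ≤ μ i) (hμ1 : ∑ i ∈ S, μ i = 1)
    (F : ℝ) (F' : ι → ℝ) {b b' w w' η ν lam : ℝ} (hw : 0 < w) (hw' : 0 < w') (hη : 0 ≤ η)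
    (hP : (max (F - b) 0) ^ 2 / w ^ 2 ≤ 1)
    (hdrift : b < F → F ≤ b + w →
      ∑ i ∈ S, μ i * (F' i - F) ≤ (b' - b) - lam / 2 * (F - b) + η)
    (hvar : ∑ i ∈ S, μ i * (F' i - F - (b' - b)) ^ 2 ≤ ν)
    (hww : w ^ 2 * (1 - lam) ≤ w' ^ 2) :
    ∑ i ∈ S, μ i * ((max (F' i - b') 0) ^ 2 / w' ^ 2) ≤
      (max (F - b) 0) ^ 2 / w ^ 2 + (2 * w * η + ν) / w' ^ 2 := by
  have hF := le_of_posSq_le_one hw hP
  have h := quad_step S μ hμ hμ1 F F' hw hw' (fun hb => hdrift hb hF) hvar hww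
  have hm : max (F - b) 0 ≤ w := max_le (by linarith) hw.le
  have h2 : (2 * max (F - b) 0 * η + ν) / w' ^ 2 ≤ (2 * w * η + ν) / w' ^ 2 := by
    apply div_le_div_of_nonneg_right _ (by positivity)
    nlinarith
  linarith

/-- the second moment around the barrier increment -/
lemma var_shift (S : Finset ι) (μ : ι → ℝ) (hμ : ∀ i ∈ S, 0 ≤ μ i) (hμ1 : ∑ i ∈ S, μ i = 1)
    (g : ι → ℝ) {c ν : ℝ} (h : ∑ i ∈ S, μ i * (g i) ^ 2 ≤ ν) :
    ∑ i ∈ S, μ i * (g i - c) ^ 2 ≤ 2 * ν + 2 * c ^ 2 := by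
  have h1 : ∀ i ∈ S, μ i * (g i - c) ^ 2 ≤ 2 * (μ i * (g i) ^ 2) + μ i * (2 * c ^ 2) := by
    intro i hi
    have := mul_le_mul_of_nonneg_left (show (g i - c) ^ 2 ≤ 2 * (g i) ^ 2 + 2 * c ^ 2 by
      nlinarith [sq_nonneg (g i + c)]) (hμ i hi)
    linarith
  calc _ ≤ _ := Finset.sum_le_sum h1
    _ = 2 * (∑ i ∈ S, μ i * (g i) ^ 2) + 2 * c ^ 2 := by
      rw [Finset.sum_add_distrib, ← Finset.mul_sum, ← Finset.sum_mul, hμ1, one_mul]
    _ ≤ _ := by linarith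

/-- ONE STEP, linear potential -/
theorem lin_step (S : Finset ι) (μ : ι → ℝ) (F : ℝ) (F' : ι → ℝ) {w w' η lam : ℝ}
    (hF : 0 ≤ F) (hw : 0 < w) (hw' : 0 < w')
    (hdrift : ∑ i ∈ S, μ i * F' i ≤ F * (1 - lam) + η)
    (hww : w * (1 - lam) ≤ w') :
    ∑ i ∈ S, μ i * (F' i / w') ≤ F / w + η / w' := by
  calc ∑ i ∈ S, μ i * (F' i / w') = (∑ i ∈ S, μ i * F' i) / w' := by
        rw [Finset.sum_div]
        exact Finset.sum_congr rfl fun i _ => by ring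
    _ ≤ (F * (1 - lam) + η) / w' := div_le_div_of_nonneg_right hdrift hw'.le
    _ = F * (1 - lam) / w' + η / w' := add_div _ _ _
    _ ≤ F / w + η / w' := by
        apply add_le_add _ le_rfl
        rw [div_le_div_iff₀ hw' hw]
        nlinarith

/-! ## the profile `f = ρ / (ρ + r)` -/

/-- the profile -/
noncomputable def ff (r ρ : ℝ) : ℝ := ρ / (ρ + r)

section ff

variable {r ρ : ℝ}

lemma ff_pos (hr : 0 < r) (hρ : 0 < ρ) : 0 < ff r ρ := by unfold ff; positivity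

lemma ff_nonneg (hr : 0 < r) (hρ : 0 ≤ ρ) : 0 ≤ ff r ρ := by unfold ff; positivity

lemma ff_lt_one (hr : 0 < r) (hρ : 0 ≤ ρ) : ff r ρ < 1 := by
  unfold ff; rw [div_lt_one (by positivity)]; linarith

lemma ff_le_one (hr : 0 < r) (hρ : 0 ≤ ρ) : ff r ρ ≤ 1 := (ff_lt_one hr hρ).le

lemma one_sub_ff (hr : 0 < r) (hρ : 0 ≤ ρ) : 1 - ff r ρ = r / (ρ + r) := by
  unfold ff; field_simp; ring

lemma ff_le_div (hr : 0 < r) (hρ : 0 ≤ ρ) : ff r ρ ≤ ρ / r := by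
  unfold ff
  exact div_le_div_of_nonneg_left hρ hr (by linarith)

lemma half_le_ff (hr : 0 < r) (hρ : r ≤ ρ) : 1 / 2 ≤ ff r ρ := by
  unfold ff; rw [div_le_div_iff₀ (by norm_num) (by linarith)]; linarith

lemma div_two_le_ff (hr : 0 < r) (hρ0 : 0 ≤ ρ) (hρ : ρ ≤ r) : ρ / (2 * r) ≤ ff r ρ := by
  unfold ff
  exact div_le_div_of_nonneg_left hρ0 (by linarith) (by linarith)

/-- exact one-step ratio -/
lemma ff_sub_two (hr : 0 < r) (hρ : 2 < ρ) :
    ff r (ρ - 2) = ff r ρ * (1 - 2 * r / (ρ * (ρ + r - 2))) := by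
  unfold ff
  have h1 : 0 < ρ + r - 2 := by linarith
  have h2 : ρ - 2 + r = ρ + r - 2 := by ring
  rw [h2]
  field_simp
  ring

lemma ff_step_ge (hr : 0 < r) (hρ : 2 < ρ) :
    ff r ρ * (1 - 2 / ρ * (r / (ρ + r)) - 4 / ρ ^ 2) ≤ ff r (ρ - 2) := by
  rw [ff_sub_two hr hρ]
  apply mul_le_mul_of_nonneg_left _ (ff_nonneg hr (by linarith))
  have h1 : 0 < ρ + r - 2 := by linarith
  have h2 : 0 < ρ + r := by linarith
  have h3 : 0 < ρ := by linarith
  have h4 : 2 * r / (ρ * (ρ + r - 2)) - 2 / ρ * (r / (ρ + r)) =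
      4 * (r / (ρ * (ρ + r - 2) * (ρ + r))) := by
    field_simp; ring
  have h5 : r / (ρ * (ρ + r - 2) * (ρ + r)) ≤ 1 / ρ ^ 2 := by
    rw [div_le_div_iff₀ (by positivity) (by positivity)]
    have h6 : ρ * r ≤ (ρ + r - 2) * (ρ + r) := by nlinarith
    nlinarith [mul_le_mul_of_nonneg_left h6 h3.le]
  have h7 : (4 : ℝ) / ρ ^ 2 = 4 * (1 / ρ ^ 2) := by ring
  rw [h7]
  linarith

lemma ff_step_le (hr : 0 < r) (hρ : 2 < ρ) :
    ff r (ρ - 2) ≤ ff r ρ * (1 - 2 / ρ * (r / (ρ + r))) := by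
  rw [ff_sub_two hr hρ]
  apply mul_le_mul_of_nonneg_left _ (ff_nonneg hr (by linarith))
  have h1 : 0 < ρ + r - 2 := by linarith
  have h2 : 0 < ρ + r := by linarith
  have h3 : 0 < ρ := by linarith
  have h4 : 2 * r / (ρ * (ρ + r - 2)) - 2 / ρ * (r / (ρ + r)) =
      4 * (r / (ρ * (ρ + r - 2) * (ρ + r))) := by
    field_simp; ring
  have h5 : 0 ≤ r / (ρ * (ρ + r - 2) * (ρ + r)) := by positivity
  linarith

lemma ff_mono (hr : 0 < r) {ρ' : ℝ} (h0 : 0 ≤ ρ') (h : ρ' ≤ ρ) : ff r ρ' ≤ ff r ρ := by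
  unfold ff
  rw [div_le_div_iff₀ (by linarith) (by linarith)]
  nlinarith

/-- Bernoulli -/
lemma one_sub_pow_ge (x : ℝ) (hx : x ≤ 1) (k : ℕ) :
    1 - k * x ≤ (1 - x) ^ k := by
  have := one_add_mul_le_pow (a := -x) (by linarith) k
  have h2 : (1 + -x) = 1 - x := by ring
  rw [h2] at this
  linarith

/-- powers of the profile, one step: `f^k (1 - (2k/ρ)(1-f) - 4k/ρ²) ≤ f(ρ-2)^k` -/
lemma ffpow_step_ge (hr : 0 < r) (hρ : 2 < ρ) (k : ℕ) :
    ff r ρ ^ k * (1 - k * (2 * r / (ρ * (ρ + r - 2)))) ≤ ff r (ρ - 2) ^ k := by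
  rw [ff_sub_two hr hρ, mul_pow]
  apply mul_le_mul_of_nonneg_left _ (pow_nonneg (ff_nonneg hr (by linarith)) k)
  have h1 : 0 < ρ + r - 2 := by linarith
  have h3 : 0 < ρ := by linarith
  apply one_sub_pow_ge
  rw [div_le_one (by positivity)]
  nlinarith

lemma ratio_le (hr : 0 < r) (hρ : 2 < ρ) :
    2 * r / (ρ * (ρ + r - 2)) ≤ 2 / ρ * (1 - ff r ρ) + 4 / ρ ^ 2 := by
  rw [one_sub_ff hr (by linarith)]
  have h1 : 0 < ρ + r - 2 := by linarith
  have h2 : 0 < ρ + r := by linarith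
  have h3 : 0 < ρ := by linarith
  have h4 : 2 * r / (ρ * (ρ + r - 2)) - 2 / ρ * (r / (ρ + r)) =
      4 * (r / (ρ * (ρ + r - 2) * (ρ + r))) := by
    field_simp; ring
  have h5 : r / (ρ * (ρ + r - 2) * (ρ + r)) ≤ 1 / ρ ^ 2 := by
    rw [div_le_div_iff₀ (by positivity) (by positivity)]
    have h6 : ρ * r ≤ (ρ + r - 2) * (ρ + r) := by nlinarith
    nlinarith [mul_le_mul_of_nonneg_left h6 h3.le]
  have h7 : (4 : ℝ) / ρ ^ 2 = 4 * (1 / ρ ^ 2) := by ring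
  rw [h7]
  linarith

/-- weights `f^k`: usable as `w (1 - lam) ≤ w'` with `lam = (2k/ρ)(1-f) + 4k/ρ²` -/
lemma ffpow_weight (hr : 0 < r) (hρ : 2 < ρ) (k : ℕ) :
    ff r ρ ^ k * (1 - k * (2 / ρ * (1 - ff r ρ) + 4 / ρ ^ 2)) ≤ ff r (ρ - 2) ^ k := by
  refine le_trans ?_ (ffpow_step_ge hr hρ k)
  apply mul_le_mul_of_nonneg_left _ (pow_nonneg (ff_nonneg hr (by linarith)) k)
  have := mul_le_mul_of_nonneg_left (ratio_le hr hρ) (Nat.cast_nonneg (α := ℝ) k)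
  linarith

/-- weights `ρ^k` -/
lemma pow_weight (hρ : 2 ≤ ρ) (k : ℕ) :
    ρ ^ k * (1 - k * (2 / ρ)) ≤ (ρ - 2) ^ k := by
  have h3 : 0 < ρ := by linarith
  have h : ρ - 2 = ρ * (1 - 2 / ρ) := by field_simp
  rw [h, mul_pow]
  apply mul_le_mul_of_nonneg_left _ (by positivity)
  apply one_sub_pow_ge
  rw [div_le_one h3]; exact hρ

/-! ### the barrier `φ₂ = ρ² / (ρ + r) = ρ f` for `X₂` -/

/-- upper barrier of `X₂` -/
noncomputable def phi2 (r ρ : ℝ) : ℝ := ρ ^ 2 / (ρ + r)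

lemma phi2_eq (r ρ : ℝ) : phi2 r ρ = ρ * ff r ρ := by unfold phi2 ff; ring

/-- exact one-step difference of `φ₂` against the mean-field drift `-2 + 2 (t - 1)²`,
`t = φ₂/ρ = f` -/
lemma phi2_step (hr : 0 < r) (hρ : 2 < ρ) :
    phi2 r (ρ - 2) - phi2 r ρ =
      -2 + 2 * (ff r ρ - 1) ^ 2 + 4 * r ^ 2 / ((ρ + r) ^ 2 * (ρ + r - 2)) := by
  unfold phi2 ff
  have h1 : 0 < ρ + r - 2 := by linarith
  have h2 : 0 < ρ + r := by linarith
  have h4 : ρ - 2 + r = ρ + r - 2 := by ring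
  rw [h4]
  field_simp
  ring

/-- the discrete barrier dominates the mean-field drift -/
lemma phi2_step_ge (hr : 0 < r) (hρ : 2 < ρ) :
    -2 + 2 * (ff r ρ - 1) ^ 2 ≤ phi2 r (ρ - 2) - phi2 r ρ := by
  rw [phi2_step hr hρ]
  have h1 : 0 < ρ + r - 2 := by linarith
  have : 0 ≤ 4 * r ^ 2 / ((ρ + r) ^ 2 * (ρ + r - 2)) := by positivity
  linarith

lemma phi2_step_le (hr : 0 < r) (hρ : 4 ≤ ρ) :
    phi2 r (ρ - 2) - phi2 r ρ ≤ -2 + 2 * (ff r ρ - 1) ^ 2 + 8 / ρ := by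
  rw [phi2_step hr (by linarith)]
  have h1 : 0 < ρ + r - 2 := by linarith
  have h2 : 0 < ρ + r := by linarith
  have h3 : 0 < ρ := by linarith
  have h4 : 4 * r ^ 2 / ((ρ + r) ^ 2 * (ρ + r - 2)) ≤ 8 / ρ := by
    rw [div_le_div_iff₀ (by positivity) h3]
    have h5 : r ^ 2 ≤ (ρ + r) ^ 2 := by nlinarith
    have h6 : ρ ≤ 2 * (ρ + r - 2) := by linarith
    calc 4 * r ^ 2 * ρ ≤ 4 * (ρ + r) ^ 2 * (2 * (ρ + r - 2)) := by
          apply mul_le_mul _ h6 h3.le (by positivity)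
          linarith
      _ = 8 * ((ρ + r) ^ 2 * (ρ + r - 2)) := by ring
  linarith

lemma phi2_abs_step (hr : 0 < r) (hρ : 4 ≤ ρ) : |phi2 r (ρ - 2) - phi2 r ρ| ≤ 2 := by
  have h1 := phi2_step_ge hr (show (2 : ℝ) < ρ by linarith)
  have h2 : phi2 r (ρ - 2) ≤ phi2 r ρ := by
    rw [phi2_eq, phi2_eq]
    apply mul_le_mul (by linarith) (ff_mono hr (by linarith) (by linarith))
      (ff_nonneg hr (by linarith)) (by linarith)
  rw [abs_le]
  constructor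
  · nlinarith [sq_nonneg (ff r ρ - 1)]
  · linarith

/-- comparison of the drift of `X₂` with the barrier: with `t = X/ρ`,
`-2 + 2(t-1)² - Δφ₂ ≤ 2 (t - f)(t + f - 2)` -/
lemma X2_drift_cmp (hr : 0 < r) (hρ : 2 < ρ) (X : ℝ) :
    -2 + 2 * (X / ρ - 1) ^ 2 ≤ (phi2 r (ρ - 2) - phi2 r ρ) +
      2 / ρ * (X - phi2 r ρ) * (X / ρ + ff r ρ - 2) := by
  have h := phi2_step_ge hr hρ
  have h3 : (0 : ℝ) < ρ := by linarith
  have h4 : 2 / ρ * (X - phi2 r ρ) * (X / ρ + ff r ρ - 2) =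
      2 * (X / ρ - 1) ^ 2 - 2 * (ff r ρ - 1) ^ 2 := by
    rw [phi2_eq]; field_simp; ring
  rw [h4]
  linarith

end ff

/-! ## weights `A / ρ^k` -/

/-- `ρ^{-k}` grows at least by the factor `1 + 2k/ρ` in one step -/
lemma inv_pow_weight {ρ : ℝ} (hρ : 2 < ρ) (k : ℕ) :
    (ρ ^ k)⁻¹ * (1 + k * (2 / ρ)) ≤ ((ρ - 2) ^ k)⁻¹ := by
  have h3 : 0 < ρ := by linarith
  have h4 : 0 < ρ - 2 := by linarith
  have h : (ρ - 2) = ρ * (1 - 2 / ρ) := by field_simp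
  have h1 : 0 < 1 - 2 / ρ := by
    rw [sub_pos, div_lt_one h3]; exact hρ
  rw [h, mul_pow, mul_inv]
  apply mul_le_mul_of_nonneg_left _ (by positivity)
  rw [← inv_pow]
  have h5 : 1 + 2 / ρ ≤ (1 - 2 / ρ)⁻¹ := by
    rw [le_inv_comm₀ (by positivity) h1, inv_eq_one_div, le_div_iff₀ (by positivity)]
    nlinarith [sq_nonneg (2 / ρ)]
  calc 1 + (k : ℝ) * (2 / ρ) ≤ (1 + 2 / ρ) ^ k :=
        one_add_mul_le_pow (by have : 0 < 2 / ρ := by positivity
                               linarith) k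
    _ ≤ ((1 - 2 / ρ)⁻¹) ^ k := pow_le_pow_left₀ (by positivity) h5 k

/-- `1/ρ²` forcing is dominated by the increment of `1/ρ` -/
lemma inv_step {ρ : ℝ} (hρ : 2 < ρ) : 2 / ρ ^ 2 ≤ 1 / (ρ - 2) - 1 / ρ := by
  have h3 : 0 < ρ := by linarith
  have h4 : 0 < ρ - 2 := by linarith
  rw [div_sub_div _ _ h4.ne' h3.ne', div_le_div_iff₀ (by positivity) (by positivity)]
  nlinarith [mul_pos h3 h3, mul_pos h3 h4]

/-- `4 n²/ρ³`-type forcing against the increment of `1/ρ²` -/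
lemma inv_sq_step {ρ : ℝ} (hρ : 2 < ρ) : 4 / ρ ^ 3 ≤ 1 / (ρ - 2) ^ 2 - 1 / ρ ^ 2 := by
  have h3 : 0 < ρ := by linarith
  have h4 : 0 < ρ - 2 := by linarith
  rw [div_sub_div _ _ (by positivity) (by positivity),
    div_le_div_iff₀ (by positivity) (by positivity)]
  have h5 : 1 * ρ ^ 2 - (ρ - 2) ^ 2 * 1 = 4 * (ρ - 1) := by ring
  rw [h5]
  have h6 : (ρ - 2) ^ 2 ≤ ρ * (ρ - 1) := by nlinarith
  calc 4 * ((ρ - 2) ^ 2 * ρ ^ 2) ≤ 4 * (ρ * (ρ - 1) * ρ ^ 2) := by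
        have := mul_le_mul_of_nonneg_right h6 (sq_nonneg ρ); linarith
    _ = _ := by ring

/-- upper estimate of the increment of `1/ρ²` -/
lemma inv_sq_step_le {ρ : ℝ} (hρ : 4 ≤ ρ) : 1 / (ρ - 2) ^ 2 - 1 / ρ ^ 2 ≤ 16 / ρ ^ 3 := by
  have h3 : 0 < ρ := by linarith
  have h4 : 0 < ρ - 2 := by linarith
  rw [div_sub_div _ _ (by positivity) (by positivity),
    div_le_div_iff₀ (by positivity) (by positivity)]
  have h5 : 1 * ρ ^ 2 - (ρ - 2) ^ 2 * 1 = 4 * (ρ - 1) := by ring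
  rw [h5]
  have h6 : ρ ^ 2 ≤ 4 * (ρ - 2) ^ 2 := by nlinarith
  calc 4 * (ρ - 1) * ρ ^ 3 ≤ 4 * ρ * ρ ^ 3 := by
        apply mul_le_mul_of_nonneg_right _ (by positivity); linarith
    _ = 4 * ρ ^ 2 * ρ ^ 2 := by ring
    _ ≤ 4 * (4 * (ρ - 2) ^ 2) * ρ ^ 2 := by
        apply mul_le_mul_of_nonneg_right _ (by positivity); linarith
    _ = _ := by ring

/-! ## harmonic sums -/

/-- `Σ_{t<T} 1/(N-2t) ≤ 1 + log N` -/
theorem sum_inv_le (N T : ℕ) (h : 2 * T ≤ N) :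
    ∑ t ∈ Finset.range T, 1 / ((N : ℝ) - 2 * t) ≤ 1 + Real.log N := by
  rcases Nat.eq_zero_or_pos T with rfl | hT
  · have : 0 ≤ Real.log N := Real.log_natCast_nonneg N
    simp; linarith
  refine le_trans ?_ (harmonic_le_one_add_log N)
  rw [harmonic]
  push_cast
  have h1 : ∀ t ∈ Finset.range T, 1 / ((N : ℝ) - 2 * t) = 1 / (((N - 2 * t : ℕ)) : ℝ) := by
    intro t ht
    have := Finset.mem_range.1 ht
    rw [Nat.cast_sub (by omega)]
    push_cast; ring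
  rw [Finset.sum_congr rfl h1]
  -- the map t ↦ N - 2t - 1 is injective into range N
  have h2 : ∑ t ∈ Finset.range T, 1 / (((N - 2 * t : ℕ)) : ℝ) =
      ∑ i ∈ (Finset.range T).image (fun t => N - 2 * t - 1), ((i : ℝ) + 1)⁻¹ := by
    rw [Finset.sum_image]
    · apply Finset.sum_congr rfl
      intro t ht
      have := Finset.mem_range.1 ht
      have h3 : ((N - 2 * t - 1 : ℕ) : ℝ) + 1 = ((N - 2 * t : ℕ) : ℝ) := by
        have : N - 2 * t - 1 + 1 = N - 2 * t := by omega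
        exact_mod_cast this
      rw [h3, one_div]
    · intro a ha b hb hab
      have ha' := Finset.mem_range.1 ha
      have hb' := Finset.mem_range.1 hb
      simp only at hab
      omega
  rw [h2]
  apply Finset.sum_le_sum_of_subset_of_nonneg
  · intro i hi
    obtain ⟨t, ht, rfl⟩ := Finset.mem_image.1 hi
    have := Finset.mem_range.1 ht
    rw [Finset.mem_range]; omega
  · intro i _ _; positivity

/-! ## powers of `m = ⌊n^(1/K)⌋` -/

open Filter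

/-- comparison of powers, for `m` large -/
lemma ev_pow_le (C : ℝ) {a b : ℕ} (hab : a < b) : ∀ᶠ m : ℕ in atTop, C * (m : ℝ) ^ a ≤ (m : ℝ) ^ b := by
  filter_upwards [eventually_ge_atTop (max 1 ⌈C⌉₊)] with m hm
  have hm1 : (1 : ℝ) ≤ m := by exact_mod_cast le_trans (le_max_left _ _) hm
  have hC : C ≤ m := le_trans (Nat.le_ceil C) (by exact_mod_cast le_trans (le_max_right _ _) hm)
  calc C * (m : ℝ) ^ a ≤ m * (m : ℝ) ^ a := mul_le_mul_of_nonneg_right hC (by positivity)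
    _ = (m : ℝ) ^ (a + 1) := by ring
    _ ≤ (m : ℝ) ^ b := pow_le_pow_right₀ hm1 hab

/-- comparison of integer powers, for `m` large -/
lemma ev_zpow_le (C : ℝ) {a b : ℤ} (hab : a < b) :
    ∀ᶠ m : ℕ in atTop, C * (m : ℝ) ^ a ≤ (m : ℝ) ^ b := by
  filter_upwards [eventually_ge_atTop (max 1 ⌈C⌉₊)] with m hm
  have hm1 : (1 : ℝ) ≤ m := by exact_mod_cast le_trans (le_max_left _ _) hm
  have hm0 : (m : ℝ) ≠ 0 := by positivity
  have hC : C ≤ m := le_trans (Nat.le_ceil C) (by exact_mod_cast le_trans (le_max_right _ _) hm)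
  calc C * (m : ℝ) ^ a ≤ m * (m : ℝ) ^ a := mul_le_mul_of_nonneg_right hC (by positivity)
    _ = (m : ℝ) ^ (a + 1) := by rw [zpow_add_one₀ hm0]; ring
    _ ≤ (m : ℝ) ^ b := zpow_le_zpow_right₀ hm1 (by omega)

/-- the harmonic sum is negligible against any power of `m` -/
lemma ev_log_small (d K : ℕ) (c : ℝ) (hc : 0 < c) :
    ∀ᶠ m : ℕ in atTop, (1 + Real.log ((d : ℝ) * ((m : ℝ) + 1) ^ K)) / m ≤ c := by
  have h : Tendsto (fun m : ℕ => (1 + Real.log (d : ℝ) + K * Real.log ((m : ℝ) + 1)) / (m : ℝ))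
      atTop (nhds 0) := by
    have h1 : Tendsto (fun m : ℕ => (1 + Real.log (d : ℝ)) / (m : ℝ)) atTop (nhds 0) :=
      tendsto_const_div_atTop_nhds_zero_nat _
    have h2 : Tendsto (fun m : ℕ => Real.log ((m : ℝ) + 1) / (m : ℝ)) atTop (nhds 0) := by
      have h3 : Tendsto (fun x : ℝ => Real.log x / (x - 1)) atTop (nhds 0) := by
        have := Real.isLittleO_log_id_atTop
        have h4 : (fun x : ℝ => Real.log x) =o[atTop] (fun x : ℝ => x - 1) := by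
          refine this.trans_isBigO ?_
          refine Asymptotics.IsBigO.of_bound 2 ?_
          filter_upwards [eventually_ge_atTop (2 : ℝ)] with x hx
          simp only [id, Real.norm_eq_abs]
          rw [abs_of_nonneg (by linarith), abs_of_nonneg (by linarith)]
          linarith
        exact h4.tendsto_div_nhds_zero
      have h5 : Tendsto (fun m : ℕ => (m : ℝ) + 1) atTop atTop :=
        tendsto_atTop_add_const_right _ _ tendsto_natCast_atTop_atTop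
      have h6 := h3.comp h5
      refine h6.congr fun m => ?_
      simp
    have h3 := h1.add (h2.const_mul (K : ℝ))
    simp only [mul_zero, add_zero] at h3
    refine h3.congr fun m => ?_
    ring
  have h' := h.eventually (gt_mem_nhds hc)
  filter_upwards [h', eventually_ge_atTop 1] with m hm hm1
  refine le_trans ?_ hm.le
  have hm0 : (0 : ℝ) < m := by exact_mod_cast hm1
  apply div_le_div_of_nonneg_right _ hm0.le
  rcases Nat.eq_zero_or_pos d with rfl | hd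
  · simp
    have : 0 ≤ Real.log ((m : ℝ) + 1) := Real.log_nonneg (by linarith)
    positivity
  · have hd' : (0 : ℝ) < d := by exact_mod_cast hd
    rw [Real.log_mul hd'.ne' (by positivity), Real.log_pow]
    linarith

/-- `m = ⌊n^(1/K)⌋`: `m^K ≤ n ≤ 2 m^K` and `n` even implies ... for `m ≥ m₀` -/
lemma nthRoot_bounds {K : ℕ} (hK : K ≠ 0) (n : ℕ) :
    (Nat.nthRoot K n : ℝ) ^ K ≤ n ∧ (n : ℝ) < ((Nat.nthRoot K n : ℝ) + 1) ^ K := by
  constructor
  · exact_mod_cast Nat.pow_nthRoot_le (.inl hK)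
  · exact_mod_cast Nat.lt_pow_nthRoot_add_one hK n

lemma tendsto_nthRoot {K : ℕ} (hK : K ≠ 0) : Tendsto (fun n => Nat.nthRoot K n) atTop atTop := by
  rw [tendsto_atTop]
  intro b
  filter_upwards [eventually_ge_atTop (b ^ K)] with n hn
  by_contra hlt
  push Not at hlt
  have h1 := Nat.lt_pow_nthRoot_add_one hK n
  have h2 : (Nat.nthRoot K n + 1) ^ K ≤ b ^ K := Nat.pow_le_pow_left hlt K
  omega

/-- `(m+1)^K ≤ 2 m^K` for `m` large -/
lemma ev_succ_pow_le (K : ℕ) : ∀ᶠ m : ℕ in atTop, ((m : ℝ) + 1) ^ K ≤ 2 * (m : ℝ) ^ K := by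
  have h1 : Tendsto (fun m : ℕ => (1 + 1 / (m : ℝ)) ^ K) atTop (nhds ((1 + 0) ^ K)) :=
    (tendsto_const_nhds.add tendsto_one_div_atTop_nhds_zero_nat).pow K
  have h2 : ((1 : ℝ) + 0) ^ K < 2 := by norm_num
  filter_upwards [h1.eventually (gt_mem_nhds h2), eventually_ge_atTop 1] with m hm hm1
  have hm0 : (0 : ℝ) < m := by exact_mod_cast hm1
  have h3 : ((m : ℝ) + 1) = (1 + 1 / (m : ℝ)) * m := by field_simp
  rw [h3, mul_pow]
  exact mul_le_mul_of_nonneg_right hm.le (by positivity)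

/-- everything at once: for `n` large, `m = nthRoot K n` satisfies `m^K ≤ n ≤ 2 m^K` and any
eventual property of `m` -/
theorem ev_of_root {K : ℕ} (hK : K ≠ 0) {P : ℕ → Prop} (hP : ∀ᶠ m in atTop, P m) :
    ∃ n0 : ℕ, ∀ n, n0 ≤ n → P (Nat.nthRoot K n) ∧ (Nat.nthRoot K n : ℝ) ^ K ≤ n ∧
      (n : ℝ) ≤ 2 * (Nat.nthRoot K n : ℝ) ^ K ∧
      (n : ℝ) < ((Nat.nthRoot K n : ℝ) + 1) ^ K := by
  have h := (tendsto_nthRoot hK).eventually (hP.and (ev_succ_pow_le K))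
  obtain ⟨n0, hn0⟩ := eventually_atTop.1 h
  refine ⟨n0, fun n hn => ?_⟩
  obtain ⟨h1, h2⟩ := hn0 n hn
  obtain ⟨h3, h4⟩ := nthRoot_bounds hK n
  exact ⟨h1, h3, le_trans h4.le h2, h4⟩

end Crest.Agent.R62.Barrier
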