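import Crest.Agent.R62.SpecOf

/-!
R62: the set of good pairs of live stubs and its size.
-/

set_option autoImplicit false
set_option linter.unusedSectionVars false
set_option linter.unusedSimpArgs false
set_option linter.unusedVariables false
open scoped Matrix BigOperators

namespace Crest.Agent.R62.GoodPairs

open Crest.Agent.R62.State Crest.Agent.R62.EvalKit Crest.Agent.R062 Crest.Agent.R062.Mach
open Crest.Agent.R62.SpecOf

/-- the live stubs -/
def Fs (n d : ℕ) (l : List (ℕ × ℕ)) : Finset (Fin (n * d)) :=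
  Finset.univ.filter fun i => Mach.unused l i

lemma mem_Fs {n d : ℕ} {l : List (ℕ × ℕ)} {i : Fin (n * d)} :
    i ∈ Fs n d l ↔ Mach.unused l i := by simp [Fs]

lemma uv_eq_ind {n d : ℕ} {l : List (ℕ × ℕ)} (i : Fin (n * d)) :
    uv n d l i = if i ∈ Fs n d l then 1 else 0 := by
  simp only [uv, mem_Fs]

lemma sum_uv {n d : ℕ} {l : List (ℕ × ℕ)} (f : Fin (n * d) → ℝ) :
    ∑ i, uv n d l i * f i = ∑ i ∈ Fs n d l, f i := by
  rw [Fs, Finset.sum_filter]
  refine Finset.sum_congr rfl fun i _ => ?_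
  unfold uv
  split_ifs <;> simp

lemma card_Fs {n d : ℕ} {l : List (ℕ × ℕ)} (h : Bridge.Mat n d l) :
    ((Fs n d l).card : ℝ) = (n : ℝ) * d - 2 * (l.length : ℝ) := by
  rw [← uv_sum l h, Fs, Finset.card_filter]
  push_cast
  rfl

lemma mem_freeF_iff {n d : ℕ} {l : List (ℕ × ℕ)} {i : Fin (n * d)} :
    (i : ℕ) ∈ Pairs.freeF d n l ↔ i ∈ Fs n d l := by
  rw [mem_Fs, Pairs.mem_freeF, Mach.unused_iff]
  exact ⟨fun h => h.2, fun h => ⟨i.isLt, h⟩⟩

lemma adm_symm {n d : ℕ} {l : List (ℕ × ℕ)} {x y : ℕ} (h : Pairs.Adm d n l (x, y)) :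
    Pairs.Adm d n l (y, x) := by
  rw [Pairs.adm_iff] at h ⊢
  exact ⟨h.2.1, h.1, h.2.2.1.symm, fun h' => h.2.2.2 h'.symm⟩

lemma adm_ne {n d : ℕ} {l : List (ℕ × ℕ)} {x y : ℕ} (h : Pairs.Adm d n l (x, y)) : x ≠ y := by
  intro e
  rw [Pairs.adm_iff] at h
  exact h.2.2.1 (by rw [e])

/-- good ordered pair -/
def Gp (P : Par) (d n : ℕ) (l : List (ℕ × ℕ)) (x y : Fin (n * d)) : Prop :=
  Pairs.Adm d n l ((x : ℕ), (y : ℕ)) ∧ (∀ b, |KR P d n b l x y| ≤ 1 / 5) ∧
    ∀ b, |KR P d n b l x x * KR P d n b l y y| ≤ 1 / 10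

lemma Gp.symm {P : Par} {d n : ℕ} {l : List (ℕ × ℕ)} {x y : Fin (n * d)} (h : Gp P d n l x y) :
    Gp P d n l y x := by
  refine ⟨adm_symm h.1, fun b => ?_, fun b => ?_⟩
  · have hs : KR P d n b l y x = KR P d n b l x y :=
      (Kmat_symm (P.gam.v n) (sg b) (P.mu.v n) n d l).apply x y
    rw [hs]; exact h.2.1 b
  · rw [mul_comm]; exact h.2.2 b

open Classical in
/-- the good pairs -/
noncomputable def Sg (P : Par) (d n : ℕ) (l : List (ℕ × ℕ)) :
    Finset (Fin (n * d) × Fin (n * d)) :=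
  (Fs n d l ×ˢ Fs n d l).filter fun p => Gp P d n l p.1 p.2

lemma mem_Sg {P : Par} {d n : ℕ} {l : List (ℕ × ℕ)} {p : Fin (n * d) × Fin (n * d)} :
    p ∈ Sg P d n l ↔ Gp P d n l p.1 p.2 := by
  classical
  unfold Sg
  rw [Finset.mem_filter, Finset.mem_product]
  constructor
  · exact fun h => h.2
  · intro h
    have h1 := Pairs.adm_iff.mp h.1
    exact ⟨⟨mem_freeF_iff.mp h1.1, mem_freeF_iff.mp h1.2.1⟩, h⟩

lemma Sg_subset (P : Par) (d n : ℕ) (l : List (ℕ × ℕ)) :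
    Sg P d n l ⊆ Fs n d l ×ˢ Fs n d l := by
  classical
  exact Finset.filter_subset _ _

/-- Chebyshev -/
lemma card_filter_le {ι : Type*} (A : Finset ι) (f : ι → ℝ) (θ : ℝ) (hθ : 0 < θ)
    (p : ι → Prop) [DecidablePred p] (hp : ∀ i ∈ A, p i → θ < |f i|) :
    ((A.filter p).card : ℝ) ≤ (θ ^ 2)⁻¹ * ∑ i ∈ A, f i ^ 2 := by
  have h1 : ((A.filter p).card : ℝ) * θ ^ 2 ≤ ∑ i ∈ A, f i ^ 2 := by
    calc ((A.filter p).card : ℝ) * θ ^ 2 = ∑ i ∈ A.filter p, θ ^ 2 := by
          rw [Finset.sum_const, nsmul_eq_mul]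
      _ ≤ ∑ i ∈ A.filter p, f i ^ 2 := by
          refine Finset.sum_le_sum fun i hi => ?_
          rw [Finset.mem_filter] at hi
          have := hp i hi.1 hi.2
          rw [← sq_abs (f i)]
          exact pow_le_pow_left₀ hθ.le this.le 2
      _ ≤ ∑ i ∈ A, f i ^ 2 :=
          Finset.sum_le_sum_of_subset_of_nonneg (Finset.filter_subset _ _)
            fun i _ _ => sq_nonneg _
  have h2 : 0 < θ ^ 2 := by positivity
  rw [inv_mul_eq_div, le_div_iff₀ h2]
  exact h1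

open Classical in
/-- non-admissible partners of a live stub -/
lemma card_nonadm {P : Par} {d n : ℕ} (hd : 0 < d) {l : List (ℕ × ℕ)}
    (hv : Pairs.Valid d n l) (x : Fin (n * d)) (hx : x ∈ Fs n d l) :
    ((Fs n d l).filter fun y : Fin (n * d) => ¬ Pairs.Adm d n l ((x : ℕ), (y : ℕ))).card ≤ (d + 1) * d := by
  refine le_trans ?_ (Pairs.card_zone_le hd hv ((x : ℕ) / d))
  refine Finset.card_le_card_of_injOn (fun y : Fin (n * d) => (y : ℕ)) ?_
    (fun a _ b _ h => Fin.ext h)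
  intro y hy
  rw [Finset.coe_filter] at hy
  obtain ⟨hy1, hy2⟩ := hy
  rw [Finset.mem_coe, Pairs.mem_zone hd]
  by_contra h
  push Not at h
  exact hy2 (Pairs.adm_iff.mpr ⟨mem_freeF_iff.mpr hx, mem_freeF_iff.mpr hy1, h.1.symm, h.2⟩)

lemma trace_sq {n d : ℕ} {l : List (ℕ × ℕ)} (P : Par) (b : Bool) :
    Matrix.trace (KR P d n b l ^ 2) = ∑ i, ∑ j, KR P d n b l i j ^ 2 := by
  have hsym := Kmat_symm (P.gam.v n) (sg b) (P.mu.v n) n d l
  rw [pow_two, Matrix.trace]
  refine Finset.sum_congr rfl fun i _ => ?_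
  rw [Matrix.diag_apply, Matrix.mul_apply]
  refine Finset.sum_congr rfl fun j _ => ?_
  have : KR P d n b l j i = KR P d n b l i j := hsym.apply i j
  rw [this, pow_two]

lemma diag_sq {n d : ℕ} {l : List (ℕ × ℕ)} (P : Par) (b : Bool) (i : Fin (n * d)) :
    (KR P d n b l ^ 2) i i = ∑ j, KR P d n b l i j ^ 2 := by
  have hsym := Kmat_symm (P.gam.v n) (sg b) (P.mu.v n) n d l
  rw [pow_two, Matrix.mul_apply]
  refine Finset.sum_congr rfl fun j _ => ?_
  have : KR P d n b l j i = KR P d n b l i j := hsym.apply i j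
  rw [this, pow_two]

/-- entries at dead stubs vanish -/
lemma KR_dead {P : Par} {d n : ℕ} {b : Bool} {l : List (ℕ × ℕ)} {i j : Fin (n * d)}
    (h : i ∉ Fs n d l ∨ j ∉ Fs n d l) : KR P d n b l i j = 0 := by
  rcases h with h | h
  · exact Kmat_dead_left _ _ _ n d l i j fun h' => h (mem_Fs.mpr h')
  · exact Kmat_dead_right _ _ _ n d l i j fun h' => h (mem_Fs.mpr h')

lemma sum_Fs {P : Par} {d n : ℕ} {b : Bool} {l : List (ℕ × ℕ)} (i : Fin (n * d)) :
    ∑ j ∈ Fs n d l, KR P d n b l i j ^ 2 = ∑ j, KR P d n b l i j ^ 2 := by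
  refine Finset.sum_subset (Finset.subset_univ _) fun j _ hj => ?_
  rw [KR_dead (Or.inr hj)]; simp

lemma sum_Fs_diag {P : Par} {d n : ℕ} {b : Bool} {l : List (ℕ × ℕ)} :
    ∑ j ∈ Fs n d l, KR P d n b l j j ^ 2 = ∑ j, KR P d n b l j j ^ 2 := by
  refine Finset.sum_subset (Finset.subset_univ _) fun j _ hj => ?_
  rw [KR_dead (Or.inr hj)]; simp

open Classical in
/-- per row count of bad partners -/
theorem card_bad_row {P : Par} {d n : ℕ} (hd : 0 < d) {l : List (ℕ × ℕ)}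
    (hv : Pairs.Valid d n l) (x : Fin (n * d)) (hx : x ∈ Fs n d l) :
    (((Fs n d l).filter fun y => ¬ Gp P d n l x y).card : ℝ)
      ≤ (d + 1) * d + (25 * (KR P d n true l ^ 2) x x + 25 * (KR P d n false l ^ 2) x x)
        + (100 * (KR P d n true l x x ^ 2 * ∑ z, KR P d n true l z z ^ 2)
          + 100 * (KR P d n false l x x ^ 2 * ∑ z, KR P d n false l z z ^ 2)) := by
  set F := Fs n d l with hF
  have hsub : F.filter (fun y => ¬ Gp P d n l x y) ⊆
      F.filter (fun y : Fin (n * d) => ¬ Pairs.Adm d n l ((x : ℕ), (y : ℕ))) ∪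
      (F.filter (fun y => ¬ |KR P d n true l x y| ≤ 1 / 5) ∪
       F.filter (fun y => ¬ |KR P d n false l x y| ≤ 1 / 5)) ∪
      (F.filter (fun y => ¬ |KR P d n true l x x * KR P d n true l y y| ≤ 1 / 10) ∪
       F.filter (fun y => ¬ |KR P d n false l x x * KR P d n false l y y| ≤ 1 / 10)) := by
    intro y hy
    rw [Finset.mem_filter] at hy
    obtain ⟨hy1, hy2⟩ := hy
    simp only [Finset.mem_union, Finset.mem_filter]
    by_contra hcon
    push Not at hcon
    obtain ⟨⟨h1, h2, h3⟩, h4, h5⟩ := hcon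
    apply hy2
    refine ⟨h1 hy1, ?_, ?_⟩
    · intro b; cases b
      · exact h3 hy1
      · exact h2 hy1
    · intro b; cases b
      · exact h5 hy1
      · exact h4 hy1
  have hcard := (Finset.card_le_card hsub).trans ((Finset.card_union_le _ _).trans
    (Nat.add_le_add ((Finset.card_union_le _ _).trans (Nat.add_le_add le_rfl
      (Finset.card_union_le _ _))) (Finset.card_union_le _ _)))
  have hcard' : ((F.filter (fun y => ¬ Gp P d n l x y)).card : ℝ) ≤
      ((F.filter (fun y : Fin (n * d) => ¬ Pairs.Adm d n l ((x : ℕ), (y : ℕ)))).card : ℝ) +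
      (((F.filter (fun y => ¬ |KR P d n true l x y| ≤ 1 / 5)).card : ℝ) +
       ((F.filter (fun y => ¬ |KR P d n false l x y| ≤ 1 / 5)).card : ℝ)) +
      (((F.filter (fun y => ¬ |KR P d n true l x x * KR P d n true l y y| ≤ 1 / 10)).card : ℝ) +
       ((F.filter (fun y => ¬ |KR P d n false l x x * KR P d n false l y y| ≤ 1 / 10)).card : ℝ)) := by
    exact_mod_cast hcard
  have hA : ((F.filter (fun y : Fin (n * d) => ¬ Pairs.Adm d n l ((x : ℕ), (y : ℕ)))).card : ℝ)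
      ≤ (d + 1) * d := by
    have := card_nonadm (P := P) hd hv x hx
    exact_mod_cast this
  have hB : ∀ b, ((F.filter (fun y => ¬ |KR P d n b l x y| ≤ 1 / 5)).card : ℝ)
      ≤ 25 * (KR P d n b l ^ 2) x x := fun b => by
    have h1 := card_filter_le F (fun y => KR P d n b l x y) (1 / 5) (by norm_num)
      (fun y => ¬ |KR P d n b l x y| ≤ 1 / 5) (fun y _ hy => not_le.mp hy)
    refine h1.trans (le_of_eq ?_)
    rw [sum_Fs, diag_sq]
    norm_num
  have hC : ∀ b, ((F.filter (fun y => ¬ |KR P d n b l x x * KR P d n b l y y| ≤ 1 / 10)).card : ℝ)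
      ≤ 100 * (KR P d n b l x x ^ 2 * ∑ z, KR P d n b l z z ^ 2) := fun b => by
    have h1 := card_filter_le F (fun y => KR P d n b l x x * KR P d n b l y y) (1 / 10)
      (by norm_num) (fun y => ¬ |KR P d n b l x x * KR P d n b l y y| ≤ 1 / 10)
      (fun y _ hy => not_le.mp hy)
    refine h1.trans (le_of_eq ?_)
    simp only [mul_pow]
    rw [← Finset.mul_sum, sum_Fs_diag]
    norm_num
  linarith [hcard', hA, hB true, hB false, hC true, hC false]

open Classical in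
/-- total count of bad ordered pairs -/
theorem card_bad {P : Par} {d n : ℕ} (hd : 0 < d) {l : List (ℕ × ℕ)}
    (hv : Pairs.Valid d n l) :
    (((Fs n d l ×ˢ Fs n d l) \ Sg P d n l).card : ℝ)
      ≤ (d + 1) * d * (Fs n d l).card
        + (25 * Matrix.trace (KR P d n true l ^ 2) + 25 * Matrix.trace (KR P d n false l ^ 2))
        + (100 * (∑ z, KR P d n true l z z ^ 2) ^ 2
          + 100 * (∑ z, KR P d n false l z z ^ 2) ^ 2) := by
  set F := Fs n d l with hF
  have h1 : (((F ×ˢ F) \ Sg P d n l).card : ℝ)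
      = ∑ x ∈ F, ((F.filter fun y => ¬ Gp P d n l x y).card : ℝ) := by
    have e1 : (F ×ˢ F) \ Sg P d n l = (F ×ˢ F).filter fun p => ¬ Gp P d n l p.1 p.2 := by
      ext p
      rw [Finset.mem_sdiff, Finset.mem_filter, mem_Sg]
    rw [e1, Finset.card_filter, Finset.sum_product]
    push_cast
    refine Finset.sum_congr rfl fun x _ => ?_
    rw [Finset.card_filter]
    push_cast
    rfl
  rw [h1]
  have h2 := Finset.sum_le_sum fun x (hx : x ∈ F) => card_bad_row (P := P) hd hv x hx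
  refine h2.trans ?_
  rw [Finset.sum_add_distrib, Finset.sum_add_distrib, Finset.sum_add_distrib,
    Finset.sum_add_distrib, Finset.sum_const, nsmul_eq_mul]
  have hX : ∀ b, ∑ x ∈ F, 25 * (KR P d n b l ^ 2) x x = 25 * Matrix.trace (KR P d n b l ^ 2) :=
    fun b => by
      rw [← Finset.mul_sum]
      congr 1
      have : ∑ x ∈ F, (KR P d n b l ^ 2) x x = ∑ x, (KR P d n b l ^ 2) x x := by
        refine Finset.sum_subset (Finset.subset_univ _) fun x _ hx => ?_
        rw [diag_sq]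
        exact Finset.sum_eq_zero fun j _ => by rw [KR_dead (Or.inl hx)]; simp
      rw [this]; rfl
  have hV : ∀ b, ∑ x ∈ F, 100 * (KR P d n b l x x ^ 2 * ∑ z, KR P d n b l z z ^ 2)
      = 100 * (∑ z, KR P d n b l z z ^ 2) ^ 2 := fun b => by
    rw [← Finset.mul_sum, ← Finset.sum_mul, sum_Fs_diag, pow_two]
  rw [hX, hX, hV, hV]
  have : (((F.card : ℕ) : ℝ)) * (((d : ℝ) + 1) * d) = (d + 1) * d * F.card := by ring
  linarith

/-- averaging -/
lemma exists_of_avg {ι : Type*} (S : Finset ι) (hS : S.Nonempty) (w Δ : ι → ℝ) (e : ℝ)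
    (hw : ∀ i ∈ S, 0 < w i) (h : ∑ i ∈ S, w i * Δ i ≤ e * ∑ i ∈ S, w i) :
    ∃ i ∈ S, Δ i ≤ e := by
  by_contra hcon
  push Not at hcon
  have h1 : ∑ i ∈ S, w i * e < ∑ i ∈ S, w i * Δ i :=
    Finset.sum_lt_sum_of_nonempty hS fun i hi => mul_lt_mul_of_pos_left (hcon i hi) (hw i hi)
  rw [← Finset.sum_mul] at h1
  linarith [mul_comm e (∑ i ∈ S, w i)]

/-- from an averaged bound over the good pairs to the form of `hstep` in `SpecOf.final`, for a
single potential -/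
theorem hstep_of_avg {P : Par} {d n : ℕ} {l : List (ℕ × ℕ)} (F : List (Pot P d)) (f : Pot P d)
    (w : Fin (n * d) × Fin (n * d) → ℝ) (hw : ∀ p ∈ Sg P d n l, 0 < w p)
    (hne : (Sg P d n l).Nonempty) (η : ℝ)
    (havg : ∑ p ∈ Sg P d n l, w p * f.val n (((p.1 : ℕ), (p.2 : ℕ)) :: l)
      ≤ (-η) * ∑ p ∈ Sg P d n l, w p) :
    ∃ x y : Fin (n * d), Pairs.Adm d n l ((x : ℕ), (y : ℕ)) ∧
        (∀ b, |KR P d n b l x y| ≤ 1 / 5) ∧ (∀ b, |KR P d n b l x x * KR P d n b l y y| ≤ 1 / 10) ∧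
        ∀ g ∈ [f], g.val n (((x : ℕ), (y : ℕ)) :: l) ≤ -η := by
  obtain ⟨p, hp, h⟩ := exists_of_avg (Sg P d n l) hne w
    (fun p => f.val n (((p.1 : ℕ), (p.2 : ℕ)) :: l)) (-η) hw havg
  have hG := mem_Sg.mp hp
  refine ⟨p.1, p.2, hG.1, hG.2.1, hG.2.2, ?_⟩
  intro g hg
  rw [List.mem_singleton] at hg
  subst hg
  exact h

end Crest.Agent.R62.GoodPairs
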