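import Crest.Agent.R62.PotKit
import Crest.Agent.R62.GoodPairs
import Crest.Agent.R62.Barrier
import Crest.Agent.R062.MachPar

/-!
R62: assembly of potentials: sums, the harmonic barrier, one averaged step.
-/

set_option autoImplicit false
set_option linter.unusedSectionVars false
set_option linter.unusedSimpArgs false
set_option linter.unusedVariables false
open scoped Matrix BigOperators

namespace Crest.Agent.R62.Assembly

open Crest.Agent.R62.State Crest.Agent.R62.EvalKit Crest.Agent.R062 Crest.Agent.R062.Mach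
open Crest.Agent.R62.SpecOf Crest.Agent.R62.GoodPairs
open Crest.Agent.Lib.PT

variable {P : Par} {d : ℕ}

/-- sum of a list of potentials -/
def psum (As : List (Pot P d)) : Pot P d := As.foldr Pot.add (Pot.int 0)

lemma psum_val (As : List (Pot P d)) (n : ℕ) (l : List (ℕ × ℕ)) :
    (psum As).val n l = (As.map fun A => A.val n l).sum := by
  induction As with
  | nil => simp [psum, Pot.int]
  | cons A As ih =>
    rw [List.map_cons, List.sum_cons, ← ih]
    rfl

lemma le_psum {As : List (Pot P d)} {n : ℕ} {l : List (ℕ × ℕ)} (h0 : ∀ A ∈ As, 0 ≤ A.val n l)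
    {A : Pot P d} (hA : A ∈ As) : A.val n l ≤ (psum As).val n l := by
  rw [psum_val]
  exact List.single_le_sum (by
    intro x hx
    obtain ⟨B, hB, rfl⟩ := List.mem_map.mp hx
    exact h0 B hB) _ (List.mem_map.mpr ⟨A, hA, rfl⟩)

lemma psum_nonneg {As : List (Pot P d)} {n : ℕ} {l : List (ℕ × ℕ)}
    (h0 : ∀ A ∈ As, 0 ≤ A.val n l) : 0 ≤ (psum As).val n l := by
  rw [psum_val]
  exact List.sum_nonneg fun x hx => by
    obtain ⟨B, hB, rfl⟩ := List.mem_map.mp hx
    exact h0 B hB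

/-- sums of averaged bounds -/
lemma psum_avg {ι : Type*} {n : ℕ} {l : List (ℕ × ℕ)} (As : List (Pot P d)) (S : Finset ι)
    (w : ι → ℝ) (nx : ι → List (ℕ × ℕ)) (e : ℝ)
    (h : ∀ A ∈ As, ∑ p ∈ S, w p * A.val n (nx p) ≤ (∑ p ∈ S, w p) * (A.val n l + e)) :
    ∑ p ∈ S, w p * (psum As).val n (nx p)
      ≤ (∑ p ∈ S, w p) * ((psum As).val n l + As.length * e) := by
  induction As with
  | nil => simp [psum, Pot.int]
  | cons A As ih =>
    have h1 := h A (List.mem_cons_self ..)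
    have h2 := ih fun B hB => h B (List.mem_cons_of_mem _ hB)
    have e1 : ∀ m, (psum (A :: As)).val n m = A.val n m + (psum As).val n m := fun m => rfl
    simp only [e1, mul_add, Finset.sum_add_distrib, List.length_cons]
    push_cast
    simp only [mul_add] at h1 h2
    have e2 : (∑ p ∈ S, w p) * ((((As.length : ℕ) : ℝ) + 1) * e)
        = (∑ p ∈ S, w p) * (As.length * e) + (∑ p ∈ S, w p) * e := by ring
    rw [e2]
    linarith

/-- the step: some good pair (in any nonempty set `S` of good pairs) does not increase the sum by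
more than `k e` -/
theorem exists_step {n : ℕ} {l : List (ℕ × ℕ)} (As : List (Pot P d))
    (S : Finset (Fin (n * d) × Fin (n * d))) (hS : S ⊆ Sg P d n l) (hne : S.Nonempty)
    (w : Fin (n * d) × Fin (n * d) → ℝ) (hw : ∀ p ∈ S, 0 < w p) (e : ℝ)
    (h : ∀ A ∈ As, ∑ p ∈ S, w p * A.val n (((p.1 : ℕ), (p.2 : ℕ)) :: l)
      ≤ (∑ p ∈ S, w p) * (A.val n l + e)) :
    ∃ x y : Fin (n * d), Pairs.Adm d n l ((x : ℕ), (y : ℕ)) ∧
        (∀ b, |KR P d n b l x y| ≤ 1 / 5) ∧ (∀ b, |KR P d n b l x x * KR P d n b l y y| ≤ 1 / 10) ∧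
        (psum As).val n (((x : ℕ), (y : ℕ)) :: l) ≤ (psum As).val n l + As.length * e := by
  have h1 := psum_avg As S w (fun p => ((p.1 : ℕ), (p.2 : ℕ)) :: l) e h
  obtain ⟨p, hp, h2⟩ := exists_of_avg S hne w
    (fun p => (psum As).val n (((p.1 : ℕ), (p.2 : ℕ)) :: l)) ((psum As).val n l + As.length * e)
    hw (by rw [mul_comm ((psum As).val n l + As.length * e)]; exact h1)
  have hG := mem_Sg.mp (hS hp)
  exact ⟨p.1, p.2, hG.1, hG.2.1, hG.2.2, h2⟩

/-! ### the harmonic barrier -/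

/-- `H(n,t) = ∑_{i<t} 1/(nd-2i)` -/
def Hq (d n t : ℕ) : ℚ := ∑ i ∈ Finset.range t, 1 / (((n * d - 2 * i : ℕ)) : ℚ)

lemma Hq_succ (d n t : ℕ) : Hq d n (t + 1) = Hq d n t + 1 / (((n * d - 2 * t : ℕ)) : ℚ) := by
  rw [Hq, Finset.sum_range_succ]; rfl

lemma Hq_nonneg (d n t : ℕ) : 0 ≤ Hq d n t :=
  Finset.sum_nonneg fun i _ => by positivity

lemma Hq_le (d n t : ℕ) : Hq d n t ≤ t := by
  have : Hq d n t ≤ ∑ i ∈ Finset.range t, (1 : ℚ) := by
    refine Finset.sum_le_sum fun i _ => ?_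
    rcases Nat.eq_zero_or_pos (n * d - 2 * i) with h | h
    · rw [h]; simp
    · rw [div_le_one (by exact_mod_cast h)]
      exact_mod_cast h
  simpa using this

theorem ptf_harm (d : ℕ) : PTF (fun p : Un × Un => Hq d p.1.val (p.2.val + 1)) := by
  have h1 : PTU (fun p : Un × Un => p.2.val + 1) := PTU.add (PTU.val PTF.snd) (PTU.const 1)
  have h2 : PTF (fun q : (Un × Un) × ℕ => q.1.1.val * d - 2 * q.2) := by
    refine PTF.natSub (PTF.natMul (PTU.toPTF (PTU.val (PTF.comp PTF.fst PTF.fst)))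
        (PTF.const d)) (PTF.natMul (PTF.const 2) PTF.snd)
  have h3 : PTF (fun q : (Un × Un) × ℕ =>
      (1 : ℚ) / ((q.1.1.val * d - 2 * q.2 : ℕ) : ℚ)) := by
    refine PTF.ratDiv (PTF.const 1) (PTF.ratNatCast h2)
  exact PTF.ratSumRange
    (f := fun (p : Un × Un) (i : ℕ) => (1 : ℚ) / ((p.1.val * d - 2 * i : ℕ) : ℚ)) h1 h3

/-- the constant `H(n, t+1)` -/
def harmC (d : ℕ) : Cst where
  f n t := Hq d n (t + 1)
  ptf := ptf_harm d
  deg := 1
  bd n t := by
    rw [abs_of_nonneg (Hq_nonneg d n (t + 1)), pow_one]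
    refine (Hq_le d n (t + 1)).trans ?_
    push_cast
    have : (0 : ℚ) ≤ n := Nat.cast_nonneg n
    linarith

/-- the barrier potential `H(n, |l|)` -/
noncomputable def harm : Pot P d := Pot.rat (fun n t => Hq d n t) (harmC d) (fun n t => rfl)

lemma harm_val (n : ℕ) (l : List (ℕ × ℕ)) :
    (harm (P := P) (d := d)).val n l = (Hq d n l.length : ℝ) := rfl

lemma harm_cons (n : ℕ) (l : List (ℕ × ℕ)) (p : ℕ × ℕ) :
    (harm (P := P) (d := d)).val n (p :: l)
      = (harm (P := P) (d := d)).val n l + 1 / (((n * d - 2 * l.length : ℕ)) : ℝ) := by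
  rw [harm_val, harm_val, List.length_cons, Hq_succ]
  push_cast
  rfl

lemma Hq_log {d n t : ℕ} (h : 2 * t ≤ n * d) : ((Hq d n t : ℚ) : ℝ) ≤ 1 + Real.log (n * d : ℕ) := by
  have h1 := Barrier.sum_inv_le (n * d) t h
  refine le_trans (le_of_eq ?_) h1
  rw [Hq]
  push_cast
  refine Finset.sum_congr rfl fun i hi => ?_
  have hi' := Finset.mem_range.mp hi
  have : ((n * d - 2 * i : ℕ) : ℝ) = (n : ℝ) * d - 2 * i := by
    rw [Nat.cast_sub (by omega)]; push_cast; ring
  rw [this]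

end Crest.Agent.R62.Assembly
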