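import Mathlib

/-!
R62 (helper420): common toolbox for the averaged one-step inequalities (AvX1, AvX2, ...).

`K : Matrix ι ι ℝ` symmetric (dead stubs = zero rows/columns), `K^j` its powers.
`OpB K Λ` : operator norm bound.
-/

set_option autoImplicit false
set_option linter.unusedSectionVars false
set_option linter.unusedVariables false

open scoped Matrix BigOperators

namespace Crest.Agent.R62.AvBase

variable {ι : Type*} [Fintype ι] [DecidableEq ι]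

/-- operator norm bound -/
def OpB (K : Matrix ι ι ℝ) (L : ℝ) : Prop :=
  0 ≤ L ∧ ∀ v : ι → ℝ, (K *ᵥ v) ⬝ᵥ (K *ᵥ v) ≤ L ^ 2 * (v ⬝ᵥ v)

lemma dot_self_nonneg (v : ι → ℝ) : 0 ≤ v ⬝ᵥ v :=
  Finset.sum_nonneg fun i _ => mul_self_nonneg (v i)

/-- Cauchy–Schwarz -/
lemma dot_sq_le (v w : ι → ℝ) : (v ⬝ᵥ w) ^ 2 ≤ (v ⬝ᵥ v) * (w ⬝ᵥ w) := by
  have h := Finset.sum_mul_sq_le_sq_mul_sq Finset.univ v w
  simp only [dotProduct]
  calc (∑ i, v i * w i) ^ 2 ≤ (∑ i, v i ^ 2) * ∑ i, w i ^ 2 := h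
    _ = _ := by simp only [pow_two]

lemma OpB.mono {K : Matrix ι ι ℝ} {L L' : ℝ} (h : OpB K L) (hL : L ≤ L') : OpB K L' :=
  ⟨h.1.trans hL, fun v => (h.2 v).trans
    (mul_le_mul_of_nonneg_right (pow_le_pow_left₀ h.1 hL 2) (dot_self_nonneg v))⟩

lemma OpB.one : OpB (1 : Matrix ι ι ℝ) 1 :=
  ⟨zero_le_one, fun v => by simp⟩

lemma OpB.mul {A B : Matrix ι ι ℝ} {a b : ℝ} (hA : OpB A a) (hB : OpB B b) :
    OpB (A * B) (a * b) := by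
  refine ⟨mul_nonneg hA.1 hB.1, fun v => ?_⟩
  have h1 := hA.2 (B *ᵥ v)
  rw [Matrix.mulVec_mulVec] at h1
  have h2 := mul_le_mul_of_nonneg_left (hB.2 v) (sq_nonneg a)
  calc _ ≤ a ^ 2 * ((B *ᵥ v) ⬝ᵥ (B *ᵥ v)) := h1
    _ ≤ a ^ 2 * (b ^ 2 * (v ⬝ᵥ v)) := h2
    _ = _ := by ring

lemma OpB.pow {K : Matrix ι ι ℝ} {L : ℝ} (h : OpB K L) (j : ℕ) : OpB (K ^ j) (L ^ j) := by
  induction j with
  | zero => simpa using OpB.one
  | succ j ih => rw [pow_succ, pow_succ]; exact ih.mul h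

/-- transpose of a power of a symmetric matrix -/
lemma symm_pow {K : Matrix ι ι ℝ} (hs : Kᵀ = K) (j : ℕ) : (K ^ j)ᵀ = K ^ j := by
  rw [Matrix.transpose_pow, hs]

lemma pow_apply_comm {K : Matrix ι ι ℝ} (hs : Kᵀ = K) (j : ℕ) (x y : ι) :
    (K ^ j) x y = (K ^ j) y x := by
  conv_lhs => rw [← symm_pow hs j]
  rfl

/-- entry of a product of powers as a dot product of columns -/
lemma pow_add_apply {K : Matrix ι ι ℝ} (hs : Kᵀ = K) (i j : ℕ) (x y : ι) :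
    (K ^ (i + j)) x y = (fun z => (K ^ i) z x) ⬝ᵥ (fun z => (K ^ j) z y) := by
  rw [pow_add, Matrix.mul_apply]
  simp only [dotProduct]
  exact Finset.sum_congr rfl fun z _ => by rw [pow_apply_comm hs i x z]

/-- `|K^j e_x|^2 = (K^{2j})_xx` -/
lemma col_sq {K : Matrix ι ι ℝ} (hs : Kᵀ = K) (j : ℕ) (x : ι) :
    (fun z => (K ^ j) z x) ⬝ᵥ (fun z => (K ^ j) z x) = (K ^ (2 * j)) x x := by
  rw [two_mul, pow_add_apply hs]

lemma diag_even_nonneg {K : Matrix ι ι ℝ} (hs : Kᵀ = K) (j : ℕ) (x : ι) :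
    0 ≤ (K ^ (2 * j)) x x := by
  rw [← col_sq hs]; exact dot_self_nonneg _

lemma diag_sq_nonneg {K : Matrix ι ι ℝ} (hs : Kᵀ = K) (x : ι) : 0 ≤ (K ^ 2) x x := by
  simpa using diag_even_nonneg hs 1 x

lemma diag_four_nonneg {K : Matrix ι ι ℝ} (hs : Kᵀ = K) (x : ι) : 0 ≤ (K ^ 4) x x := by
  simpa using diag_even_nonneg hs 2 x

/-- `(K^{2(i+j)})_xx ≤ L^{2j} (K^{2i})_xx` -/
lemma diag_even_le {K : Matrix ι ι ℝ} {L : ℝ} (hs : Kᵀ = K) (h : OpB K L) (i j : ℕ) (x : ι) :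
    (K ^ (2 * (i + j))) x x ≤ L ^ (2 * j) * (K ^ (2 * i)) x x := by
  rw [← col_sq hs, ← col_sq hs]
  have h1 := (h.pow j).2 (fun z => (K ^ i) z x)
  have h2 : (K ^ j) *ᵥ (fun z => (K ^ i) z x) = fun z => (K ^ (i + j)) z x := by
    ext z
    rw [add_comm, pow_add, Matrix.mul_apply]; rfl
  rw [h2, ← pow_mul] at h1
  rwa [mul_comm j 2] at h1

/-- `((K^{i+j})_xy)^2 ≤ (K^{2i})_xx (K^{2j})_yy` -/
lemma entry_sq_le {K : Matrix ι ι ℝ} (hs : Kᵀ = K) (i j : ℕ) (x y : ι) :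
    ((K ^ (i + j)) x y) ^ 2 ≤ (K ^ (2 * i)) x x * (K ^ (2 * j)) y y := by
  rw [pow_add_apply hs, ← col_sq hs, ← col_sq hs]
  exact dot_sq_le _ _

/-- `((K^{j+2})_xy)^2 ≤ L^{2j} (K^2)_xx (K^2)_yy` -/
lemma entry_sq_le' {K : Matrix ι ι ℝ} {L : ℝ} (hs : Kᵀ = K) (h : OpB K L) (j : ℕ) (x y : ι) :
    ((K ^ (j + 2)) x y) ^ 2 ≤ L ^ (2 * j) * ((K ^ 2) x x * (K ^ 2) y y) := by
  have h1 := entry_sq_le hs 1 (1 + j) x y
  have h2 := diag_even_le hs h 1 j y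
  have h3 : 1 + (1 + j) = j + 2 := by ring
  rw [h3] at h1
  simp only [mul_one] at h1 h2
  calc _ ≤ _ := h1
    _ ≤ (K ^ 2) x x * (L ^ (2 * j) * (K ^ 2) y y) :=
        mul_le_mul_of_nonneg_left h2 (diag_sq_nonneg hs x)
    _ = _ := by ring

/-- `|(K^{j+2})_xy| ≤ L^j sqrt((K^2)_xx (K^2)_yy)` -/
lemma abs_entry_le {K : Matrix ι ι ℝ} {L : ℝ} (hs : Kᵀ = K) (h : OpB K L) (j : ℕ) (x y : ι) :
    |(K ^ (j + 2)) x y| ≤ L ^ j * (Real.sqrt ((K ^ 2) x x) * Real.sqrt ((K ^ 2) y y)) := by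
  have hnn : 0 ≤ L ^ j * (Real.sqrt ((K ^ 2) x x) * Real.sqrt ((K ^ 2) y y)) :=
    mul_nonneg (pow_nonneg h.1 j) (mul_nonneg (Real.sqrt_nonneg _) (Real.sqrt_nonneg _))
  refine abs_le_of_sq_le_sq ?_ hnn
  calc ((K ^ (j + 2)) x y) ^ 2 ≤ L ^ (2 * j) * ((K ^ 2) x x * (K ^ 2) y y) :=
        entry_sq_le' hs h j x y
    _ = _ := by
        rw [mul_pow, mul_pow, Real.sq_sqrt (diag_sq_nonneg hs x),
          Real.sq_sqrt (diag_sq_nonneg hs y), ← pow_mul, mul_comm j 2]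

/-- `|(K^{j+2})_xx| ≤ L^j (K^2)_xx` -/
lemma abs_diag_le {K : Matrix ι ι ℝ} {L : ℝ} (hs : Kᵀ = K) (h : OpB K L) (j : ℕ) (x : ι) :
    |(K ^ (j + 2)) x x| ≤ L ^ j * (K ^ 2) x x := by
  have h1 := abs_entry_le hs h j x x
  rwa [Real.mul_self_sqrt (diag_sq_nonneg hs x)] at h1

/-- AM-GM form: `|(K^{j+2})_xy| ≤ L^j ((K^2)_xx + (K^2)_yy)/2` -/
lemma abs_entry_le_amgm {K : Matrix ι ι ℝ} {L : ℝ} (hs : Kᵀ = K) (h : OpB K L) (j : ℕ)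
    (x y : ι) : |(K ^ (j + 2)) x y| ≤ L ^ j * (((K ^ 2) x x + (K ^ 2) y y) / 2) := by
  refine (abs_entry_le hs h j x y).trans (mul_le_mul_of_nonneg_left ?_ (pow_nonneg h.1 j))
  have h1 := Real.sq_sqrt (diag_sq_nonneg hs x)
  have h2 := Real.sq_sqrt (diag_sq_nonneg hs y)
  nlinarith [sq_nonneg (Real.sqrt ((K ^ 2) x x) - Real.sqrt ((K ^ 2) y y))]

/-! ### traces as sums over pairs -/

lemma trace_pow_add {K : Matrix ι ι ℝ} (hs : Kᵀ = K) (i j : ℕ) :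
    ∑ x, ∑ y, (K ^ i) x y * (K ^ j) x y = (K ^ (i + j)).trace := by
  rw [pow_add, Matrix.trace]
  refine Finset.sum_congr rfl fun x _ => ?_
  rw [Matrix.diag_apply, Matrix.mul_apply]
  exact Finset.sum_congr rfl fun y _ => by rw [pow_apply_comm hs j x y]

lemma frob_pow {K : Matrix ι ι ℝ} (hs : Kᵀ = K) (j : ℕ) :
    ∑ x, ∑ y, ((K ^ j) x y) ^ 2 = (K ^ (2 * j)).trace := by
  rw [two_mul, ← trace_pow_add hs j j]
  exact Finset.sum_congr rfl fun x _ => Finset.sum_congr rfl fun y _ => by ring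

lemma trace_even_nonneg {K : Matrix ι ι ℝ} (hs : Kᵀ = K) (j : ℕ) :
    0 ≤ (K ^ (2 * j)).trace :=
  Finset.sum_nonneg fun x _ => diag_even_nonneg hs j x

lemma trace_even_le {K : Matrix ι ι ℝ} {L : ℝ} (hs : Kᵀ = K) (h : OpB K L) (i j : ℕ) :
    (K ^ (2 * (i + j))).trace ≤ L ^ (2 * j) * (K ^ (2 * i)).trace := by
  simp only [Matrix.trace, Matrix.diag_apply, Finset.mul_sum]
  exact Finset.sum_le_sum fun x _ => diag_even_le hs h i j x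

lemma trace_six_le {K : Matrix ι ι ℝ} {L : ℝ} (hs : Kᵀ = K) (h : OpB K L) :
    (K ^ 6).trace ≤ L ^ 2 * (K ^ 4).trace := by
  simpa using trace_even_le hs h 2 1

lemma trace_eight_le {K : Matrix ι ι ℝ} {L : ℝ} (hs : Kᵀ = K) (h : OpB K L) :
    (K ^ 8).trace ≤ L ^ 4 * (K ^ 4).trace := by
  simpa using trace_even_le hs h 2 2

lemma trace_ten_le {K : Matrix ι ι ℝ} {L : ℝ} (hs : Kᵀ = K) (h : OpB K L) :
    (K ^ 10).trace ≤ L ^ 6 * (K ^ 4).trace := by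
  simpa using trace_even_le hs h 2 3

/-- Cauchy–Schwarz for traces: `(Tr K^{i+j})^2 ≤ Tr K^{2i} Tr K^{2j}` -/
lemma trace_sq_le {K : Matrix ι ι ℝ} (hs : Kᵀ = K) (i j : ℕ) :
    ((K ^ (i + j)).trace) ^ 2 ≤ (K ^ (2 * i)).trace * (K ^ (2 * j)).trace := by
  rw [← trace_pow_add hs i j, ← frob_pow hs i, ← frob_pow hs j]
  have h := Finset.sum_mul_sq_le_sq_mul_sq (Finset.univ : Finset (ι × ι))
    (fun p => (K ^ i) p.1 p.2) (fun p => (K ^ j) p.1 p.2)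
  simpa only [← Finset.univ_product_univ, Finset.sum_product] using h

lemma trace_three_sq_le {K : Matrix ι ι ℝ} (hs : Kᵀ = K) :
    ((K ^ 3).trace) ^ 2 ≤ (K ^ 2).trace * (K ^ 4).trace := by
  simpa using trace_sq_le hs 1 2

lemma abs_trace_five_le {K : Matrix ι ι ℝ} {L : ℝ} (hs : Kᵀ = K) (h : OpB K L) :
    |(K ^ 5).trace| ≤ L * (K ^ 4).trace := by
  have h4 := trace_even_nonneg hs 2
  simp only [Nat.reduceMul] at h4
  refine abs_le_of_sq_le_sq ?_ (mul_nonneg h.1 h4)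
  have h1 := trace_sq_le hs 2 3
  have h2 := trace_six_le hs h
  simp only [Nat.reduceMul, Nat.reduceAdd] at h1
  calc _ ≤ _ := h1
    _ ≤ (K ^ 4).trace * (L ^ 2 * (K ^ 4).trace) := mul_le_mul_of_nonneg_left h2 h4
    _ = _ := by ring

/-- the operator norm is bounded by the fourth root of `Tr K^4` -/
lemma opB_of_trace_four {K : Matrix ι ι ℝ} {L : ℝ} (hs : Kᵀ = K) (hL : 0 ≤ L)
    (h : (K ^ 4).trace ≤ L ^ 4) : OpB K L := by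
  refine ⟨hL, fun v => ?_⟩
  have hvv := dot_self_nonneg v
  -- |Kv|^2 = v . K^2 v
  have h1 : (K *ᵥ v) ⬝ᵥ (K *ᵥ v) = v ⬝ᵥ ((K ^ 2) *ᵥ v) := by
    rw [pow_two, ← Matrix.mulVec_mulVec, Matrix.dotProduct_mulVec v K (K *ᵥ v),
      ← Matrix.mulVec_transpose, hs]
  -- |K^2 v|^2 ≤ Tr K^4 |v|^2
  have h2 : ((K ^ 2) *ᵥ v) ⬝ᵥ ((K ^ 2) *ᵥ v) ≤ (K ^ 4).trace * (v ⬝ᵥ v) := by
    have h3 := frob_pow hs 2
    simp only [Nat.reduceMul] at h3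
    rw [← h3]
    simp only [Matrix.mulVec, dotProduct, Finset.sum_mul]
    refine Finset.sum_le_sum fun x _ => ?_
    have := Finset.sum_mul_sq_le_sq_mul_sq Finset.univ (fun y => (K ^ 2) x y) v
    calc _ = (∑ y, (K ^ 2) x y * v y) ^ 2 := by rw [← Finset.sum_mul]; ring
      _ ≤ _ := this
      _ = _ := by rw [Finset.sum_mul]; simp only [pow_two (v _)]
  have h4 := dot_sq_le v ((K ^ 2) *ᵥ v)
  have h5 : ((K *ᵥ v) ⬝ᵥ (K *ᵥ v)) ^ 2 ≤ (L ^ 2 * (v ⬝ᵥ v)) ^ 2 := by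
    rw [h1]
    calc _ ≤ _ := h4
      _ ≤ (v ⬝ᵥ v) * ((K ^ 4).trace * (v ⬝ᵥ v)) := mul_le_mul_of_nonneg_left h2 hvv
      _ ≤ (v ⬝ᵥ v) * (L ^ 4 * (v ⬝ᵥ v)) :=
          mul_le_mul_of_nonneg_left (mul_le_mul_of_nonneg_right h hvv) hvv
      _ = _ := by ring
  exact (abs_le_of_sq_le_sq' h5 (mul_nonneg (sq_nonneg L) hvv)).2

/-- `|f . K^j f| ≤ L^j |f|^2` -/
lemma form_le {K : Matrix ι ι ℝ} {L : ℝ} (h : OpB K L) (j : ℕ) (f g : ι → ℝ) :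
    |f ⬝ᵥ ((K ^ j) *ᵥ g)| ≤ L ^ j * (Real.sqrt (f ⬝ᵥ f) * Real.sqrt (g ⬝ᵥ g)) := by
  have hnn : 0 ≤ L ^ j * (Real.sqrt (f ⬝ᵥ f) * Real.sqrt (g ⬝ᵥ g)) :=
    mul_nonneg (pow_nonneg h.1 j) (mul_nonneg (Real.sqrt_nonneg _) (Real.sqrt_nonneg _))
  refine abs_le_of_sq_le_sq ?_ hnn
  have h1 := dot_sq_le f ((K ^ j) *ᵥ g)
  have h2 := (h.pow j).2 g
  calc _ ≤ _ := h1
    _ ≤ (f ⬝ᵥ f) * ((L ^ j) ^ 2 * (g ⬝ᵥ g)) := mul_le_mul_of_nonneg_left h2 (dot_self_nonneg f)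
    _ = _ := by
        rw [mul_pow, mul_pow, Real.sq_sqrt (dot_self_nonneg f), Real.sq_sqrt (dot_self_nonneg g)]
        ring

lemma form_self_le {K : Matrix ι ι ℝ} {L : ℝ} (h : OpB K L) (j : ℕ) (f : ι → ℝ) :
    |f ⬝ᵥ ((K ^ j) *ᵥ f)| ≤ L ^ j * (f ⬝ᵥ f) := by
  have h1 := form_le h j f f
  rwa [Real.mul_self_sqrt (dot_self_nonneg f)] at h1

/-- sum over pairs of `f x (K^j)_xy g y` -/
lemma sum_form (A : Matrix ι ι ℝ) (f g : ι → ℝ) :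
    ∑ x, ∑ y, f x * A x y * g y = f ⬝ᵥ (A *ᵥ g) := by
  simp only [dotProduct, Matrix.mulVec, Finset.mul_sum]
  exact Finset.sum_congr rfl fun x _ => Finset.sum_congr rfl fun y _ => by ring

/-- row sums of powers: `K 1_F = s 1_F` -/
lemma row_pow {K : Matrix ι ι ℝ} {s : ℝ} {u : ι → ℝ} (hr : K *ᵥ u = s • u) (j : ℕ) :
    (K ^ j) *ᵥ u = s ^ j • u := by
  induction j with
  | zero => simp
  | succ j ih =>
      rw [pow_succ, ← Matrix.mulVec_mulVec, hr, Matrix.mulVec_smul, ih, smul_smul]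
      ring_nf

/-- Cauchy–Schwarz over a set of pairs -/
lemma sum_pairs_sq_le (S : Finset (ι × ι)) (f g : ι → ι → ℝ) :
    (∑ p ∈ S, f p.1 p.2 * g p.1 p.2) ^ 2
      ≤ (∑ x, ∑ y, (f x y) ^ 2) * (∑ x, ∑ y, (g x y) ^ 2) := by
  have h := Finset.sum_mul_sq_le_sq_mul_sq S (fun p => f p.1 p.2) (fun p => g p.1 p.2)
  have hf : ∑ p ∈ S, (f p.1 p.2) ^ 2 ≤ ∑ x, ∑ y, (f x y) ^ 2 := by
    rw [← Finset.sum_product']
    exact Finset.sum_le_sum_of_subset_of_nonneg (by intro p _; simp) fun p _ _ => sq_nonneg _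
  have hg : ∑ p ∈ S, (g p.1 p.2) ^ 2 ≤ ∑ x, ∑ y, (g x y) ^ 2 := by
    rw [← Finset.sum_product']
    exact Finset.sum_le_sum_of_subset_of_nonneg (by intro p _; simp) fun p _ _ => sq_nonneg _
  have hf0 : 0 ≤ ∑ x, ∑ y, (f x y) ^ 2 :=
    Finset.sum_nonneg fun x _ => Finset.sum_nonneg fun y _ => sq_nonneg _
  exact h.trans (mul_le_mul hf hg (Finset.sum_nonneg fun p _ => sq_nonneg _) hf0)

/-- bias of a set of bad pairs: `|∑_S f| ≤ sqrt |S| sqrt(∑ f^2)` -/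
lemma sum_bad_le (S : Finset (ι × ι)) (f : ι → ι → ℝ) :
    |∑ p ∈ S, f p.1 p.2| ≤ Real.sqrt S.card * Real.sqrt (∑ x, ∑ y, (f x y) ^ 2) := by
  have hf0 : 0 ≤ ∑ x, ∑ y, (f x y) ^ 2 :=
    Finset.sum_nonneg fun x _ => Finset.sum_nonneg fun y _ => sq_nonneg _
  refine abs_le_of_sq_le_sq ?_ (mul_nonneg (Real.sqrt_nonneg _) (Real.sqrt_nonneg _))
  rw [mul_pow, Real.sq_sqrt (Nat.cast_nonneg _), Real.sq_sqrt hf0]
  have h := Finset.sum_mul_sq_le_sq_mul_sq S (fun _ => (1 : ℝ)) (fun p => f p.1 p.2)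
  simp only [one_mul, one_pow, Finset.sum_const, nsmul_eq_mul, mul_one] at h
  refine h.trans (mul_le_mul_of_nonneg_left ?_ (Nat.cast_nonneg _))
  rw [← Finset.sum_product']
  exact Finset.sum_le_sum_of_subset_of_nonneg (by intro p _; simp) fun p _ _ => sq_nonneg _

end Crest.Agent.R62.AvBase
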