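import Mathlib

/-!
R62: exact update formulas of the Schur step (helper704).

`K : Matrix ι ι ℝ` symmetric, `s^2 = 1`, `x ≠ y`, `a = K x x`, `b = K y y`, `c = K x y`,
`Δ = (1 - s c)^2 - a b ≠ 0`.  The step kills the indices `x, y`.
-/

set_option autoImplicit false
set_option linter.unusedSectionVars false
set_option linter.unusedVariables false

open Matrix Finset

namespace Crest.Agent.R62.Upd

variable {ι : Type*} [Fintype ι] [DecidableEq ι]

/-- Frobenius inner product. -/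
def ip (A B : Matrix ι ι ℝ) : ℝ := ∑ i, ∑ j, A i j * B i j

lemma ip_comm (A B : Matrix ι ι ℝ) : ip A B = ip B A := by
  simp [ip, mul_comm]

lemma ip_add_left (A A' B : Matrix ι ι ℝ) : ip (A + A') B = ip A B + ip A' B := by
  simp [ip, add_mul, Finset.sum_add_distrib]

lemma ip_add_right (A B B' : Matrix ι ι ℝ) : ip A (B + B') = ip A B + ip A B' := by
  simp [ip, mul_add, Finset.sum_add_distrib]

lemma ip_smul_left (r : ℝ) (A B : Matrix ι ι ℝ) : ip (r • A) B = r * ip A B := by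
  simp [ip, Finset.mul_sum, mul_assoc]

lemma ip_smul_right (r : ℝ) (A B : Matrix ι ι ℝ) : ip A (r • B) = r * ip A B := by
  rw [ip_comm, ip_smul_left, ip_comm]

lemma ip_eq_trace (A B : Matrix ι ι ℝ) : ip A B = (A * Bᵀ).trace := by
  simp [ip, Matrix.trace, Matrix.mul_apply]

lemma ip_vecMulVec (f g : ι → ℝ) (A : Matrix ι ι ℝ) :
    ip A (vecMulVec f g) = f ⬝ᵥ (A *ᵥ g) := by
  simp [ip, vecMulVec_apply, dotProduct, mulVec, Finset.mul_sum]
  refine Finset.sum_congr rfl fun i _ => Finset.sum_congr rfl fun j _ => by ring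

lemma ip_vecMulVec_vecMulVec (f g f' g' : ι → ℝ) :
    ip (vecMulVec f g) (vecMulVec f' g') = (f ⬝ᵥ f') * (g ⬝ᵥ g') := by
  simp only [ip, vecMulVec_apply, dotProduct, Finset.sum_mul_sum]
  refine Finset.sum_congr rfl fun i _ => Finset.sum_congr rfl fun j _ => by ring

/-- Kill rows and columns `x` and `y`. -/
def Pi2 (x y : ι) (A : Matrix ι ι ℝ) : Matrix ι ι ℝ :=
  fun i j => if i = x ∨ i = y ∨ j = x ∨ j = y then 0 else A i j

lemma Pi2_apply_of_ne {x y i j : ι} (A : Matrix ι ι ℝ) (h1 : i ≠ x) (h2 : i ≠ y) (h3 : j ≠ x)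
    (h4 : j ≠ y) : Pi2 x y A i j = A i j := by
  simp [Pi2, h1, h2, h3, h4]

lemma Pi2_left_x (x y j : ι) (A : Matrix ι ι ℝ) : Pi2 x y A x j = 0 := by simp [Pi2]
lemma Pi2_left_y (x y j : ι) (A : Matrix ι ι ℝ) : Pi2 x y A y j = 0 := by simp [Pi2]
lemma Pi2_right_x (x y j : ι) (A : Matrix ι ι ℝ) : Pi2 x y A j x = 0 := by simp [Pi2]
lemma Pi2_right_y (x y j : ι) (A : Matrix ι ι ℝ) : Pi2 x y A j y = 0 := by simp [Pi2]

/-- sum over all indices except `x`, `y`. -/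
lemma sum_ne (x y : ι) (hxy : x ≠ y) (f : ι → ℝ) :
    ∑ i, (if i = x ∨ i = y then 0 else f i) = ∑ i, f i - f x - f y := by
  have h : ∀ i, (if i = x ∨ i = y then 0 else f i)
      = f i - (if i = x then f x else 0) - (if i = y then f y else 0) := by
    intro i
    by_cases h1 : i = x
    · subst h1; simp [hxy]
    · by_cases h2 : i = y
      · subst h2; simp [h1]
      · simp [h1, h2]
  simp_rw [h]
  simp [Finset.sum_sub_distrib]

lemma ip_Pi2 {x y : ι} (hxy : x ≠ y) {A B : Matrix ι ι ℝ} (hA : A.IsSymm) (hB : B.IsSymm) :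
    ip (Pi2 x y A) (Pi2 x y B) = ip A B - 2 * ∑ j, A j x * B j x - 2 * ∑ j, A j y * B j y
      + A x x * B x x + A y y * B y y + 2 * (A x y * B x y) := by
  have hA' : ∀ i j, A i j = A j i := fun i j => (hA.apply i j).symm
  have hB' : ∀ i j, B i j = B j i := fun i j => (hB.apply i j).symm
  have h1 : ∀ i, (∑ j, Pi2 x y A i j * Pi2 x y B i j)
      = if i = x ∨ i = y then 0 else (∑ j, A i j * B i j - A i x * B i x - A i y * B i y) := by
    intro i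
    by_cases hi : i = x ∨ i = y
    · rw [if_pos hi]
      apply Finset.sum_eq_zero
      intro j _
      rcases hi with rfl | rfl <;> simp [Pi2]
    · rw [if_neg hi]
      rw [← sum_ne x y hxy (fun j => A i j * B i j)]
      refine Finset.sum_congr rfl fun j _ => ?_
      push Not at hi
      by_cases hj : j = x ∨ j = y
      · rw [if_pos hj]
        rcases hj with rfl | rfl <;> simp [Pi2]
      · rw [if_neg hj]
        push Not at hj
        rw [Pi2_apply_of_ne _ hi.1 hi.2 hj.1 hj.2, Pi2_apply_of_ne _ hi.1 hi.2 hj.1 hj.2]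
  unfold ip
  simp_rw [h1]
  rw [sum_ne x y hxy]
  simp only [Finset.sum_sub_distrib]
  have e1 : ∑ j, A x j * B x j = ∑ j, A j x * B j x :=
    Finset.sum_congr rfl fun j _ => by rw [hA' x j, hB' x j]
  have e2 : ∑ j, A y j * B y j = ∑ j, A j y * B j y :=
    Finset.sum_congr rfl fun j _ => by rw [hA' y j, hB' y j]
  rw [e1, e2, hA' y x, hB' y x]
  ring

/-- `j`-th power column. -/
def col (K : Matrix ι ι ℝ) (n : ℕ) (x : ι) : ι → ℝ := fun i => (K ^ n) i x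

lemma col_apply (K : Matrix ι ι ℝ) (n : ℕ) (x i : ι) : col K n x i = (K ^ n) i x := rfl

lemma pow_symm {K : Matrix ι ι ℝ} (hK : K.IsSymm) (n : ℕ) : (K ^ n).IsSymm := hK.pow n

lemma pow_apply_comm {K : Matrix ι ι ℝ} (hK : K.IsSymm) (n : ℕ) (x y : ι) :
    (K ^ n) x y = (K ^ n) y x := ((pow_symm hK n).apply x y).symm

lemma dot_col {K : Matrix ι ι ℝ} (hK : K.IsSymm) (m n : ℕ) (x y : ι) :
    col K m x ⬝ᵥ col K n y = (K ^ (m + n)) x y := by
  rw [pow_add, Matrix.mul_apply]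
  simp only [dotProduct, col]
  refine Finset.sum_congr rfl fun i _ => ?_
  rw [pow_apply_comm hK m i x]

lemma mulVec_col (K : Matrix ι ι ℝ) (m n : ℕ) (x : ι) :
    (K ^ m) *ᵥ col K n x = col K (m + n) x := by
  ext i
  rw [col_apply, pow_add, Matrix.mul_apply]
  simp [mulVec, dotProduct, col]


/-! ### The step -/

/-- `Δ`. -/
def Dl (s : ℝ) (K : Matrix ι ι ℝ) (x y : ι) : ℝ := (1 - s * K x y) ^ 2 - K x x * K y y
/-- `B_xx = b / Δ`. -/
noncomputable def Bxx (s : ℝ) (K : Matrix ι ι ℝ) (x y : ι) : ℝ := K y y / Dl s K x y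
/-- `B_xy = s (1 - s c) / Δ`. -/
noncomputable def Bxy (s : ℝ) (K : Matrix ι ι ℝ) (x y : ι) : ℝ := s * (1 - s * K x y) / Dl s K x y
/-- `B_yy = a / Δ`. -/
noncomputable def Byy (s : ℝ) (K : Matrix ι ι ℝ) (x y : ι) : ℝ := K x x / Dl s K x y

/-- symmetric combination `B_xx f f' + B_xy (f g' + g f') + B_yy g g'`. -/
noncomputable def sym2 (b1 b2 b3 : ℝ) (f g : ι → ℝ) : Matrix ι ι ℝ :=
  fun i j => b1 * (f i * f j) + b2 * (f i * g j + g i * f j) + b3 * (g i * g j)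

/-- mixed combination `[m] B [k]' + [k] B [m]'`. -/
noncomputable def mix2 (b1 b2 b3 : ℝ) (m n f g : ι → ℝ) : Matrix ι ι ℝ :=
  fun i j => b1 * (m i * f j + f i * m j) + b2 * (m i * g j + n i * f j + f i * n j + g i * m j)
    + b3 * (n i * g j + g i * n j)

/-- The matrix before killing the indices. -/
noncomputable def Khat (s : ℝ) (K : Matrix ι ι ℝ) (x y : ι) : Matrix ι ι ℝ :=
  K + sym2 (Bxx s K x y) (Bxy s K x y) (Byy s K x y) (col K 1 x) (col K 1 y)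

/-- The Schur step. -/
noncomputable def upd (s : ℝ) (K : Matrix ι ι ℝ) (x y : ι) : Matrix ι ι ℝ :=
  Pi2 x y (Khat s K x y)

lemma sym2_symm (b1 b2 b3 : ℝ) (f g : ι → ℝ) : (sym2 b1 b2 b3 f g).IsSymm := by
  ext i j; simp only [sym2, transpose_apply]; ring

lemma mix2_symm (b1 b2 b3 : ℝ) (m n f g : ι → ℝ) : (mix2 b1 b2 b3 m n f g).IsSymm := by
  ext i j; simp only [mix2, transpose_apply]; ring

lemma Khat_symm (s : ℝ) {K : Matrix ι ι ℝ} (hK : K.IsSymm) (x y : ι) :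
    (Khat s K x y).IsSymm := hK.add (sym2_symm _ _ _ _ _)

lemma Pi2_symm {A : Matrix ι ι ℝ} (hA : A.IsSymm) (x y : ι) : (Pi2 x y A).IsSymm := by
  ext i j
  have := hA.apply j i
  simp only [Pi2, transpose_apply]
  by_cases h : i = x ∨ i = y ∨ j = x ∨ j = y
  · rw [if_pos h, if_pos (by tauto)]
  · rw [if_neg h, if_neg (by tauto), this]

lemma upd_symm (s : ℝ) {K : Matrix ι ι ℝ} (hK : K.IsSymm) (x y : ι) :
    (upd s K x y).IsSymm := Pi2_symm (Khat_symm s hK x y) x y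

lemma col_one (K : Matrix ι ι ℝ) (x i : ι) : col K 1 x i = K i x := by simp [col]

lemma sym2_apply (b1 b2 b3 : ℝ) (f g : ι → ℝ) (i j : ι) :
    sym2 b1 b2 b3 f g i j =
      b1 * (f i * f j) + b2 * (f i * g j + g i * f j) + b3 * (g i * g j) := rfl

lemma mix2_apply (b1 b2 b3 : ℝ) (m n f g : ι → ℝ) (i j : ι) :
    mix2 b1 b2 b3 m n f g i j =
      b1 * (m i * f j + f i * m j) + b2 * (m i * g j + n i * f j + f i * n j + g i * m j)
        + b3 * (n i * g j + g i * n j) := rfl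

lemma Khat_apply (s : ℝ) (K : Matrix ι ι ℝ) (x y i j : ι) :
    Khat s K x y i j = K i j + (Bxx s K x y * (K i x * K j x)
      + Bxy s K x y * (K i x * K j y + K i y * K j x) + Byy s K x y * (K i y * K j y)) := by
  simp [Khat, sym2_apply, col_one]

lemma scal_x {s a b c D u v : ℝ} (hs : s ^ 2 = 1) (hD : D = (1 - s * c) ^ 2 - a * b)
    (h0 : D ≠ 0) :
    u + (b / D * (u * a) + s * (1 - s * c) / D * (u * c + v * a) + a / D * (v * c))
      = ((1 - s * c) * u + s * a * v) / D := by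
  field_simp
  rw [hD]
  linear_combination (-a * c * v) * hs

/-- Column `x` of `Khat`: `(p k_x + s a k_y)/Δ`. -/
lemma Khat_col_x {s : ℝ} (hs : s ^ 2 = 1) {K : Matrix ι ι ℝ} (hK : K.IsSymm) {x y : ι}
    (hD : Dl s K x y ≠ 0) (i : ι) :
    Khat s K x y i x = ((1 - s * K x y) * K i x + s * K x x * K i y) / Dl s K x y := by
  rw [Khat_apply, Bxx, Bxy, Byy]
  exact scal_x hs rfl hD


lemma scal_y {s a b c D u v : ℝ} (hs : s ^ 2 = 1) (hD : D = (1 - s * c) ^ 2 - a * b)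
    (h0 : D ≠ 0) :
    v + (b / D * (u * c) + s * (1 - s * c) / D * (u * b + v * c) + a / D * (v * b))
      = ((1 - s * c) * v + s * b * u) / D := by
  field_simp
  rw [hD]
  linear_combination (-b * c * u) * hs

/-- Column `y` of `Khat`: `(p k_y + s b k_x)/Δ`. -/
lemma Khat_col_y {s : ℝ} (hs : s ^ 2 = 1) {K : Matrix ι ι ℝ} (hK : K.IsSymm) {x y : ι}
    (hD : Dl s K x y ≠ 0) (i : ι) :
    Khat s K x y i y = ((1 - s * K x y) * K i y + s * K y y * K i x) / Dl s K x y := by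
  have hyx : K y x = K x y := hK.apply x y
  rw [Khat_apply, Bxx, Bxy, Byy, hyx]
  exact scal_y hs rfl hD

/-- `E = B (G₂ - 1) B`. -/
noncomputable def Exx (s : ℝ) (K : Matrix ι ι ℝ) (x y : ι) : ℝ :=
  Bxx s K x y ^ 2 * ((K ^ 2) x x - 1) + 2 * Bxx s K x y * Bxy s K x y * (K ^ 2) x y
    + Bxy s K x y ^ 2 * ((K ^ 2) y y - 1)
noncomputable def Exy (s : ℝ) (K : Matrix ι ι ℝ) (x y : ι) : ℝ :=
  Bxx s K x y * Bxy s K x y * ((K ^ 2) x x - 1)
    + (Bxx s K x y * Byy s K x y + Bxy s K x y ^ 2) * (K ^ 2) x y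
    + Bxy s K x y * Byy s K x y * ((K ^ 2) y y - 1)
noncomputable def Eyy (s : ℝ) (K : Matrix ι ι ℝ) (x y : ι) : ℝ :=
  Bxy s K x y ^ 2 * ((K ^ 2) x x - 1) + 2 * Bxy s K x y * Byy s K x y * (K ^ 2) x y
    + Byy s K x y ^ 2 * ((K ^ 2) y y - 1)

/-- Representative of `K'^2` before killing the indices. -/
noncomputable def Qhat (s : ℝ) (K : Matrix ι ι ℝ) (x y : ι) : Matrix ι ι ℝ :=
  K ^ 2 + mix2 (Bxx s K x y) (Bxy s K x y) (Byy s K x y) (col K 2 x) (col K 2 y)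
      (col K 1 x) (col K 1 y)
    + sym2 (Exx s K x y) (Exy s K x y) (Eyy s K x y) (col K 1 x) (col K 1 y)

lemma Qhat_symm (s : ℝ) {K : Matrix ι ι ℝ} (hK : K.IsSymm) (x y : ι) :
    (Qhat s K x y).IsSymm :=
  ((pow_symm hK 2).add (mix2_symm _ _ _ _ _ _ _)).add (sym2_symm _ _ _ _ _)

lemma Qhat_apply (s : ℝ) (K : Matrix ι ι ℝ) (x y i j : ι) :
    Qhat s K x y i j = (K ^ 2) i j
      + (Bxx s K x y * ((K ^ 2) i x * K j x + K i x * (K ^ 2) j x)
        + Bxy s K x y * ((K ^ 2) i x * K j y + (K ^ 2) i y * K j x + K i x * (K ^ 2) j y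
            + K i y * (K ^ 2) j x)
        + Byy s K x y * ((K ^ 2) i y * K j y + K i y * (K ^ 2) j y))
      + (Exx s K x y * (K i x * K j x) + Exy s K x y * (K i x * K j y + K i y * K j x)
        + Eyy s K x y * (K i y * K j y)) := by
  simp [Qhat, sym2_apply, mix2_apply, col_apply]

lemma sum_KK {K : Matrix ι ι ℝ} (hK : K.IsSymm) (i j : ι) :
    ∑ v, K i v * K j v = (K ^ 2) i j := by
  rw [pow_two, Matrix.mul_apply]
  exact Finset.sum_congr rfl fun v _ => by rw [hK.apply v j]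

/-- Product of two copies of `Khat` (full square). -/
lemma Khat_sq {s : ℝ} {K : Matrix ι ι ℝ} (hK : K.IsSymm) (x y i j : ι) :
    ∑ v, Khat s K x y i v * Khat s K x y j v =
      (K ^ 2) i j
      + (Bxx s K x y * ((K ^ 2) i x * K j x + K i x * (K ^ 2) j x)
        + Bxy s K x y * ((K ^ 2) i x * K j y + (K ^ 2) i y * K j x + K i x * (K ^ 2) j y
            + K i y * (K ^ 2) j x)
        + Byy s K x y * ((K ^ 2) i y * K j y + K i y * (K ^ 2) j y))
      + ((Bxx s K x y ^ 2 * (K ^ 2) x x + 2 * Bxx s K x y * Bxy s K x y * (K ^ 2) x y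
            + Bxy s K x y ^ 2 * (K ^ 2) y y) * (K i x * K j x)
        + (Bxx s K x y * Bxy s K x y * (K ^ 2) x x
            + (Bxx s K x y * Byy s K x y + Bxy s K x y ^ 2) * (K ^ 2) x y
            + Bxy s K x y * Byy s K x y * (K ^ 2) y y) * (K i x * K j y + K i y * K j x)
        + (Bxy s K x y ^ 2 * (K ^ 2) x x + 2 * Bxy s K x y * Byy s K x y * (K ^ 2) x y
            + Byy s K x y ^ 2 * (K ^ 2) y y) * (K i y * K j y)) := by
  set B1 := Bxx s K x y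
  set B2 := Bxy s K x y
  set B3 := Byy s K x y
  have e : ∀ v, Khat s K x y i v * Khat s K x y j v =
      K i v * K j v
      + ((B1 * K j x + B2 * K j y) * (K i v * K x v) + (B2 * K j x + B3 * K j y) * (K i v * K y v))
      + ((B1 * K i x + B2 * K i y) * (K j v * K x v) + (B2 * K i x + B3 * K i y) * (K j v * K y v))
      + ((B1 * K i x + B2 * K i y) * (B1 * K j x + B2 * K j y) * (K x v * K x v)
        + ((B1 * K i x + B2 * K i y) * (B2 * K j x + B3 * K j y)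
            + (B2 * K i x + B3 * K i y) * (B1 * K j x + B2 * K j y)) * (K x v * K y v)
        + (B2 * K i x + B3 * K i y) * (B2 * K j x + B3 * K j y) * (K y v * K y v)) := by
    intro v
    rw [Khat_apply, Khat_apply, hK.apply v x, hK.apply v y]
    ring
  simp_rw [e]
  simp only [Finset.sum_add_distrib, ← Finset.mul_sum, sum_KK hK]
  ring

lemma E_rel {s a b c D : ℝ} (hs : s ^ 2 = 1) (hD : D = (1 - s * c) ^ 2 - a * b)
    (h0 : D ≠ 0) (u v u' v' : ℝ) :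
    ((1 - s * c) * u + s * a * v) / D * (((1 - s * c) * u' + s * a * v') / D)
      + ((1 - s * c) * v + s * b * u) / D * (((1 - s * c) * v' + s * b * u') / D)
    = ((b / D) ^ 2 + (s * (1 - s * c) / D) ^ 2) * (u * u')
      + ((b / D) * (s * (1 - s * c) / D) + (s * (1 - s * c) / D) * (a / D)) * (u * v' + v * u')
      + ((s * (1 - s * c) / D) ^ 2 + (a / D) ^ 2) * (v * v') := by
  field_simp
  have h4 : s ^ 4 = 1 := by rw [show s ^ 4 = (s ^ 2) ^ 2 by ring, hs]; norm_num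
  have h3 : s ^ 3 = s := by rw [show s ^ 3 = s * s ^ 2 by ring, hs, mul_one]
  ring_nf
  simp only [h4, h3, hs]
  ring

/-- `K'^2 = Pi Qhat Pi`. -/
lemma upd_sq {s : ℝ} (hs : s ^ 2 = 1) {K : Matrix ι ι ℝ} (hK : K.IsSymm) {x y : ι}
    (hxy : x ≠ y) (hD : Dl s K x y ≠ 0) :
    (upd s K x y) ^ 2 = Pi2 x y (Qhat s K x y) := by
  ext i j
  rw [pow_two, Matrix.mul_apply]
  by_cases h : i = x ∨ i = y ∨ j = x ∨ j = y
  · have : Pi2 x y (Qhat s K x y) i j = 0 := by simp [Pi2, h]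
    rw [this]
    apply Finset.sum_eq_zero
    intro v _
    rcases h with rfl | rfl | rfl | rfl <;> simp [upd, Pi2]
  · push Not at h
    obtain ⟨h1, h2, h3, h4⟩ := h
    rw [Pi2_apply_of_ne _ h1 h2 h3 h4]
    have e : ∀ v, upd s K x y i v * upd s K x y v j
        = if v = x ∨ v = y then 0 else Khat s K x y i v * Khat s K x y j v := by
      intro v
      by_cases hv : v = x ∨ v = y
      · rw [if_pos hv]
        rcases hv with rfl | rfl <;> simp [upd, Pi2]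
      · rw [if_neg hv]
        push Not at hv
        rw [upd, Pi2_apply_of_ne _ h1 h2 hv.1 hv.2, Pi2_apply_of_ne _ hv.1 hv.2 h3 h4,
          (Khat_symm s hK x y).apply j v]
    simp_rw [e]
    rw [sum_ne x y hxy, Khat_sq hK, Khat_col_x hs hK hD, Khat_col_x hs hK hD,
      Khat_col_y hs hK hD, Khat_col_y hs hK hD, Qhat_apply]
    have hE := E_rel (D := Dl s K x y) hs rfl hD (K i x) (K i y) (K j x) (K j y)
    have hB : Bxx s K x y = K y y / Dl s K x y := rfl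
    have hB' : Byy s K x y = K x x / Dl s K x y := rfl
    have hB'' : Bxy s K x y = s * (1 - s * K x y) / Dl s K x y := rfl
    rw [← hB, ← hB', ← hB''] at hE
    simp only [Exx, Exy, Eyy]
    linear_combination (-1) * hE


/-! ### inner products with the rank-two blocks -/

lemma dot_mulVec_comm {A : Matrix ι ι ℝ} (hA : A.IsSymm) (f g : ι → ℝ) :
    f ⬝ᵥ (A *ᵥ g) = g ⬝ᵥ (A *ᵥ f) := by
  rw [Matrix.dotProduct_mulVec, dotProduct_comm]
  congr 1
  rw [← Matrix.mulVec_transpose, hA.eq]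

lemma sym2_eq (b1 b2 b3 : ℝ) (f g : ι → ℝ) : sym2 b1 b2 b3 f g =
    b1 • vecMulVec f f + b2 • (vecMulVec f g + vecMulVec g f) + b3 • vecMulVec g g := by
  ext i j; simp [sym2_apply, vecMulVec_apply]; ring

lemma mix2_eq (b1 b2 b3 : ℝ) (m n f g : ι → ℝ) : mix2 b1 b2 b3 m n f g =
    b1 • (vecMulVec m f + vecMulVec f m)
      + b2 • (vecMulVec m g + vecMulVec n f + vecMulVec f n + vecMulVec g m)
      + b3 • (vecMulVec n g + vecMulVec g n) := by
  ext i j; simp [mix2_apply, vecMulVec_apply]; ring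

lemma ip_sym2_right {A : Matrix ι ι ℝ} (hA : A.IsSymm) (b1 b2 b3 : ℝ) (f g : ι → ℝ) :
    ip A (sym2 b1 b2 b3 f g) = b1 * (f ⬝ᵥ (A *ᵥ f)) + 2 * b2 * (f ⬝ᵥ (A *ᵥ g))
      + b3 * (g ⬝ᵥ (A *ᵥ g)) := by
  rw [sym2_eq]
  simp only [ip_add_right, ip_smul_right, ip_vecMulVec]
  rw [dot_mulVec_comm hA g f]
  ring

lemma ip_sym2_left {A : Matrix ι ι ℝ} (hA : A.IsSymm) (b1 b2 b3 : ℝ) (f g : ι → ℝ) :
    ip (sym2 b1 b2 b3 f g) A = b1 * (f ⬝ᵥ (A *ᵥ f)) + 2 * b2 * (f ⬝ᵥ (A *ᵥ g))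
      + b3 * (g ⬝ᵥ (A *ᵥ g)) := by
  rw [ip_comm, ip_sym2_right hA]

lemma ip_mix2_right {A : Matrix ι ι ℝ} (hA : A.IsSymm) (b1 b2 b3 : ℝ) (m n f g : ι → ℝ) :
    ip A (mix2 b1 b2 b3 m n f g) = 2 * (b1 * (m ⬝ᵥ (A *ᵥ f))
      + b2 * (m ⬝ᵥ (A *ᵥ g) + n ⬝ᵥ (A *ᵥ f)) + b3 * (n ⬝ᵥ (A *ᵥ g))) := by
  rw [mix2_eq]
  simp only [ip_add_right, ip_smul_right, ip_vecMulVec]
  rw [dot_mulVec_comm hA f m, dot_mulVec_comm hA f n, dot_mulVec_comm hA g m,
    dot_mulVec_comm hA g n]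
  ring

lemma ip_sym2_sym2 (b1 b2 b3 c1 c2 c3 : ℝ) (f g u v : ι → ℝ) :
    ip (sym2 b1 b2 b3 f g) (sym2 c1 c2 c3 u v) =
      b1 * (c1 * (f ⬝ᵥ u) ^ 2 + 2 * c2 * ((f ⬝ᵥ u) * (f ⬝ᵥ v)) + c3 * (f ⬝ᵥ v) ^ 2)
      + 2 * b2 * (c1 * ((f ⬝ᵥ u) * (g ⬝ᵥ u)) + c2 * ((f ⬝ᵥ u) * (g ⬝ᵥ v) + (f ⬝ᵥ v) * (g ⬝ᵥ u))
          + c3 * ((f ⬝ᵥ v) * (g ⬝ᵥ v)))
      + b3 * (c1 * (g ⬝ᵥ u) ^ 2 + 2 * c2 * ((g ⬝ᵥ u) * (g ⬝ᵥ v)) + c3 * (g ⬝ᵥ v) ^ 2) := by
  rw [sym2_eq, sym2_eq]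
  simp only [ip_add_right, ip_smul_right, ip_add_left, ip_smul_left, ip_vecMulVec_vecMulVec]
  ring

lemma ip_sym2_mix2 (b1 b2 b3 c1 c2 c3 : ℝ) (f g m n u v : ι → ℝ) :
    ip (sym2 b1 b2 b3 f g) (mix2 c1 c2 c3 m n u v) =
      b1 * (2 * c1 * ((f ⬝ᵥ m) * (f ⬝ᵥ u)) + 2 * c2 * ((f ⬝ᵥ m) * (f ⬝ᵥ v) + (f ⬝ᵥ n) * (f ⬝ᵥ u))
          + 2 * c3 * ((f ⬝ᵥ n) * (f ⬝ᵥ v)))
      + b2 * (2 * c1 * ((f ⬝ᵥ m) * (g ⬝ᵥ u) + (g ⬝ᵥ m) * (f ⬝ᵥ u))
          + 2 * c2 * ((f ⬝ᵥ m) * (g ⬝ᵥ v) + (g ⬝ᵥ m) * (f ⬝ᵥ v) + (f ⬝ᵥ n) * (g ⬝ᵥ u)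
              + (g ⬝ᵥ n) * (f ⬝ᵥ u))
          + 2 * c3 * ((f ⬝ᵥ n) * (g ⬝ᵥ v) + (g ⬝ᵥ n) * (f ⬝ᵥ v)))
      + b3 * (2 * c1 * ((g ⬝ᵥ m) * (g ⬝ᵥ u)) + 2 * c2 * ((g ⬝ᵥ m) * (g ⬝ᵥ v) + (g ⬝ᵥ n) * (g ⬝ᵥ u))
          + 2 * c3 * ((g ⬝ᵥ n) * (g ⬝ᵥ v))) := by
  rw [sym2_eq, mix2_eq]
  simp only [ip_add_right, ip_smul_right, ip_add_left, ip_smul_left, ip_vecMulVec_vecMulVec]
  ring


lemma dot_cross {K : Matrix ι ι ℝ} (hK : K.IsSymm) (L : Matrix ι ι ℝ) (m n : ℕ) (x y : ι) :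
    col K m x ⬝ᵥ col L n y = (K ^ m * L ^ n) x y := by
  rw [Matrix.mul_apply]
  simp only [dotProduct, col]
  exact Finset.sum_congr rfl fun i _ => by rw [pow_apply_comm hK m i x]

lemma mulVec_col' (A L : Matrix ι ι ℝ) (n : ℕ) (y : ι) :
    A *ᵥ col L n y = fun i => (A * L ^ n) i y := by
  ext i; simp [mulVec, dotProduct, col, Matrix.mul_apply]

lemma dot_mid {K : Matrix ι ι ℝ} (hK : K.IsSymm) (A L : Matrix ι ι ℝ) (m n : ℕ) (x y : ι) :
    col K m x ⬝ᵥ (A *ᵥ col L n y) = (K ^ m * A * L ^ n) x y := by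
  rw [mulVec_col', Matrix.mul_assoc, Matrix.mul_apply]
  simp only [dotProduct, col]
  exact Finset.sum_congr rfl fun i _ => by rw [pow_apply_comm hK m i x]

/-- `<Khat(K), Khat(L)>`. -/
lemma ip_Khat_Khat (s t : ℝ) {K L : Matrix ι ι ℝ} (hK : K.IsSymm) (hL : L.IsSymm) (x y : ι) :
    ip (Khat s K x y) (Khat t L x y) =
      ip K L
      + (Bxx t L x y * (L * K * L) x x + 2 * Bxy t L x y * (L * K * L) x y
          + Byy t L x y * (L * K * L) y y)
      + (Bxx s K x y * (K * L * K) x x + 2 * Bxy s K x y * (K * L * K) x y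
          + Byy s K x y * (K * L * K) y y)
      + (Bxx s K x y * (Bxx t L x y * (K * L) x x ^ 2
            + 2 * Bxy t L x y * ((K * L) x x * (K * L) x y) + Byy t L x y * (K * L) x y ^ 2)
        + 2 * Bxy s K x y * (Bxx t L x y * ((K * L) x x * (K * L) y x)
            + Bxy t L x y * ((K * L) x x * (K * L) y y + (K * L) x y * (K * L) y x)
            + Byy t L x y * ((K * L) x y * (K * L) y y))
        + Byy s K x y * (Bxx t L x y * (K * L) y x ^ 2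
            + 2 * Bxy t L x y * ((K * L) y x * (K * L) y y) + Byy t L x y * (K * L) y y ^ 2)) := by
  unfold Khat
  rw [ip_add_right, ip_add_left, ip_add_left, ip_sym2_right hK, ip_sym2_left hL, ip_sym2_sym2]
  simp only [dot_mid hK, dot_mid hL, dot_cross hK, pow_one]
  ring

/-- `<Khat(K), Qhat(L)>`. -/
lemma ip_Khat_Qhat (s t : ℝ) {K L : Matrix ι ι ℝ} (hK : K.IsSymm) (hL : L.IsSymm) (x y : ι) :
    ip (Khat s K x y) (Qhat t L x y) =
      ip K (L ^ 2)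
      + 2 * (Bxx t L x y * (L ^ 2 * K * L) x x
          + Bxy t L x y * ((L ^ 2 * K * L) x y + (L ^ 2 * K * L) y x)
          + Byy t L x y * (L ^ 2 * K * L) y y)
      + (Exx t L x y * (L * K * L) x x + 2 * Exy t L x y * (L * K * L) x y
          + Eyy t L x y * (L * K * L) y y)
      + (Bxx s K x y * (K * L ^ 2 * K) x x + 2 * Bxy s K x y * (K * L ^ 2 * K) x y
          + Byy s K x y * (K * L ^ 2 * K) y y)
      + ip (sym2 (Bxx s K x y) (Bxy s K x y) (Byy s K x y) (col K 1 x) (col K 1 y))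
          (mix2 (Bxx t L x y) (Bxy t L x y) (Byy t L x y) (col L 2 x) (col L 2 y)
            (col L 1 x) (col L 1 y))
      + ip (sym2 (Bxx s K x y) (Bxy s K x y) (Byy s K x y) (col K 1 x) (col K 1 y))
          (sym2 (Exx t L x y) (Exy t L x y) (Eyy t L x y) (col L 1 x) (col L 1 y)) := by
  unfold Khat Qhat
  have hL2 : (L ^ 2).IsSymm := pow_symm hL 2
  simp only [ip_add_right, ip_add_left]
  rw [ip_mix2_right hK, ip_sym2_right hK, ip_sym2_left hL2]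
  simp only [dot_mid hK, dot_mid hL, pow_one]
  ring

end Crest.Agent.R62.Upd
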