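import Mathlib
import Crest.Agent.R62.AvBase
import Crest.Agent.R62.Upd

/-!
R62 (helper758): toolbox for the diagonal functionals `V = ∑ K_zz²`, `∑ ((K²)_zz - t)²`.
-/

set_option autoImplicit false
set_option linter.unusedSectionVars false
set_option linter.unusedVariables false

open Matrix Finset

namespace Crest.Agent.R62.DiagAv

open Crest.Agent.R62.AvBase (OpB)

variable {ι : Type*} [Fintype ι] [DecidableEq ι]

/-- Euclidean norm -/
noncomputable def n2 (f : ι → ℝ) : ℝ := Real.sqrt (∑ z, f z ^ 2)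
/-- Frobenius norm -/
noncomputable def fro (M : ι → ι → ℝ) : ℝ := Real.sqrt (∑ x, ∑ y, M x y ^ 2)

lemma n2_nonneg (f : ι → ℝ) : 0 ≤ n2 f := Real.sqrt_nonneg _
lemma fro_nonneg (M : ι → ι → ℝ) : 0 ≤ fro M := Real.sqrt_nonneg _

lemma n2_sq (f : ι → ℝ) : n2 f ^ 2 = ∑ z, f z ^ 2 :=
  Real.sq_sqrt (Finset.sum_nonneg fun _ _ => sq_nonneg _)

lemma fro_sq (M : ι → ι → ℝ) : fro M ^ 2 = ∑ x, ∑ y, M x y ^ 2 :=
  Real.sq_sqrt (Finset.sum_nonneg fun _ _ => Finset.sum_nonneg fun _ _ => sq_nonneg _)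

lemma n2_le_of {f : ι → ℝ} {c : ℝ} (hc : 0 ≤ c) (h : ∑ z, f z ^ 2 ≤ c ^ 2) : n2 f ≤ c :=
  Real.sqrt_le_iff.2 ⟨hc, h⟩

lemma fro_le_of {M : ι → ι → ℝ} {c : ℝ} (hc : 0 ≤ c) (h : ∑ x, ∑ y, M x y ^ 2 ≤ c ^ 2) :
    fro M ≤ c := Real.sqrt_le_iff.2 ⟨hc, h⟩

lemma n2_eq_sqrt_dot (f : ι → ℝ) : n2 f = Real.sqrt (f ⬝ᵥ f) := by
  simp only [n2, dotProduct, pow_two]

lemma cs (f g : ι → ℝ) : ∑ z, |f z| * |g z| ≤ n2 f * n2 g := by
  have h := Finset.sum_mul_sq_le_sq_mul_sq Finset.univ (fun z => |f z|) (fun z => |g z|)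
  simp only [sq_abs] at h
  have h0 : 0 ≤ n2 f * n2 g := mul_nonneg (n2_nonneg _) (n2_nonneg _)
  refine (abs_le_of_sq_le_sq' ?_ h0).2
  rw [mul_pow, n2_sq, n2_sq]
  exact h

lemma abs_sum_mul_le (f g : ι → ℝ) : |∑ z, f z * g z| ≤ n2 f * n2 g :=
  (Finset.abs_sum_le_sum_abs _ _).trans
    ((Finset.sum_le_sum fun z _ => (abs_mul (f z) (g z)).le).trans (cs f g))

lemma n2_abs (f : ι → ℝ) : n2 (fun z => |f z|) = n2 f := by
  simp [n2]

lemma n2_mono {f g : ι → ℝ} (h : ∀ z, |f z| ≤ |g z|) : n2 f ≤ n2 g := by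
  refine n2_le_of (n2_nonneg _) ?_
  rw [n2_sq]
  exact Finset.sum_le_sum fun z _ => sq_le_sq.2 (h z)

lemma abs_le_n2 (f : ι → ℝ) (z : ι) : |f z| ≤ n2 f := by
  refine Real.abs_le_sqrt ?_
  exact Finset.single_le_sum (f := fun z => f z ^ 2) (fun _ _ => sq_nonneg _) (Finset.mem_univ z)

lemma n2_le_l1 (f : ι → ℝ) : n2 f ≤ ∑ z, |f z| := by
  have h0 : 0 ≤ ∑ z, |f z| := Finset.sum_nonneg fun _ _ => abs_nonneg _
  refine n2_le_of h0 ?_
  have h1 : ∀ z, |f z| ≤ ∑ z, |f z| := fun z =>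
    Finset.single_le_sum (f := fun z => |f z|) (fun _ _ => abs_nonneg _) (Finset.mem_univ z)
  calc ∑ z, f z ^ 2 = ∑ z, |f z| * |f z| := by simp [pow_two]
    _ ≤ ∑ z, |f z| * ∑ z, |f z| := Finset.sum_le_sum fun z _ =>
        mul_le_mul_of_nonneg_left (h1 z) (abs_nonneg _)
    _ = _ := by rw [← Finset.sum_mul, pow_two]

lemma fcs (M N : ι → ι → ℝ) : ∑ x, ∑ y, |M x y| * |N x y| ≤ fro M * fro N := by
  have h := Finset.sum_mul_sq_le_sq_mul_sq (Finset.univ : Finset (ι × ι))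
    (fun p => |M p.1 p.2|) (fun p => |N p.1 p.2|)
  simp only [sq_abs] at h
  simp only [← Finset.univ_product_univ, Finset.sum_product] at h
  have h0 : 0 ≤ fro M * fro N := mul_nonneg (fro_nonneg _) (fro_nonneg _)
  refine (abs_le_of_sq_le_sq' ?_ h0).2
  rw [mul_pow, fro_sq, fro_sq]
  exact h

lemma fro_outer (f g : ι → ℝ) : fro (fun x y => f x * g y) = n2 f * n2 g := by
  have h1 : ∑ x, ∑ y, (f x * g y) ^ 2 = (n2 f * n2 g) ^ 2 := by
    rw [mul_pow, n2_sq, n2_sq, Finset.sum_mul_sum]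
    simp only [mul_pow]
  rw [fro, h1, Real.sqrt_sq (mul_nonneg (n2_nonneg _) (n2_nonneg _))]

/-- Frobenius norm of a sum of rank-one pieces. -/
lemma fro_rank_sum (q : ι → ℝ) (f g : ι → ι → ℝ) :
    fro (fun x y => ∑ z, q z * (f z x * g z y)) ≤ ∑ z, |q z| * (n2 (f z) * n2 (g z)) := by
  have h0 : 0 ≤ ∑ z, |q z| * (n2 (f z) * n2 (g z)) := Finset.sum_nonneg fun z _ =>
    mul_nonneg (abs_nonneg _) (mul_nonneg (n2_nonneg _) (n2_nonneg _))
  refine fro_le_of h0 ?_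
  have h1 : ∑ x, ∑ y, (∑ z, q z * (f z x * g z y)) ^ 2
      = ∑ z, ∑ z', (q z * q z') * ((∑ x, f z x * f z' x) * (∑ y, g z y * g z' y)) := by
    calc ∑ x, ∑ y, (∑ z, q z * (f z x * g z y)) ^ 2
        = ∑ x, ∑ y, ∑ z, ∑ z', (q z * q z') * ((f z x * f z' x) * (g z y * g z' y)) := by
          refine Finset.sum_congr rfl fun x _ => Finset.sum_congr rfl fun y _ => ?_
          rw [pow_two, Finset.sum_mul_sum]
          exact Finset.sum_congr rfl fun z _ => Finset.sum_congr rfl fun z' _ => by ring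
      _ = ∑ z, ∑ z', ∑ x, ∑ y, (q z * q z') * ((f z x * f z' x) * (g z y * g z' y)) := by
          rw [Finset.sum_congr rfl fun x _ => Finset.sum_comm]
          rw [Finset.sum_comm]
          refine Finset.sum_congr rfl fun z _ => ?_
          rw [Finset.sum_congr rfl fun x _ => Finset.sum_comm]
          rw [Finset.sum_comm]
      _ = _ := by
          refine Finset.sum_congr rfl fun z _ => Finset.sum_congr rfl fun z' _ => ?_
          rw [Finset.sum_mul_sum, Finset.mul_sum]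
          exact Finset.sum_congr rfl fun x _ => by rw [Finset.mul_sum]
  rw [h1, pow_two, Finset.sum_mul_sum]
  refine Finset.sum_le_sum fun z _ => Finset.sum_le_sum fun z' _ => ?_
  have e1 := abs_sum_mul_le (f z) (f z')
  have e2 := abs_sum_mul_le (g z) (g z')
  calc (q z * q z') * ((∑ x, f z x * f z' x) * (∑ y, g z y * g z' y))
      ≤ |(q z * q z') * ((∑ x, f z x * f z' x) * (∑ y, g z y * g z' y))| := le_abs_self _
    _ = (|q z| * |q z'|) * (|∑ x, f z x * f z' x| * |∑ y, g z y * g z' y|) := by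
        simp only [abs_mul]
    _ ≤ (|q z| * |q z'|) * ((n2 (f z) * n2 (f z')) * (n2 (g z) * n2 (g z'))) := by
        refine mul_le_mul_of_nonneg_left ?_ (mul_nonneg (abs_nonneg _) (abs_nonneg _))
        exact mul_le_mul e1 e2 (abs_nonneg _) (mul_nonneg (n2_nonneg _) (n2_nonneg _))
    _ = _ := by ring

lemma n2_smul (r : ℝ) (f : ι → ℝ) : n2 (fun z => r * f z) = |r| * n2 f := by
  have : ∑ z, (r * f z) ^ 2 = r ^ 2 * ∑ z, f z ^ 2 := by
    rw [Finset.mul_sum]; exact Finset.sum_congr rfl fun z _ => by ring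
  rw [n2, this, Real.sqrt_mul (sq_nonneg r), Real.sqrt_sq_eq_abs]; rfl

/-! ### operator bounds -/

lemma opB_form {E : Matrix ι ι ℝ} {η : ℝ} (h : OpB E η) (f g : ι → ℝ) :
    |∑ x, ∑ y, E x y * (f x * g y)| ≤ η * (n2 f * n2 g) := by
  have h1 := AvBase.form_le h 1 f g
  rw [pow_one, pow_one, ← AvBase.sum_form, ← n2_eq_sqrt_dot, ← n2_eq_sqrt_dot] at h1
  refine le_trans (le_of_eq ?_) h1
  congr 1
  exact Finset.sum_congr rfl fun x _ => Finset.sum_congr rfl fun y _ => by ring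

lemma opB_mulVec {K : Matrix ι ι ℝ} {L : ℝ} (h : OpB K L) (v : ι → ℝ) :
    n2 (K *ᵥ v) ≤ L * n2 v := by
  refine n2_le_of (mul_nonneg h.1 (n2_nonneg _)) ?_
  have h1 := h.2 v
  rw [mul_pow, n2_sq]
  simpa only [dotProduct, ← pow_two] using h1

/-- operator form bound against a sum of rank-one pieces -/
lemma opB_rank_sum {E : Matrix ι ι ℝ} {η : ℝ} (h : OpB E η) (q : ι → ℝ) (f g : ι → ι → ℝ) :
    |∑ x, ∑ y, E x y * ∑ z, q z * (f z x * g z y)|
      ≤ η * ∑ z, |q z| * (n2 (f z) * n2 (g z)) := by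
  have h1 : ∑ x, ∑ y, E x y * ∑ z, q z * (f z x * g z y)
      = ∑ z, q z * ∑ x, ∑ y, E x y * (f z x * g z y) := by
    simp only [Finset.mul_sum]
    rw [Finset.sum_congr rfl fun x _ => Finset.sum_comm]
    rw [Finset.sum_comm]
    exact Finset.sum_congr rfl fun z _ => Finset.sum_congr rfl fun x _ =>
      Finset.sum_congr rfl fun y _ => by ring
  rw [h1, Finset.mul_sum]
  refine (Finset.abs_sum_le_sum_abs _ _).trans (Finset.sum_le_sum fun z _ => ?_)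
  rw [abs_mul]
  calc |q z| * |∑ x, ∑ y, E x y * (f z x * g z y)|
      ≤ |q z| * (η * (n2 (f z) * n2 (g z))) :=
        mul_le_mul_of_nonneg_left (opB_form h _ _) (abs_nonneg _)
    _ = _ := by ring

/-! ### rows of `K` -/

/-- norm of the row `z` -/
noncomputable def rr (K : Matrix ι ι ℝ) (z : ι) : ℝ := n2 (fun x => K z x)

lemma rr_nonneg (K : Matrix ι ι ℝ) (z : ι) : 0 ≤ rr K z := n2_nonneg _

lemma sq_diag_eq {K : Matrix ι ι ℝ} (hK : K.IsSymm) (z : ι) : (K ^ 2) z z = ∑ x, K z x ^ 2 := by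
  rw [← Upd.sum_KK hK]
  exact Finset.sum_congr rfl fun x _ => by ring

lemma rr_sq {K : Matrix ι ι ℝ} (hK : K.IsSymm) (z : ι) : rr K z ^ 2 = (K ^ 2) z z := by
  rw [rr, n2_sq, sq_diag_eq hK]

lemma p_nonneg {K : Matrix ι ι ℝ} (hK : K.IsSymm) (z : ι) : 0 ≤ (K ^ 2) z z := by
  rw [← rr_sq hK]; exact sq_nonneg _

lemma abs_entry_le_rr {K : Matrix ι ι ℝ} (z x : ι) : |K z x| ≤ rr K z :=
  abs_le_n2 (fun x => K z x) x

lemma n2_col {K : Matrix ι ι ℝ} (hK : K.IsSymm) (z : ι) : n2 (fun x => K x z) = rr K z := by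
  unfold rr
  congr 1
  ext x
  exact hK.apply z x

lemma rr_le {K : Matrix ι ι ℝ} (hK : K.IsSymm) {L : ℝ} (h : OpB K L) (z : ι) : rr K z ≤ L := by
  have h1 := opB_mulVec h (Pi.single z 1)
  have h2 : n2 (Pi.single z (1 : ℝ)) = 1 := by
    have : ∑ i, (Pi.single z (1 : ℝ) : ι → ℝ) i ^ 2 = 1 := by
      rw [Finset.sum_eq_single z]
      · simp
      · intro b _ hb; simp [hb]
      · simp
    rw [n2, this, Real.sqrt_one]
  have h3 : (K *ᵥ Pi.single z 1) = fun x => K x z := by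
    ext x; simp
  rw [h2, h3, n2_col hK, mul_one] at h1
  exact h1

/-- row of `K²` -/
lemma n2_sq_row {K : Matrix ι ι ℝ} (hK : K.IsSymm) {L : ℝ} (h : OpB K L) (z : ι) :
    n2 (fun x => (K ^ 2) z x) ≤ L * rr K z := by
  have h1 := opB_mulVec h (fun x => K z x)
  have h2 : (K *ᵥ fun x => K z x) = fun x => (K ^ 2) z x := by
    ext x
    rw [← Upd.sum_KK hK]
    simp only [mulVec, dotProduct]
    exact Finset.sum_congr rfl fun v _ => by ring
  rw [h2] at h1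
  exact h1

/-- Frobenius norm of a matrix -/
noncomputable def frK (K : Matrix ι ι ℝ) : ℝ := fro (fun x y => K x y)

lemma frK_nonneg (K : Matrix ι ι ℝ) : 0 ≤ frK K := fro_nonneg _

lemma fro_eq_rr (K : Matrix ι ι ℝ) : frK K ^ 2 = ∑ z, rr K z ^ 2 := by
  rw [frK, fro_sq]
  exact Finset.sum_congr rfl fun z _ => by rw [rr, n2_sq]

lemma frK_sq {K : Matrix ι ι ℝ} (hK : K.IsSymm) : frK K ^ 2 = (K ^ 2).trace := by
  rw [fro_eq_rr, Matrix.trace]
  exact Finset.sum_congr rfl fun z _ => by rw [rr_sq hK]; rfl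

lemma n2_rr (K : Matrix ι ι ℝ) : n2 (rr K) = frK K := by
  have : ∑ z, rr K z ^ 2 = frK K ^ 2 := (fro_eq_rr K).symm
  rw [n2, this, Real.sqrt_sq (frK_nonneg _)]

/-- `∑_xy |K_xy| |f_x| |g_y| ≤ |f ∘ r| |g|` in the crude form `(∑ |f| r) |g|`. -/
lemma sum_absK (K : Matrix ι ι ℝ) (f g : ι → ℝ) :
    ∑ x, ∑ y, |K x y| * (|f x| * |g y|) ≤ (∑ x, |f x| * rr K x) * n2 g := by
  rw [Finset.sum_mul]
  refine Finset.sum_le_sum fun x _ => ?_
  calc ∑ y, |K x y| * (|f x| * |g y|) = |f x| * ∑ y, |K x y| * |g y| := by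
        rw [Finset.mul_sum]; exact Finset.sum_congr rfl fun y _ => by ring
    _ ≤ |f x| * (rr K x * n2 g) := mul_le_mul_of_nonneg_left (cs _ _) (abs_nonneg _)
    _ = _ := by ring

/-! ### the matrix `K diag(q) K` -/

/-- `(K diag(q) K)_xy` -/
def Nf (K : Matrix ι ι ℝ) (q : ι → ℝ) (x y : ι) : ℝ := ∑ z, q z * (K z x * K z y)

lemma Nf_symm (K : Matrix ι ι ℝ) (q : ι → ℝ) (x y : ι) : Nf K q x y = Nf K q y x := by
  unfold Nf
  exact Finset.sum_congr rfl fun z _ => by ring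

/-- `∑ |q_z| p_z` -/
noncomputable def Sq (K : Matrix ι ι ℝ) (q : ι → ℝ) : ℝ := ∑ z, |q z| * rr K z ^ 2

lemma Sq_nonneg (K : Matrix ι ι ℝ) (q : ι → ℝ) : 0 ≤ Sq K q :=
  Finset.sum_nonneg fun z _ => mul_nonneg (abs_nonneg _) (sq_nonneg _)

lemma Sq_le {K : Matrix ι ι ℝ} (hK : K.IsSymm) (q : ι → ℝ) :
    Sq K q ≤ n2 q * n2 (fun z => (K ^ 2) z z) := by
  refine le_trans (le_of_eq ?_) (cs q (fun z => (K ^ 2) z z))
  exact Finset.sum_congr rfl fun z _ => by rw [rr_sq hK, abs_of_nonneg (p_nonneg hK z)]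

lemma fro_Nf (K : Matrix ι ι ℝ) (hK : K.IsSymm) (q : ι → ℝ) : fro (Nf K q) ≤ Sq K q := by
  refine (fro_rank_sum q (fun z x => K z x) (fun z y => K z y)).trans (le_of_eq ?_)
  exact Finset.sum_congr rfl fun z _ => by rw [pow_two]; rfl

lemma E_Nf {K E : Matrix ι ι ℝ} (hK : K.IsSymm) {η : ℝ} (h : OpB E η) (q : ι → ℝ) :
    |∑ x, ∑ y, E x y * Nf K q x y| ≤ η * Sq K q := by
  refine (opB_rank_sum h q (fun z x => K z x) (fun z y => K z y)).trans (le_of_eq ?_)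
  congr 1
  exact Finset.sum_congr rfl fun z _ => by rw [pow_two]; rfl

lemma sum_Nf_diag {K : Matrix ι ι ℝ} (hK : K.IsSymm) (q : ι → ℝ) :
    ∑ x, Nf K q x x = ∑ z, q z * (K ^ 2) z z := by
  unfold Nf
  rw [Finset.sum_comm]
  refine Finset.sum_congr rfl fun z _ => ?_
  rw [sq_diag_eq hK, Finset.mul_sum]
  exact Finset.sum_congr rfl fun x _ => by ring

/-- entrywise square -/
def Ksq (K : Matrix ι ι ℝ) : Matrix ι ι ℝ := fun x y => K x y ^ 2

lemma Nf_diag {K : Matrix ι ι ℝ} (hK : K.IsSymm) (q : ι → ℝ) (x : ι) :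
    Nf K q x x = (Ksq K *ᵥ q) x := by
  unfold Nf
  simp only [mulVec, dotProduct, Ksq]
  refine Finset.sum_congr rfl fun z _ => ?_
  rw [hK.apply x z]
  ring

lemma n2_Nf_diag {K : Matrix ι ι ℝ} (hK : K.IsSymm) {L2 : ℝ} (h : OpB (Ksq K) L2) (q : ι → ℝ) :
    n2 (fun x => Nf K q x x) ≤ L2 * n2 q := by
  have : (fun x => Nf K q x x) = Ksq K *ᵥ q := by ext x; exact Nf_diag hK q x
  rw [this]
  exact opB_mulVec h q

/-! ### scalar coefficients -/

lemma coef {s a b c D : ℝ} (hs : s ^ 2 = 1) (hc : |c| ≤ 1 / 4) (hab : |a * b| ≤ 1 / 4)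
    (hD : D = (1 - s * c) ^ 2 - a * b) :
    5 / 16 ≤ D ∧ |s * (1 - s * c) / D - s| ≤ 4 * (|c| + |a * b|)
      ∧ |1 / D - 1| ≤ 8 * (|c| + |a * b|) := by
  have hsc : |s * c| = |c| := by
    have : |s| = 1 := by
      have := sq_abs s
      rw [hs] at this
      nlinarith [abs_nonneg s]
    rw [abs_mul, this, one_mul]
  have hs1 : |s| = 1 := by
    have := sq_abs s
    rw [hs] at this
    nlinarith [abs_nonneg s]
  set t := s * c with ht
  set m := a * b with hm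
  have h1 : |t| ≤ 1 / 4 := by rw [hsc]; exact hc
  have h1' := abs_le.1 h1
  have hab' := abs_le.1 hab
  have hD1 : 5 / 16 ≤ D := by
    rw [hD]
    nlinarith
  have hD0 : 0 < D := by linarith
  refine ⟨hD1, ?_, ?_⟩
  · have e : s * (1 - t) / D - s = s * ((1 - t) * t + m) / D := by
      rw [hD] at hD0 ⊢
      field_simp
      ring
    rw [e, abs_div, abs_mul, hs1, one_mul, abs_of_pos hD0, div_le_iff₀ hD0]
    have h2 : |(1 - t) * t + m| ≤ 5 / 4 * |c| + |m| := by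
      refine (abs_add_le _ _).trans ?_
      rw [abs_mul, hsc]
      have : |1 - t| ≤ 5 / 4 := by rw [abs_le]; constructor <;> linarith
      nlinarith [abs_nonneg c]
    have h3 : 4 * (|c| + |m|) * (5 / 16) ≤ 4 * (|c| + |m|) * D :=
      mul_le_mul_of_nonneg_left hD1 (by positivity)
    have h4 : 0 ≤ |m| := abs_nonneg _
    nlinarith
  · have e : 1 / D - 1 = (1 - D) / D := by field_simp
    rw [e, abs_div, abs_of_pos hD0, div_le_iff₀ hD0]
    have h2 : |1 - D| ≤ 9 / 4 * |c| + |m| := by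
      have : 1 - D = (2 - t) * t + m := by rw [hD]; ring
      rw [this]
      refine (abs_add_le _ _).trans ?_
      rw [abs_mul, hsc]
      have : |2 - t| ≤ 9 / 4 := by rw [abs_le]; constructor <;> linarith
      nlinarith [abs_nonneg c]
    have h3 : 8 * (|c| + |m|) * (5 / 16) ≤ 8 * (|c| + |m|) * D :=
      mul_le_mul_of_nonneg_left hD1 (by positivity)
    have h4 : 0 ≤ |m| := abs_nonneg _
    have h5 : 0 ≤ |c| := abs_nonneg _
    nlinarith

/-! ### weights -/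

/-- admissible weights on ordered pairs: `w = 1_{F×F} - E`, supported on good pairs. -/
structure Wt (K : Matrix ι ι ℝ) (F : Finset ι) (w : ι → ι → ℝ) (E : Matrix ι ι ℝ)
    (η ξ ω : ℝ) : Prop where
  symm : ∀ x y, w x y = w y x
  nonneg : ∀ x y, 0 ≤ w x y
  le : ∀ x y, w x y ≤ 1 + ω
  om : ω ≤ 1
  om0 : 0 ≤ ω
  E_eq : ∀ x y, E x y = (if x ∈ F ∧ y ∈ F then 1 else 0) - w x y
  opb : OpB E η
  row : ∀ x ∈ F, (F.card : ℝ) - ξ ≤ ∑ y, w x y
  mem : ∀ x y, w x y ≠ 0 → x ∈ F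
  ne : ∀ x y, w x y ≠ 0 → x ≠ y
  good : ∀ x y, w x y ≠ 0 → |K x y| ≤ 1 / 4
  good' : ∀ x y, w x y ≠ 0 → |K x x * K y y| ≤ 1 / 4

lemma Wt.le_two {K : Matrix ι ι ℝ} {F : Finset ι} {w : ι → ι → ℝ} {E : Matrix ι ι ℝ}
    {η ξ ω : ℝ} (h : Wt K F w E η ξ ω) (x y : ι) : w x y ≤ 2 := by
  have := h.le x y; have := h.om; linarith

lemma Wt.mem' {K : Matrix ι ι ℝ} {F : Finset ι} {w : ι → ι → ℝ} {E : Matrix ι ι ℝ}
    {η ξ ω : ℝ} (h : Wt K F w E η ξ ω) {x y : ι} (hxy : w x y ≠ 0) : y ∈ F :=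
  h.mem y x (by rwa [h.symm y x])

/-- weighted sum over ordered pairs -/
def SW (w : ι → ι → ℝ) (f : ι → ι → ℝ) : ℝ := ∑ x, ∑ y, w x y * f x y

lemma SW_mono {w : ι → ι → ℝ} (hw : ∀ x y, 0 ≤ w x y) {f g : ι → ι → ℝ}
    (h : ∀ x y, w x y ≠ 0 → f x y ≤ g x y) : SW w f ≤ SW w g := by
  refine Finset.sum_le_sum fun x _ => Finset.sum_le_sum fun y _ => ?_
  by_cases h0 : w x y = 0
  · simp [h0]
  · exact mul_le_mul_of_nonneg_left (h x y h0) (hw x y)

lemma SW_add (w f g : ι → ι → ℝ) : SW w (fun x y => f x y + g x y) = SW w f + SW w g := by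
  simp only [SW, mul_add, Finset.sum_add_distrib]

lemma SW_smul (w f : ι → ι → ℝ) (r : ℝ) : SW w (fun x y => r * f x y) = r * SW w f := by
  simp only [SW, Finset.mul_sum]
  exact Finset.sum_congr rfl fun x _ => Finset.sum_congr rfl fun y _ => by ring

lemma SW_swap {w : ι → ι → ℝ} (hw : ∀ x y, w x y = w y x) (f : ι → ι → ℝ) :
    SW w (fun x y => f y x) = SW w f := by
  unfold SW
  rw [Finset.sum_comm]
  exact Finset.sum_congr rfl fun x _ => Finset.sum_congr rfl fun y _ => by rw [hw y x]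

lemma SW_le_sum {w : ι → ι → ℝ} {c : ℝ} (hw : ∀ x y, w x y ≤ c) {f : ι → ι → ℝ}
    (h : ∀ x y, 0 ≤ f x y) : SW w f ≤ c * ∑ x, ∑ y, f x y := by
  unfold SW
  simp only [Finset.mul_sum]
  exact Finset.sum_le_sum fun x _ => Finset.sum_le_sum fun y _ =>
    mul_le_mul_of_nonneg_right (hw x y) (h x y)

lemma sum_ite_pair (F : Finset ι) (f : ι → ι → ℝ) :
    ∑ x, ∑ y, (if x ∈ F ∧ y ∈ F then 1 else 0) * f x y = ∑ x ∈ F, ∑ y ∈ F, f x y := by
  have h1 : ∀ x, ∑ y, (if x ∈ F ∧ y ∈ F then 1 else 0) * f x y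
      = if x ∈ F then ∑ y ∈ F, f x y else 0 := by
    intro x
    by_cases hx : x ∈ F
    · simp [hx, ite_mul, Finset.sum_ite_mem]
    · simp [hx]
  simp_rw [h1]
  simp [Finset.sum_ite_mem]

lemma SW_eq {K : Matrix ι ι ℝ} {F : Finset ι} {w : ι → ι → ℝ} {E : Matrix ι ι ℝ}
    {η ξ ω : ℝ} (h : Wt K F w E η ξ ω) (f : ι → ι → ℝ) :
    SW w f = ∑ x ∈ F, ∑ y ∈ F, f x y - ∑ x, ∑ y, E x y * f x y := by
  rw [← sum_ite_pair, ← Finset.sum_sub_distrib]
  refine Finset.sum_congr rfl fun x _ => ?_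
  rw [← Finset.sum_sub_distrib]
  refine Finset.sum_congr rfl fun y _ => ?_
  rw [h.E_eq]
  ring

/-! ### further sums -/

/-- norm of the indicator of `F` -/
lemma n2_ind (F : Finset ι) : n2 (fun y => if y ∈ F then (1 : ℝ) else 0) = Real.sqrt F.card := by
  unfold n2
  congr 1
  simp [ite_pow]

/-- `∑_y |f_y| ≤ sqrt ρ |f|` for `f` supported on `F` -/
lemma l1_le {F : Finset ι} {f : ι → ℝ} (hf : ∀ y, y ∉ F → f y = 0) :
    ∑ y, |f y| ≤ Real.sqrt F.card * n2 f := by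
  have h := cs (fun y => if y ∈ F then (1 : ℝ) else 0) f
  rw [n2_ind] at h
  refine le_trans (le_of_eq ?_) h
  refine Finset.sum_congr rfl fun y _ => ?_
  by_cases hy : y ∈ F
  · simp [hy]
  · simp [hy, hf y hy]

lemma row_l1 {K : Matrix ι ι ℝ} {F : Finset ι} (hK : K.IsSymm)
    (hF : ∀ i, i ∉ F → ∀ j, K i j = 0) (x : ι) :
    ∑ y, |K x y| ≤ Real.sqrt F.card * rr K x :=
  l1_le (f := fun y => K x y) fun y hy => by rw [← hK.apply x y]; exact hF y hy x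

lemma SW_row {K : Matrix ι ι ℝ} {F : Finset ι} {w : ι → ι → ℝ} {E : Matrix ι ι ℝ}
    {η ξ ω : ℝ} (h : Wt K F w E η ξ ω) {f : ι → ℝ} (hf : ∀ x, 0 ≤ f x)
    (hf0 : ∀ x, x ∉ F → f x = 0) :
    (F.card - ξ) * ∑ x, f x ≤ SW w (fun x y => f x) := by
  unfold SW
  rw [Finset.mul_sum]
  refine Finset.sum_le_sum fun x _ => ?_
  rw [← Finset.sum_mul]
  by_cases hx : x ∈ F
  · exact mul_le_mul_of_nonneg_right (h.row x hx) (hf x)
  · simp [hf0 x hx]

/-- sum over `F × F` of `N` -/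
lemma sum_F_Nf {K : Matrix ι ι ℝ} {F : Finset ι} (hK : K.IsSymm)
    (hF : ∀ i, i ∉ F → ∀ j, K i j = 0) {s : ℝ} (hs : s ^ 2 = 1)
    (hrow : ∀ i ∈ F, ∑ j, K i j = s) {q : ι → ℝ} (hq : ∀ z, z ∉ F → q z = 0) :
    ∑ x ∈ F, ∑ y ∈ F, Nf K q x y = ∑ z, q z := by
  have h1 : ∀ z, ∑ x ∈ F, K z x = ∑ x, K z x := by
    intro z
    refine Finset.sum_subset (Finset.subset_univ _) fun x _ hx => ?_
    rw [← hK.apply z x]; exact hF x hx z
  have h2 : ∑ x ∈ F, ∑ y ∈ F, Nf K q x y = ∑ z, q z * ((∑ x ∈ F, K z x) * (∑ y ∈ F, K z y)) := by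
    unfold Nf
    rw [Finset.sum_congr rfl fun x _ => Finset.sum_comm, Finset.sum_comm]
    refine Finset.sum_congr rfl fun z _ => ?_
    rw [Finset.sum_mul_sum, Finset.mul_sum]
    exact Finset.sum_congr rfl fun x _ => by rw [Finset.mul_sum]
  rw [h2]
  refine Finset.sum_congr rfl fun z _ => ?_
  by_cases hz : z ∈ F
  · rw [h1, hrow z hz, ← pow_two, hs, mul_one]
  · rw [hq z hz, zero_mul]

lemma abs_s {s : ℝ} (hs : s ^ 2 = 1) : |s| = 1 := by
  have := sq_abs s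
  rw [hs] at this
  nlinarith [abs_nonneg s]

lemma cube_le (f : ι → ℝ) : ∑ x, |f x| * f x ^ 2 ≤ n2 f * n2 f ^ 2 := by
  rw [n2_sq, Finset.mul_sum]
  exact Finset.sum_le_sum fun x _ => mul_le_mul_of_nonneg_right (abs_le_n2 f x) (sq_nonneg _)

lemma sum_mul_sum_eq (f g : ι → ℝ) : ∑ x, ∑ y, f x * g y = (∑ x, f x) * ∑ y, g y :=
  (Finset.sum_mul_sum _ _ _ _).symm

end Crest.Agent.R62.DiagAv
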