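import Mathlib
import Crest.Agent.R62.DiagAv

/-!
R62 (helper758): averaged one-step inequality for `V = ∑ K_zz²`.
-/

set_option autoImplicit false
set_option linter.unusedSectionVars false
set_option linter.unusedVariables false

open Matrix Finset

namespace Crest.Agent.R62.AvV

open Crest.Agent.R62.AvBase (OpB)
open Crest.Agent.R62.DiagAv

variable {ι : Type*} [Fintype ι] [DecidableEq ι]

/-- diagonal of `K` -/
def dg (K : Matrix ι ι ℝ) (z : ι) : ℝ := K z z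

/-- quartic row sum -/
def kk (K : Matrix ι ι ℝ) (x : ι) : ℝ := ∑ z, K z x ^ 4

lemma kk_nonneg (K : Matrix ι ι ℝ) (x : ι) : 0 ≤ kk K x :=
  Finset.sum_nonneg fun z _ => by positivity

/-- `V` -/
def Vf (K : Matrix ι ι ℝ) : ℝ := ∑ z, K z z ^ 2

lemma Vf_nonneg (K : Matrix ι ι ℝ) : 0 ≤ Vf K := Finset.sum_nonneg fun z _ => sq_nonneg _

lemma n2_dg_sq (K : Matrix ι ι ℝ) : n2 (dg K) ^ 2 = Vf K := n2_sq _

/-- change of the diagonal entry -/
noncomputable def del (s : ℝ) (K : Matrix ι ι ℝ) (x y z : ι) : ℝ :=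
  Upd.Bxx s K x y * (K z x * K z x) + Upd.Bxy s K x y * (K z x * K z y + K z y * K z x)
    + Upd.Byy s K x y * (K z y * K z y)

lemma Khat_diag (s : ℝ) (K : Matrix ι ι ℝ) (x y z : ι) :
    Upd.Khat s K x y z z = K z z + del s K x y z := by
  rw [Upd.Khat_apply, del]

lemma sum_upd_diag (s : ℝ) (K : Matrix ι ι ℝ) {x y : ι} (hxy : x ≠ y) (f : ℝ → ℝ) :
    ∑ z, (if z = x ∨ z = y then 0 else f (Upd.upd s K x y z z))
      = ∑ z, f (K z z + del s K x y z) - f (K x x + del s K x y x)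
        - f (K y y + del s K x y y) := by
  have h : ∀ z, (if z = x ∨ z = y then 0 else f (Upd.upd s K x y z z))
      = (if z = x ∨ z = y then 0 else f (K z z + del s K x y z)) := by
    intro z
    by_cases hz : z = x ∨ z = y
    · simp [hz]
    · rw [if_neg hz, if_neg hz]
      push Not at hz
      rw [Upd.upd, Upd.Pi2_apply_of_ne _ hz.1 hz.2 hz.1 hz.2, Khat_diag]
  simp_rw [h]
  rw [Upd.sum_ne x y hxy]

/-- exact change of `V` -/
lemma V_upd (s : ℝ) (K : Matrix ι ι ℝ) {x y : ι} (hxy : x ≠ y) :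
    Vf (Upd.upd s K x y) - Vf K = 2 * ∑ z, K z z * del s K x y z + ∑ z, del s K x y z ^ 2
      - (K x x + del s K x y x) ^ 2 - (K y y + del s K x y y) ^ 2 := by
  have h1 : Vf (Upd.upd s K x y)
      = ∑ z, (if z = x ∨ z = y then 0 else (Upd.upd s K x y z z) ^ 2) := by
    unfold Vf
    refine Finset.sum_congr rfl fun z _ => ?_
    by_cases hz : z = x ∨ z = y
    · rw [if_pos hz]
      rcases hz with rfl | rfl <;> simp [Upd.upd, Upd.Pi2]
    · rw [if_neg hz]
  rw [h1, sum_upd_diag s K hxy (fun t => t ^ 2), Vf, Finset.mul_sum]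
  have h2 : ∑ z, (K z z + del s K x y z) ^ 2
      = ∑ z, K z z ^ 2 + (∑ z, 2 * (K z z * del s K x y z) + ∑ z, del s K x y z ^ 2) := by
    rw [← Finset.sum_add_distrib, ← Finset.sum_add_distrib]
    exact Finset.sum_congr rfl fun z _ => by ring
  rw [h2]
  ring

lemma sum_a_del (s : ℝ) {K : Matrix ι ι ℝ} (q : ι → ℝ) (x y : ι) :
    ∑ z, q z * del s K x y z = Upd.Bxx s K x y * Nf K q x x
      + 2 * Upd.Bxy s K x y * Nf K q x y + Upd.Byy s K x y * Nf K q y y := by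
  simp only [del, Nf, Finset.mul_sum]
  rw [← Finset.sum_add_distrib, ← Finset.sum_add_distrib]
  exact Finset.sum_congr rfl fun z _ => by ring

/-- scalar facts about the coefficients on a good pair -/
structure Cf (s a b c g hx hy : ℝ) : Prop where
  g_sub : |g - s| ≤ 4 * (|c| + |a * b|)
  g_le : |g| ≤ 4
  hx_sub : |hx - a| ≤ 8 * (|c| + |a * b|) * |a|
  hy_sub : |hy - b| ≤ 8 * (|c| + |a * b|) * |b|
  hx_le : |hx| ≤ 16 / 5 * |a|
  hy_le : |hy| ≤ 16 / 5 * |b|
  hx_sq : hx ^ 2 ≤ (1 + 34 * (|c| + |a * b|)) * a ^ 2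
  hy_sq : hy ^ 2 ≤ (1 + 34 * (|c| + |a * b|)) * b ^ 2
  hxy : |hx * hy| ≤ 64 / 25

lemma cf_of {s a b c D : ℝ} (hs : s ^ 2 = 1) (hc : |c| ≤ 1 / 4) (hab : |a * b| ≤ 1 / 4)
    (hD : D = (1 - s * c) ^ 2 - a * b) :
    Cf s a b c (s * (1 - s * c) / D) (a / D) (b / D) := by
  obtain ⟨h1, h2, h3⟩ := coef hs hc hab hD
  have hD0 : 0 < D := by linarith
  set e := |c| + |a * b| with he
  have he0 : 0 ≤ e := by positivity
  have he1 : e ≤ 1 / 2 := by rw [he]; linarith
  have hi : 1 / D ≤ 16 / 5 := by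
    rw [div_le_iff₀ hD0]; linarith
  have hi0 : 0 < 1 / D := by positivity
  have hsq : (1 / D) ^ 2 ≤ 1 + 34 * e := by
    have : (1 / D) ^ 2 = 1 + (1 / D - 1) * (1 / D + 1) := by ring
    rw [this]
    have h4 : (1 / D - 1) * (1 / D + 1) ≤ |1 / D - 1| * (1 / D + 1) :=
      mul_le_mul_of_nonneg_right (le_abs_self _) (by linarith)
    have h5 : |1 / D - 1| * (1 / D + 1) ≤ (8 * e) * (17 / 4) := by
      refine mul_le_mul h3 ?_ (by linarith) (by positivity)
      linarith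
    linarith
  have key : ∀ t : ℝ, |t / D - t| ≤ 8 * e * |t| := by
    intro t
    have : t / D - t = (1 / D - 1) * t := by ring
    rw [this, abs_mul]
    exact mul_le_mul_of_nonneg_right h3 (abs_nonneg _)
  have key2 : ∀ t : ℝ, |t / D| ≤ 16 / 5 * |t| := by
    intro t
    have : t / D = (1 / D) * t := by ring
    rw [this, abs_mul, abs_of_pos hi0]
    exact mul_le_mul_of_nonneg_right hi (abs_nonneg _)
  have key3 : ∀ t : ℝ, (t / D) ^ 2 ≤ (1 + 34 * e) * t ^ 2 := by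
    intro t
    have : (t / D) ^ 2 = (1 / D) ^ 2 * t ^ 2 := by ring
    rw [this]
    exact mul_le_mul_of_nonneg_right hsq (sq_nonneg _)
  have hs1 : |s| = 1 := by
    have := sq_abs s
    rw [hs] at this
    nlinarith [abs_nonneg s]
  refine ⟨h2, ?_, key a, key b, key2 a, key2 b, key3 a, key3 b, ?_⟩
  · rw [abs_div, abs_mul, hs1, one_mul, abs_of_pos hD0, div_le_iff₀ hD0]
    have : |1 - s * c| ≤ 5 / 4 := by
      have h6 : |s * c| ≤ 1 / 4 := by rw [abs_mul, hs1, one_mul]; exact hc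
      have := abs_le.1 h6
      rw [abs_le]; constructor <;> linarith
    linarith
  · have : a / D * (b / D) = (1 / D) ^ 2 * (a * b) := by ring
    rw [this, abs_mul, abs_of_nonneg (sq_nonneg _)]
    have h7 : (1 / D) ^ 2 ≤ (16 / 5) ^ 2 := pow_le_pow_left₀ hi0.le hi 2
    calc (1 / D) ^ 2 * |a * b| ≤ (16 / 5) ^ 2 * (1 / 4) :=
          mul_le_mul h7 hab (abs_nonneg _) (by norm_num)
      _ = 64 / 25 := by norm_num

lemma cf_good {s : ℝ} (hs : s ^ 2 = 1) {K : Matrix ι ι ℝ} {x y : ι} (hc : |K x y| ≤ 1 / 4)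
    (hab : |K x x * K y y| ≤ 1 / 4) :
    Cf s (K x x) (K y y) (K x y) (Upd.Bxy s K x y) (Upd.Byy s K x y) (Upd.Bxx s K x y) :=
  cf_of hs hc hab rfl

lemma del_sq_le {s a b c g hx hy u v : ℝ} (h : Cf s a b c g hx hy) :
    (hy * (u * u) + g * (u * v + v * u) + hx * (v * v)) ^ 2
      ≤ 600 * (u ^ 2 * v ^ 2)
        + (9 / 8 + 39 * (|c| + |a * b|)) * (b ^ 2 * u ^ 4 + a ^ 2 * v ^ 4) := by
  set e := |c| + |a * b| with he
  have he0 : 0 ≤ e := by positivity
  set A := 2 * g * (u * v) with hA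
  set B := hy * u ^ 2 + hx * v ^ 2 with hB
  have e1 : (hy * (u * u) + g * (u * v + v * u) + hx * (v * v)) ^ 2
      = 9 * A ^ 2 + 9 / 8 * B ^ 2 - 8 * (A - B / 8) ^ 2 := by
    rw [hA, hB]; ring
  have h1 : A ^ 2 ≤ 64 * (u ^ 2 * v ^ 2) := by
    have : A ^ 2 = 4 * g ^ 2 * (u ^ 2 * v ^ 2) := by rw [hA]; ring
    rw [this]
    have hg : g ^ 2 ≤ 16 := by
      have := sq_le_sq.2 (show |g| ≤ |(4 : ℝ)| by rw [abs_of_pos (by norm_num : (0:ℝ) < 4)]; exact h.g_le)
      linarith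
    have : 0 ≤ u ^ 2 * v ^ 2 := by positivity
    nlinarith
  have h2 : B ^ 2 ≤ (1 + 34 * e) * (b ^ 2 * u ^ 4 + a ^ 2 * v ^ 4) + 128 / 25 * (u ^ 2 * v ^ 2) := by
    have : B ^ 2 = hy ^ 2 * u ^ 4 + hx ^ 2 * v ^ 4 + 2 * (hx * hy) * (u ^ 2 * v ^ 2) := by
      rw [hB]; ring
    rw [this]
    have h3 : hy ^ 2 * u ^ 4 ≤ (1 + 34 * e) * b ^ 2 * u ^ 4 :=
      mul_le_mul_of_nonneg_right h.hy_sq (by positivity)
    have h4 : hx ^ 2 * v ^ 4 ≤ (1 + 34 * e) * a ^ 2 * v ^ 4 :=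
      mul_le_mul_of_nonneg_right h.hx_sq (by positivity)
    have h5 : (hx * hy) * (u ^ 2 * v ^ 2) ≤ 64 / 25 * (u ^ 2 * v ^ 2) :=
      mul_le_mul_of_nonneg_right ((le_abs_self _).trans h.hxy) (by positivity)
    linarith
  rw [e1]
  have h6 : 0 ≤ (A - B / 8) ^ 2 := sq_nonneg _
  have h7 : 0 ≤ u ^ 2 * v ^ 2 := by positivity
  have h8 : 0 ≤ b ^ 2 * u ^ 4 + a ^ 2 * v ^ 4 := by positivity
  have h9 : 0 ≤ e * (b ^ 2 * u ^ 4 + a ^ 2 * v ^ 4) := mul_nonneg he0 h8
  nlinarith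

lemma lin_aux {g s N e : ℝ} (h : |g - s| ≤ 4 * e) : g * N ≤ s * N + 4 * (e * |N|) := by
  have h1 : (g - s) * N ≤ |g - s| * |N| := by rw [← abs_mul]; exact le_abs_self _
  have h2 := mul_le_mul_of_nonneg_right h (abs_nonneg N)
  have h3 : g * N = s * N + (g - s) * N := by ring
  rw [h3]; linarith

lemma lin_aux' {h b N e : ℝ} (hh : |h - b| ≤ 8 * e * |b|) :
    h * N ≤ b * N + 8 * (e * (|b| * |N|)) := by
  have h1 : (h - b) * N ≤ |h - b| * |N| := by rw [← abs_mul]; exact le_abs_self _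
  have h2 := mul_le_mul_of_nonneg_right hh (abs_nonneg N)
  have h3 : h * N = b * N + (h - b) * N := by ring
  rw [h3]; linarith

/-- pointwise bound of the change of `V` on a good pair -/
lemma V_point {s : ℝ} (hs : s ^ 2 = 1) {K : Matrix ι ι ℝ} (hK : K.IsSymm) {x y : ι}
    (hxy : x ≠ y) (hc : |K x y| ≤ 1 / 4) (hab : |K x x * K y y| ≤ 1 / 4) :
    Vf (Upd.upd s K x y) - Vf K ≤ -(K x x ^ 2 + K y y ^ 2)
      + 4 * (s * Nf K (dg K) x y)
      + 2 * (K y y * Nf K (dg K) x x + K x x * Nf K (dg K) y y)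
      + 16 * ((|K x y| + |K x x * K y y|) * |Nf K (dg K) x y|)
      + 16 * ((|K x y| + |K x x * K y y|)
          * (|K y y| * |Nf K (dg K) x x| + |K x x| * |Nf K (dg K) y y|))
      + 7 * (|K x x * K y y| * (K x x ^ 2 + K y y ^ 2))
      + 18 * (|K x y| * (K x x ^ 2 + K y y ^ 2))
      + 600 * ∑ z, K z x ^ 2 * K z y ^ 2
      + (9 / 8 + 39 * (|K x y| + |K x x * K y y|)) * (K y y ^ 2 * kk K x + K x x ^ 2 * kk K y) := by
  have hyx : K y x = K x y := hK.apply x y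
  have H := cf_good hs hc hab
  have hsum : ∑ z, K z z * del s K x y z = Upd.Bxx s K x y * Nf K (dg K) x x
      + 2 * Upd.Bxy s K x y * Nf K (dg K) x y + Upd.Byy s K x y * Nf K (dg K) y y :=
    sum_a_del s (dg K) x y
  rw [V_upd s K hxy, hsum]
  set a := K x x with ha
  set b := K y y with hb
  set c := K x y with hc'
  set g := Upd.Bxy s K x y with hg
  set hx := Upd.Byy s K x y with hhx
  set hy := Upd.Bxx s K x y with hhy
  set N1 := Nf K (dg K) x x
  set N2 := Nf K (dg K) x y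
  set N3 := Nf K (dg K) y y
  set e := |c| + |a * b| with he
  have he0 : 0 ≤ e := by positivity
  -- the squares
  have hsq : ∑ z, del s K x y z ^ 2 ≤ 600 * ∑ z, K z x ^ 2 * K z y ^ 2
      + (9 / 8 + 39 * e) * (b ^ 2 * kk K x + a ^ 2 * kk K y) := by
    have : 600 * ∑ z, K z x ^ 2 * K z y ^ 2
      + (9 / 8 + 39 * e) * (b ^ 2 * kk K x + a ^ 2 * kk K y)
      = ∑ z, (600 * (K z x ^ 2 * K z y ^ 2)
        + (9 / 8 + 39 * e) * (b ^ 2 * K z x ^ 4 + a ^ 2 * K z y ^ 4)) := by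
      simp only [kk, Finset.mul_sum, Finset.sum_add_distrib, mul_add]
    rw [this]
    exact Finset.sum_le_sum fun z _ => del_sq_le H
  -- the two removed indices
  have hdx : del s K x y x = hy * a ^ 2 + 2 * g * (a * c) + hx * c ^ 2 := by
    rw [del]; ring
  have hdy : del s K x y y = hy * c ^ 2 + 2 * g * (b * c) + hx * b ^ 2 := by
    rw [del, hyx]; ring
  have hc0 : 0 ≤ |c| := abs_nonneg _
  have hab0 : 0 ≤ |a * b| := abs_nonneg _
  have cc : c ^ 2 ≤ 1 / 4 * |c| := by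
    rw [← sq_abs, pow_two]
    exact mul_le_mul_of_nonneg_right hc hc0
  have sx : |a * del s K x y x| ≤ (7 / 2 * |a * b| + 9 * |c|) * a ^ 2 := by
    rw [hdx]
    have e1 : a * (hy * a ^ 2 + 2 * g * (a * c) + hx * c ^ 2)
        = (a * hy) * a ^ 2 + 2 * g * c * a ^ 2 + (a * hx) * c ^ 2 := by ring
    rw [e1]
    have f1 : |(a * hy) * a ^ 2| ≤ 16 / 5 * |a * b| * a ^ 2 := by
      rw [abs_mul, abs_of_nonneg (sq_nonneg a), abs_mul]
      refine mul_le_mul_of_nonneg_right ?_ (sq_nonneg a)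
      have := mul_le_mul_of_nonneg_left H.hy_le (abs_nonneg a)
      rw [abs_mul]; linarith
    have f2 : |2 * g * c * a ^ 2| ≤ 8 * |c| * a ^ 2 := by
      rw [abs_mul, abs_of_nonneg (sq_nonneg a), abs_mul, abs_mul, abs_two]
      refine mul_le_mul_of_nonneg_right ?_ (sq_nonneg a)
      have := mul_le_mul_of_nonneg_right H.g_le hc0
      linarith
    have f3 : |(a * hx) * c ^ 2| ≤ 4 / 5 * |c| * a ^ 2 := by
      rw [abs_mul, abs_of_nonneg (sq_nonneg c), abs_mul]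
      have h1 : |a| * |hx| ≤ 16 / 5 * a ^ 2 := by
        have := mul_le_mul_of_nonneg_left H.hx_le (abs_nonneg a)
        have h2 : |a| * |a| = a ^ 2 := by rw [abs_mul_abs_self]; ring
        linarith
      calc |a| * |hx| * c ^ 2 ≤ 16 / 5 * a ^ 2 * (1 / 4 * |c|) :=
            mul_le_mul h1 cc (sq_nonneg _) (by positivity)
        _ = _ := by ring
    have f4 := abs_add_le (a * hy * a ^ 2 + 2 * g * c * a ^ 2) (a * hx * c ^ 2)
    have f5 := abs_add_le (a * hy * a ^ 2) (2 * g * c * a ^ 2)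
    have f6 : 0 ≤ |a * b| * a ^ 2 := by positivity
    have f7 : 0 ≤ |c| * a ^ 2 := by positivity
    nlinarith
  have sy : |b * del s K x y y| ≤ (7 / 2 * |a * b| + 9 * |c|) * b ^ 2 := by
    rw [hdy]
    have e1 : b * (hy * c ^ 2 + 2 * g * (b * c) + hx * b ^ 2)
        = (b * hx) * b ^ 2 + 2 * g * c * b ^ 2 + (b * hy) * c ^ 2 := by ring
    rw [e1]
    have f1 : |(b * hx) * b ^ 2| ≤ 16 / 5 * |a * b| * b ^ 2 := by
      rw [abs_mul, abs_of_nonneg (sq_nonneg b), abs_mul]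
      refine mul_le_mul_of_nonneg_right ?_ (sq_nonneg b)
      have := mul_le_mul_of_nonneg_left H.hx_le (abs_nonneg b)
      rw [abs_mul]; linarith
    have f2 : |2 * g * c * b ^ 2| ≤ 8 * |c| * b ^ 2 := by
      rw [abs_mul, abs_of_nonneg (sq_nonneg b), abs_mul, abs_mul, abs_two]
      refine mul_le_mul_of_nonneg_right ?_ (sq_nonneg b)
      have := mul_le_mul_of_nonneg_right H.g_le hc0
      linarith
    have f3 : |(b * hy) * c ^ 2| ≤ 4 / 5 * |c| * b ^ 2 := by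
      rw [abs_mul, abs_of_nonneg (sq_nonneg c), abs_mul]
      have h1 : |b| * |hy| ≤ 16 / 5 * b ^ 2 := by
        have := mul_le_mul_of_nonneg_left H.hy_le (abs_nonneg b)
        have h2 : |b| * |b| = b ^ 2 := by rw [abs_mul_abs_self]; ring
        linarith
      calc |b| * |hy| * c ^ 2 ≤ 16 / 5 * b ^ 2 * (1 / 4 * |c|) :=
            mul_le_mul h1 cc (sq_nonneg _) (by positivity)
        _ = _ := by ring
    have f4 := abs_add_le (b * hx * b ^ 2 + 2 * g * c * b ^ 2) (b * hy * c ^ 2)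
    have f5 := abs_add_le (b * hx * b ^ 2) (2 * g * c * b ^ 2)
    have f6 : 0 ≤ |a * b| * b ^ 2 := by positivity
    have f7 : 0 ≤ |c| * b ^ 2 := by positivity
    nlinarith
  -- the linear term
  have l2 : g * N2 ≤ s * N2 + 4 * (e * |N2|) := lin_aux H.g_sub
  have l1 : hy * N1 ≤ b * N1 + 8 * (e * (|b| * |N1|)) := lin_aux' H.hy_sub
  have l3 : hx * N3 ≤ a * N3 + 8 * (e * (|a| * |N3|)) := lin_aux' H.hx_sub
  have m1 := (abs_le.1 sx).1
  have m2 := (abs_le.1 sy).1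
  have q1 : 0 ≤ (del s K x y x) ^ 2 := sq_nonneg _
  have q2 : 0 ≤ (del s K x y y) ^ 2 := sq_nonneg _
  have r1 : (a + del s K x y x) ^ 2
      = a ^ 2 + 2 * (a * del s K x y x) + del s K x y x ^ 2 := by ring
  have r2 : (b + del s K x y y) ^ 2
      = b ^ 2 + 2 * (b * del s K x y y) + del s K x y y ^ 2 := by ring
  rw [r1, r2]
  linarith

/-! ### the average -/

section avg

variable {K E : Matrix ι ι ℝ} {F : Finset ι} {w : ι → ι → ℝ} {s Λ L2 η ξ ω : ℝ}

lemma b1 (hF : ∀ i, i ∉ F → ∀ j, K i j = 0) (hw : Wt K F w E η ξ ω) :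
    SW w (fun x y => -(K x x ^ 2 + K y y ^ 2)) ≤ -(2 * (F.card - ξ) * Vf K) := by
  have h1 := SW_row hw (f := fun x => K x x ^ 2) (fun x => sq_nonneg _)
    (fun x hx => by rw [hF x hx]; norm_num)
  have h2 : SW w (fun x y => K y y ^ 2) = SW w (fun x y => K x x ^ 2) :=
    SW_swap hw.symm (fun x y => K x x ^ 2)
  have h3 : SW w (fun x y => -(K x x ^ 2 + K y y ^ 2))
      = -(SW w (fun x y => K x x ^ 2) + SW w (fun x y => K y y ^ 2)) := by
    simp only [SW, mul_add, mul_neg, Finset.sum_add_distrib, Finset.sum_neg_distrib]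
  rw [h3, h2, Vf]
  linarith

lemma b2 {h1 : ℝ} (hK : K.IsSymm) (hF : ∀ i, i ∉ F → ∀ j, K i j = 0) (hs : s ^ 2 = 1)
    (hrow : ∀ i ∈ F, ∑ j, K i j = s) (hw : Wt K F w E η ξ ω)
    (hE1 : |∑ x, ∑ y, E x y * Nf K (dg K) x y| ≤ h1) :
    SW w (fun x y => 4 * (s * Nf K (dg K) x y)) ≤ 4 * (|K.trace| + h1) := by
  have h1' : SW w (fun x y => 4 * (s * Nf K (dg K) x y)) = 4 * (s * SW w (Nf K (dg K))) := by
    rw [SW_smul w (fun x y => s * Nf K (dg K) x y), SW_smul]
  have h2 := SW_eq hw (Nf K (dg K))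
  rw [sum_F_Nf hK hF hs hrow (q := dg K) (fun z hz => hF z hz z)] at h2
  have h4 : |SW w (Nf K (dg K))| ≤ |K.trace| + h1 := by
    rw [h2]
    refine (abs_sub _ _).trans ?_
    exact add_le_add le_rfl hE1
  rw [h1']
  have h5 : s * SW w (Nf K (dg K)) ≤ |SW w (Nf K (dg K))| := by
    refine (le_abs_self _).trans ?_
    rw [abs_mul, abs_s hs, one_mul]
  linarith

lemma b3 (hK : K.IsSymm) (hF : ∀ i, i ∉ F → ∀ j, K i j = 0) (hL2 : OpB (Ksq K) L2)
    (hw : Wt K F w E η ξ ω) :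
    SW w (fun x y => 2 * (K y y * Nf K (dg K) x x + K x x * Nf K (dg K) y y))
      ≤ 4 * (|K.trace| * Sq K (dg K) + η * L2 * Vf K) := by
  have h1 : SW w (fun x y => 2 * (K y y * Nf K (dg K) x x + K x x * Nf K (dg K) y y))
      = 4 * SW w (fun x y => Nf K (dg K) x x * K y y) := by
    have h2 := SW_swap hw.symm (fun x y => Nf K (dg K) x x * K y y)
    have h3 : SW w (fun x y => 2 * (K y y * Nf K (dg K) x x + K x x * Nf K (dg K) y y))
        = 2 * (SW w (fun x y => Nf K (dg K) x x * K y y)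
          + SW w (fun x y => Nf K (dg K) y y * K x x)) := by
      rw [SW_smul w (fun x y => K y y * Nf K (dg K) x x + K x x * Nf K (dg K) y y), ← SW_add]
      congr 2
      ext x y; ring
    rw [h3, h2]; ring
  have h4 := SW_eq hw (fun x y => Nf K (dg K) x x * K y y)
  have h5 : ∑ x ∈ F, ∑ y ∈ F, Nf K (dg K) x x * K y y
      = (∑ z, dg K z * (K ^ 2) z z) * K.trace := by
    rw [← Finset.sum_mul_sum, ← sum_Nf_diag hK]
    congr 1
    · refine Finset.sum_subset (Finset.subset_univ _) fun x _ hx => ?_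
      unfold Nf
      refine Finset.sum_eq_zero fun z _ => ?_
      rw [← hK.apply z x, hF x hx z]; ring
    · refine Finset.sum_subset (Finset.subset_univ _) fun x _ hx => ?_
      exact hF x hx x
  have h6 : |∑ z, dg K z * (K ^ 2) z z| ≤ Sq K (dg K) := by
    refine (Finset.abs_sum_le_sum_abs _ _).trans (le_of_eq ?_)
    exact Finset.sum_congr rfl fun z _ => by
      rw [abs_mul, rr_sq hK, abs_of_nonneg (p_nonneg hK z)]
  have h7 := opB_form hw.opb (fun x => Nf K (dg K) x x) (dg K)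
  have h8 : |∑ x, ∑ y, E x y * (Nf K (dg K) x x * K y y)| ≤ η * (L2 * Vf K) := by
    refine h7.trans ?_
    refine mul_le_mul_of_nonneg_left ?_ hw.opb.1
    rw [← n2_dg_sq, pow_two, ← mul_assoc]
    exact mul_le_mul_of_nonneg_right (n2_Nf_diag hK hL2 (dg K)) (n2_nonneg _)
  rw [h1, h4, h5]
  have h9 : (∑ z, dg K z * (K ^ 2) z z) * K.trace ≤ |K.trace| * Sq K (dg K) := by
    refine (le_abs_self _).trans ?_
    rw [abs_mul, mul_comm]
    exact mul_le_mul_of_nonneg_left h6 (abs_nonneg _)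
  have h10 := neg_abs_le (∑ x, ∑ y, E x y * (Nf K (dg K) x x * K y y))
  linarith

lemma b4 (hK : K.IsSymm) (hw : Wt K F w E η ξ ω) :
    SW w (fun x y => 16 * ((|K x y| + |K x x * K y y|) * |Nf K (dg K) x y|))
      ≤ 32 * ((frK K + Vf K) * Sq K (dg K)) := by
  rw [SW_smul w (fun x y => (|K x y| + |K x x * K y y|) * |Nf K (dg K) x y|)]
  have h1 := SW_le_sum hw.le_two
    (f := fun x y => (|K x y| + |K x x * K y y|) * |Nf K (dg K) x y|)
    (fun x y => mul_nonneg (add_nonneg (abs_nonneg _) (abs_nonneg _)) (abs_nonneg _))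
  have h2 : ∑ x, ∑ y, (|K x y| + |K x x * K y y|) * |Nf K (dg K) x y|
      = ∑ x, ∑ y, |K x y| * |Nf K (dg K) x y|
        + ∑ x, ∑ y, |K x x * K y y| * |Nf K (dg K) x y| := by
    simp only [add_mul, Finset.sum_add_distrib]
  have h3 := fcs (fun x y => K x y) (Nf K (dg K))
  have h4 := fcs (fun x y => K x x * K y y) (Nf K (dg K))
  have h5 : fro (fun x y => K x x * K y y) = Vf K := by
    rw [fro_outer (fun x => K x x) (fun x => K x x), ← pow_two]; exact n2_sq _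
  rw [h5] at h4
  have h6 := fro_Nf K hK (dg K)
  have h7 : fro (fun x y => K x y) * fro (Nf K (dg K)) ≤ frK K * Sq K (dg K) :=
    mul_le_mul_of_nonneg_left h6 (frK_nonneg K)
  have h8 := mul_le_mul_of_nonneg_left h6 (Vf_nonneg K)
  rw [h2] at h1
  linarith

lemma b5 (hK : K.IsSymm) (hL2 : OpB (Ksq K) L2) (hw : Wt K F w E η ξ ω) :
    SW w (fun x y => 16 * ((|K x y| + |K x x * K y y|)
          * (|K y y| * |Nf K (dg K) x x| + |K x x| * |Nf K (dg K) y y|)))
      ≤ 64 * ((frK K + Vf K) * L2 * Vf K) := by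
  set f : ι → ι → ℝ := fun x y => (|K x y| + |K x x * K y y|) * (|K y y| * |Nf K (dg K) x x|)
    with hf
  have h0 : SW w (fun x y => 16 * ((|K x y| + |K x x * K y y|)
          * (|K y y| * |Nf K (dg K) x x| + |K x x| * |Nf K (dg K) y y|)))
      = 32 * SW w f := by
    have h2 := SW_swap hw.symm f
    have h3 : SW w (fun x y => 16 * ((|K x y| + |K x x * K y y|)
          * (|K y y| * |Nf K (dg K) x x| + |K x x| * |Nf K (dg K) y y|)))
        = 16 * (SW w f + SW w (fun x y => f y x)) := by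
      rw [← SW_add, ← SW_smul]
      congr 1
      ext x y
      simp only [hf]
      rw [hK.apply x y, mul_comm (K y y) (K x x)]
      ring
    rw [h3, h2]; ring
  have h1 := SW_le_sum hw.le_two (f := f)
    (fun x y => mul_nonneg (add_nonneg (abs_nonneg _) (abs_nonneg _))
      (mul_nonneg (abs_nonneg _) (abs_nonneg _)))
  have h2 : ∑ x, ∑ y, f x y
      = ∑ x, ∑ y, |K x y| * (|Nf K (dg K) x x| * |K y y|)
        + (∑ x, |K x x| * |Nf K (dg K) x x|) * ∑ y, |K y y| * |K y y| := by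
    rw [← sum_mul_sum_eq, ← Finset.sum_add_distrib]
    refine Finset.sum_congr rfl fun x _ => ?_
    rw [← Finset.sum_add_distrib]
    refine Finset.sum_congr rfl fun y _ => ?_
    simp only [hf]
    rw [abs_mul]
    ring
  have hN := n2_Nf_diag hK hL2 (dg K)
  have h3 := sum_absK K (fun x => Nf K (dg K) x x) (dg K)
  have h4 : ∑ x, |Nf K (dg K) x x| * rr K x ≤ L2 * n2 (dg K) * frK K := by
    have := cs (fun x => Nf K (dg K) x x) (rr K)
    rw [n2_rr] at this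
    have h5 : ∑ x, |Nf K (dg K) x x| * rr K x = ∑ x, |Nf K (dg K) x x| * |rr K x| :=
      Finset.sum_congr rfl fun x _ => by rw [abs_of_nonneg (rr_nonneg K x)]
    rw [h5]
    exact this.trans (mul_le_mul_of_nonneg_right hN (frK_nonneg K))
  have h5 : ∑ x, |K x x| * |Nf K (dg K) x x| ≤ n2 (dg K) * (L2 * n2 (dg K)) :=
    (cs (dg K) (fun x => Nf K (dg K) x x)).trans
      (mul_le_mul_of_nonneg_left hN (n2_nonneg _))
  have h6 : ∑ y, |K y y| * |K y y| = Vf K := by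
    unfold Vf
    exact Finset.sum_congr rfl fun y _ => by rw [abs_mul_abs_self]; ring
  have hV := n2_dg_sq K
  have h7 : (∑ x, |Nf K (dg K) x x| * rr K x) * n2 (dg K) ≤ frK K * L2 * Vf K := by
    refine (mul_le_mul_of_nonneg_right h4 (n2_nonneg _)).trans (le_of_eq ?_)
    rw [← hV]; ring
  have h8 : (∑ x, |K x x| * |Nf K (dg K) x x|) * Vf K ≤ Vf K * L2 * Vf K := by
    refine (mul_le_mul_of_nonneg_right h5 (Vf_nonneg K)).trans (le_of_eq ?_)
    rw [← hV]; ring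
  rw [h6] at h2
  rw [h0]
  have h9 : ∑ x, ∑ y, |K x y| * (|Nf K (dg K) x x| * |K y y|) ≤ frK K * L2 * Vf K := h3.trans h7
  nlinarith

lemma b6 (hF : ∀ i, i ∉ F → ∀ j, K i j = 0) (hw : Wt K F w E η ξ ω) :
    SW w (fun x y => 7 * (|K x x * K y y| * (K x x ^ 2 + K y y ^ 2)))
      ≤ 28 * (Real.sqrt F.card * Vf K ^ 2) := by
  set f : ι → ι → ℝ := fun x y => |K x x * K y y| * K x x ^ 2 with hf
  have h0 : SW w (fun x y => 7 * (|K x x * K y y| * (K x x ^ 2 + K y y ^ 2)))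
      = 14 * SW w f := by
    have h2 := SW_swap hw.symm f
    have h3 : SW w (fun x y => 7 * (|K x x * K y y| * (K x x ^ 2 + K y y ^ 2)))
        = 7 * (SW w f + SW w (fun x y => f y x)) := by
      rw [← SW_add, ← SW_smul]
      congr 1
      ext x y
      simp only [hf]
      rw [mul_comm (K y y) (K x x)]
      ring
    rw [h3, h2]; ring
  have h1 := SW_le_sum hw.le_two (f := f) (fun x y => mul_nonneg (abs_nonneg _) (sq_nonneg _))
  have h2 : ∑ x, ∑ y, f x y = (∑ x, |K x x| * K x x ^ 2) * ∑ y, |K y y| := by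
    rw [← sum_mul_sum_eq]
    refine Finset.sum_congr rfl fun x _ => Finset.sum_congr rfl fun y _ => ?_
    simp only [hf]
    rw [abs_mul]; ring
  have h3 := cube_le (dg K)
  have h4 := l1_le (F := F) (f := dg K) (fun y hy => hF y hy y)
  have hV := n2_dg_sq K
  have h5 : (∑ x, |K x x| * K x x ^ 2) * ∑ y, |K y y| ≤ Real.sqrt F.card * Vf K ^ 2 := by
    refine (mul_le_mul h3 h4 (Finset.sum_nonneg fun _ _ => abs_nonneg _)
      (mul_nonneg (n2_nonneg _) (sq_nonneg _))).trans (le_of_eq ?_)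
    rw [← hV]; ring
  rw [h0]
  linarith

lemma b7 (hK : K.IsSymm) (hF : ∀ i, i ∉ F → ∀ j, K i j = 0) (hr : ∀ x, rr K x ≤ Λ)
    (hw : Wt K F w E η ξ ω) :
    SW w (fun x y => 18 * (|K x y| * (K x x ^ 2 + K y y ^ 2)))
      ≤ 72 * (Real.sqrt F.card * Λ * Vf K) := by
  set f : ι → ι → ℝ := fun x y => |K x y| * K x x ^ 2 with hf
  have h0 : SW w (fun x y => 18 * (|K x y| * (K x x ^ 2 + K y y ^ 2)))
      = 36 * SW w f := by
    have h2 := SW_swap hw.symm f
    have h3 : SW w (fun x y => 18 * (|K x y| * (K x x ^ 2 + K y y ^ 2)))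
        = 18 * (SW w f + SW w (fun x y => f y x)) := by
      rw [← SW_add, ← SW_smul]
      congr 1
      ext x y
      simp only [hf]
      rw [hK.apply x y]
      ring
    rw [h3, h2]; ring
  have h1 := SW_le_sum hw.le_two (f := f) (fun x y => mul_nonneg (abs_nonneg _) (sq_nonneg _))
  have h2 : ∑ x, ∑ y, f x y ≤ Real.sqrt F.card * Λ * Vf K := by
    unfold Vf
    rw [Finset.mul_sum]
    refine Finset.sum_le_sum fun x _ => ?_
    simp only [hf]
    rw [← Finset.sum_mul]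
    refine mul_le_mul_of_nonneg_right ?_ (sq_nonneg _)
    exact (row_l1 hK hF x).trans
      (mul_le_mul_of_nonneg_left (hr x) (Real.sqrt_nonneg _))
  rw [h0]
  linarith

lemma b8 (hK : K.IsSymm) (hw : Wt K F w E η ξ ω) :
    SW w (fun x y => 600 * ∑ z, K z x ^ 2 * K z y ^ 2)
      ≤ 1200 * ∑ z, (K ^ 2) z z ^ 2 := by
  rw [SW_smul w (fun x y => ∑ z, K z x ^ 2 * K z y ^ 2)]
  have h1 := SW_le_sum hw.le_two (f := fun x y => ∑ z, K z x ^ 2 * K z y ^ 2)
    (fun x y => Finset.sum_nonneg fun z _ => mul_nonneg (sq_nonneg _) (sq_nonneg _))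
  have h2 : ∑ x, ∑ y, ∑ z, K z x ^ 2 * K z y ^ 2 = ∑ z, (K ^ 2) z z ^ 2 := by
    rw [Finset.sum_congr rfl fun x _ => Finset.sum_comm, Finset.sum_comm]
    refine Finset.sum_congr rfl fun z _ => ?_
    rw [sum_mul_sum_eq, sq_diag_eq hK, pow_two]
  rw [h2] at h1
  linarith

lemma b9 (hK : K.IsSymm) (hr : ∀ x, rr K x ≤ Λ) (hw : Wt K F w E η ξ ω) :
    SW w (fun x y => (9 / 8 + 39 * (|K x y| + |K x x * K y y|))
        * (K y y ^ 2 * kk K x + K x x ^ 2 * kk K y))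
      ≤ 9 / 4 * (1 + ω) * ((∑ x, kk K x) * Vf K)
        + 156 * ((Λ + Vf K) * n2 (kk K) * Vf K) := by
  set f1 : ι → ι → ℝ := fun x y => K y y ^ 2 * kk K x with hf1
  set f2 : ι → ι → ℝ := fun x y => (|K x y| + |K x x * K y y|) * (K y y ^ 2 * kk K x) with hf2
  have h0 : SW w (fun x y => (9 / 8 + 39 * (|K x y| + |K x x * K y y|))
        * (K y y ^ 2 * kk K x + K x x ^ 2 * kk K y))
      = 9 / 4 * SW w f1 + 78 * SW w f2 := by
    have h2 := SW_swap hw.symm f1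
    have h2' := SW_swap hw.symm f2
    have h3 : SW w (fun x y => (9 / 8 + 39 * (|K x y| + |K x x * K y y|))
        * (K y y ^ 2 * kk K x + K x x ^ 2 * kk K y))
        = 9 / 8 * (SW w f1 + SW w (fun x y => f1 y x))
          + 39 * (SW w f2 + SW w (fun x y => f2 y x)) := by
      rw [← SW_add, ← SW_smul, ← SW_add, ← SW_smul, ← SW_add]
      congr 1
      ext x y
      simp only [hf1, hf2]
      rw [hK.apply x y, mul_comm (K y y) (K x x)]
      ring
    rw [h3, h2, h2']; ring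
  have h1 := SW_le_sum hw.le (f := f1) (fun x y => mul_nonneg (sq_nonneg _) (kk_nonneg K x))
  have h1' : ∑ x, ∑ y, f1 x y = (∑ x, kk K x) * Vf K := by
    unfold Vf
    rw [← sum_mul_sum_eq]
    exact Finset.sum_congr rfl fun x _ => Finset.sum_congr rfl fun y _ => by simp only [hf1]; ring
  have h2 := SW_le_sum hw.le_two (f := f2) (fun x y =>
    mul_nonneg (add_nonneg (abs_nonneg _) (abs_nonneg _))
      (mul_nonneg (sq_nonneg _) (kk_nonneg K x)))
  have h3 : ∑ x, ∑ y, f2 x y = ∑ y, ∑ x, |K y x| * (K y y ^ 2 * kk K x)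
      + (∑ x, |K x x| * kk K x) * ∑ y, |K y y| * K y y ^ 2 := by
    rw [Finset.sum_comm, ← sum_mul_sum_eq,
      Finset.sum_comm (f := fun x y => |K x x| * kk K x * (|K y y| * K y y ^ 2)),
      ← Finset.sum_add_distrib]
    refine Finset.sum_congr rfl fun y _ => ?_
    rw [← Finset.sum_add_distrib]
    refine Finset.sum_congr rfl fun x _ => ?_
    simp only [hf2]
    rw [abs_mul, hK.apply y x]; ring
  have h4 : ∑ y, ∑ x, |K y x| * (K y y ^ 2 * kk K x) ≤ Λ * n2 (kk K) * Vf K := by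
    unfold Vf
    rw [Finset.mul_sum]
    refine Finset.sum_le_sum fun y _ => ?_
    have e1 : ∑ x, |K y x| * (K y y ^ 2 * kk K x) = K y y ^ 2 * ∑ x, |K y x| * |kk K x| := by
      rw [Finset.mul_sum]
      exact Finset.sum_congr rfl fun x _ => by rw [abs_of_nonneg (kk_nonneg K x)]; ring
    have e2 := cs (fun x => K y x) (kk K)
    rw [e1, mul_comm]
    refine mul_le_mul_of_nonneg_right (e2.trans ?_) (sq_nonneg _)
    exact mul_le_mul_of_nonneg_right (hr y) (n2_nonneg _)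
  have h5 : ∑ x, |K x x| * kk K x ≤ n2 (dg K) * n2 (kk K) := by
    refine le_trans (le_of_eq ?_) (cs (dg K) (kk K))
    exact Finset.sum_congr rfl fun x _ => by rw [abs_of_nonneg (kk_nonneg K x)]; rfl
  have h6 := cube_le (dg K)
  have hV := n2_dg_sq K
  have h7 : (∑ x, |K x x| * kk K x) * ∑ y, |K y y| * K y y ^ 2 ≤ Vf K * n2 (kk K) * Vf K := by
    refine (mul_le_mul h5 h6 (Finset.sum_nonneg fun _ _ =>
      mul_nonneg (abs_nonneg _) (sq_nonneg _))
      (mul_nonneg (n2_nonneg _) (n2_nonneg _))).trans (le_of_eq ?_)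
    rw [← hV]; ring
  rw [h0]
  rw [h1'] at h1
  rw [h3] at h2
  nlinarith

/-- **Averaged one-step inequality for `V`**, `Λ` only bounds the row norms. -/
theorem V_avg2 {h1 : ℝ} (hK : K.IsSymm) (hF : ∀ i, i ∉ F → ∀ j, K i j = 0) (hs : s ^ 2 = 1)
    (hrow : ∀ i ∈ F, ∑ j, K i j = s) (hr : ∀ x, rr K x ≤ Λ) (hL2 : OpB (Ksq K) L2)
    (hw : Wt K F w E η ξ ω) (hE1 : |∑ x, ∑ y, E x y * Nf K (dg K) x y| ≤ h1) :
    SW w (fun x y => Vf (Upd.upd s K x y) - Vf K) ≤
      -(2 * (F.card - ξ) * Vf K)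
      + 9 / 4 * (1 + ω) * ((∑ x, kk K x) * Vf K)
      + 4 * (|K.trace| + h1 + (|K.trace| + 8 * (frK K + Vf K)) * Sq K (dg K))
      + (4 * η * L2 + 28 * (Real.sqrt F.card * Vf K) + 72 * (Real.sqrt F.card * Λ)
          + 64 * ((frK K + Vf K) * L2) + 156 * ((Λ + Vf K) * n2 (kk K))) * Vf K
      + 1200 * ∑ z, (K ^ 2) z z ^ 2 := by
  have h0 : SW w (fun x y => Vf (Upd.upd s K x y) - Vf K) ≤
      SW w (fun x y => -(K x x ^ 2 + K y y ^ 2)
      + 4 * (s * Nf K (dg K) x y)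
      + 2 * (K y y * Nf K (dg K) x x + K x x * Nf K (dg K) y y)
      + 16 * ((|K x y| + |K x x * K y y|) * |Nf K (dg K) x y|)
      + 16 * ((|K x y| + |K x x * K y y|)
          * (|K y y| * |Nf K (dg K) x x| + |K x x| * |Nf K (dg K) y y|))
      + 7 * (|K x x * K y y| * (K x x ^ 2 + K y y ^ 2))
      + 18 * (|K x y| * (K x x ^ 2 + K y y ^ 2))
      + 600 * ∑ z, K z x ^ 2 * K z y ^ 2
      + (9 / 8 + 39 * (|K x y| + |K x x * K y y|))
          * (K y y ^ 2 * kk K x + K x x ^ 2 * kk K y)) :=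
    SW_mono hw.nonneg fun x y h => V_point hs hK (hw.ne x y h) (hw.good x y h) (hw.good' x y h)
  refine h0.trans ?_
  rw [SW_add, SW_add, SW_add, SW_add, SW_add, SW_add, SW_add, SW_add]
  have g1 := b1 hF hw
  have g2 := b2 hK hF hs hrow hw hE1
  have g3 := b3 hK hF hL2 hw
  have g4 := b4 hK hw
  have g5 := b5 hK hL2 hw
  have g6 := b6 hF hw
  have g7 := b7 hK hF hr hw
  have g8 := b8 hK hw
  have g9 := b9 hK hr hw
  nlinarith

/-- **Averaged one-step inequality for `V`.** -/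
theorem V_avg {h1 : ℝ} (hK : K.IsSymm) (hF : ∀ i, i ∉ F → ∀ j, K i j = 0) (hs : s ^ 2 = 1)
    (hrow : ∀ i ∈ F, ∑ j, K i j = s) (hΛ : OpB K Λ) (hL2 : OpB (Ksq K) L2)
    (hw : Wt K F w E η ξ ω) (hE1 : |∑ x, ∑ y, E x y * Nf K (dg K) x y| ≤ h1) :
    SW w (fun x y => Vf (Upd.upd s K x y) - Vf K) ≤
      -(2 * (F.card - ξ) * Vf K)
      + 9 / 4 * (1 + ω) * ((∑ x, kk K x) * Vf K)
      + 4 * (|K.trace| + h1 + (|K.trace| + 8 * (frK K + Vf K)) * Sq K (dg K))
      + (4 * η * L2 + 28 * (Real.sqrt F.card * Vf K) + 72 * (Real.sqrt F.card * Λ)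
          + 64 * ((frK K + Vf K) * L2) + 156 * ((Λ + Vf K) * n2 (kk K))) * Vf K
      + 1200 * ∑ z, (K ^ 2) z z ^ 2 :=
  V_avg2 hK hF hs hrow (fun x => rr_le hK hΛ x) hL2 hw hE1

end avg

end Crest.Agent.R62.AvV
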