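import Mathlib
import Crest.Agent.R62.DiagAv
import Crest.Agent.R62.AvV

/-!
R62 (helper758): the centred diagonal functional `∑_{z ∈ F} ((K²)_zz - t)²`, pointwise part.
-/

set_option autoImplicit false
set_option linter.unusedSectionVars false
set_option linter.unusedVariables false

open Matrix Finset

namespace Crest.Agent.R62.AvR

open Crest.Agent.R62.AvBase (OpB)
open Crest.Agent.R62.DiagAv
open Crest.Agent.R62.AvV (dg kk kk_nonneg Vf Vf_nonneg n2_dg_sq Cf cf_good)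

variable {ι : Type*} [Fintype ι] [DecidableEq ι]

/-- the functional -/
def Wc (K : Matrix ι ι ℝ) (F : Finset ι) (t : ℝ) : ℝ := ∑ z ∈ F, ((K ^ 2) z z - t) ^ 2

/-- centred diagonal of `K²` on the live set -/
def qf (K : Matrix ι ι ℝ) (F : Finset ι) (t : ℝ) (z : ι) : ℝ :=
  if z ∈ F then (K ^ 2) z z - t else 0

lemma n2_qf_sq (K : Matrix ι ι ℝ) (F : Finset ι) (t : ℝ) : n2 (qf K F t) ^ 2 = Wc K F t := by
  rw [n2_sq, Wc]
  have : ∀ z, qf K F t z ^ 2 = if z ∈ F then ((K ^ 2) z z - t) ^ 2 else 0 := by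
    intro z; unfold qf; split_ifs <;> simp
  simp_rw [this]
  simp [Finset.sum_ite_mem]

/-- `α` -/
noncomputable def al (s : ℝ) (K : Matrix ι ι ℝ) (x y z : ι) : ℝ :=
  Upd.Bxx s K x y * K z x + Upd.Bxy s K x y * K z y
/-- `β` -/
noncomputable def be (s : ℝ) (K : Matrix ι ι ℝ) (x y z : ι) : ℝ :=
  Upd.Bxy s K x y * K z x + Upd.Byy s K x y * K z y

/-- change of `(K²)_zz` -/
noncomputable def dq (s : ℝ) (K : Matrix ι ι ℝ) (x y z : ι) : ℝ :=
  2 * (al s K x y z * (K ^ 2) z x + be s K x y z * (K ^ 2) z y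
      + al s K x y z * be s K x y z * (K ^ 2) x y)
    + (al s K x y z ^ 2 * ((K ^ 2) x x - 1) + be s K x y z ^ 2 * ((K ^ 2) y y - 1))

lemma Qhat_diag (s : ℝ) (K : Matrix ι ι ℝ) (x y z : ι) :
    Upd.Qhat s K x y z z = (K ^ 2) z z + dq s K x y z := by
  rw [Upd.Qhat_apply, dq, al, be, Upd.Exx, Upd.Exy, Upd.Eyy]
  ring

lemma sum_erase2 {F : Finset ι} {x y : ι} (hx : x ∈ F) (hy : y ∈ F) (hxy : x ≠ y)
    (f : ι → ℝ) : ∑ z ∈ (F.erase x).erase y, f z = ∑ z ∈ F, f z - f x - f y := by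
  have h1 : y ∈ F.erase x := Finset.mem_erase.2 ⟨hxy.symm, hy⟩
  rw [Finset.sum_erase_eq_sub h1, Finset.sum_erase_eq_sub hx]

lemma dq_dead {K : Matrix ι ι ℝ} {F : Finset ι} (hF : ∀ i, i ∉ F → ∀ j, K i j = 0)
    (s : ℝ) (x y : ι) {z : ι} (hz : z ∉ F) : dq s K x y z = 0 := by
  rw [dq, al, be, hF z hz x, hF z hz y]; ring

/-- change of the centred functional: upper bound -/
lemma W_upd {s : ℝ} (hs : s ^ 2 = 1) {K : Matrix ι ι ℝ} (hK : K.IsSymm) {F : Finset ι}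
    (hF : ∀ i, i ∉ F → ∀ j, K i j = 0) (t : ℝ) {x y : ι} (hx : x ∈ F) (hy : y ∈ F)
    (hxy : x ≠ y) (hD : Upd.Dl s K x y ≠ 0) :
    Wc (Upd.upd s K x y) ((F.erase x).erase y) t - Wc K F t
      ≤ -(qf K F t x ^ 2 + qf K F t y ^ 2) + 2 * ∑ z, qf K F t z * dq s K x y z
        + ∑ z, dq s K x y z ^ 2
        - 2 * (qf K F t x * dq s K x y x) - 2 * (qf K F t y * dq s K x y y) := by
  have h1 : Wc (Upd.upd s K x y) ((F.erase x).erase y) t
      = ∑ z ∈ (F.erase x).erase y, ((K ^ 2) z z - t + dq s K x y z) ^ 2 := by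
    unfold Wc
    refine Finset.sum_congr rfl fun z hz => ?_
    have hz1 := Finset.mem_erase.1 hz
    have hz2 := Finset.mem_erase.1 hz1.2
    rw [Upd.upd_sq hs hK hxy hD, Upd.Pi2_apply_of_ne _ hz2.1 hz1.1 hz2.1 hz1.1, Qhat_diag]
    ring
  have h2 : ∑ z ∈ F, ((K ^ 2) z z - t + dq s K x y z) ^ 2
      = Wc K F t + 2 * ∑ z, qf K F t z * dq s K x y z + ∑ z, dq s K x y z ^ 2 := by
    have e1 : ∑ z, qf K F t z * dq s K x y z
        = ∑ z ∈ F, ((K ^ 2) z z - t) * dq s K x y z := by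
      symm
      rw [← Finset.sum_subset (Finset.subset_univ F)
        (fun z _ hz => by rw [dq_dead hF s x y hz, mul_zero])]
      exact Finset.sum_congr rfl fun z hz => by rw [qf, if_pos hz]
    have e2 : ∑ z, dq s K x y z ^ 2 = ∑ z ∈ F, dq s K x y z ^ 2 := by
      symm
      exact Finset.sum_subset (Finset.subset_univ F)
        (fun z _ hz => by rw [dq_dead hF s x y hz]; norm_num)
    rw [e1, e2, Wc, Finset.mul_sum, ← Finset.sum_add_distrib, ← Finset.sum_add_distrib]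
    exact Finset.sum_congr rfl fun z _ => by ring
  rw [h1, sum_erase2 hx hy hxy, h2]
  have hqx : qf K F t x = (K ^ 2) x x - t := by rw [qf, if_pos hx]
  have hqy : qf K F t y = (K ^ 2) y y - t := by rw [qf, if_pos hy]
  rw [hqx, hqy]
  nlinarith [sq_nonneg (dq s K x y x), sq_nonneg (dq s K x y y)]

/-- `(K² diag(q) K)_xy` -/
def Mf (K : Matrix ι ι ℝ) (q : ι → ℝ) (x y : ι) : ℝ := ∑ z, q z * ((K ^ 2) z x * K z y)

/-- the linear sum, exactly -/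
lemma sum_q_dq (s : ℝ) {K : Matrix ι ι ℝ} (hK : K.IsSymm) (q : ι → ℝ) (x y : ι) :
    2 * ∑ z, q z * dq s K x y z =
      4 * (Upd.Bxy s K x y * (Mf K q x y + Mf K q y x))
      + 4 * (Upd.Bxx s K x y * Mf K q x x + Upd.Byy s K x y * Mf K q y y)
      + 4 * ((K ^ 2) x y * (Upd.Bxx s K x y * Upd.Bxy s K x y * Nf K q x x
          + (Upd.Bxx s K x y * Upd.Byy s K x y + Upd.Bxy s K x y ^ 2) * Nf K q x y
          + Upd.Bxy s K x y * Upd.Byy s K x y * Nf K q y y))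
      + 2 * (((K ^ 2) x x - 1) * (Upd.Bxx s K x y ^ 2 * Nf K q x x
          + 2 * (Upd.Bxx s K x y * Upd.Bxy s K x y) * Nf K q x y
          + Upd.Bxy s K x y ^ 2 * Nf K q y y))
      + 2 * (((K ^ 2) y y - 1) * (Upd.Bxy s K x y ^ 2 * Nf K q x x
          + 2 * (Upd.Bxy s K x y * Upd.Byy s K x y) * Nf K q x y
          + Upd.Byy s K x y ^ 2 * Nf K q y y)) := by
  simp only [dq, al, be, Nf, Mf, Finset.mul_sum, ← Finset.sum_add_distrib]
  exact Finset.sum_congr rfl fun z _ => by ring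

lemma four_le (A B : ℝ) : (A + B) ^ 4 ≤ 9 / 8 * A ^ 4 + 20700 * B ^ 4 := by
  have h1 : (A + B) ^ 2 ≤ 33 / 32 * A ^ 2 + 33 * B ^ 2 := by
    nlinarith [sq_nonneg (A - 32 * B)]
  have h2 : (A + B) ^ 4 ≤ (33 / 32 * A ^ 2 + 33 * B ^ 2) ^ 2 := by
    have : (A + B) ^ 4 = ((A + B) ^ 2) ^ 2 := by ring
    rw [this]
    exact pow_le_pow_left₀ (sq_nonneg _) h1 2
  refine h2.trans ?_
  nlinarith [sq_nonneg (33 / 32 * A ^ 2 - 18 * (33 * B ^ 2)), sq_nonneg (A ^ 2),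
    sq_nonneg (B ^ 2)]

/-- scalar facts used below, in a convenient form; `e = |c| + |ab|`. -/
structure Cg (s a b c g hx hy : ℝ) : Prop extends Cf s a b c g hx hy where
  e_le : |c| + |a * b| ≤ 1 / 2
  g2 : |g ^ 2 - 1| ≤ 20 * (|c| + |a * b|)
  g4 : g ^ 4 ≤ 1 + 340 * (|c| + |a * b|)
  ghx : |g * hx| ≤ 13 * |a|
  ghy : |g * hy| ≤ 13 * |b|
  mid : |hx * hy + g ^ 2| ≤ 19

lemma cg_of {s a b c g hx hy : ℝ} (hs : s ^ 2 = 1) (hc : |c| ≤ 1 / 4) (hab : |a * b| ≤ 1 / 4)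
    (h : Cf s a b c g hx hy) : Cg s a b c g hx hy := by
  set e := |c| + |a * b| with he
  have he0 : 0 ≤ e := by positivity
  have he1 : e ≤ 1 / 2 := by rw [he]; linarith
  have hg2 : |g ^ 2 - 1| ≤ 20 * e := by
    have : g ^ 2 - 1 = (g - s) * (g + s) := by rw [← hs]; ring
    rw [this, abs_mul]
    have h1 : |g + s| ≤ 5 := by
      refine (abs_add_le _ _).trans ?_
      rw [abs_s hs]; linarith [h.g_le]
    calc |g - s| * |g + s| ≤ (4 * e) * 5 :=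
          mul_le_mul h.g_sub h1 (abs_nonneg _) (by positivity)
      _ = _ := by ring
  have hg16 : g ^ 2 ≤ 16 := by
    have := sq_le_sq.2 (show |g| ≤ |(4 : ℝ)| by
      rw [abs_of_pos (by norm_num : (0:ℝ) < 4)]; exact h.g_le)
    linarith
  refine ⟨h, he1, hg2, ?_, ?_, ?_, ?_⟩
  · have h1 : g ^ 4 = 1 + (g ^ 2 - 1) * (g ^ 2 + 1) := by ring
    rw [h1]
    have h2 : (g ^ 2 - 1) * (g ^ 2 + 1) ≤ (20 * e) * 17 := by
      calc (g ^ 2 - 1) * (g ^ 2 + 1) ≤ |g ^ 2 - 1| * (g ^ 2 + 1) :=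
            mul_le_mul_of_nonneg_right (le_abs_self _) (by positivity)
        _ ≤ (20 * e) * 17 := mul_le_mul hg2 (by linarith) (by positivity) (by positivity)
    linarith
  · rw [abs_mul]
    calc |g| * |hx| ≤ 4 * (16 / 5 * |a|) :=
          mul_le_mul h.g_le h.hx_le (abs_nonneg _) (by norm_num)
      _ ≤ _ := by linarith [abs_nonneg a]
  · rw [abs_mul]
    calc |g| * |hy| ≤ 4 * (16 / 5 * |b|) :=
          mul_le_mul h.g_le h.hy_le (abs_nonneg _) (by norm_num)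
      _ ≤ _ := by linarith [abs_nonneg b]
  · refine (abs_add_le _ _).trans ?_
    rw [abs_of_nonneg (sq_nonneg g)]
    linarith [h.hxy]

/-- bound of `(αβ)²` -/
lemma ab_sq {s a b c g hx hy u v : ℝ} (h : Cg s a b c g hx hy) :
    ((hy * u + g * v) * (g * u + hx * v)) ^ 2
      ≤ 3 * (170 * (b ^ 2 * u ^ 4) + 361 * (u ^ 2 * v ^ 2) + 170 * (a ^ 2 * v ^ 4)) := by
  have e : (hy * u + g * v) * (g * u + hx * v)
      = (g * hy) * u ^ 2 + (hx * hy + g ^ 2) * (u * v) + (g * hx) * v ^ 2 := by ring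
  rw [e]
  set A := (g * hy) * u ^ 2
  set B := (hx * hy + g ^ 2) * (u * v)
  set C := (g * hx) * v ^ 2
  have h0 : (A + B + C) ^ 2 ≤ 3 * (A ^ 2 + B ^ 2 + C ^ 2) := by
    nlinarith [sq_nonneg (A - B), sq_nonneg (A - C), sq_nonneg (B - C)]
  have sqb : ∀ {t r : ℝ}, 0 ≤ r → |t| ≤ r → t ^ 2 ≤ r ^ 2 := fun {t r} hr ht => by
    rw [← sq_abs t]; exact pow_le_pow_left₀ (abs_nonneg _) ht 2
  have hA : A ^ 2 ≤ 170 * (b ^ 2 * u ^ 4) := by
    have h1 := sqb (by positivity) h.ghy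
    have h2 : A ^ 2 = (g * hy) ^ 2 * u ^ 4 := by ring
    have h3 : (13 * |b|) ^ 2 = 169 * b ^ 2 := by rw [mul_pow, sq_abs]; norm_num
    rw [h2]
    rw [h3] at h1
    have h4 := mul_le_mul_of_nonneg_right h1 (show (0:ℝ) ≤ u ^ 4 by positivity)
    have h5 : 0 ≤ b ^ 2 * u ^ 4 := by positivity
    linarith
  have hC : C ^ 2 ≤ 170 * (a ^ 2 * v ^ 4) := by
    have h1 := sqb (by positivity) h.ghx
    have h2 : C ^ 2 = (g * hx) ^ 2 * v ^ 4 := by ring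
    have h3 : (13 * |a|) ^ 2 = 169 * a ^ 2 := by rw [mul_pow, sq_abs]; norm_num
    rw [h2]
    rw [h3] at h1
    have h4 := mul_le_mul_of_nonneg_right h1 (show (0:ℝ) ≤ v ^ 4 by positivity)
    have h5 : 0 ≤ a ^ 2 * v ^ 4 := by positivity
    linarith
  have hB : B ^ 2 ≤ 361 * (u ^ 2 * v ^ 2) := by
    have h1 := sqb (by norm_num) h.mid
    have h2 : B ^ 2 = (hx * hy + g ^ 2) ^ 2 * (u ^ 2 * v ^ 2) := by ring
    rw [h2]
    have h4 := mul_le_mul_of_nonneg_right h1 (show (0:ℝ) ≤ u ^ 2 * v ^ 2 by positivity)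
    linarith
  linarith

/-- bound of `α²` -/
lemma al_sq {s a b c g hx hy u v : ℝ} (h : Cg s a b c g hx hy) :
    (hy * u + g * v) ^ 2 ≤ 21 * (b ^ 2 * u ^ 2) + 32 * v ^ 2 := by
  have h0 : (hy * u + g * v) ^ 2 ≤ 2 * (hy ^ 2 * u ^ 2) + 2 * (g ^ 2 * v ^ 2) := by
    nlinarith [sq_nonneg (hy * u - g * v)]
  have h1 : hy ^ 2 ≤ 256 / 25 * b ^ 2 := by
    have := pow_le_pow_left₀ (abs_nonneg _) h.hy_le 2
    rw [mul_pow, sq_abs, sq_abs] at this
    linarith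
  have h2 : g ^ 2 ≤ 16 := by
    rw [← sq_abs g]
    have := pow_le_pow_left₀ (abs_nonneg _) h.g_le 2
    linarith
  have h3 := mul_le_mul_of_nonneg_right h1 (sq_nonneg u)
  have h4 := mul_le_mul_of_nonneg_right h2 (sq_nonneg v)
  have h5 : 0 ≤ b ^ 2 * u ^ 2 := by positivity
  linarith

/-- bound of `α⁴` -/
lemma al_four {s a b c g hx hy u v : ℝ} (h : Cg s a b c g hx hy) :
    (hy * u + g * v) ^ 4 ≤ 9 / 8 * ((1 + 340 * (|c| + |a * b|)) * v ^ 4)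
      + 2173500 * (b ^ 4 * u ^ 4) := by
  have h0 := four_le (g * v) (hy * u)
  have e : hy * u + g * v = g * v + hy * u := by ring
  rw [e]
  refine h0.trans ?_
  have h1 : hy ^ 4 ≤ 105 * b ^ 4 := by
    have h2 : |hy| ^ 4 ≤ (16 / 5 * |b|) ^ 4 := pow_le_pow_left₀ (abs_nonneg _) h.hy_le 4
    have h3 : |hy| ^ 4 = hy ^ 4 := by
      rw [show |hy| ^ 4 = (|hy| ^ 2) ^ 2 by ring, sq_abs]; ring
    have h4 : (16 / 5 * |b|) ^ 4 = (16 / 5) ^ 4 * b ^ 4 := by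
      rw [mul_pow, show |b| ^ 4 = (|b| ^ 2) ^ 2 by ring, sq_abs]; ring
    rw [h3, h4] at h2
    have h5 : 0 ≤ b ^ 4 := by positivity
    nlinarith
  have h2 := mul_le_mul_of_nonneg_right h1 (show (0:ℝ) ≤ u ^ 4 by positivity)
  have h3 := mul_le_mul_of_nonneg_right h.g4 (show (0:ℝ) ≤ v ^ 4 by positivity)
  have e1 : (g * v) ^ 4 = g ^ 4 * v ^ 4 := by ring
  have e2 : (hy * u) ^ 4 = hy ^ 4 * u ^ 4 := by ring
  rw [e1, e2]
  linarith

lemma be_sq {s a b c g hx hy u v : ℝ} (h : Cg s a b c g hx hy) :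
    (g * u + hx * v) ^ 2 ≤ 21 * (a ^ 2 * v ^ 2) + 32 * u ^ 2 := by
  have h0 : (g * u + hx * v) ^ 2 ≤ 2 * (hx ^ 2 * v ^ 2) + 2 * (g ^ 2 * u ^ 2) := by
    nlinarith [sq_nonneg (hx * v - g * u)]
  have h1 : hx ^ 2 ≤ 256 / 25 * a ^ 2 := by
    have := pow_le_pow_left₀ (abs_nonneg _) h.hx_le 2
    rw [mul_pow, sq_abs, sq_abs] at this
    linarith
  have h2 : g ^ 2 ≤ 16 := by
    have := pow_le_pow_left₀ (abs_nonneg _) h.g_le 2
    rw [sq_abs] at this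
    linarith
  have h3 := mul_le_mul_of_nonneg_right h1 (sq_nonneg v)
  have h4 := mul_le_mul_of_nonneg_right h2 (sq_nonneg u)
  have h5 : 0 ≤ a ^ 2 * v ^ 2 := by positivity
  linarith

lemma be_four {s a b c g hx hy u v : ℝ} (h : Cg s a b c g hx hy) :
    (g * u + hx * v) ^ 4 ≤ 9 / 8 * ((1 + 340 * (|c| + |a * b|)) * u ^ 4)
      + 2173500 * (a ^ 4 * v ^ 4) := by
  have h0 := four_le (g * u) (hx * v)
  refine h0.trans ?_
  have h1 : hx ^ 4 ≤ 105 * a ^ 4 := by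
    have h2 : |hx| ^ 4 ≤ (16 / 5 * |a|) ^ 4 := pow_le_pow_left₀ (abs_nonneg _) h.hx_le 4
    have h3 : |hx| ^ 4 = hx ^ 4 := by
      rw [show |hx| ^ 4 = (|hx| ^ 2) ^ 2 by ring, sq_abs]; ring
    have h4 : (16 / 5 * |a|) ^ 4 = (16 / 5) ^ 4 * a ^ 4 := by
      rw [mul_pow, show |a| ^ 4 = (|a| ^ 2) ^ 2 by ring, sq_abs]; ring
    rw [h3, h4] at h2
    have h5 : 0 ≤ a ^ 4 := by positivity
    nlinarith
  have h2 := mul_le_mul_of_nonneg_right h1 (show (0:ℝ) ≤ v ^ 4 by positivity)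
  have h3 := mul_le_mul_of_nonneg_right h.g4 (show (0:ℝ) ≤ u ^ 4 by positivity)
  have e1 : (g * u) ^ 4 = g ^ 4 * u ^ 4 := by ring
  have e2 : (hx * v) ^ 4 = hx ^ 4 * v ^ 4 := by ring
  rw [e1, e2]
  linarith

lemma sq3 (p q r : ℝ) : (2 * (p + q + r)) ^ 2 ≤ 12 * (p ^ 2 + q ^ 2 + r ^ 2) := by
  nlinarith [sq_nonneg (p - q), sq_nonneg (p - r), sq_nonneg (q - r)]

lemma sq2 (A B : ℝ) : (A + B) ^ 2 ≤ 9 * A ^ 2 + 9 / 8 * B ^ 2 := by
  nlinarith [sq_nonneg (8 * A - B)]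

/-- bound of the square of the change of `(K²)_zz`. Here `P1 = (K²)_zx`, `P2 = (K²)_zy`,
`P3 = (K²)_xy`, `px, py` the diagonal entries of `K²`. -/
lemma dq_sq_le {s a b c g hx hy u v P1 P2 P3 px py : ℝ} (h : Cg s a b c g hx hy) :
    (2 * ((hy * u + g * v) * P1 + (g * u + hx * v) * P2
        + (hy * u + g * v) * (g * u + hx * v) * P3)
      + ((hy * u + g * v) ^ 2 * (px - 1) + (g * u + hx * v) ^ 2 * (py - 1))) ^ 2
    ≤ 108 * ((21 * (b ^ 2 * u ^ 2) + 32 * v ^ 2) * P1 ^ 2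
        + (21 * (a ^ 2 * v ^ 2) + 32 * u ^ 2) * P2 ^ 2)
      + 324 * ((170 * (b ^ 2 * u ^ 4) + 361 * (u ^ 2 * v ^ 2) + 170 * (a ^ 2 * v ^ 4)) * P3 ^ 2)
      + 81 / 64 * ((1 + 340 * (|c| + |a * b|))
          * (v ^ 4 * (px - 1) ^ 2 + u ^ 4 * (py - 1) ^ 2))
      + 2445188 * (b ^ 4 * u ^ 4 * (px - 1) ^ 2 + a ^ 4 * v ^ 4 * (py - 1) ^ 2)
      + 27 / 4 * ((170 * (b ^ 2 * u ^ 4) + 361 * (u ^ 2 * v ^ 2) + 170 * (a ^ 2 * v ^ 4))
          * (|px - 1| * |py - 1|)) := by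
  have q1 := al_sq (u := u) (v := v) h
  have q2 := be_sq (u := u) (v := v) h
  have q3 := ab_sq (u := u) (v := v) h
  have q4 := al_four (u := u) (v := v) h
  have q5 := be_four (u := u) (v := v) h
  generalize hy * u + g * v = α at *
  generalize g * u + hx * v = β at *
  have h0 := sq2 (2 * (α * P1 + β * P2 + α * β * P3)) (α ^ 2 * (px - 1) + β ^ 2 * (py - 1))
  have hA2 := sq3 (α * P1) (β * P2) (α * β * P3)
  have e1 : (α * P1) ^ 2 = α ^ 2 * P1 ^ 2 := by ring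
  have e2 : (β * P2) ^ 2 = β ^ 2 * P2 ^ 2 := by ring
  have e3 : (α * β * P3) ^ 2 = (α * β) ^ 2 * P3 ^ 2 := by ring
  rw [e1, e2, e3] at hA2
  have k1 : α ^ 2 * P1 ^ 2 ≤ (21 * (b ^ 2 * u ^ 2) + 32 * v ^ 2) * P1 ^ 2 :=
    mul_le_mul_of_nonneg_right q1 (sq_nonneg _)
  have k2 : β ^ 2 * P2 ^ 2 ≤ (21 * (a ^ 2 * v ^ 2) + 32 * u ^ 2) * P2 ^ 2 :=
    mul_le_mul_of_nonneg_right q2 (sq_nonneg _)
  have k3 : (α * β) ^ 2 * P3 ^ 2 ≤ 3 * (170 * (b ^ 2 * u ^ 4) + 361 * (u ^ 2 * v ^ 2)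
      + 170 * (a ^ 2 * v ^ 4)) * P3 ^ 2 :=
    mul_le_mul_of_nonneg_right q3 (sq_nonneg _)
  have k4 : α ^ 4 * (px - 1) ^ 2 ≤ (9 / 8 * ((1 + 340 * (|c| + |a * b|)) * v ^ 4)
      + 2173500 * (b ^ 4 * u ^ 4)) * (px - 1) ^ 2 :=
    mul_le_mul_of_nonneg_right q4 (sq_nonneg _)
  have k5 : β ^ 4 * (py - 1) ^ 2 ≤ (9 / 8 * ((1 + 340 * (|c| + |a * b|)) * u ^ 4)
      + 2173500 * (a ^ 4 * v ^ 4)) * (py - 1) ^ 2 :=
    mul_le_mul_of_nonneg_right q5 (sq_nonneg _)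
  have k6 : (α * β) ^ 2 * ((px - 1) * (py - 1)) ≤ 3 * (170 * (b ^ 2 * u ^ 4)
      + 361 * (u ^ 2 * v ^ 2) + 170 * (a ^ 2 * v ^ 4)) * (|px - 1| * |py - 1|) := by
    have h1 : (α * β) ^ 2 * ((px - 1) * (py - 1)) ≤ (α * β) ^ 2 * (|px - 1| * |py - 1|) := by
      rw [← abs_mul]
      exact mul_le_mul_of_nonneg_left (le_abs_self _) (sq_nonneg _)
    exact h1.trans (mul_le_mul_of_nonneg_right q3 (by positivity))
  have hB2 : (α ^ 2 * (px - 1) + β ^ 2 * (py - 1)) ^ 2 = α ^ 4 * (px - 1) ^ 2 + β ^ 4 * (py - 1) ^ 2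
      + 2 * ((α * β) ^ 2 * ((px - 1) * (py - 1))) := by ring
  have p1 : 0 ≤ b ^ 4 * u ^ 4 * (px - 1) ^ 2 := by positivity
  have p2 : 0 ≤ a ^ 4 * v ^ 4 * (py - 1) ^ 2 := by positivity
  rw [hB2] at h0
  refine h0.trans ?_
  linarith

lemma dx_le {α β e a p P3 p1 p2 : ℝ} (he : 0 ≤ e) (he1 : e ≤ 1 / 2) (hp : 0 ≤ p)
    (hα : |α| ≤ 4 * e) (hβ : |β| ≤ 5 * |a|) :
    |2 * (α * p + β * P3 + α * β * P3) + (α ^ 2 * p1 + β ^ 2 * p2)|
      ≤ 8 * (e * p) + 30 * (|a| * |P3|) + 8 * (e * |p1|) + 25 * (a ^ 2 * |p2|) := by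
  have h1 : |α * p| ≤ 4 * e * p := by
    rw [abs_mul, abs_of_nonneg hp]; exact mul_le_mul_of_nonneg_right hα hp
  have h2 : |β * P3| ≤ 5 * |a| * |P3| := by
    rw [abs_mul]; exact mul_le_mul_of_nonneg_right hβ (abs_nonneg _)
  have h3 : |α * β * P3| ≤ 10 * |a| * |P3| := by
    rw [abs_mul, abs_mul]
    refine mul_le_mul_of_nonneg_right ?_ (abs_nonneg _)
    calc |α| * |β| ≤ (4 * e) * (5 * |a|) := mul_le_mul hα hβ (abs_nonneg _) (by positivity)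
      _ ≤ 2 * (5 * |a|) := mul_le_mul_of_nonneg_right (by linarith) (by positivity)
      _ = _ := by ring
  have h4 : |α ^ 2 * p1| ≤ 8 * e * |p1| := by
    rw [abs_mul, abs_of_nonneg (sq_nonneg α)]
    refine mul_le_mul_of_nonneg_right ?_ (abs_nonneg _)
    rw [← sq_abs]
    have h5 := pow_le_pow_left₀ (abs_nonneg _) hα 2
    nlinarith
  have h5 : |β ^ 2 * p2| ≤ 25 * a ^ 2 * |p2| := by
    rw [abs_mul, abs_of_nonneg (sq_nonneg β)]
    refine mul_le_mul_of_nonneg_right ?_ (abs_nonneg _)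
    rw [← sq_abs]
    have h6 := pow_le_pow_left₀ (abs_nonneg _) hβ 2
    rw [mul_pow, sq_abs a] at h6
    linarith
  have h6 := abs_le.1 h1
  have h7 := abs_le.1 h2
  have h8 := abs_le.1 h3
  have h9 := abs_le.1 h4
  have h10 := abs_le.1 h5
  rw [abs_le]
  constructor <;> linarith

lemma lin_a {g s M1 M2 e : ℝ} (h : |g - s| ≤ 4 * e) :
    4 * (g * (M1 + M2)) ≤ 4 * (s * (M1 + M2)) + 16 * (e * (|M1| + |M2|)) := by
  have h1 : (g - s) * (M1 + M2) ≤ |g - s| * |M1 + M2| := by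
    rw [← abs_mul]; exact le_abs_self _
  have h2 : |g - s| * |M1 + M2| ≤ (4 * e) * (|M1| + |M2|) :=
    mul_le_mul h (abs_add_le _ _) (abs_nonneg _) ((abs_nonneg _).trans h)
  have h3 : g * (M1 + M2) = s * (M1 + M2) + (g - s) * (M1 + M2) := by ring
  rw [h3]; linarith

lemma lin_b {a b hx hy M1 M2 : ℝ} (h1 : |hx| ≤ 16 / 5 * |a|) (h2 : |hy| ≤ 16 / 5 * |b|) :
    4 * (hy * M1 + hx * M2) ≤ 13 * (|b| * |M1| + |a| * |M2|) := by
  have h3 : hy * M1 ≤ 16 / 5 * |b| * |M1| := (le_abs_self _).trans (by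
    rw [abs_mul]; exact mul_le_mul_of_nonneg_right h2 (abs_nonneg _))
  have h4 : hx * M2 ≤ 16 / 5 * |a| * |M2| := (le_abs_self _).trans (by
    rw [abs_mul]; exact mul_le_mul_of_nonneg_right h1 (abs_nonneg _))
  have h5 : 0 ≤ |b| * |M1| := by positivity
  have h6 : 0 ≤ |a| * |M2| := by positivity
  linarith

lemma lin_c {a b g hx hy P N1 N2 N3 : ℝ} (h1 : |g * hx| ≤ 13 * |a|) (h2 : |g * hy| ≤ 13 * |b|)
    (h3 : |hx * hy + g ^ 2| ≤ 19) :
    4 * (P * (hy * g * N1 + (hy * hx + g ^ 2) * N2 + g * hx * N3))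
      ≤ 4 * (|P| * (13 * (|b| * |N1|) + 19 * |N2| + 13 * (|a| * |N3|))) := by
  have e1 : |hy * g * N1| ≤ 13 * |b| * |N1| := by
    rw [mul_comm hy g, abs_mul]; exact mul_le_mul_of_nonneg_right h2 (abs_nonneg _)
  have e2 : |(hy * hx + g ^ 2) * N2| ≤ 19 * |N2| := by
    rw [mul_comm hy hx, abs_mul]; exact mul_le_mul_of_nonneg_right h3 (abs_nonneg _)
  have e3 : |g * hx * N3| ≤ 13 * |a| * |N3| := by
    rw [abs_mul]; exact mul_le_mul_of_nonneg_right h1 (abs_nonneg _)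
  have e4 : |hy * g * N1 + (hy * hx + g ^ 2) * N2 + g * hx * N3|
      ≤ 13 * (|b| * |N1|) + 19 * |N2| + 13 * (|a| * |N3|) := by
    have f1 := abs_add_le (hy * g * N1 + (hy * hx + g ^ 2) * N2) (g * hx * N3)
    have f2 := abs_add_le (hy * g * N1) ((hy * hx + g ^ 2) * N2)
    linarith
  have e5 : P * (hy * g * N1 + (hy * hx + g ^ 2) * N2 + g * hx * N3)
      ≤ |P| * (13 * (|b| * |N1|) + 19 * |N2| + 13 * (|a| * |N3|)) := by
    refine (le_abs_self _).trans ?_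
    rw [abs_mul]
    exact mul_le_mul_of_nonneg_left e4 (abs_nonneg _)
  linarith

/-- the `α²` part -/
lemma lin_d {b g hy p N1 N2 N3 e : ℝ} (h1 : |hy| ≤ 16 / 5 * |b|) (h2 : |g * hy| ≤ 13 * |b|)
    (h3 : |g ^ 2 - 1| ≤ 20 * e) :
    2 * (p * (hy ^ 2 * N1 + 2 * (hy * g) * N2 + g ^ 2 * N3))
      ≤ 2 * (p * N3) + 40 * (e * (|p| * |N3|)) + 52 * (|b| * |p| * |N2|)
        + 21 * (b ^ 2 * |p| * |N1|) := by
  have e1 : p * (hy ^ 2 * N1) ≤ 256 / 25 * b ^ 2 * |p| * |N1| := by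
    refine (le_abs_self _).trans ?_
    rw [abs_mul, abs_mul, abs_of_nonneg (sq_nonneg hy)]
    have := pow_le_pow_left₀ (abs_nonneg _) h1 2
    rw [mul_pow, sq_abs, sq_abs] at this
    have h4 : hy ^ 2 * |N1| ≤ 256 / 25 * b ^ 2 * |N1| :=
      mul_le_mul_of_nonneg_right (by linarith) (abs_nonneg _)
    calc |p| * (hy ^ 2 * |N1|) ≤ |p| * (256 / 25 * b ^ 2 * |N1|) :=
          mul_le_mul_of_nonneg_left h4 (abs_nonneg _)
      _ = _ := by ring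
  have e2 : p * (2 * (hy * g) * N2) ≤ 26 * |b| * |p| * |N2| := by
    refine (le_abs_self _).trans ?_
    rw [abs_mul, abs_mul, abs_mul, abs_two, mul_comm hy g]
    have h4 : 2 * |g * hy| * |N2| ≤ 2 * (13 * |b|) * |N2| :=
      mul_le_mul_of_nonneg_right (by linarith) (abs_nonneg _)
    calc |p| * (2 * |g * hy| * |N2|) ≤ |p| * (2 * (13 * |b|) * |N2|) :=
          mul_le_mul_of_nonneg_left h4 (abs_nonneg _)
      _ = _ := by ring
  have e3 : p * (g ^ 2 * N3) ≤ p * N3 + 20 * e * |p| * |N3| := by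
    have h4 : p * (g ^ 2 * N3) = p * N3 + (g ^ 2 - 1) * (p * N3) := by ring
    rw [h4]
    have h5 : (g ^ 2 - 1) * (p * N3) ≤ |g ^ 2 - 1| * |p * N3| := by
      rw [← abs_mul]; exact le_abs_self _
    have h6 := mul_le_mul_of_nonneg_right h3 (abs_nonneg (p * N3))
    rw [abs_mul p N3] at h5 h6
    linarith
  have h7 : 0 ≤ b ^ 2 * |p| * |N1| := by positivity
  have h8 : p * (hy ^ 2 * N1 + 2 * (hy * g) * N2 + g ^ 2 * N3)
      = p * (hy ^ 2 * N1) + p * (2 * (hy * g) * N2) + p * (g ^ 2 * N3) := by ring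
  rw [h8]
  linarith

/-- centred diagonal of `K²` (centre 1) -/
def p1 (K : Matrix ι ι ℝ) (x : ι) : ℝ := (K ^ 2) x x - 1

/-- right-hand side of the pointwise inequality -/
noncomputable def WR (s : ℝ) (K : Matrix ι ι ℝ) (q p : ι → ℝ) (x y : ι) : ℝ :=
  -(q x ^ 2 + q y ^ 2)
  + 4 * (s * (Mf K q x y + Mf K q y x))
  + 16 * ((|K x y| + |K x x * K y y|) * (|Mf K q x y| + |Mf K q y x|))
  + 13 * (|K y y| * |Mf K q x x| + |K x x| * |Mf K q y y|)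
  + 4 * (|(K ^ 2) x y| * (13 * (|K y y| * |Nf K q x x|) + 19 * |Nf K q x y|
      + 13 * (|K x x| * |Nf K q y y|)))
  + 2 * (p x * Nf K q y y + p y * Nf K q x x)
  + 40 * ((|K x y| + |K x x * K y y|)
      * (|p x| * |Nf K q y y| + |p y| * |Nf K q x x|))
  + 52 * ((|K y y| * |p x| + |K x x| * |p y|) * |Nf K q x y|)
  + 21 * (K y y ^ 2 * |p x| * |Nf K q x x| + K x x ^ 2 * |p y| * |Nf K q y y|)
  + (|q x| * (16 * ((|K x y| + |K x x * K y y|) * ((K ^ 2) x x + |p x|))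
        + 60 * (|K x x| * |(K ^ 2) x y|) + 50 * (K x x ^ 2 * |p y|))
     + |q y| * (16 * ((|K x y| + |K x x * K y y|) * ((K ^ 2) y y + |p y|))
        + 60 * (|K y y| * |(K ^ 2) x y|) + 50 * (K y y ^ 2 * |p x|)))
  + 108 * ∑ z, ((21 * (K y y ^ 2 * K z x ^ 2) + 32 * K z y ^ 2) * (K ^ 2) z x ^ 2
      + (21 * (K x x ^ 2 * K z y ^ 2) + 32 * K z x ^ 2) * (K ^ 2) z y ^ 2)
  + 324 * ((170 * (K y y ^ 2 * kk K x) + 361 * (∑ z, K z x ^ 2 * K z y ^ 2)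
      + 170 * (K x x ^ 2 * kk K y)) * (K ^ 2) x y ^ 2)
  + 81 / 64 * ((1 + 340 * (|K x y| + |K x x * K y y|))
      * (kk K y * p x ^ 2 + kk K x * p y ^ 2))
  + 2445188 * (K y y ^ 4 * kk K x * p x ^ 2 + K x x ^ 4 * kk K y * p y ^ 2)
  + 27 / 4 * ((170 * (K y y ^ 2 * kk K x) + 361 * (∑ z, K z x ^ 2 * K z y ^ 2)
      + 170 * (K x x ^ 2 * kk K y)) * (|p x| * |p y|))

/-- sum of the squares of the changes -/
lemma sum_dq_sq {s : ℝ} {K : Matrix ι ι ℝ} {x y : ι}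
    (h : Cg s (K x x) (K y y) (K x y) (Upd.Bxy s K x y) (Upd.Byy s K x y) (Upd.Bxx s K x y)) :
    ∑ z, dq s K x y z ^ 2 ≤
      108 * ∑ z, ((21 * (K y y ^ 2 * K z x ^ 2) + 32 * K z y ^ 2) * (K ^ 2) z x ^ 2
      + (21 * (K x x ^ 2 * K z y ^ 2) + 32 * K z x ^ 2) * (K ^ 2) z y ^ 2)
  + 324 * ((170 * (K y y ^ 2 * kk K x) + 361 * (∑ z, K z x ^ 2 * K z y ^ 2)
      + 170 * (K x x ^ 2 * kk K y)) * (K ^ 2) x y ^ 2)
  + 81 / 64 * ((1 + 340 * (|K x y| + |K x x * K y y|))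
      * (kk K y * p1 K x ^ 2 + kk K x * p1 K y ^ 2))
  + 2445188 * (K y y ^ 4 * kk K x * p1 K x ^ 2 + K x x ^ 4 * kk K y * p1 K y ^ 2)
  + 27 / 4 * ((170 * (K y y ^ 2 * kk K x) + 361 * (∑ z, K z x ^ 2 * K z y ^ 2)
      + 170 * (K x x ^ 2 * kk K y)) * (|p1 K x| * |p1 K y|)) := by
  refine (Finset.sum_le_sum fun z _ => dq_sq_le (u := K z x) (v := K z y) (P1 := (K ^ 2) z x)
    (P2 := (K ^ 2) z y) (P3 := (K ^ 2) x y) (px := (K ^ 2) x x) (py := (K ^ 2) y y) h).trans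
    (le_of_eq ?_)
  simp only [Finset.sum_add_distrib, ← Finset.mul_sum, ← Finset.sum_mul, kk, p1]

lemma gx_le {s a b c g hx hy : ℝ} (h : Cf s a b c g hx hy) :
    |hy * a + g * c| ≤ 4 * (|c| + |a * b|) := by
  have e1 : |hy * a| ≤ 16 / 5 * |a * b| := by
    rw [abs_mul, abs_mul]
    have := mul_le_mul_of_nonneg_right h.hy_le (abs_nonneg a)
    linarith
  have e2 : |g * c| ≤ 4 * |c| := by
    rw [abs_mul]; exact mul_le_mul_of_nonneg_right h.g_le (abs_nonneg _)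
  have e3 := abs_add_le (hy * a) (g * c)
  have e4 : 0 ≤ |a * b| := abs_nonneg _
  linarith

lemma gx_le' {s a b c g hx hy : ℝ} (h : Cf s a b c g hx hy) (hc : |c| ≤ 1 / 4) :
    |g * a + hx * c| ≤ 5 * |a| := by
  have e1 : |g * a| ≤ 4 * |a| := by
    rw [abs_mul]; exact mul_le_mul_of_nonneg_right h.g_le (abs_nonneg _)
  have e2 : |hx * c| ≤ 4 / 5 * |a| := by
    rw [abs_mul]
    calc |hx| * |c| ≤ (16 / 5 * |a|) * (1 / 4) :=
          mul_le_mul h.hx_le hc (abs_nonneg _) (by positivity)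
      _ = _ := by ring
  have e3 := abs_add_le (g * a) (hx * c)
  have e4 : 0 ≤ |a| := abs_nonneg _
  linarith

lemma gy_le {s a b c g hx hy : ℝ} (h : Cf s a b c g hx hy) :
    |g * c + hx * b| ≤ 4 * (|c| + |a * b|) := by
  have e1 : |hx * b| ≤ 16 / 5 * |a * b| := by
    rw [abs_mul, abs_mul]
    have := mul_le_mul_of_nonneg_right h.hx_le (abs_nonneg b)
    linarith
  have e2 : |g * c| ≤ 4 * |c| := by
    rw [abs_mul]; exact mul_le_mul_of_nonneg_right h.g_le (abs_nonneg _)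
  have e3 := abs_add_le (g * c) (hx * b)
  have e4 : 0 ≤ |a * b| := abs_nonneg _
  linarith

lemma gy_le' {s a b c g hx hy : ℝ} (h : Cf s a b c g hx hy) (hc : |c| ≤ 1 / 4) :
    |hy * c + g * b| ≤ 5 * |b| := by
  have e1 : |g * b| ≤ 4 * |b| := by
    rw [abs_mul]; exact mul_le_mul_of_nonneg_right h.g_le (abs_nonneg _)
  have e2 : |hy * c| ≤ 4 / 5 * |b| := by
    rw [abs_mul]
    calc |hy| * |c| ≤ (16 / 5 * |b|) * (1 / 4) :=
          mul_le_mul h.hy_le hc (abs_nonneg _) (by positivity)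
      _ = _ := by ring
  have e3 := abs_add_le (hy * c) (g * b)
  have e4 : 0 ≤ |b| := abs_nonneg _
  linarith

/-- pointwise bound of the change of the centred functional on a good pair -/
theorem W_point {s : ℝ} (hs : s ^ 2 = 1) {K : Matrix ι ι ℝ} (hK : K.IsSymm) {F : Finset ι}
    (hF : ∀ i, i ∉ F → ∀ j, K i j = 0) (t : ℝ) {x y : ι} (hx : x ∈ F) (hy : y ∈ F)
    (hxy : x ≠ y) (hc : |K x y| ≤ 1 / 4) (hab : |K x x * K y y| ≤ 1 / 4) :
    Wc (Upd.upd s K x y) ((F.erase x).erase y) t - Wc K F t ≤ WR s K (qf K F t) (p1 K) x y := by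
  have hyx : K y x = K x y := hK.apply x y
  have hPyx : (K ^ 2) y x = (K ^ 2) x y := (hK.pow 2).apply x y
  have H := cf_good hs hc hab
  have G := cg_of hs hc hab H
  have hD : Upd.Dl s K x y ≠ 0 := by
    have := (coef hs hc hab rfl).1
    have h2 : 0 < Upd.Dl s K x y := by
      unfold Upd.Dl; linarith
    exact h2.ne'
  have h0 := W_upd hs hK hF t hx hy hxy hD
  have hsum := sum_q_dq s hK (qf K F t) x y
  have hsq := sum_dq_sq G
  rw [hsum] at h0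
  have l1 := lin_a (M1 := Mf K (qf K F t) x y) (M2 := Mf K (qf K F t) y x) H.g_sub
  have l2 := lin_b (M1 := Mf K (qf K F t) x x) (M2 := Mf K (qf K F t) y y) H.hx_le H.hy_le
  have l3 := lin_c (P := (K ^ 2) x y) (N1 := Nf K (qf K F t) x x) (N2 := Nf K (qf K F t) x y)
    (N3 := Nf K (qf K F t) y y) G.ghx G.ghy G.mid
  have l4 := lin_d (p := p1 K x) (N1 := Nf K (qf K F t) x x) (N2 := Nf K (qf K F t) x y)
    (N3 := Nf K (qf K F t) y y) H.hy_le G.ghy G.g2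
  have l5 := lin_d (p := p1 K y) (N1 := Nf K (qf K F t) y y) (N2 := Nf K (qf K F t) x y)
    (N3 := Nf K (qf K F t) x x) H.hx_le G.ghx G.g2
  have e0 : 0 ≤ |K x y| + |K x x * K y y| := add_nonneg (abs_nonneg _) (abs_nonneg _)
  have d1 : |dq s K x y x| ≤ 8 * ((|K x y| + |K x x * K y y|) * (K ^ 2) x x)
      + 30 * (|K x x| * |(K ^ 2) x y|) + 8 * ((|K x y| + |K x x * K y y|) * |p1 K x|)
      + 25 * (K x x ^ 2 * |p1 K y|) := by
    have h1 := dx_le (α := al s K x y x) (β := be s K x y x) (a := K x x)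
      (p := (K ^ 2) x x) (P3 := (K ^ 2) x y) (p1 := p1 K x) (p2 := p1 K y)
      e0 G.e_le (p_nonneg hK x) (gx_le H) (gx_le' H hc)
    exact h1
  have d2 : |dq s K x y y| ≤ 8 * ((|K x y| + |K x x * K y y|) * (K ^ 2) y y)
      + 30 * (|K y y| * |(K ^ 2) x y|) + 8 * ((|K x y| + |K x x * K y y|) * |p1 K y|)
      + 25 * (K y y ^ 2 * |p1 K x|) := by
    have h1 := dx_le (α := be s K x y y) (β := al s K x y y) (a := K y y)
      (p := (K ^ 2) y y) (P3 := (K ^ 2) x y) (p1 := p1 K y) (p2 := p1 K x)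
      e0 G.e_le (p_nonneg hK y)
      (by rw [be, hyx]; exact gy_le H) (by rw [al, hyx]; exact gy_le' H hc)
    have h2 : dq s K x y y = 2 * (be s K x y y * (K ^ 2) y y + al s K x y y * (K ^ 2) x y
        + be s K x y y * al s K x y y * (K ^ 2) x y)
        + (be s K x y y ^ 2 * p1 K y + al s K x y y ^ 2 * p1 K x) := by
      rw [dq, hPyx, p1, p1]; ring
    rw [h2]
    exact h1
  have d1' : -(qf K F t x * dq s K x y x) ≤ |qf K F t x| * |dq s K x y x| := by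
    rw [← abs_mul]; exact neg_le_abs _
  have d2' : -(qf K F t y * dq s K x y y) ≤ |qf K F t y| * |dq s K x y y| := by
    rw [← abs_mul]; exact neg_le_abs _
  have d3 := mul_le_mul_of_nonneg_left d1 (abs_nonneg (qf K F t x))
  have d4 := mul_le_mul_of_nonneg_left d2 (abs_nonneg (qf K F t y))
  have q1 : (K ^ 2) x x - 1 = p1 K x := rfl
  have q2 : (K ^ 2) y y - 1 = p1 K y := rfl
  rw [q1, q2] at h0
  unfold WR

  generalize Upd.Bxx s K x y = B1 at *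
  generalize Upd.Bxy s K x y = B2 at *
  generalize Upd.Byy s K x y = B3 at *
  generalize dq s K x y x = D1 at *
  generalize dq s K x y y = D2 at *
  linarith

lemma WR_congr {s : ℝ} {K : Matrix ι ι ℝ} {q p p' : ι → ℝ} {x y : ι} (h1 : p x = p' x)
    (h2 : p y = p' y) : WR s K q p x y = WR s K q p' x y := by
  unfold WR; rw [h1, h2]

end Crest.Agent.R62.AvR
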