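import Mathlib
import Crest.Agent.R62.AvR

/-!
R62 (helper758): the centred diagonal functional `∑_{z ∈ F} ((K²)_zz - t)²`, averages.
-/

set_option autoImplicit false
set_option linter.unusedSectionVars false
set_option linter.unusedVariables false

open Matrix Finset

namespace Crest.Agent.R62.AvR

open Crest.Agent.R62.AvBase (OpB)
open Crest.Agent.R62.DiagAv
open Crest.Agent.R62.AvV (dg kk kk_nonneg Vf Vf_nonneg n2_dg_sq Cf cf_good)

variable {ι : Type*} [Fintype ι] [DecidableEq ι]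

/-- diagonal of `K²` -/
def pd (K : Matrix ι ι ℝ) (z : ι) : ℝ := (K ^ 2) z z

lemma fro_Mf {K : Matrix ι ι ℝ} (hK : K.IsSymm) {Λ : ℝ} (hΛ : OpB K Λ) (q : ι → ℝ) :
    fro (Mf K q) ≤ Λ * Sq K q := by
  refine (fro_rank_sum q (fun z x => (K ^ 2) z x) (fun z y => K z y)).trans ?_
  unfold Sq
  rw [Finset.mul_sum]
  refine Finset.sum_le_sum fun z _ => ?_
  have h1 := n2_sq_row hK hΛ z
  calc |q z| * (n2 (fun x => (K ^ 2) z x) * n2 fun y => K z y)
      ≤ |q z| * ((Λ * rr K z) * rr K z) := by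
        refine mul_le_mul_of_nonneg_left ?_ (abs_nonneg _)
        exact mul_le_mul_of_nonneg_right h1 (rr_nonneg K z)
    _ = _ := by ring

/-- `∑_x |M_xx| ≤ Λ ∑ |q| p` -/
lemma sum_Mf_diag {K : Matrix ι ι ℝ} (hK : K.IsSymm) {Λ : ℝ} (hΛ : OpB K Λ) (q : ι → ℝ) :
    ∑ x, |Mf K q x x| ≤ Λ * Sq K q := by
  have h1 : ∀ x, |Mf K q x x| ≤ ∑ z, |q z| * (|(K ^ 2) z x| * |K z x|) := by
    intro x
    refine (Finset.abs_sum_le_sum_abs _ _).trans (le_of_eq ?_)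
    exact Finset.sum_congr rfl fun z _ => by rw [abs_mul, abs_mul]
  refine (Finset.sum_le_sum fun x _ => h1 x).trans ?_
  rw [Finset.sum_comm]
  unfold Sq
  rw [Finset.mul_sum]
  refine Finset.sum_le_sum fun z _ => ?_
  rw [← Finset.mul_sum]
  have h2 := cs (fun x => (K ^ 2) z x) (fun x => K z x)
  have h3 := n2_sq_row hK hΛ z
  calc |q z| * ∑ x, |(K ^ 2) z x| * |K z x|
      ≤ |q z| * ((Λ * rr K z) * rr K z) := by
        refine mul_le_mul_of_nonneg_left (h2.trans ?_) (abs_nonneg _)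
        exact mul_le_mul_of_nonneg_right h3 (rr_nonneg K z)
    _ = _ := by ring

lemma sum_Nf_diag_abs {K : Matrix ι ι ℝ} (hK : K.IsSymm) (q : ι → ℝ) :
    ∑ x, |Nf K q x x| ≤ Sq K q := by
  have h1 : ∀ x, |Nf K q x x| ≤ ∑ z, |q z| * K z x ^ 2 := by
    intro x
    refine (Finset.abs_sum_le_sum_abs _ _).trans (le_of_eq ?_)
    exact Finset.sum_congr rfl fun z _ => by
      rw [abs_mul, ← pow_two, abs_of_nonneg (sq_nonneg (K z x))]
  refine (Finset.sum_le_sum fun x _ => h1 x).trans (le_of_eq ?_)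
  rw [Finset.sum_comm]
  unfold Sq
  refine Finset.sum_congr rfl fun z _ => ?_
  rw [← Finset.mul_sum, rr_sq hK, sq_diag_eq hK]

lemma fro_P {K : Matrix ι ι ℝ} (hK : K.IsSymm) {Λ : ℝ} (hΛ : OpB K Λ) :
    fro (fun x y => (K ^ 2) x y) ≤ Λ * frK K := by
  refine fro_le_of (mul_nonneg hΛ.1 (frK_nonneg K)) ?_
  rw [mul_pow, fro_eq_rr, Finset.mul_sum]
  refine Finset.sum_le_sum fun x _ => ?_
  have h1 := n2_sq_row hK hΛ x
  have h2 := pow_le_pow_left₀ (n2_nonneg _) h1 2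
  rw [n2_sq, mul_pow] at h2
  exact h2

lemma abs_P_sq_le {K : Matrix ι ι ℝ} (hK : K.IsSymm) (x y : ι) :
    (K ^ 2) x y ^ 2 ≤ pd K x * pd K y := by
  have h := AvBase.entry_sq_le (K := K) hK 1 1 x y
  simpa [pd] using h

lemma pd_nonneg {K : Matrix ι ι ℝ} (hK : K.IsSymm) (x : ι) : 0 ≤ pd K x := p_nonneg hK x

lemma pd_row {K : Matrix ι ι ℝ} {F : Finset ι} (hK : K.IsSymm)
    (hF : ∀ i, i ∉ F → ∀ j, K i j = 0) {Λ : ℝ} (hΛ : OpB K Λ) (x : ι) :
    ∑ y, |(K ^ 2) x y| ≤ Real.sqrt F.card * (Λ * rr K x) := by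
  refine (l1_le (F := F) (f := fun y => (K ^ 2) x y) ?_).trans ?_
  · intro y hy
    rw [← Upd.sum_KK hK]
    exact Finset.sum_eq_zero fun v _ => by rw [hF y hy v, mul_zero]
  · exact mul_le_mul_of_nonneg_left (n2_sq_row hK hΛ x) (Real.sqrt_nonneg _)

lemma abs_diag_le_rr {K : Matrix ι ι ℝ} (x : ι) : |K x x| ≤ rr K x := abs_entry_le_rr x x

/-- `∑_xy x_x (K∘K)_xy y_y ≤ L2 |x||y|` -/
lemma Ksq_form {K : Matrix ι ι ℝ} {L2 : ℝ} (hL2 : OpB (Ksq K) L2) (f g : ι → ℝ) :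
    |∑ x, ∑ y, K x y ^ 2 * (f x * g y)| ≤ L2 * (n2 f * n2 g) :=
  opB_form hL2 f g

lemma Ksq_sq {K : Matrix ι ι ℝ} (hK : K.IsSymm) {L2 : ℝ} (hL2 : OpB (Ksq K) L2) (f : ι → ℝ) :
    ∑ z, (∑ x, K z x ^ 2 * f x) ^ 2 ≤ L2 ^ 2 * n2 f ^ 2 := by
  have h := opB_mulVec hL2 f
  have h1 := pow_le_pow_left₀ (n2_nonneg _) h 2
  rw [n2_sq, mul_pow] at h1
  exact h1

/-- `∑_xy ∑_z K_zx² K_zy² f_x f_y = ∑_z (∑_x K_zx² f_x)²` -/
lemma sum_uv {K : Matrix ι ι ℝ} (f : ι → ℝ) :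
    ∑ x, ∑ y, (∑ z, K z x ^ 2 * K z y ^ 2) * (f x * f y)
      = ∑ z, (∑ x, K z x ^ 2 * f x) ^ 2 := by
  have h1 : ∀ x y, (∑ z, K z x ^ 2 * K z y ^ 2) * (f x * f y)
      = ∑ z, (K z x ^ 2 * f x) * (K z y ^ 2 * f y) := by
    intro x y
    rw [Finset.sum_mul]
    exact Finset.sum_congr rfl fun z _ => by ring
  simp_rw [h1]
  rw [Finset.sum_congr rfl fun x _ => Finset.sum_comm, Finset.sum_comm]
  refine Finset.sum_congr rfl fun z _ => ?_
  rw [sum_mul_sum_eq, pow_two]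

section avg

variable {K E : Matrix ι ι ℝ} {F : Finset ι} {w : ι → ι → ℝ} {s Λ L2 η ξ ω : ℝ} {q p : ι → ℝ}

/-- symmetrisation -/
lemma SW_sym (hw : Wt K F w E η ξ ω) (f : ι → ι → ℝ) :
    SW w (fun x y => f x y + f y x) = 2 * SW w f := by
  rw [SW_add, SW_swap hw.symm f]; ring

lemma SW_congr {f g : ι → ι → ℝ} (h : ∀ x y, f x y = g x y) : SW w f = SW w g := by
  unfold SW
  exact Finset.sum_congr rfl fun x _ => Finset.sum_congr rfl fun y _ => by rw [h]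

lemma s1 (hw : Wt K F w E η ξ ω) (hq : ∀ z, z ∉ F → q z = 0) :
    SW w (fun x y => -(q x ^ 2 + q y ^ 2)) ≤ -(2 * (F.card - ξ) * n2 q ^ 2) := by
  have h1 := SW_row hw (f := fun x => q x ^ 2) (fun x => sq_nonneg _)
    (fun x hx => by rw [hq x hx]; norm_num)
  have h2 := SW_sym hw (fun x y => q x ^ 2)
  have h3 : SW w (fun x y => -(q x ^ 2 + q y ^ 2)) = -(SW w (fun x y => q x ^ 2 + q y ^ 2)) := by
    simp only [SW, mul_neg, Finset.sum_neg_distrib]
  rw [h3, h2, n2_sq]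
  linarith

/-- sum over `F × F` of `M` -/
lemma sum_F_Mf (hK : K.IsSymm) (hF : ∀ i, i ∉ F → ∀ j, K i j = 0) (hs : s ^ 2 = 1)
    (hrow : ∀ i ∈ F, ∑ j, K i j = s) (hq : ∀ z, z ∉ F → q z = 0) :
    ∑ x ∈ F, ∑ y ∈ F, Mf K q x y = s * ∑ z, q z := by
  have h1 : ∀ z, ∑ x ∈ F, K z x = ∑ x, K z x := by
    intro z
    refine Finset.sum_subset (Finset.subset_univ _) fun x _ hx => ?_
    rw [← hK.apply z x]; exact hF x hx z
  have h1' : ∀ z, z ∈ F → ∑ x ∈ F, (K ^ 2) z x = 1 := by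
    intro z hz
    have e1 : ∑ x ∈ F, (K ^ 2) z x = ∑ v, K z v * ∑ x ∈ F, K v x := by
      simp_rw [← Upd.sum_KK hK, Finset.mul_sum]
      rw [Finset.sum_comm]
      exact Finset.sum_congr rfl fun v _ => Finset.sum_congr rfl fun x _ => by
        rw [hK.apply v x]
    have e2 : ∀ v, K z v * ∑ x ∈ F, K v x = K z v * s := by
      intro v
      by_cases hv : v ∈ F
      · rw [h1, hrow v hv]
      · rw [← hK.apply z v, hF v hv z]; ring
    rw [e1]
    simp_rw [e2]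
    rw [← Finset.sum_mul, hrow z hz, ← pow_two, hs]
  have h2 : ∑ x ∈ F, ∑ y ∈ F, Mf K q x y
      = ∑ z, q z * ((∑ x ∈ F, (K ^ 2) z x) * (∑ y ∈ F, K z y)) := by
    unfold Mf
    rw [Finset.sum_congr rfl fun x _ => Finset.sum_comm, Finset.sum_comm]
    refine Finset.sum_congr rfl fun z _ => ?_
    rw [Finset.sum_mul_sum, Finset.mul_sum]
    exact Finset.sum_congr rfl fun x _ => by rw [Finset.mul_sum]
  rw [h2, Finset.mul_sum]
  refine Finset.sum_congr rfl fun z _ => ?_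
  by_cases hz : z ∈ F
  · rw [h1, h1' z hz, hrow z hz]; ring
  · rw [hq z hz]; ring

lemma s2 {h2 : ℝ} (hK : K.IsSymm) (hF : ∀ i, i ∉ F → ∀ j, K i j = 0) (hs : s ^ 2 = 1)
    (hrow : ∀ i ∈ F, ∑ j, K i j = s) (hw : Wt K F w E η ξ ω) (hq : ∀ z, z ∉ F → q z = 0)
    (hE : |∑ x, ∑ y, E x y * Mf K q x y| ≤ h2) :
    SW w (fun x y => 4 * (s * (Mf K q x y + Mf K q y x))) ≤ 8 * (|∑ z, q z| + h2) := by
  have e1 : SW w (fun x y => 4 * (s * (Mf K q x y + Mf K q y x))) = 8 * (s * SW w (Mf K q)) := by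
    rw [SW_smul w (fun x y => s * (Mf K q x y + Mf K q y x)),
      SW_smul w (fun x y => (Mf K q x y + Mf K q y x)), SW_sym hw]
    ring
  have e2 := SW_eq hw (Mf K q)
  rw [sum_F_Mf hK hF hs hrow hq] at e2
  have h4 : |SW w (Mf K q)| ≤ |∑ z, q z| + h2 := by
    rw [e2]
    refine (abs_sub _ _).trans (add_le_add (le_of_eq ?_) hE)
    rw [abs_mul, abs_s hs, one_mul]
  rw [e1]
  have h5 : s * SW w (Mf K q) ≤ |SW w (Mf K q)| := by
    refine (le_abs_self _).trans ?_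
    rw [abs_mul, abs_s hs, one_mul]
  linarith

lemma sum_e_le (f : ι → ι → ℝ) :
    ∑ x, ∑ y, (|K x y| + |K x x * K y y|) * |f x y| ≤ (frK K + Vf K) * fro f := by
  have h2 : ∑ x, ∑ y, (|K x y| + |K x x * K y y|) * |f x y|
      = ∑ x, ∑ y, |K x y| * |f x y| + ∑ x, ∑ y, |K x x * K y y| * |f x y| := by
    simp only [add_mul, Finset.sum_add_distrib]
  have h3 := fcs (fun x y => K x y) f
  have h4 := fcs (fun x y => K x x * K y y) f
  have h5 : fro (fun x y => K x x * K y y) = Vf K := by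
    rw [fro_outer (fun x => K x x) (fun x => K x x), ← pow_two]; exact n2_sq _
  rw [h5] at h4
  rw [h2, add_mul]
  exact add_le_add h3 h4

lemma s3 (hK : K.IsSymm) (hΛ : OpB K Λ) (hw : Wt K F w E η ξ ω) :
    SW w (fun x y => 16 * ((|K x y| + |K x x * K y y|) * (|Mf K q x y| + |Mf K q y x|)))
      ≤ 64 * ((frK K + Vf K) * (Λ * Sq K q)) := by
  set f : ι → ι → ℝ := fun x y => (|K x y| + |K x x * K y y|) * |Mf K q x y| with hf
  have h0 : SW w (fun x y => 16 * ((|K x y| + |K x x * K y y|)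
      * (|Mf K q x y| + |Mf K q y x|))) = 32 * SW w f := by
    have h1 : ∀ x y, 16 * ((|K x y| + |K x x * K y y|) * (|Mf K q x y| + |Mf K q y x|))
        = 16 * (f x y + f y x) := by
      intro x y
      simp only [hf]
      rw [hK.apply x y, mul_comm (K y y) (K x x)]
      ring
    rw [SW_congr h1, SW_smul w (fun x y => f x y + f y x), SW_sym hw]
    ring
  have h1 := SW_le_sum hw.le_two (f := f)
    (fun x y => mul_nonneg (add_nonneg (abs_nonneg _) (abs_nonneg _)) (abs_nonneg _))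
  have h2 := sum_e_le (K := K) (Mf K q)
  have h3 := mul_le_mul_of_nonneg_left (fro_Mf hK hΛ q)
    (add_nonneg (frK_nonneg K) (Vf_nonneg K))
  rw [h0]
  linarith

lemma s4 (hK : K.IsSymm) (hF : ∀ i, i ∉ F → ∀ j, K i j = 0) (hΛ : OpB K Λ)
    (hw : Wt K F w E η ξ ω) :
    SW w (fun x y => 13 * (|K y y| * |Mf K q x x| + |K x x| * |Mf K q y y|))
      ≤ 52 * (Real.sqrt F.card * n2 (dg K) * (Λ * Sq K q)) := by
  set f : ι → ι → ℝ := fun x y => |Mf K q x x| * |K y y| with hf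
  have h0 : SW w (fun x y => 13 * (|K y y| * |Mf K q x x| + |K x x| * |Mf K q y y|))
      = 26 * SW w f := by
    have h1 : ∀ x y, 13 * (|K y y| * |Mf K q x x| + |K x x| * |Mf K q y y|)
        = 13 * (f x y + f y x) := by
      intro x y; simp only [hf]; ring
    rw [SW_congr h1, SW_smul w (fun x y => f x y + f y x), SW_sym hw]
    ring
  have h1 := SW_le_sum hw.le_two (f := f) (fun x y => mul_nonneg (abs_nonneg _) (abs_nonneg _))
  have h2 : ∑ x, ∑ y, f x y = (∑ x, |Mf K q x x|) * ∑ y, |K y y| := sum_mul_sum_eq _ _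
  have h3 := sum_Mf_diag hK hΛ q
  have h4 := l1_le (F := F) (f := dg K) (fun y hy => hF y hy y)
  have h5 : (∑ x, |Mf K q x x|) * ∑ y, |K y y|
      ≤ (Λ * Sq K q) * (Real.sqrt F.card * n2 (dg K)) :=
    mul_le_mul h3 h4 (Finset.sum_nonneg fun _ _ => abs_nonneg _)
      (mul_nonneg hΛ.1 (Sq_nonneg K q))
  rw [h0]
  rw [h2] at h1
  linarith

lemma s5 (hK : K.IsSymm) (hΛ : OpB K Λ) (hw : Wt K F w E η ξ ω) :
    SW w (fun x y => 4 * (|(K ^ 2) x y| * (13 * (|K y y| * |Nf K q x x|) + 19 * |Nf K q x y|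
      + 13 * (|K x x| * |Nf K q y y|))))
      ≤ (152 + 208 * n2 (dg K)) * (Λ * frK K * Sq K q) := by
  set f : ι → ι → ℝ := fun x y => |(K ^ 2) x y| * (|Nf K q x x| * |K y y|) with hf
  set g : ι → ι → ℝ := fun x y => |(K ^ 2) x y| * |Nf K q x y| with hg
  have h0 : SW w (fun x y => 4 * (|(K ^ 2) x y| * (13 * (|K y y| * |Nf K q x x|)
      + 19 * |Nf K q x y| + 13 * (|K x x| * |Nf K q y y|)))) = 104 * SW w f + 76 * SW w g := by
    have h1 : ∀ x y, 4 * (|(K ^ 2) x y| * (13 * (|K y y| * |Nf K q x x|)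
      + 19 * |Nf K q x y| + 13 * (|K x x| * |Nf K q y y|)))
        = 52 * (f x y + f y x) + 76 * g x y := by
      intro x y; simp only [hf, hg]
      rw [(hK.pow 2).apply x y]
      ring
    rw [SW_congr h1, SW_add w (fun x y => 52 * (f x y + f y x)) (fun x y => 76 * g x y),
      SW_smul w (fun x y => f x y + f y x), SW_sym hw, SW_smul]
    ring
  have h1 := SW_le_sum hw.le_two (f := f) (fun x y =>
    mul_nonneg (abs_nonneg _) (mul_nonneg (abs_nonneg _) (abs_nonneg _)))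
  have h2 := SW_le_sum hw.le_two (f := g) (fun x y => mul_nonneg (abs_nonneg _) (abs_nonneg _))
  have hP := fro_P hK hΛ
  have h3 : ∑ x, ∑ y, g x y ≤ Λ * frK K * Sq K q :=
    (fcs (fun x y => (K ^ 2) x y) (Nf K q)).trans
      (mul_le_mul hP (fro_Nf K hK q) (fro_nonneg _) (mul_nonneg hΛ.1 (frK_nonneg K)))
  have h4 : ∑ x, ∑ y, f x y ≤ Λ * frK K * (Sq K q * n2 (dg K)) := by
    have e1 := fcs (fun x y => (K ^ 2) x y) (fun x y => Nf K q x x * K y y)
    have e2 : ∑ x, ∑ y, f x y = ∑ x, ∑ y, |(K ^ 2) x y| * |Nf K q x x * K y y| :=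
      Finset.sum_congr rfl fun x _ => Finset.sum_congr rfl fun y _ => by
        simp only [hf]; rw [abs_mul]
    have e3 : fro (fun x y => Nf K q x x * K y y) = n2 (fun x => Nf K q x x) * n2 (dg K) :=
      fro_outer _ _
    have e4 : n2 (fun x => Nf K q x x) ≤ Sq K q :=
      (n2_le_l1 _).trans (sum_Nf_diag_abs hK q)
    rw [e2]
    refine e1.trans ?_
    rw [e3]
    exact mul_le_mul hP (mul_le_mul_of_nonneg_right e4 (n2_nonneg _))
      (mul_nonneg (n2_nonneg _) (n2_nonneg _)) (mul_nonneg hΛ.1 (frK_nonneg K))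
  rw [h0]
  linarith

lemma s6 (hK : K.IsSymm) (hF : ∀ i, i ∉ F → ∀ j, K i j = 0) (hL2 : OpB (Ksq K) L2)
    (hw : Wt K F w E η ξ ω) (hp : ∀ z, z ∉ F → p z = 0) :
    SW w (fun x y => 2 * (p x * Nf K q y y + p y * Nf K q x x))
      ≤ 4 * ((∑ z, p z) * ∑ z, q z * (K ^ 2) z z) + 4 * (η * (n2 p * (L2 * n2 q))) := by
  set f : ι → ι → ℝ := fun x y => p x * Nf K q y y with hf
  have h0 : SW w (fun x y => 2 * (p x * Nf K q y y + p y * Nf K q x x)) = 4 * SW w f := by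
    rw [SW_smul w (fun x y => f x y + f y x), SW_sym hw]; ring
  have h4 := SW_eq hw f
  have h5 : ∑ x ∈ F, ∑ y ∈ F, f x y = (∑ z, p z) * ∑ z, q z * (K ^ 2) z z := by
    rw [hf, ← Finset.sum_mul_sum, ← sum_Nf_diag hK]
    congr 1
    · exact Finset.sum_subset (Finset.subset_univ _) fun x _ hx => hp x hx
    · refine Finset.sum_subset (Finset.subset_univ _) fun x _ hx => ?_
      unfold Nf
      refine Finset.sum_eq_zero fun z _ => ?_
      rw [← hK.apply z x, hF x hx z]; ring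
  have h7 := opB_form hw.opb p (fun x => Nf K q x x)
  have h8 : |∑ x, ∑ y, E x y * f x y| ≤ η * (n2 p * (L2 * n2 q)) := by
    refine h7.trans (mul_le_mul_of_nonneg_left ?_ hw.opb.1)
    exact mul_le_mul_of_nonneg_left (n2_Nf_diag hK hL2 q) (n2_nonneg _)
  have h10 := neg_abs_le (∑ x, ∑ y, E x y * f x y)
  rw [h0, h4, h5]
  linarith

lemma s7 (hK : K.IsSymm) (hL2 : OpB (Ksq K) L2) (hw : Wt K F w E η ξ ω) :
    SW w (fun x y => 40 * ((|K x y| + |K x x * K y y|)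
      * (|p x| * |Nf K q y y| + |p y| * |Nf K q x x|)))
      ≤ 160 * ((frK K + Vf K) * (n2 p * (L2 * n2 q))) := by
  set f : ι → ι → ℝ := fun x y => (|K x y| + |K x x * K y y|) * |p x * Nf K q y y| with hf
  have h0 : SW w (fun x y => 40 * ((|K x y| + |K x x * K y y|)
      * (|p x| * |Nf K q y y| + |p y| * |Nf K q x x|))) = 80 * SW w f := by
    have h1 : ∀ x y, 40 * ((|K x y| + |K x x * K y y|)
      * (|p x| * |Nf K q y y| + |p y| * |Nf K q x x|)) = 40 * (f x y + f y x) := by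
      intro x y; simp only [hf]
      rw [hK.apply x y, mul_comm (K y y) (K x x), abs_mul (p x), abs_mul (p y)]
      ring
    rw [SW_congr h1, SW_smul w (fun x y => f x y + f y x), SW_sym hw]
    ring
  have h1 := SW_le_sum hw.le_two (f := f) (fun x y =>
    mul_nonneg (add_nonneg (abs_nonneg _) (abs_nonneg _)) (abs_nonneg _))
  have h2 := sum_e_le (K := K) (fun x y => p x * Nf K q y y)
  rw [fro_outer p (fun y => Nf K q y y)] at h2
  have h3 : (frK K + Vf K) * (n2 p * n2 (fun y => Nf K q y y))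
      ≤ (frK K + Vf K) * (n2 p * (L2 * n2 q)) :=
    mul_le_mul_of_nonneg_left (mul_le_mul_of_nonneg_left (n2_Nf_diag hK hL2 q) (n2_nonneg _))
      (add_nonneg (frK_nonneg K) (Vf_nonneg K))
  rw [h0]
  linarith

lemma s8 (hK : K.IsSymm) (hw : Wt K F w E η ξ ω) :
    SW w (fun x y => 52 * ((|K y y| * |p x| + |K x x| * |p y|) * |Nf K q x y|))
      ≤ 208 * (n2 p * n2 (dg K) * Sq K q) := by
  set f : ι → ι → ℝ := fun x y => |p x * K y y| * |Nf K q x y| with hf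
  have h0 : SW w (fun x y => 52 * ((|K y y| * |p x| + |K x x| * |p y|) * |Nf K q x y|))
      = 104 * SW w f := by
    have h1 : ∀ x y, 52 * ((|K y y| * |p x| + |K x x| * |p y|) * |Nf K q x y|)
        = 52 * (f x y + f y x) := by
      intro x y; simp only [hf]
      rw [Nf_symm K q y x, abs_mul (p x), abs_mul (p y)]
      ring
    rw [SW_congr h1, SW_smul w (fun x y => f x y + f y x), SW_sym hw]
    ring
  have h1 := SW_le_sum hw.le_two (f := f) (fun x y => mul_nonneg (abs_nonneg _) (abs_nonneg _))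
  have h2 := fcs (fun x y => p x * K y y) (Nf K q)
  have h3 : fro (fun x y => p x * K y y) = n2 p * n2 (dg K) := fro_outer _ _
  rw [h3] at h2
  have h4 := mul_le_mul_of_nonneg_left (fro_Nf K hK q)
    (mul_nonneg (n2_nonneg p) (n2_nonneg (dg K)))
  rw [h0]
  linarith

lemma s9 (hK : K.IsSymm) (hL2 : OpB (Ksq K) L2) (hw : Wt K F w E η ξ ω) :
    SW w (fun x y => 21 * (K y y ^ 2 * |p x| * |Nf K q x x| + K x x ^ 2 * |p y| * |Nf K q y y|))
      ≤ 84 * (Vf K * (n2 p * (L2 * n2 q))) := by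
  set f : ι → ι → ℝ := fun x y => (|p x| * |Nf K q x x|) * K y y ^ 2 with hf
  have h0 : SW w (fun x y => 21 * (K y y ^ 2 * |p x| * |Nf K q x x|
      + K x x ^ 2 * |p y| * |Nf K q y y|)) = 42 * SW w f := by
    have h1 : ∀ x y, 21 * (K y y ^ 2 * |p x| * |Nf K q x x| + K x x ^ 2 * |p y| * |Nf K q y y|)
        = 21 * (f x y + f y x) := by
      intro x y; simp only [hf]; ring
    rw [SW_congr h1, SW_smul w (fun x y => f x y + f y x), SW_sym hw]
    ring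
  have h1 := SW_le_sum hw.le_two (f := f) (fun x y =>
    mul_nonneg (mul_nonneg (abs_nonneg _) (abs_nonneg _)) (sq_nonneg _))
  have h2 : ∑ x, ∑ y, f x y = (∑ x, |p x| * |Nf K q x x|) * Vf K := sum_mul_sum_eq _ _
  have h3 := (cs p (fun x => Nf K q x x)).trans
    (mul_le_mul_of_nonneg_left (n2_Nf_diag hK hL2 q) (n2_nonneg _))
  have h4 := mul_le_mul_of_nonneg_right h3 (Vf_nonneg K)
  rw [h0]
  rw [h2] at h1
  linarith

/-- `∑_y (|K_xy| + |K_xx K_yy|) ≤ sqrt ρ (Λ + V)` -/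
lemma row_e (hK : K.IsSymm) (hF : ∀ i, i ∉ F → ∀ j, K i j = 0) (hΛ : OpB K Λ) (x : ι) :
    ∑ y, (|K x y| + |K x x * K y y|) ≤ Real.sqrt F.card * (Λ + Vf K) := by
  rw [Finset.sum_add_distrib]
  have h1 := (row_l1 hK hF x).trans
    (mul_le_mul_of_nonneg_left (rr_le hK hΛ x) (Real.sqrt_nonneg (F.card : ℝ)))
  have h2 : ∑ y, |K x x * K y y| ≤ Real.sqrt F.card * Vf K := by
    have e1 : ∑ y, |K x x * K y y| = |K x x| * ∑ y, |K y y| := by
      rw [Finset.mul_sum]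
      exact Finset.sum_congr rfl fun y _ => abs_mul _ _
    have e2 : |K x x| ≤ n2 (dg K) := abs_le_n2 (dg K) x
    have e3 := l1_le (F := F) (f := dg K) (fun y hy => hF y hy y)
    rw [e1]
    refine (mul_le_mul e2 e3 (Finset.sum_nonneg fun _ _ => abs_nonneg _)
      (n2_nonneg _)).trans (le_of_eq ?_)
    rw [← n2_dg_sq]; ring
  linarith

lemma s10 (hK : K.IsSymm) (hF : ∀ i, i ∉ F → ∀ j, K i j = 0) (hΛ : OpB K Λ)
    (hw : Wt K F w E η ξ ω) (hp : ∀ z, z ∉ F → p z = 0) :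
    SW w (fun x y => |q x| * (16 * ((|K x y| + |K x x * K y y|) * ((K ^ 2) x x + |p x|))
        + 60 * (|K x x| * |(K ^ 2) x y|) + 50 * (K x x ^ 2 * |p y|))
     + |q y| * (16 * ((|K x y| + |K x x * K y y|) * ((K ^ 2) y y + |p y|))
        + 60 * (|K y y| * |(K ^ 2) x y|) + 50 * (K y y ^ 2 * |p x|)))
      ≤ 64 * (Real.sqrt F.card * (Λ + Vf K) * (Sq K q + n2 q * n2 p))
        + 240 * (Real.sqrt F.card * (Λ * Sq K q))
        + 200 * (Real.sqrt F.card * Vf K * (n2 q * n2 p)) := by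
  set f : ι → ι → ℝ := fun x y => |q x| * (16 * ((|K x y| + |K x x * K y y|)
      * ((K ^ 2) x x + |p x|)) + 60 * (|K x x| * |(K ^ 2) x y|) + 50 * (K x x ^ 2 * |p y|))
    with hf
  have hsr : 0 ≤ Real.sqrt (F.card : ℝ) := Real.sqrt_nonneg _
  have hfn : ∀ x y, 0 ≤ f x y := by
    intro x y
    have := p_nonneg hK x
    simp only [hf]
    positivity
  have h0 : SW w (fun x y => |q x| * (16 * ((|K x y| + |K x x * K y y|)
        * ((K ^ 2) x x + |p x|)) + 60 * (|K x x| * |(K ^ 2) x y|) + 50 * (K x x ^ 2 * |p y|))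
     + |q y| * (16 * ((|K x y| + |K x x * K y y|) * ((K ^ 2) y y + |p y|))
        + 60 * (|K y y| * |(K ^ 2) x y|) + 50 * (K y y ^ 2 * |p x|))) = 2 * SW w f := by
    have h1 : ∀ x y, |q x| * (16 * ((|K x y| + |K x x * K y y|)
        * ((K ^ 2) x x + |p x|)) + 60 * (|K x x| * |(K ^ 2) x y|) + 50 * (K x x ^ 2 * |p y|))
     + |q y| * (16 * ((|K x y| + |K x x * K y y|) * ((K ^ 2) y y + |p y|))
        + 60 * (|K y y| * |(K ^ 2) x y|) + 50 * (K y y ^ 2 * |p x|)) = f x y + f y x := by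
      intro x y; simp only [hf]
      rw [hK.apply x y, (hK.pow 2).apply x y, mul_comm (K y y) (K x x)]
    rw [SW_congr h1, SW_sym hw]
  have h1 := SW_le_sum hw.le_two (f := f) hfn
  -- the three sums
  have hx : ∀ x, ∑ y, f x y ≤ 16 * (|q x| * ((K ^ 2) x x + |p x|)
        * (Real.sqrt F.card * (Λ + Vf K)))
      + 60 * (|q x| * rr K x ^ 2 * (Real.sqrt F.card * Λ))
      + 50 * (K x x ^ 2 * |q x| * ∑ y, |p y|) := by
    intro x
    have e1 : ∑ y, f x y = 16 * (|q x| * ((K ^ 2) x x + |p x|)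
          * ∑ y, (|K x y| + |K x x * K y y|))
        + 60 * (|q x| * |K x x| * ∑ y, |(K ^ 2) x y|)
        + 50 * (K x x ^ 2 * |q x| * ∑ y, |p y|) := by
      simp only [hf, Finset.mul_sum, ← Finset.sum_add_distrib]
      exact Finset.sum_congr rfl fun y _ => by ring
    rw [e1]
    have e2 := mul_le_mul_of_nonneg_left (row_e hK hF hΛ x)
      (mul_nonneg (abs_nonneg (q x)) (add_nonneg (p_nonneg hK x) (abs_nonneg (p x))))
    have e3 : |q x| * |K x x| * ∑ y, |(K ^ 2) x y|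
        ≤ |q x| * rr K x ^ 2 * (Real.sqrt F.card * Λ) := by
      have g1 := pd_row hK hF hΛ x
      have g2 : |q x| * |K x x| ≤ |q x| * rr K x :=
        mul_le_mul_of_nonneg_left (abs_diag_le_rr x) (abs_nonneg _)
      refine (mul_le_mul g2 g1 (Finset.sum_nonneg fun _ _ => abs_nonneg _)
        (mul_nonneg (abs_nonneg _) (rr_nonneg K x))).trans (le_of_eq ?_)
      ring
    linarith
  have hsum : ∑ x, ∑ y, f x y ≤ 16 * ((Sq K q + n2 q * n2 p) * (Real.sqrt F.card * (Λ + Vf K)))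
      + 60 * (Sq K q * (Real.sqrt F.card * Λ))
      + 50 * ((Vf K * n2 q) * (Real.sqrt F.card * n2 p)) := by
    refine (Finset.sum_le_sum fun x _ => hx x).trans ?_
    rw [Finset.sum_add_distrib, Finset.sum_add_distrib, ← Finset.mul_sum, ← Finset.mul_sum,
      ← Finset.mul_sum, ← Finset.sum_mul, ← Finset.sum_mul, ← Finset.sum_mul]
    have g1 : ∑ x, |q x| * ((K ^ 2) x x + |p x|) ≤ Sq K q + n2 q * n2 p := by
      have : ∑ x, |q x| * ((K ^ 2) x x + |p x|) = Sq K q + ∑ x, |q x| * |p x| := by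
        unfold Sq
        rw [← Finset.sum_add_distrib]
        exact Finset.sum_congr rfl fun x _ => by rw [rr_sq hK]; ring
      rw [this]
      exact add_le_add le_rfl (cs q p)
    have g2 : ∑ x, |q x| * rr K x ^ 2 = Sq K q := rfl
    have g3 : ∑ x, K x x ^ 2 * |q x| ≤ Vf K * n2 q := by
      unfold Vf
      rw [Finset.sum_mul]
      exact Finset.sum_le_sum fun x _ => mul_le_mul_of_nonneg_left (abs_le_n2 q x) (sq_nonneg _)
    have g4 := l1_le (F := F) (f := p) hp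
    have g5 : 0 ≤ Real.sqrt (F.card : ℝ) * (Λ + Vf K) :=
      mul_nonneg hsr (add_nonneg hΛ.1 (Vf_nonneg K))
    have g6 := mul_le_mul_of_nonneg_right g1 g5
    have g7 : (∑ x, K x x ^ 2 * |q x|) * ∑ y, |p y| ≤ (Vf K * n2 q) * (Real.sqrt F.card * n2 p) :=
      mul_le_mul g3 g4 (Finset.sum_nonneg fun _ _ => abs_nonneg _)
        (mul_nonneg (Vf_nonneg K) (n2_nonneg _))
    rw [g2]
    linarith
  rw [h0]
  nlinarith

lemma two_sum (A B C D : ι → ℝ) :
    ∑ x, ∑ y, (21 * (A x * B y) + 32 * (C x * D y))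
      = 21 * ((∑ x, A x) * ∑ y, B y) + 32 * ((∑ x, C x) * ∑ y, D y) := by
  rw [← sum_mul_sum_eq, ← sum_mul_sum_eq]
  simp only [Finset.mul_sum, ← Finset.sum_add_distrib]

lemma s11 (hK : K.IsSymm) (hΛ : OpB K Λ) (hL2 : OpB (Ksq K) L2) (hw : Wt K F w E η ξ ω) :
    SW w (fun x y => 108 * ∑ z, ((21 * (K y y ^ 2 * K z x ^ 2) + 32 * K z y ^ 2)
        * (K ^ 2) z x ^ 2
      + (21 * (K x x ^ 2 * K z y ^ 2) + 32 * K z x ^ 2) * (K ^ 2) z y ^ 2))
      ≤ 432 * (21 * (Vf K * L2) + 32 * Λ ^ 2) * n2 (pd K) ^ 2 := by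
  set f : ι → ι → ℝ := fun x y => ∑ z, (21 * (K y y ^ 2 * K z x ^ 2) + 32 * K z y ^ 2)
    * (K ^ 2) z x ^ 2 with hf
  have h0 : SW w (fun x y => 108 * ∑ z, ((21 * (K y y ^ 2 * K z x ^ 2) + 32 * K z y ^ 2)
        * (K ^ 2) z x ^ 2
      + (21 * (K x x ^ 2 * K z y ^ 2) + 32 * K z x ^ 2) * (K ^ 2) z y ^ 2)) = 216 * SW w f := by
    have h1 : ∀ x y, 108 * ∑ z, ((21 * (K y y ^ 2 * K z x ^ 2) + 32 * K z y ^ 2)
        * (K ^ 2) z x ^ 2
      + (21 * (K x x ^ 2 * K z y ^ 2) + 32 * K z x ^ 2) * (K ^ 2) z y ^ 2)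
        = 108 * (f x y + f y x) := by
      intro x y; simp only [hf]; rw [Finset.sum_add_distrib]
    rw [SW_congr h1, SW_smul w (fun x y => f x y + f y x), SW_sym hw]
    ring
  have h1 := SW_le_sum hw.le_two (f := f) (fun x y => Finset.sum_nonneg fun z _ => by positivity)
  have h2 : ∑ x, ∑ y, f x y = 21 * ((∑ z, ∑ x, K z x ^ 2 * (K ^ 2) z x ^ 2) * Vf K)
      + 32 * ∑ z, (∑ y, K z y ^ 2) * ∑ x, (K ^ 2) z x ^ 2 := by
    have e1 : ∀ x y, f x y = ∑ z, (21 * (K z x ^ 2 * (K ^ 2) z x ^ 2 * K y y ^ 2)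
        + 32 * ((K ^ 2) z x ^ 2 * K z y ^ 2)) := by
      intro x y; simp only [hf]
      exact Finset.sum_congr rfl fun z _ => by ring
    simp_rw [e1]
    rw [Finset.sum_congr rfl fun x _ => Finset.sum_comm, Finset.sum_comm]
    unfold Vf
    rw [Finset.sum_mul, Finset.mul_sum, Finset.mul_sum, ← Finset.sum_add_distrib]
    refine Finset.sum_congr rfl fun z _ => ?_
    rw [two_sum (fun x => K z x ^ 2 * (K ^ 2) z x ^ 2) (fun y => K y y ^ 2)
      (fun x => (K ^ 2) z x ^ 2) (fun y => K z y ^ 2)]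
    ring
  have hP2 : n2 (pd K) ^ 2 = ∑ z, pd K z ^ 2 := n2_sq _
  have h3 : ∑ z, ∑ x, K z x ^ 2 * (K ^ 2) z x ^ 2 ≤ L2 * n2 (pd K) ^ 2 := by
    have e1 : ∑ z, ∑ x, K z x ^ 2 * (K ^ 2) z x ^ 2
        ≤ ∑ z, ∑ x, K z x ^ 2 * (pd K z * pd K x) :=
      Finset.sum_le_sum fun z _ => Finset.sum_le_sum fun x _ =>
        mul_le_mul_of_nonneg_left (abs_P_sq_le hK z x) (sq_nonneg _)
    refine e1.trans ((le_abs_self _).trans ((Ksq_form hL2 (pd K) (pd K)).trans (le_of_eq ?_)))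
    ring
  have h4 : ∑ z, (∑ y, K z y ^ 2) * ∑ x, (K ^ 2) z x ^ 2 ≤ Λ ^ 2 * n2 (pd K) ^ 2 := by
    rw [hP2, Finset.mul_sum]
    refine Finset.sum_le_sum fun z _ => ?_
    have e1 : ∑ y, K z y ^ 2 = pd K z := (sq_diag_eq hK z).symm
    have e2 : ∑ x, (K ^ 2) z x ^ 2 ≤ Λ ^ 2 * pd K z := by
      have g1 := pow_le_pow_left₀ (n2_nonneg _) (n2_sq_row hK hΛ z) 2
      rw [n2_sq, mul_pow, rr_sq hK] at g1
      exact g1
    rw [e1]
    calc pd K z * ∑ x, (K ^ 2) z x ^ 2 ≤ pd K z * (Λ ^ 2 * pd K z) :=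
          mul_le_mul_of_nonneg_left e2 (pd_nonneg hK z)
      _ = _ := by ring
  have h5 := mul_le_mul_of_nonneg_right h3 (Vf_nonneg K)
  rw [h0]
  rw [h2] at h1
  nlinarith

lemma sum_a2_pd (hK : K.IsSymm) (f : ι → ℝ) (hf : ∀ x, 0 ≤ f x) :
    ∑ y, K y y ^ 2 * f y ≤ Vf K * n2 f := by
  unfold Vf
  rw [Finset.sum_mul]
  exact Finset.sum_le_sum fun x _ => mul_le_mul_of_nonneg_left
    ((le_abs_self _).trans (abs_le_n2 f x)) (sq_nonneg _)

/-- generic bound: `∑ (170 b² k_x + 361 ∑u²v² + 170 a² k_y) f_x f_y` -/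
lemma sum_quart (hK : K.IsSymm) (hL2 : OpB (Ksq K) L2) (f : ι → ℝ) (hf : ∀ x, 0 ≤ f x) :
    ∑ x, ∑ y, (170 * (K y y ^ 2 * kk K x) + 361 * (∑ z, K z x ^ 2 * K z y ^ 2)
      + 170 * (K x x ^ 2 * kk K y)) * (f x * f y)
      ≤ (340 * (n2 (kk K) * Vf K) + 361 * L2 ^ 2) * n2 f ^ 2 := by
  have e1 : ∑ x, ∑ y, (170 * (K y y ^ 2 * kk K x) + 361 * (∑ z, K z x ^ 2 * K z y ^ 2)
      + 170 * (K x x ^ 2 * kk K y)) * (f x * f y)
      = 340 * ((∑ x, kk K x * f x) * ∑ y, K y y ^ 2 * f y)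
        + 361 * ∑ x, ∑ y, (∑ z, K z x ^ 2 * K z y ^ 2) * (f x * f y) := by
    have g1 : (∑ x, kk K x * f x) * ∑ y, K y y ^ 2 * f y
        = ∑ x, ∑ y, (kk K x * f x) * (K y y ^ 2 * f y) := (sum_mul_sum_eq _ _).symm
    have g2 : (∑ x, kk K x * f x) * ∑ y, K y y ^ 2 * f y
        = ∑ x, ∑ y, (K x x ^ 2 * f x) * (kk K y * f y) := by
      rw [sum_mul_sum_eq, mul_comm]
    have g3 : 340 * ((∑ x, kk K x * f x) * ∑ y, K y y ^ 2 * f y)
        = 170 * (∑ x, ∑ y, (kk K x * f x) * (K y y ^ 2 * f y))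
          + 170 * (∑ x, ∑ y, (K x x ^ 2 * f x) * (kk K y * f y)) := by
      rw [← g1, ← g2]; ring
    rw [g3]
    simp only [Finset.mul_sum, ← Finset.sum_add_distrib]
    exact Finset.sum_congr rfl fun x _ => Finset.sum_congr rfl fun y _ => by
      simp only [Finset.sum_mul, Finset.mul_sum, Finset.sum_add_distrib, add_mul]
      ring_nf
  rw [e1, sum_uv]
  have h1 : ∑ x, kk K x * f x ≤ n2 (kk K) * n2 f := by
    refine le_trans (le_of_eq ?_) (cs (kk K) f)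
    exact Finset.sum_congr rfl fun x _ => by
      rw [abs_of_nonneg (kk_nonneg K x), abs_of_nonneg (hf x)]
  have h2 := sum_a2_pd hK f hf
  have h3 := Ksq_sq hK hL2 f
  have h4 : (∑ x, kk K x * f x) * ∑ y, K y y ^ 2 * f y
      ≤ (n2 (kk K) * n2 f) * (Vf K * n2 f) :=
    mul_le_mul h1 h2 (Finset.sum_nonneg fun y _ => mul_nonneg (sq_nonneg _) (hf y))
      (mul_nonneg (n2_nonneg _) (n2_nonneg _))
  have h5 : (n2 (kk K) * n2 f) * (Vf K * n2 f) = (n2 (kk K) * Vf K) * n2 f ^ 2 := by ring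
  rw [h5] at h4
  linarith

lemma s12 (hK : K.IsSymm) (hL2 : OpB (Ksq K) L2) (hw : Wt K F w E η ξ ω) :
    SW w (fun x y => 324 * ((170 * (K y y ^ 2 * kk K x) + 361 * (∑ z, K z x ^ 2 * K z y ^ 2)
      + 170 * (K x x ^ 2 * kk K y)) * (K ^ 2) x y ^ 2))
      ≤ 648 * ((340 * (n2 (kk K) * Vf K) + 361 * L2 ^ 2) * n2 (pd K) ^ 2) := by
  set g : ι → ι → ℝ := fun x y => (170 * (K y y ^ 2 * kk K x)
    + 361 * (∑ z, K z x ^ 2 * K z y ^ 2) + 170 * (K x x ^ 2 * kk K y)) with hg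
  have hg0 : ∀ x y, 0 ≤ g x y := by
    intro x y
    have h1 := kk_nonneg K x
    have h2 := kk_nonneg K y
    have h3 : 0 ≤ ∑ z, K z x ^ 2 * K z y ^ 2 := Finset.sum_nonneg fun z _ => by positivity
    simp only [hg]; positivity
  rw [SW_smul w (fun x y => g x y * (K ^ 2) x y ^ 2)]
  have h1 : SW w (fun x y => g x y * (K ^ 2) x y ^ 2)
      ≤ SW w (fun x y => g x y * (pd K x * pd K y)) :=
    SW_mono hw.nonneg fun x y _ => mul_le_mul_of_nonneg_left (abs_P_sq_le hK x y) (hg0 x y)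
  have h2 := SW_le_sum hw.le_two (f := fun x y => g x y * (pd K x * pd K y)) (fun x y =>
    mul_nonneg (hg0 x y) (mul_nonneg (pd_nonneg hK x) (pd_nonneg hK y)))
  have h3 := sum_quart hK hL2 (pd K) (pd_nonneg hK)
  linarith

lemma s15 (hK : K.IsSymm) (hL2 : OpB (Ksq K) L2) (hw : Wt K F w E η ξ ω) :
    SW w (fun x y => 27 / 4 * ((170 * (K y y ^ 2 * kk K x) + 361 * (∑ z, K z x ^ 2 * K z y ^ 2)
      + 170 * (K x x ^ 2 * kk K y)) * (|p x| * |p y|)))
      ≤ 27 / 2 * ((340 * (n2 (kk K) * Vf K) + 361 * L2 ^ 2) * n2 p ^ 2) := by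
  set g : ι → ι → ℝ := fun x y => (170 * (K y y ^ 2 * kk K x)
    + 361 * (∑ z, K z x ^ 2 * K z y ^ 2) + 170 * (K x x ^ 2 * kk K y)) with hg
  have hg0 : ∀ x y, 0 ≤ g x y := by
    intro x y
    have h1 := kk_nonneg K x
    have h2 := kk_nonneg K y
    have h3 : 0 ≤ ∑ z, K z x ^ 2 * K z y ^ 2 := Finset.sum_nonneg fun z _ => by positivity
    simp only [hg]; positivity
  rw [SW_smul w (fun x y => g x y * (|p x| * |p y|))]
  have h2 := SW_le_sum hw.le_two (f := fun x y => g x y * (|p x| * |p y|)) (fun x y =>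
    mul_nonneg (hg0 x y) (mul_nonneg (abs_nonneg _) (abs_nonneg _)))
  have h3 := sum_quart hK hL2 (fun x => |p x|) (fun x => abs_nonneg _)
  rw [n2_abs] at h3
  linarith

lemma s13 (hK : K.IsSymm) (hΛ : OpB K Λ) (hw : Wt K F w E η ξ ω) :
    SW w (fun x y => 81 / 64 * ((1 + 340 * (|K x y| + |K x x * K y y|))
      * (kk K y * p x ^ 2 + kk K x * p y ^ 2)))
      ≤ 81 / 32 * (1 + ω) * ((∑ x, kk K x) * n2 p ^ 2)
        + 1722 * ((Λ + Vf K) * n2 (kk K) * n2 p ^ 2) := by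
  set f1 : ι → ι → ℝ := fun x y => p x ^ 2 * kk K y with hf1
  set f2 : ι → ι → ℝ := fun x y => (|K x y| + |K x x * K y y|) * (p x ^ 2 * kk K y) with hf2
  have h0 : SW w (fun x y => 81 / 64 * ((1 + 340 * (|K x y| + |K x x * K y y|))
      * (kk K y * p x ^ 2 + kk K x * p y ^ 2)))
      = 81 / 32 * SW w f1 + 27540 / 32 * SW w f2 := by
    have h1 : ∀ x y, 81 / 64 * ((1 + 340 * (|K x y| + |K x x * K y y|))
      * (kk K y * p x ^ 2 + kk K x * p y ^ 2))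
        = 81 / 64 * (f1 x y + f1 y x) + 27540 / 64 * (f2 x y + f2 y x) := by
      intro x y; simp only [hf1, hf2]
      rw [hK.apply x y, mul_comm (K y y) (K x x)]
      ring
    rw [SW_congr h1, SW_add w (fun x y => 81 / 64 * (f1 x y + f1 y x))
        (fun x y => 27540 / 64 * (f2 x y + f2 y x)),
      SW_smul w (fun x y => f1 x y + f1 y x), SW_sym hw,
      SW_smul w (fun x y => f2 x y + f2 y x), SW_sym hw]
    ring
  have h1 := SW_le_sum hw.le (f := f1) (fun x y => mul_nonneg (sq_nonneg _) (kk_nonneg K y))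
  have h1' : ∑ x, ∑ y, f1 x y = (∑ x, kk K x) * n2 p ^ 2 := by
    rw [n2_sq, mul_comm, ← sum_mul_sum_eq]
  have h2 := SW_le_sum hw.le_two (f := f2) (fun x y =>
    mul_nonneg (add_nonneg (abs_nonneg _) (abs_nonneg _))
      (mul_nonneg (sq_nonneg _) (kk_nonneg K y)))
  have h3 : ∑ x, ∑ y, f2 x y ≤ (Λ + Vf K) * n2 (kk K) * n2 p ^ 2 := by
    rw [n2_sq, Finset.mul_sum]
    refine Finset.sum_le_sum fun x _ => ?_
    have e1 : ∑ y, f2 x y = (∑ y, |K x y| * |kk K y| + |K x x| * ∑ y, |dg K y| * |kk K y|)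
        * p x ^ 2 := by
      simp only [hf2]
      rw [Finset.mul_sum, ← Finset.sum_add_distrib, Finset.sum_mul]
      refine Finset.sum_congr rfl fun y _ => ?_
      rw [abs_of_nonneg (kk_nonneg K y), abs_mul, dg]; ring
    rw [e1]
    refine mul_le_mul_of_nonneg_right ?_ (sq_nonneg _)
    have e2 := (cs (fun y => K x y) (kk K)).trans
      (mul_le_mul_of_nonneg_right (rr_le hK hΛ x) (n2_nonneg _))
    have e3 : |K x x| * ∑ y, |dg K y| * |kk K y| ≤ n2 (dg K) * (n2 (dg K) * n2 (kk K)) :=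
      mul_le_mul (abs_le_n2 (dg K) x) (cs _ _)
        (Finset.sum_nonneg fun _ _ => mul_nonneg (abs_nonneg _) (abs_nonneg _)) (n2_nonneg _)
    have e4 : n2 (dg K) * (n2 (dg K) * n2 (kk K)) = Vf K * n2 (kk K) := by
      rw [← n2_dg_sq]; ring
    rw [e4] at e3
    linarith
  have h4 : 0 ≤ (Λ + Vf K) * n2 (kk K) * n2 p ^ 2 :=
    mul_nonneg (mul_nonneg (add_nonneg hΛ.1 (Vf_nonneg K)) (n2_nonneg _)) (sq_nonneg _)
  rw [h0]
  rw [h1'] at h1
  nlinarith

lemma s14 {kM : ℝ} (hkM : ∀ x, kk K x ≤ kM) (hw : Wt K F w E η ξ ω) :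
    SW w (fun x y => 2445188 * (K y y ^ 4 * kk K x * p x ^ 2 + K x x ^ 4 * kk K y * p y ^ 2))
      ≤ 9780752 * (Vf K ^ 2 * kM * n2 p ^ 2) := by
  set f : ι → ι → ℝ := fun x y => (kk K x * p x ^ 2) * K y y ^ 4 with hf
  have h0 : SW w (fun x y => 2445188 * (K y y ^ 4 * kk K x * p x ^ 2
      + K x x ^ 4 * kk K y * p y ^ 2)) = 4890376 * SW w f := by
    have h1 : ∀ x y, 2445188 * (K y y ^ 4 * kk K x * p x ^ 2 + K x x ^ 4 * kk K y * p y ^ 2)
        = 2445188 * (f x y + f y x) := by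
      intro x y; simp only [hf]; ring
    rw [SW_congr h1, SW_smul w (fun x y => f x y + f y x), SW_sym hw]
    ring
  have h1 := SW_le_sum hw.le_two (f := f) (fun x y => by
    have := kk_nonneg K x
    simp only [hf]; positivity)
  have h2 : ∑ x, ∑ y, f x y = (∑ x, kk K x * p x ^ 2) * ∑ y, K y y ^ 4 := sum_mul_sum_eq _ _
  have h3 : ∑ x, kk K x * p x ^ 2 ≤ kM * n2 p ^ 2 := by
    rw [n2_sq, Finset.mul_sum]
    exact Finset.sum_le_sum fun x _ => mul_le_mul_of_nonneg_right (hkM x) (sq_nonneg _)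
  have h4 : ∑ y, K y y ^ 4 ≤ Vf K ^ 2 := by
    have e1 : ∀ y, K y y ^ 2 ≤ Vf K := fun y =>
      Finset.single_le_sum (f := fun y => K y y ^ 2) (fun _ _ => sq_nonneg _) (Finset.mem_univ y)
    rw [pow_two (Vf K)]
    nth_rewrite 1 [Vf]
    rw [Finset.sum_mul]
    refine Finset.sum_le_sum fun y _ => ?_
    calc K y y ^ 4 = K y y ^ 2 * K y y ^ 2 := by ring
      _ ≤ _ := mul_le_mul_of_nonneg_left (e1 y) (sq_nonneg _)
  have h5 : (∑ x, kk K x * p x ^ 2) * ∑ y, K y y ^ 4 ≤ (kM * n2 p ^ 2) * Vf K ^ 2 := by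
    refine mul_le_mul h3 h4 (Finset.sum_nonneg fun y _ => by positivity) ?_
    exact (Finset.sum_nonneg fun x _ => mul_nonneg (kk_nonneg K x) (sq_nonneg _)).trans h3
  rw [h0]
  rw [h2] at h1
  linarith

/-- **Averaged one-step inequality for `∑_F ((K²)_zz - t)²`.** -/
theorem W_avg {t h2 kM : ℝ} (hK : K.IsSymm) (hF : ∀ i, i ∉ F → ∀ j, K i j = 0)
    (hs : s ^ 2 = 1) (hrow : ∀ i ∈ F, ∑ j, K i j = s) (hΛ : OpB K Λ)
    (hL2 : OpB (Ksq K) L2) (hkM : ∀ x, kk K x ≤ kM) (hw : Wt K F w E η ξ ω)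
    (hE : |∑ x, ∑ y, E x y * Mf K (qf K F t) x y| ≤ h2) :
    SW w (fun x y => Wc (Upd.upd s K x y) ((F.erase x).erase y) t - Wc K F t) ≤
      -(2 * (F.card - ξ) * Wc K F t)
      + 4 * ((∑ z, qf K F 1 z) * ∑ z, qf K F t z * (K ^ 2) z z)
      + 81 / 32 * (1 + ω) * ((∑ x, kk K x) * Wc K F 1)
      + 8 * (|∑ z, qf K F t z| + h2)
      + (216 * (frK K + Vf K) + 208 * n2 (dg K) * frK K + 52 * (Real.sqrt F.card * n2 (dg K))
          + 304 * Real.sqrt F.card) * (Λ * Sq K (qf K F t))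
      + (64 * (Real.sqrt F.card * Vf K) + 208 * (n2 (qf K F 1) * n2 (dg K)))
          * Sq K (qf K F t)
      + ((4 * η + 160 * (frK K + Vf K) + 84 * Vf K) * L2
          + 64 * (Real.sqrt F.card * (Λ + Vf K)) + 200 * (Real.sqrt F.card * Vf K))
          * (n2 (qf K F t) * n2 (qf K F 1))
      + (432 * (21 * (Vf K * L2) + 32 * Λ ^ 2)
          + 648 * (340 * (n2 (kk K) * Vf K) + 361 * L2 ^ 2)) * n2 (pd K) ^ 2
      + (1722 * ((Λ + Vf K) * n2 (kk K)) + 9780752 * (Vf K ^ 2 * kM)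
          + 27 / 2 * (340 * (n2 (kk K) * Vf K) + 361 * L2 ^ 2)) * Wc K F 1 := by
  have h0 : SW w (fun x y => Wc (Upd.upd s K x y) ((F.erase x).erase y) t - Wc K F t)
      ≤ SW w (fun x y => WR s K (qf K F t) (qf K F 1) x y) := by
    refine SW_mono hw.nonneg fun x y h => ?_
    have hx := hw.mem x y h
    have hy := hw.mem' h
    refine (W_point hs hK hF t hx hy (hw.ne x y h) (hw.good x y h) (hw.good' x y h)).trans
      (le_of_eq ?_)
    exact WR_congr (by rw [qf, if_pos hx, p1]) (by rw [qf, if_pos hy, p1])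
  refine h0.trans ?_
  have hq : ∀ z, z ∉ F → qf K F t z = 0 := fun z hz => by rw [qf, if_neg hz]
  have hp : ∀ z, z ∉ F → qf K F 1 z = 0 := fun z hz => by rw [qf, if_neg hz]
  unfold WR
  rw [SW_add, SW_add, SW_add, SW_add, SW_add, SW_add, SW_add, SW_add, SW_add, SW_add, SW_add,
    SW_add, SW_add, SW_add]
  have g1 := s1 (q := qf K F t) hw hq
  have g2 := s2 hK hF hs hrow hw hq hE
  have g3 := s3 (q := qf K F t) hK hΛ hw
  have g4 := s4 (q := qf K F t) hK hF hΛ hw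
  have g5 := s5 (q := qf K F t) hK hΛ hw
  have g6 := s6 (q := qf K F t) (p := qf K F 1) hK hF hL2 hw hp
  have g7 := s7 (q := qf K F t) (p := qf K F 1) hK hL2 hw
  have g8 := s8 (q := qf K F t) (p := qf K F 1) hK hw
  have g9 := s9 (q := qf K F t) (p := qf K F 1) hK hL2 hw
  have g10 := s10 (q := qf K F t) (p := qf K F 1) hK hF hΛ hw hp
  have g11 := s11 hK hΛ hL2 hw
  have g12 := s12 hK hL2 hw
  have g13 := s13 (p := qf K F 1) hK hΛ hw
  have g14 := s14 (p := qf K F 1) hkM hw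
  have g15 := s15 (p := qf K F 1) hK hL2 hw
  rw [n2_qf_sq] at g1 g13 g14 g15
  have r1 := frK_nonneg K
  have r2 := Vf_nonneg K
  have r3 := Sq_nonneg K (qf K F t)
  have r4 : 0 ≤ (frK K + Vf K) * (Λ * Sq K (qf K F t)) :=
    mul_nonneg (add_nonneg r1 r2) (mul_nonneg hΛ.1 r3)
  have r5 : 0 ≤ Vf K * (Λ * Sq K (qf K F t)) := mul_nonneg r2 (mul_nonneg hΛ.1 r3)
  linarith

end avg

end Crest.Agent.R62.AvR
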