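import Mathlib
import Crest.Agent.R62.AvR2

/-!
R62 (helper758): refined averaged inequality for `∑_{z ∈ F} ((K²)_zz - t)²`
(row-norm parameter `rM`, exact main term for `K_yy (K² diag(q) K)_xx`).
-/

set_option autoImplicit false
set_option linter.unusedSectionVars false
set_option linter.unusedVariables false

open Matrix Finset

namespace Crest.Agent.R62.AvR

open Crest.Agent.R62.AvBase (OpB)
open Crest.Agent.R62.DiagAv
open Crest.Agent.R62.AvV (dg kk kk_nonneg Vf Vf_nonneg n2_dg_sq Cf cf_good)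

variable {ι : Type*} [Fintype ι] [DecidableEq ι]

lemma lin_b2 {a b hx hy M1 M2 e : ℝ} (h1 : |hx - a| ≤ 8 * e * |a|) (h2 : |hy - b| ≤ 8 * e * |b|) :
    4 * (hy * M1 + hx * M2) ≤ 4 * (b * M1 + a * M2) + 32 * (e * (|b| * |M1| + |a| * |M2|)) := by
  have h3 := AvV.lin_aux' (N := M1) h2
  have h4 := AvV.lin_aux' (N := M2) h1
  linarith

/-- right-hand side of the refined pointwise inequality -/
noncomputable def WR2 (s : ℝ) (K : Matrix ι ι ℝ) (q p : ι → ℝ) (x y : ι) : ℝ :=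
  -(q x ^ 2 + q y ^ 2)
  + 4 * (s * (Mf K q x y + Mf K q y x))
  + 16 * ((|K x y| + |K x x * K y y|) * (|Mf K q x y| + |Mf K q y x|))
  + 4 * (K y y * Mf K q x x + K x x * Mf K q y y)
  + 32 * ((|K x y| + |K x x * K y y|)
      * (|K y y| * |Mf K q x x| + |K x x| * |Mf K q y y|))
  + 4 * (|(K ^ 2) x y| * (13 * (|K y y| * |Nf K q x x|) + 19 * |Nf K q x y|
      + 13 * (|K x x| * |Nf K q y y|)))
  + 2 * (p x * Nf K q y y + p y * Nf K q x x)
  + 40 * ((|K x y| + |K x x * K y y|)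
      * (|p x| * |Nf K q y y| + |p y| * |Nf K q x x|))
  + 52 * ((|K y y| * |p x| + |K x x| * |p y|) * |Nf K q x y|)
  + 21 * (K y y ^ 2 * |p x| * |Nf K q x x| + K x x ^ 2 * |p y| * |Nf K q y y|)
  + (|q x| * (16 * ((|K x y| + |K x x * K y y|) * ((K ^ 2) x x + |p x|))
        + 60 * (|K x x| * |(K ^ 2) x y|) + 50 * (K x x ^ 2 * |p y|))
     + |q y| * (16 * ((|K x y| + |K x x * K y y|) * ((K ^ 2) y y + |p y|))
        + 60 * (|K y y| * |(K ^ 2) x y|) + 50 * (K y y ^ 2 * |p x|)))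
  + 108 * ∑ z, ((21 * (K y y ^ 2 * K z x ^ 2) + 32 * K z y ^ 2) * (K ^ 2) z x ^ 2
      + (21 * (K x x ^ 2 * K z y ^ 2) + 32 * K z x ^ 2) * (K ^ 2) z y ^ 2)
  + 324 * ((170 * (K y y ^ 2 * kk K x) + 361 * (∑ z, K z x ^ 2 * K z y ^ 2)
      + 170 * (K x x ^ 2 * kk K y)) * (K ^ 2) x y ^ 2)
  + 81 / 64 * ((1 + 340 * (|K x y| + |K x x * K y y|))
      * (kk K y * p x ^ 2 + kk K x * p y ^ 2))
  + 2445188 * (K y y ^ 4 * kk K x * p x ^ 2 + K x x ^ 4 * kk K y * p y ^ 2)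
  + 27 / 4 * ((170 * (K y y ^ 2 * kk K x) + 361 * (∑ z, K z x ^ 2 * K z y ^ 2)
      + 170 * (K x x ^ 2 * kk K y)) * (|p x| * |p y|))

/-- pointwise bound of the change of the centred functional on a good pair -/
theorem W_point2 {s : ℝ} (hs : s ^ 2 = 1) {K : Matrix ι ι ℝ} (hK : K.IsSymm) {F : Finset ι}
    (hF : ∀ i, i ∉ F → ∀ j, K i j = 0) (t : ℝ) {x y : ι} (hx : x ∈ F) (hy : y ∈ F)
    (hxy : x ≠ y) (hc : |K x y| ≤ 1 / 4) (hab : |K x x * K y y| ≤ 1 / 4) :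
    Wc (Upd.upd s K x y) ((F.erase x).erase y) t - Wc K F t ≤ WR2 s K (qf K F t) (p1 K) x y := by
  have hyx : K y x = K x y := hK.apply x y
  have hPyx : (K ^ 2) y x = (K ^ 2) x y := (hK.pow 2).apply x y
  have H := cf_good hs hc hab
  have G := cg_of hs hc hab H
  have hD : Upd.Dl s K x y ≠ 0 := by
    have := (coef hs hc hab rfl).1
    have h2 : 0 < Upd.Dl s K x y := by
      unfold Upd.Dl; linarith
    exact h2.ne'
  have h0 := W_upd hs hK hF t hx hy hxy hD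
  have hsum := sum_q_dq s hK (qf K F t) x y
  have hsq := sum_dq_sq G
  rw [hsum] at h0
  have l1 := lin_a (M1 := Mf K (qf K F t) x y) (M2 := Mf K (qf K F t) y x) H.g_sub
  have l2 := lin_b2 (M1 := Mf K (qf K F t) x x) (M2 := Mf K (qf K F t) y y) H.hx_sub H.hy_sub
  have l3 := lin_c (P := (K ^ 2) x y) (N1 := Nf K (qf K F t) x x) (N2 := Nf K (qf K F t) x y)
    (N3 := Nf K (qf K F t) y y) G.ghx G.ghy G.mid
  have l4 := lin_d (p := p1 K x) (N1 := Nf K (qf K F t) x x) (N2 := Nf K (qf K F t) x y)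
    (N3 := Nf K (qf K F t) y y) H.hy_le G.ghy G.g2
  have l5 := lin_d (p := p1 K y) (N1 := Nf K (qf K F t) y y) (N2 := Nf K (qf K F t) x y)
    (N3 := Nf K (qf K F t) x x) H.hx_le G.ghx G.g2
  have e0 : 0 ≤ |K x y| + |K x x * K y y| := add_nonneg (abs_nonneg _) (abs_nonneg _)
  have d1 : |dq s K x y x| ≤ 8 * ((|K x y| + |K x x * K y y|) * (K ^ 2) x x)
      + 30 * (|K x x| * |(K ^ 2) x y|) + 8 * ((|K x y| + |K x x * K y y|) * |p1 K x|)
      + 25 * (K x x ^ 2 * |p1 K y|) := by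
    have h1 := dx_le (α := al s K x y x) (β := be s K x y x) (a := K x x)
      (p := (K ^ 2) x x) (P3 := (K ^ 2) x y) (p1 := p1 K x) (p2 := p1 K y)
      e0 G.e_le (p_nonneg hK x) (gx_le H) (gx_le' H hc)
    exact h1
  have d2 : |dq s K x y y| ≤ 8 * ((|K x y| + |K x x * K y y|) * (K ^ 2) y y)
      + 30 * (|K y y| * |(K ^ 2) x y|) + 8 * ((|K x y| + |K x x * K y y|) * |p1 K y|)
      + 25 * (K y y ^ 2 * |p1 K x|) := by
    have h1 := dx_le (α := be s K x y y) (β := al s K x y y) (a := K y y)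
      (p := (K ^ 2) y y) (P3 := (K ^ 2) x y) (p1 := p1 K y) (p2 := p1 K x)
      e0 G.e_le (p_nonneg hK y)
      (by rw [be, hyx]; exact gy_le H) (by rw [al, hyx]; exact gy_le' H hc)
    have h2 : dq s K x y y = 2 * (be s K x y y * (K ^ 2) y y + al s K x y y * (K ^ 2) x y
        + be s K x y y * al s K x y y * (K ^ 2) x y)
        + (be s K x y y ^ 2 * p1 K y + al s K x y y ^ 2 * p1 K x) := by
      rw [dq, hPyx, p1, p1]; ring
    rw [h2]
    exact h1
  have d1' : -(qf K F t x * dq s K x y x) ≤ |qf K F t x| * |dq s K x y x| := by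
    rw [← abs_mul]; exact neg_le_abs _
  have d2' : -(qf K F t y * dq s K x y y) ≤ |qf K F t y| * |dq s K x y y| := by
    rw [← abs_mul]; exact neg_le_abs _
  have d3 := mul_le_mul_of_nonneg_left d1 (abs_nonneg (qf K F t x))
  have d4 := mul_le_mul_of_nonneg_left d2 (abs_nonneg (qf K F t y))
  have q1 : (K ^ 2) x x - 1 = p1 K x := rfl
  have q2 : (K ^ 2) y y - 1 = p1 K y := rfl
  rw [q1, q2] at h0
  unfold WR2

  generalize Upd.Bxx s K x y = B1 at *
  generalize Upd.Bxy s K x y = B2 at *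
  generalize Upd.Byy s K x y = B3 at *
  generalize dq s K x y x = D1 at *
  generalize dq s K x y y = D2 at *
  linarith

lemma WR2_congr {s : ℝ} {K : Matrix ι ι ℝ} {q p p' : ι → ℝ} {x y : ι} (h1 : p x = p' x)
    (h2 : p y = p' y) : WR2 s K q p x y = WR2 s K q p' x y := by
  unfold WR2; rw [h1, h2]

section avg

variable {K E : Matrix ι ι ℝ} {F : Finset ι} {w : ι → ι → ℝ} {s Λ L2 η ξ ω rM mD : ℝ}
  {q p : ι → ℝ}

/-- `|diag (K² diag(q) K)|₂ ≤ Λ rM² |q|` -/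
lemma n2_Mf_diag (hK : K.IsSymm) (hΛ : OpB K Λ) (hr : ∀ x, rr K x ≤ rM) (q : ι → ℝ) :
    n2 (fun x => Mf K q x x) ≤ Λ * rM ^ 2 * n2 q := by
  have hΛ0 := hΛ.1
  refine n2_le_of (mul_nonneg (mul_nonneg hΛ0 (sq_nonneg _)) (n2_nonneg _)) ?_
  have hr2 : ∀ x, rr K x ^ 2 ≤ rM ^ 2 := fun x => pow_le_pow_left₀ (rr_nonneg K x) (hr x) 2
  have h1 : ∀ x, Mf K q x x ^ 2 ≤ (∑ z, q z ^ 2 * K z x ^ 2) * (Λ ^ 2 * rM ^ 2) := by
    intro x
    have e1 := Finset.sum_mul_sq_le_sq_mul_sq Finset.univ (fun z => q z * K z x)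
      (fun z => (K ^ 2) z x)
    have e2 : Mf K q x x = ∑ z, (q z * K z x) * (K ^ 2) z x := by
      unfold Mf
      exact Finset.sum_congr rfl fun z _ => by ring
    have e3 : ∑ z, (K ^ 2) z x ^ 2 ≤ Λ ^ 2 * rM ^ 2 := by
      have g1 := pow_le_pow_left₀ (n2_nonneg _) (n2_sq_row hK hΛ x) 2
      rw [n2_sq, mul_pow] at g1
      have g2 : ∑ z, (K ^ 2) z x ^ 2 = ∑ z, (K ^ 2) x z ^ 2 :=
        Finset.sum_congr rfl fun z _ => by rw [(hK.pow 2).apply x z]
      rw [g2]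
      exact g1.trans (mul_le_mul_of_nonneg_left (hr2 x) (sq_nonneg _))
    rw [e2]
    refine e1.trans ?_
    simp only [mul_pow]
    exact mul_le_mul_of_nonneg_left e3 (Finset.sum_nonneg fun z _ => by positivity)
  refine (Finset.sum_le_sum fun x _ => h1 x).trans ?_
  rw [← Finset.sum_mul, Finset.sum_comm]
  have h2 : ∑ z, ∑ x, q z ^ 2 * K z x ^ 2 ≤ rM ^ 2 * n2 q ^ 2 := by
    rw [n2_sq, Finset.mul_sum]
    refine Finset.sum_le_sum fun z _ => ?_
    rw [← Finset.mul_sum]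
    have g3 : ∑ x, K z x ^ 2 = rr K z ^ 2 := by rw [rr, n2_sq]
    rw [g3, mul_comm]
    exact mul_le_mul_of_nonneg_right (hr2 z) (sq_nonneg _)
  have h3 := mul_le_mul_of_nonneg_right h2 (show (0:ℝ) ≤ Λ ^ 2 * rM ^ 2 by positivity)
  refine h3.trans (le_of_eq ?_)
  ring

lemma s4a (hK : K.IsSymm) (hF : ∀ i, i ∉ F → ∀ j, K i j = 0) (hΛ : OpB K Λ)
    (hw : Wt K F w E η ξ ω) (hmD : n2 (fun x => Mf K q x x) ≤ mD) :
    SW w (fun x y => 4 * (K y y * Mf K q x x + K x x * Mf K q y y))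
      ≤ 8 * (|K.trace| * (Λ * Sq K q)) + 8 * (η * (mD * n2 (dg K))) := by
  set f : ι → ι → ℝ := fun x y => Mf K q x x * K y y with hf
  have h0 : SW w (fun x y => 4 * (K y y * Mf K q x x + K x x * Mf K q y y)) = 8 * SW w f := by
    have h1 : ∀ x y, 4 * (K y y * Mf K q x x + K x x * Mf K q y y)
        = 4 * (f x y + f y x) := by
      intro x y; simp only [hf]; ring
    rw [SW_congr h1, SW_smul w (fun x y => f x y + f y x), SW_sym hw]
    ring
  have h4 := SW_eq hw f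
  have h5 : ∑ x ∈ F, ∑ y ∈ F, f x y = (∑ x ∈ F, Mf K q x x) * K.trace := by
    rw [hf, ← Finset.sum_mul_sum]
    congr 1
    refine Finset.sum_subset (Finset.subset_univ _) fun x _ hx => ?_
    exact hF x hx x
  have h6 : |∑ x ∈ F, Mf K q x x| ≤ Λ * Sq K q := by
    refine (Finset.abs_sum_le_sum_abs _ _).trans (le_trans ?_ (sum_Mf_diag hK hΛ q))
    exact Finset.sum_le_sum_of_subset_of_nonneg (Finset.subset_univ _) fun x _ _ => abs_nonneg _
  have h7 := opB_form hw.opb (fun x => Mf K q x x) (dg K)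
  have h8 : |∑ x, ∑ y, E x y * f x y| ≤ η * (mD * n2 (dg K)) :=
    h7.trans (mul_le_mul_of_nonneg_left (mul_le_mul_of_nonneg_right hmD (n2_nonneg _)) hw.opb.1)
  have h9 : (∑ x ∈ F, Mf K q x x) * K.trace ≤ |K.trace| * (Λ * Sq K q) := by
    refine (le_abs_self _).trans ?_
    rw [abs_mul, mul_comm]
    exact mul_le_mul_of_nonneg_left h6 (abs_nonneg _)
  have h10 := neg_abs_le (∑ x, ∑ y, E x y * f x y)
  rw [h0, h4, h5]
  linarith

lemma s4b (hK : K.IsSymm) (hw : Wt K F w E η ξ ω) (hmD : n2 (fun x => Mf K q x x) ≤ mD) :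
    SW w (fun x y => 32 * ((|K x y| + |K x x * K y y|)
      * (|K y y| * |Mf K q x x| + |K x x| * |Mf K q y y|)))
      ≤ 128 * ((frK K + Vf K) * (mD * n2 (dg K))) := by
  set f : ι → ι → ℝ := fun x y => (|K x y| + |K x x * K y y|) * |Mf K q x x * K y y| with hf
  have h0 : SW w (fun x y => 32 * ((|K x y| + |K x x * K y y|)
      * (|K y y| * |Mf K q x x| + |K x x| * |Mf K q y y|))) = 64 * SW w f := by
    have h1 : ∀ x y, 32 * ((|K x y| + |K x x * K y y|)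
      * (|K y y| * |Mf K q x x| + |K x x| * |Mf K q y y|)) = 32 * (f x y + f y x) := by
      intro x y; simp only [hf]
      rw [hK.apply x y, mul_comm (K y y) (K x x), abs_mul (Mf K q x x), abs_mul (Mf K q y y)]
      ring
    rw [SW_congr h1, SW_smul w (fun x y => f x y + f y x), SW_sym hw]
    ring
  have h1 := SW_le_sum hw.le_two (f := f) (fun x y =>
    mul_nonneg (add_nonneg (abs_nonneg _) (abs_nonneg _)) (abs_nonneg _))
  have h2 := sum_e_le (K := K) (fun x y => Mf K q x x * K y y)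
  have h3' : fro (fun x y => Mf K q x x * K y y) = n2 (fun x => Mf K q x x) * n2 (dg K) :=
    fro_outer (fun x => Mf K q x x) (dg K)
  rw [h3'] at h2
  have h3 : (frK K + Vf K) * (n2 (fun x => Mf K q x x) * n2 (dg K))
      ≤ (frK K + Vf K) * (mD * n2 (dg K)) :=
    mul_le_mul_of_nonneg_left (mul_le_mul_of_nonneg_right hmD (n2_nonneg _))
      (add_nonneg (frK_nonneg K) (Vf_nonneg K))
  rw [h0]
  linarith

lemma s5' (hK : K.IsSymm) (hΛ : OpB K Λ) (hL2 : OpB (Ksq K) L2) (hw : Wt K F w E η ξ ω) :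
    SW w (fun x y => 4 * (|(K ^ 2) x y| * (13 * (|K y y| * |Nf K q x x|) + 19 * |Nf K q x y|
      + 13 * (|K x x| * |Nf K q y y|))))
      ≤ 152 * (Λ * frK K * Sq K q) + 208 * (Λ * frK K * (L2 * n2 q * n2 (dg K))) := by
  set f : ι → ι → ℝ := fun x y => |(K ^ 2) x y| * (|Nf K q x x| * |K y y|) with hf
  set g : ι → ι → ℝ := fun x y => |(K ^ 2) x y| * |Nf K q x y| with hg
  have h0 : SW w (fun x y => 4 * (|(K ^ 2) x y| * (13 * (|K y y| * |Nf K q x x|)
      + 19 * |Nf K q x y| + 13 * (|K x x| * |Nf K q y y|)))) = 104 * SW w f + 76 * SW w g := by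
    have h1 : ∀ x y, 4 * (|(K ^ 2) x y| * (13 * (|K y y| * |Nf K q x x|)
      + 19 * |Nf K q x y| + 13 * (|K x x| * |Nf K q y y|)))
        = 52 * (f x y + f y x) + 76 * g x y := by
      intro x y; simp only [hf, hg]
      rw [(hK.pow 2).apply x y]
      ring
    rw [SW_congr h1, SW_add w (fun x y => 52 * (f x y + f y x)) (fun x y => 76 * g x y),
      SW_smul w (fun x y => f x y + f y x), SW_sym hw, SW_smul]
    ring
  have h1 := SW_le_sum hw.le_two (f := f) (fun x y =>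
    mul_nonneg (abs_nonneg _) (mul_nonneg (abs_nonneg _) (abs_nonneg _)))
  have h2 := SW_le_sum hw.le_two (f := g) (fun x y => mul_nonneg (abs_nonneg _) (abs_nonneg _))
  have hP := fro_P hK hΛ
  have h3 : ∑ x, ∑ y, g x y ≤ Λ * frK K * Sq K q :=
    (fcs (fun x y => (K ^ 2) x y) (Nf K q)).trans
      (mul_le_mul hP (fro_Nf K hK q) (fro_nonneg _) (mul_nonneg hΛ.1 (frK_nonneg K)))
  have h4 : ∑ x, ∑ y, f x y ≤ Λ * frK K * (L2 * n2 q * n2 (dg K)) := by
    have e1 := fcs (fun x y => (K ^ 2) x y) (fun x y => Nf K q x x * K y y)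
    have e2 : ∑ x, ∑ y, f x y = ∑ x, ∑ y, |(K ^ 2) x y| * |Nf K q x x * K y y| :=
      Finset.sum_congr rfl fun x _ => Finset.sum_congr rfl fun y _ => by
        simp only [hf]; rw [abs_mul]
    have e3 : fro (fun x y => Nf K q x x * K y y) = n2 (fun x => Nf K q x x) * n2 (dg K) :=
      fro_outer _ _
    have e4 := n2_Nf_diag hK hL2 q
    rw [e2]
    refine e1.trans ?_
    rw [e3]
    exact mul_le_mul hP (mul_le_mul_of_nonneg_right e4 (n2_nonneg _))
      (mul_nonneg (n2_nonneg _) (n2_nonneg _)) (mul_nonneg hΛ.1 (frK_nonneg K))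
  rw [h0]
  linarith

/-- `∑_y (|K_xy| + |K_xx K_yy|) ≤ sqrt ρ (rM + V)` -/
lemma row_e' (hK : K.IsSymm) (hF : ∀ i, i ∉ F → ∀ j, K i j = 0) (hr : ∀ x, rr K x ≤ rM)
    (x : ι) : ∑ y, (|K x y| + |K x x * K y y|) ≤ Real.sqrt F.card * (rM + Vf K) := by
  rw [Finset.sum_add_distrib]
  have h1 := (row_l1 hK hF x).trans
    (mul_le_mul_of_nonneg_left (hr x) (Real.sqrt_nonneg (F.card : ℝ)))
  have h2 : ∑ y, |K x x * K y y| ≤ Real.sqrt F.card * Vf K := by
    have e1 : ∑ y, |K x x * K y y| = |K x x| * ∑ y, |K y y| := by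
      rw [Finset.mul_sum]
      exact Finset.sum_congr rfl fun y _ => abs_mul _ _
    have e2 : |K x x| ≤ n2 (dg K) := abs_le_n2 (dg K) x
    have e3 := l1_le (F := F) (f := dg K) (fun y hy => hF y hy y)
    rw [e1]
    refine (mul_le_mul e2 e3 (Finset.sum_nonneg fun _ _ => abs_nonneg _)
      (n2_nonneg _)).trans (le_of_eq ?_)
    rw [← n2_dg_sq]; ring
  linarith

lemma s10' (hK : K.IsSymm) (hF : ∀ i, i ∉ F → ∀ j, K i j = 0) (hΛ : OpB K Λ)
    (hrM : 0 ≤ rM) (hr : ∀ x, rr K x ≤ rM)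
    (hw : Wt K F w E η ξ ω) (hp : ∀ z, z ∉ F → p z = 0) :
    SW w (fun x y => |q x| * (16 * ((|K x y| + |K x x * K y y|) * ((K ^ 2) x x + |p x|))
        + 60 * (|K x x| * |(K ^ 2) x y|) + 50 * (K x x ^ 2 * |p y|))
     + |q y| * (16 * ((|K x y| + |K x x * K y y|) * ((K ^ 2) y y + |p y|))
        + 60 * (|K y y| * |(K ^ 2) x y|) + 50 * (K y y ^ 2 * |p x|)))
      ≤ 64 * (Real.sqrt F.card * (rM + Vf K) * (Sq K q + n2 q * n2 p))
        + 240 * (Real.sqrt F.card * (Λ * Sq K q))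
        + 200 * (Real.sqrt F.card * Vf K * (n2 q * n2 p)) := by
  set f : ι → ι → ℝ := fun x y => |q x| * (16 * ((|K x y| + |K x x * K y y|)
      * ((K ^ 2) x x + |p x|)) + 60 * (|K x x| * |(K ^ 2) x y|) + 50 * (K x x ^ 2 * |p y|))
    with hf
  have hsr : 0 ≤ Real.sqrt (F.card : ℝ) := Real.sqrt_nonneg _
  have hfn : ∀ x y, 0 ≤ f x y := by
    intro x y
    have := p_nonneg hK x
    simp only [hf]
    positivity
  have h0 : SW w (fun x y => |q x| * (16 * ((|K x y| + |K x x * K y y|)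
        * ((K ^ 2) x x + |p x|)) + 60 * (|K x x| * |(K ^ 2) x y|) + 50 * (K x x ^ 2 * |p y|))
     + |q y| * (16 * ((|K x y| + |K x x * K y y|) * ((K ^ 2) y y + |p y|))
        + 60 * (|K y y| * |(K ^ 2) x y|) + 50 * (K y y ^ 2 * |p x|))) = 2 * SW w f := by
    have h1 : ∀ x y, |q x| * (16 * ((|K x y| + |K x x * K y y|)
        * ((K ^ 2) x x + |p x|)) + 60 * (|K x x| * |(K ^ 2) x y|) + 50 * (K x x ^ 2 * |p y|))
     + |q y| * (16 * ((|K x y| + |K x x * K y y|) * ((K ^ 2) y y + |p y|))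
        + 60 * (|K y y| * |(K ^ 2) x y|) + 50 * (K y y ^ 2 * |p x|)) = f x y + f y x := by
      intro x y; simp only [hf]
      rw [hK.apply x y, (hK.pow 2).apply x y, mul_comm (K y y) (K x x)]
    rw [SW_congr h1, SW_sym hw]
  have h1 := SW_le_sum hw.le_two (f := f) hfn
  -- the three sums
  have hx : ∀ x, ∑ y, f x y ≤ 16 * (|q x| * ((K ^ 2) x x + |p x|)
        * (Real.sqrt F.card * (rM + Vf K)))
      + 60 * (|q x| * rr K x ^ 2 * (Real.sqrt F.card * Λ))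
      + 50 * (K x x ^ 2 * |q x| * ∑ y, |p y|) := by
    intro x
    have e1 : ∑ y, f x y = 16 * (|q x| * ((K ^ 2) x x + |p x|)
          * ∑ y, (|K x y| + |K x x * K y y|))
        + 60 * (|q x| * |K x x| * ∑ y, |(K ^ 2) x y|)
        + 50 * (K x x ^ 2 * |q x| * ∑ y, |p y|) := by
      simp only [hf, Finset.mul_sum, ← Finset.sum_add_distrib]
      exact Finset.sum_congr rfl fun y _ => by ring
    rw [e1]
    have e2 := mul_le_mul_of_nonneg_left (row_e' hK hF hr x)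
      (mul_nonneg (abs_nonneg (q x)) (add_nonneg (p_nonneg hK x) (abs_nonneg (p x))))
    have e3 : |q x| * |K x x| * ∑ y, |(K ^ 2) x y|
        ≤ |q x| * rr K x ^ 2 * (Real.sqrt F.card * Λ) := by
      have g1 := pd_row hK hF hΛ x
      have g2 : |q x| * |K x x| ≤ |q x| * rr K x :=
        mul_le_mul_of_nonneg_left (abs_diag_le_rr x) (abs_nonneg _)
      refine (mul_le_mul g2 g1 (Finset.sum_nonneg fun _ _ => abs_nonneg _)
        (mul_nonneg (abs_nonneg _) (rr_nonneg K x))).trans (le_of_eq ?_)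
      ring
    linarith
  have hsum : ∑ x, ∑ y, f x y ≤ 16 * ((Sq K q + n2 q * n2 p) * (Real.sqrt F.card * (rM + Vf K)))
      + 60 * (Sq K q * (Real.sqrt F.card * Λ))
      + 50 * ((Vf K * n2 q) * (Real.sqrt F.card * n2 p)) := by
    refine (Finset.sum_le_sum fun x _ => hx x).trans ?_
    rw [Finset.sum_add_distrib, Finset.sum_add_distrib, ← Finset.mul_sum, ← Finset.mul_sum,
      ← Finset.mul_sum, ← Finset.sum_mul, ← Finset.sum_mul, ← Finset.sum_mul]
    have g1 : ∑ x, |q x| * ((K ^ 2) x x + |p x|) ≤ Sq K q + n2 q * n2 p := by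
      have : ∑ x, |q x| * ((K ^ 2) x x + |p x|) = Sq K q + ∑ x, |q x| * |p x| := by
        unfold Sq
        rw [← Finset.sum_add_distrib]
        exact Finset.sum_congr rfl fun x _ => by rw [rr_sq hK]; ring
      rw [this]
      exact add_le_add le_rfl (cs q p)
    have g2 : ∑ x, |q x| * rr K x ^ 2 = Sq K q := rfl
    have g3 : ∑ x, K x x ^ 2 * |q x| ≤ Vf K * n2 q := by
      unfold Vf
      rw [Finset.sum_mul]
      exact Finset.sum_le_sum fun x _ => mul_le_mul_of_nonneg_left (abs_le_n2 q x) (sq_nonneg _)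
    have g4 := l1_le (F := F) (f := p) hp
    have g5 : 0 ≤ Real.sqrt (F.card : ℝ) * (rM + Vf K) :=
      mul_nonneg hsr (add_nonneg hrM (Vf_nonneg K))
    have g6 := mul_le_mul_of_nonneg_right g1 g5
    have g7 : (∑ x, K x x ^ 2 * |q x|) * ∑ y, |p y| ≤ (Vf K * n2 q) * (Real.sqrt F.card * n2 p) :=
      mul_le_mul g3 g4 (Finset.sum_nonneg fun _ _ => abs_nonneg _)
        (mul_nonneg (Vf_nonneg K) (n2_nonneg _))
    rw [g2]
    linarith
  rw [h0]
  nlinarith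

lemma s13' (hK : K.IsSymm) (hrM : 0 ≤ rM) (hr : ∀ x, rr K x ≤ rM) (hw : Wt K F w E η ξ ω) :
    SW w (fun x y => 81 / 64 * ((1 + 340 * (|K x y| + |K x x * K y y|))
      * (kk K y * p x ^ 2 + kk K x * p y ^ 2)))
      ≤ 81 / 32 * (1 + ω) * ((∑ x, kk K x) * n2 p ^ 2)
        + 1722 * ((rM + Vf K) * n2 (kk K) * n2 p ^ 2) := by
  set f1 : ι → ι → ℝ := fun x y => p x ^ 2 * kk K y with hf1
  set f2 : ι → ι → ℝ := fun x y => (|K x y| + |K x x * K y y|) * (p x ^ 2 * kk K y) with hf2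
  have h0 : SW w (fun x y => 81 / 64 * ((1 + 340 * (|K x y| + |K x x * K y y|))
      * (kk K y * p x ^ 2 + kk K x * p y ^ 2)))
      = 81 / 32 * SW w f1 + 27540 / 32 * SW w f2 := by
    have h1 : ∀ x y, 81 / 64 * ((1 + 340 * (|K x y| + |K x x * K y y|))
      * (kk K y * p x ^ 2 + kk K x * p y ^ 2))
        = 81 / 64 * (f1 x y + f1 y x) + 27540 / 64 * (f2 x y + f2 y x) := by
      intro x y; simp only [hf1, hf2]
      rw [hK.apply x y, mul_comm (K y y) (K x x)]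
      ring
    rw [SW_congr h1, SW_add w (fun x y => 81 / 64 * (f1 x y + f1 y x))
        (fun x y => 27540 / 64 * (f2 x y + f2 y x)),
      SW_smul w (fun x y => f1 x y + f1 y x), SW_sym hw,
      SW_smul w (fun x y => f2 x y + f2 y x), SW_sym hw]
    ring
  have h1 := SW_le_sum hw.le (f := f1) (fun x y => mul_nonneg (sq_nonneg _) (kk_nonneg K y))
  have h1' : ∑ x, ∑ y, f1 x y = (∑ x, kk K x) * n2 p ^ 2 := by
    rw [n2_sq, mul_comm, ← sum_mul_sum_eq]
  have h2 := SW_le_sum hw.le_two (f := f2) (fun x y =>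
    mul_nonneg (add_nonneg (abs_nonneg _) (abs_nonneg _))
      (mul_nonneg (sq_nonneg _) (kk_nonneg K y)))
  have h3 : ∑ x, ∑ y, f2 x y ≤ (rM + Vf K) * n2 (kk K) * n2 p ^ 2 := by
    rw [n2_sq, Finset.mul_sum]
    refine Finset.sum_le_sum fun x _ => ?_
    have e1 : ∑ y, f2 x y = (∑ y, |K x y| * |kk K y| + |K x x| * ∑ y, |dg K y| * |kk K y|)
        * p x ^ 2 := by
      simp only [hf2]
      rw [Finset.mul_sum, ← Finset.sum_add_distrib, Finset.sum_mul]
      refine Finset.sum_congr rfl fun y _ => ?_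
      rw [abs_of_nonneg (kk_nonneg K y), abs_mul, dg]; ring
    rw [e1]
    refine mul_le_mul_of_nonneg_right ?_ (sq_nonneg _)
    have e2 := (cs (fun y => K x y) (kk K)).trans
      (mul_le_mul_of_nonneg_right (hr x) (n2_nonneg _))
    have e3 : |K x x| * ∑ y, |dg K y| * |kk K y| ≤ n2 (dg K) * (n2 (dg K) * n2 (kk K)) :=
      mul_le_mul (abs_le_n2 (dg K) x) (cs _ _)
        (Finset.sum_nonneg fun _ _ => mul_nonneg (abs_nonneg _) (abs_nonneg _)) (n2_nonneg _)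
    have e4 : n2 (dg K) * (n2 (dg K) * n2 (kk K)) = Vf K * n2 (kk K) := by
      rw [← n2_dg_sq]; ring
    rw [e4] at e3
    linarith
  have h4 : 0 ≤ (rM + Vf K) * n2 (kk K) * n2 p ^ 2 :=
    mul_nonneg (mul_nonneg (add_nonneg hrM (Vf_nonneg K)) (n2_nonneg _)) (sq_nonneg _)
  rw [h0]
  rw [h1'] at h1
  nlinarith

/-- **Averaged one-step inequality for `∑_F ((K²)_zz - t)²`**, refined. -/
theorem W_avg2 {t h2 kM : ℝ} (hK : K.IsSymm) (hF : ∀ i, i ∉ F → ∀ j, K i j = 0)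
    (hs : s ^ 2 = 1) (hrow : ∀ i ∈ F, ∑ j, K i j = s) (hΛ : OpB K Λ)
    (hL2 : OpB (Ksq K) L2) (hrM : 0 ≤ rM) (hr : ∀ x, rr K x ≤ rM) (hkM : ∀ x, kk K x ≤ kM)
    (hmD : n2 (fun x => Mf K (qf K F t) x x) ≤ mD) (hw : Wt K F w E η ξ ω)
    (hE : |∑ x, ∑ y, E x y * Mf K (qf K F t) x y| ≤ h2) :
    SW w (fun x y => Wc (Upd.upd s K x y) ((F.erase x).erase y) t - Wc K F t) ≤
      -(2 * (F.card - ξ) * Wc K F t)
      + 4 * ((∑ z, qf K F 1 z) * ∑ z, qf K F t z * (K ^ 2) z z)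
      + 81 / 32 * (1 + ω) * ((∑ x, kk K x) * Wc K F 1)
      + 8 * (|∑ z, qf K F t z| + h2)
      + (216 * (frK K + Vf K) + 304 * Real.sqrt F.card + 8 * |K.trace|)
          * (Λ * Sq K (qf K F t))
      + (8 * η + 128 * (frK K + Vf K)) * (mD * n2 (dg K))
      + 208 * (Λ * frK K * (L2 * n2 (qf K F t) * n2 (dg K)))
      + (64 * (Real.sqrt F.card * (rM + Vf K)) + 208 * (n2 (qf K F 1) * n2 (dg K)))
          * Sq K (qf K F t)
      + ((4 * η + 160 * (frK K + Vf K) + 84 * Vf K) * L2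
          + 64 * (Real.sqrt F.card * (rM + Vf K)) + 200 * (Real.sqrt F.card * Vf K))
          * (n2 (qf K F t) * n2 (qf K F 1))
      + (432 * (21 * (Vf K * L2) + 32 * Λ ^ 2)
          + 648 * (340 * (n2 (kk K) * Vf K) + 361 * L2 ^ 2)) * n2 (pd K) ^ 2
      + (1722 * ((rM + Vf K) * n2 (kk K)) + 9780752 * (Vf K ^ 2 * kM)
          + 27 / 2 * (340 * (n2 (kk K) * Vf K) + 361 * L2 ^ 2)) * Wc K F 1 := by
  have h0 : SW w (fun x y => Wc (Upd.upd s K x y) ((F.erase x).erase y) t - Wc K F t)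
      ≤ SW w (fun x y => WR2 s K (qf K F t) (qf K F 1) x y) := by
    refine SW_mono hw.nonneg fun x y h => ?_
    have hx := hw.mem x y h
    have hy := hw.mem' h
    refine (W_point2 hs hK hF t hx hy (hw.ne x y h) (hw.good x y h) (hw.good' x y h)).trans
      (le_of_eq ?_)
    exact WR2_congr (by rw [qf, if_pos hx, p1]) (by rw [qf, if_pos hy, p1])
  refine h0.trans ?_
  have hq : ∀ z, z ∉ F → qf K F t z = 0 := fun z hz => by rw [qf, if_neg hz]
  have hp : ∀ z, z ∉ F → qf K F 1 z = 0 := fun z hz => by rw [qf, if_neg hz]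
  unfold WR2
  rw [SW_add, SW_add, SW_add, SW_add, SW_add, SW_add, SW_add, SW_add, SW_add, SW_add, SW_add,
    SW_add, SW_add, SW_add, SW_add]
  have g1 := s1 (q := qf K F t) hw hq
  have g2 := s2 hK hF hs hrow hw hq hE
  have g3 := s3 (q := qf K F t) hK hΛ hw
  have g4 := s4a (q := qf K F t) hK hF hΛ hw hmD
  have g4' := s4b (q := qf K F t) hK hw hmD
  have g5 := s5' (q := qf K F t) hK hΛ hL2 hw
  have g6 := s6 (q := qf K F t) (p := qf K F 1) hK hF hL2 hw hp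
  have g7 := s7 (q := qf K F t) (p := qf K F 1) hK hL2 hw
  have g8 := s8 (q := qf K F t) (p := qf K F 1) hK hw
  have g9 := s9 (q := qf K F t) (p := qf K F 1) hK hL2 hw
  have g10 := s10' (q := qf K F t) (p := qf K F 1) hK hF hΛ hrM hr hw hp
  have g11 := s11 hK hΛ hL2 hw
  have g12 := s12 hK hL2 hw
  have g13 := s13' (p := qf K F 1) hK hrM hr hw
  have g14 := s14 (p := qf K F 1) hkM hw
  have g15 := s15 (p := qf K F 1) hK hL2 hw
  rw [n2_qf_sq] at g1 g13 g14 g15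
  have r1 := frK_nonneg K
  have r2 := Vf_nonneg K
  have r3 := Sq_nonneg K (qf K F t)
  have r5 : 0 ≤ Vf K * (Λ * Sq K (qf K F t)) := mul_nonneg r2 (mul_nonneg hΛ.1 r3)
  have r6 : 0 ≤ Real.sqrt (F.card : ℝ) * (Λ * Sq K (qf K F t)) :=
    mul_nonneg (Real.sqrt_nonneg _) (mul_nonneg hΛ.1 r3)
  linarith

end avg

end Crest.Agent.R62.AvR
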