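import Mathlib
import Crest.Agent.R62.Upd
import Crest.Agent.R62.AvBase

/-!
R62: averaged one-step estimate of `X_1 = Tr K` (helper356).

Setting: `ι` any finite type, `K : Matrix ι ι ℝ` symmetric, `s = ±1`, `F : Finset ι` the set of
live stubs, `K i j = 0` if `i ∉ F`, `K 1_F = s 1_F`.
-/

set_option autoImplicit false
set_option linter.unusedSectionVars false
set_option linter.unusedVariables false

open Matrix Finset

namespace Crest.Agent.R62.AvX1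

open Crest.Agent.R62.Upd

variable {ι : Type*} [Fintype ι] [DecidableEq ι]

/-- exact one-step change of the trace -/
noncomputable def dT (s : ℝ) (K : Matrix ι ι ℝ) (x y : ι) : ℝ :=
  (K y y * ((K ^ 2) x x - 1) + K x x * ((K ^ 2) y y - 1) + 2 * (s - K x y) * (K ^ 2) x y)
    / Dl s K x y

/-- leading part of `dT` -/
def ld (s : ℝ) (K : Matrix ι ι ℝ) (x y : ι) : ℝ :=
  K y y * ((K ^ 2) x x - 1) + K x x * ((K ^ 2) y y - 1) + 2 * (s + K x y) * (K ^ 2) x y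

lemma trace_Pi2 {x y : ι} (hxy : x ≠ y) (A : Matrix ι ι ℝ) :
    (Pi2 x y A).trace = A.trace - A x x - A y y := by
  unfold Matrix.trace
  have h : ∀ i, (Pi2 x y A).diag i = if i = x ∨ i = y then 0 else A i i := by
    intro i
    by_cases h1 : i = x
    · subst h1; simp [Pi2, Matrix.diag]
    · by_cases h2 : i = y
      · subst h2; simp [Pi2, Matrix.diag]
      · simp [Pi2, Matrix.diag, h1, h2]
  simp_rw [h]
  rw [sum_ne x y hxy]
  simp [Matrix.diag]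

lemma trace_Khat {K : Matrix ι ι ℝ} (hK : K.IsSymm) (s : ℝ) (x y : ι) :
    (Khat s K x y).trace = K.trace + (Bxx s K x y * (K ^ 2) x x
      + 2 * Bxy s K x y * (K ^ 2) x y + Byy s K x y * (K ^ 2) y y) := by
  unfold Matrix.trace
  simp only [Matrix.diag]
  have e : ∀ i, Khat s K x y i i = K i i + (Bxx s K x y * (K x i * K x i)
      + 2 * Bxy s K x y * (K x i * K y i) + Byy s K x y * (K y i * K y i)) := by
    intro i
    rw [Khat_apply, hK.apply x i, hK.apply y i]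
    ring
  simp_rw [e]
  simp only [Finset.sum_add_distrib, ← Finset.mul_sum, sum_KK hK]

theorem trace_upd {s : ℝ} (hs : s ^ 2 = 1) {K : Matrix ι ι ℝ} (hK : K.IsSymm) {x y : ι}
    (hxy : x ≠ y) (hD : Dl s K x y ≠ 0) :
    (upd s K x y).trace = K.trace + dT s K x y := by
  have hyx : K y x = K x y := hK.apply x y
  rw [upd, trace_Pi2 hxy, trace_Khat hK, Khat_col_x hs hK hD, Khat_col_y hs hK hD, hyx]
  unfold dT Bxx Bxy Byy
  field_simp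
  linear_combination (-2 * K x y * (K ^ 2) x y) * hs


/-! ### pointwise bounds on good pairs -/

/-- a good ordered pair -/
def GoodPair (K : Matrix ι ι ℝ) (x y : ι) : Prop :=
  x ≠ y ∧ |K x y| ≤ 1 / 4 ∧ |K x x * K y y| ≤ 1 / 4

lemma Dl_ge {s : ℝ} (hs : s ^ 2 = 1) {K : Matrix ι ι ℝ} {x y : ι}
    (hc : |K x y| ≤ 1 / 4) (hab : |K x x * K y y| ≤ 1 / 4) : 5 / 16 ≤ Dl s K x y := by
  unfold Dl
  have h1 := abs_le.mp hab
  have h2 := abs_le.mp hc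
  have h3 : (s * K x y) ^ 2 = K x y ^ 2 := by rw [mul_pow, hs, one_mul]
  have h4 : |s * K x y| ≤ 1 / 4 := by
    rw [abs_mul]
    have : |s| = 1 := by
      have := sq_abs s
      rw [hs] at this
      have h5 : (|s| - 1) * (|s| + 1) = 0 := by nlinarith
      rcases mul_eq_zero.mp h5 with h | h
      · linarith
      · linarith [abs_nonneg s]
    rw [this, one_mul]; exact hc
  have h5 := abs_le.mp h4
  nlinarith [mul_self_nonneg (1 / 4 - s * K x y)]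

lemma abs_s {s : ℝ} (hs : s ^ 2 = 1) : |s| = 1 := by
  have := sq_abs s
  rw [hs] at this
  have h5 : (|s| - 1) * (|s| + 1) = 0 := by nlinarith
  rcases mul_eq_zero.mp h5 with h | h
  · linarith
  · linarith [abs_nonneg s]

/-- scalar remainder estimate -/
lemma rem_scalar {s a b c D q u v : ℝ} (hs : s ^ 2 = 1) (hD : D = (1 - s * c) ^ 2 - a * b)
    (hD0 : 5 / 16 ≤ D) (hc : |c| ≤ 1 / 4) (hab : |a * b| ≤ 1 / 4) :
    |(b * u + a * v + 2 * (s - c) * q) / D - (b * u + a * v + 2 * (s + c) * q)|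
      ≤ (8 * |c| + 4 * |a * b|) * (|b| * |u| + |a| * |v|) + 8 * (c ^ 2 + |a * b|) * |q| := by
  have hDpos : 0 < D := by linarith
  have hs1 := abs_s hs
  set M := |b| * |u| + |a| * |v| with hM
  have hM0 : 0 ≤ M := by positivity
  have hbu : |b * u + a * v| ≤ M := by
    calc _ ≤ |b * u| + |a * v| := abs_add_le _ _
      _ = M := by rw [abs_mul, abs_mul]
  -- numerators
  have e : (b * u + a * v + 2 * (s - c) * q) / D - (b * u + a * v + 2 * (s + c) * q)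
      = ((1 - D) * (b * u + a * v) + 2 * ((s - c) - (s + c) * D) * q) / D := by
    field_simp; ring
  have e1 : 1 - D = 2 * (s * c) - c ^ 2 + a * b := by
    rw [hD]; linear_combination (-c ^ 2) * hs
  have e2 : (s - c) - (s + c) * D = s * c ^ 2 - c ^ 3 + (s + c) * (a * b) := by
    rw [hD]; linear_combination (2 * c - s * c ^ 2 - c ^ 3) * hs
  have b1 : |1 - D| ≤ 9 / 4 * |c| + |a * b| := by
    rw [e1]
    have hc2 : c ^ 2 ≤ 1 / 4 * |c| := by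
      rw [← sq_abs]; nlinarith [abs_nonneg c]
    calc |2 * (s * c) - c ^ 2 + a * b| ≤ |2 * (s * c) - c ^ 2| + |a * b| := abs_add_le _ _
      _ ≤ |2 * (s * c)| + |c ^ 2| + |a * b| := by
          linarith [abs_sub (2 * (s * c)) (c ^ 2)]
      _ = 2 * |c| + c ^ 2 + |a * b| := by
          rw [abs_mul, abs_mul, hs1, abs_of_nonneg (sq_nonneg c)]; norm_num
      _ ≤ _ := by linarith
  have b2 : |(s - c) - (s + c) * D| ≤ 5 / 4 * (c ^ 2 + |a * b|) := by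
    rw [e2]
    have hsc : |s - c| ≤ 5 / 4 := by
      calc |s - c| ≤ |s| + |c| := abs_sub s c
        _ ≤ _ := by linarith
    have hsc' : |s + c| ≤ 5 / 4 := by
      calc |s + c| ≤ |s| + |c| := abs_add_le s c
        _ ≤ _ := by linarith
    have e3 : s * c ^ 2 - c ^ 3 + (s + c) * (a * b) = (s - c) * c ^ 2 + (s + c) * (a * b) := by
      ring
    rw [e3]
    calc _ ≤ |(s - c) * c ^ 2| + |(s + c) * (a * b)| := abs_add_le _ _
      _ = |s - c| * c ^ 2 + |s + c| * |a * b| := by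
          rw [abs_mul, abs_mul, abs_of_nonneg (sq_nonneg c)]
      _ ≤ 5 / 4 * c ^ 2 + 5 / 4 * |a * b| :=
          add_le_add (mul_le_mul_of_nonneg_right hsc (sq_nonneg c))
            (mul_le_mul_of_nonneg_right hsc' (abs_nonneg _))
      _ = _ := by ring
  rw [e, abs_div, abs_of_pos hDpos, div_le_iff₀ hDpos]
  have n1 : |(1 - D) * (b * u + a * v) + 2 * ((s - c) - (s + c) * D) * q|
      ≤ (9 / 4 * |c| + |a * b|) * M + 5 / 2 * (c ^ 2 + |a * b|) * |q| := by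
    calc _ ≤ |(1 - D) * (b * u + a * v)| + |2 * ((s - c) - (s + c) * D) * q| := abs_add_le _ _
      _ = |1 - D| * |b * u + a * v| + 2 * |(s - c) - (s + c) * D| * |q| := by
          rw [abs_mul, abs_mul, abs_mul]; norm_num
      _ ≤ (9 / 4 * |c| + |a * b|) * M + 2 * (5 / 4 * (c ^ 2 + |a * b|)) * |q| := by
          apply add_le_add
          · exact mul_le_mul b1 hbu (abs_nonneg _) (by positivity)
          · exact mul_le_mul_of_nonneg_right (by linarith) (abs_nonneg q)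
      _ = _ := by ring
  refine n1.trans ?_
  have hR : 0 ≤ (8 * |c| + 4 * |a * b|) * M + 8 * (c ^ 2 + |a * b|) * |q| := by positivity
  calc (9 / 4 * |c| + |a * b|) * M + 5 / 2 * (c ^ 2 + |a * b|) * |q|
      ≤ ((8 * |c| + 4 * |a * b|) * M + 8 * (c ^ 2 + |a * b|) * |q|) * (5 / 16) := by
        have h1 : 0 ≤ |c| * M := by positivity
        have h2 : 0 ≤ |a * b| * M := by positivity
        have h3 : 0 ≤ (c ^ 2 + |a * b|) * |q| := by positivity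
        nlinarith
    _ ≤ _ := mul_le_mul_of_nonneg_left hD0 hR

/-- scalar first order estimate -/
lemma first_scalar {s a b c D q u v : ℝ} (hs : s ^ 2 = 1) (hD : D = (1 - s * c) ^ 2 - a * b)
    (hD0 : 5 / 16 ≤ D) (hc : |c| ≤ 1 / 4) (hab : |a * b| ≤ 1 / 4) :
    |(b * u + a * v + 2 * (s - c) * q) / D - 2 * s * q|
      ≤ 4 * (|b| * |u| + |a| * |v|) + 8 * (|c| + |a * b|) * |q| := by
  have hDpos : 0 < D := by linarith
  have hs1 := abs_s hs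
  set M := |b| * |u| + |a| * |v| with hM
  have hM0 : 0 ≤ M := by positivity
  have hbu : |b * u + a * v| ≤ M := by
    calc _ ≤ |b * u| + |a * v| := abs_add_le _ _
      _ = M := by rw [abs_mul, abs_mul]
  have e : (b * u + a * v + 2 * (s - c) * q) / D - 2 * s * q
      = ((b * u + a * v) + 2 * ((s - c) - s * D) * q) / D := by
    field_simp; ring
  have e2 : (s - c) - s * D = c - s * c ^ 2 + s * (a * b) := by
    rw [hD]; linear_combination (2 * c - s * c ^ 2) * hs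
  have b2 : |(s - c) - s * D| ≤ 5 / 4 * (|c| + |a * b|) := by
    rw [e2]
    have hc2 : c ^ 2 ≤ 1 / 4 * |c| := by
      rw [← sq_abs]; nlinarith [abs_nonneg c]
    calc |c - s * c ^ 2 + s * (a * b)| ≤ |c - s * c ^ 2| + |s * (a * b)| := abs_add_le _ _
      _ ≤ |c| + |s * c ^ 2| + |s * (a * b)| := by linarith [abs_sub c (s * c ^ 2)]
      _ = |c| + c ^ 2 + |a * b| := by
          rw [abs_mul, abs_mul, hs1, abs_of_nonneg (sq_nonneg c)]; ring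
      _ ≤ _ := by nlinarith [abs_nonneg (a * b)]
  rw [e, abs_div, abs_of_pos hDpos, div_le_iff₀ hDpos]
  have n1 : |(b * u + a * v) + 2 * ((s - c) - s * D) * q|
      ≤ M + 5 / 2 * (|c| + |a * b|) * |q| := by
    calc _ ≤ |b * u + a * v| + |2 * ((s - c) - s * D) * q| := abs_add_le _ _
      _ = |b * u + a * v| + 2 * |(s - c) - s * D| * |q| := by
          rw [abs_mul, abs_mul]; norm_num
      _ ≤ M + 2 * (5 / 4 * (|c| + |a * b|)) * |q| := by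
          apply add_le_add hbu
          exact mul_le_mul_of_nonneg_right (by linarith) (abs_nonneg q)
      _ = _ := by ring
  refine n1.trans ?_
  have hR : 0 ≤ 4 * M + 8 * (|c| + |a * b|) * |q| := by positivity
  calc M + 5 / 2 * (|c| + |a * b|) * |q|
      ≤ (4 * M + 8 * (|c| + |a * b|) * |q|) * (5 / 16) := by
        have h3 : 0 ≤ (|c| + |a * b|) * |q| := by positivity
        nlinarith
    _ ≤ _ := mul_le_mul_of_nonneg_left hD0 hR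

lemma abs_scalar {s a b c D q u v : ℝ} (hs : s ^ 2 = 1) (hD : D = (1 - s * c) ^ 2 - a * b)
    (hD0 : 5 / 16 ≤ D) (hc : |c| ≤ 1 / 4) (hab : |a * b| ≤ 1 / 4) :
    |(b * u + a * v + 2 * (s - c) * q) / D|
      ≤ 4 * (|b| * |u| + |a| * |v|) + 8 * |q| := by
  have hDpos : 0 < D := by linarith
  have hs1 := abs_s hs
  set M := |b| * |u| + |a| * |v| with hM
  have hM0 : 0 ≤ M := by positivity
  have hbu : |b * u + a * v| ≤ M := by
    calc _ ≤ |b * u| + |a * v| := abs_add_le _ _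
      _ = M := by rw [abs_mul, abs_mul]
  have hsc : |s - c| ≤ 5 / 4 := by
    calc |s - c| ≤ |s| + |c| := abs_sub s c
      _ ≤ _ := by linarith
  rw [abs_div, abs_of_pos hDpos, div_le_iff₀ hDpos]
  have n1 : |(b * u + a * v) + 2 * (s - c) * q| ≤ M + 5 / 2 * |q| := by
    calc _ ≤ |b * u + a * v| + |2 * (s - c) * q| := abs_add_le _ _
      _ = |b * u + a * v| + 2 * |s - c| * |q| := by
          rw [abs_mul, abs_mul]; norm_num
      _ ≤ M + 2 * (5 / 4) * |q| := by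
          apply add_le_add hbu
          exact mul_le_mul_of_nonneg_right (by linarith) (abs_nonneg q)
      _ = _ := by ring
  refine n1.trans ?_
  have hR : 0 ≤ 4 * M + 8 * |q| := by positivity
  calc M + 5 / 2 * |q| ≤ (4 * M + 8 * |q|) * (5 / 16) := by nlinarith [abs_nonneg q]
    _ ≤ _ := mul_le_mul_of_nonneg_left hD0 hR

lemma dT_sub_ld {s : ℝ} (hs : s ^ 2 = 1) {K : Matrix ι ι ℝ} {x y : ι} (hg : GoodPair K x y) :
    |dT s K x y - ld s K x y| ≤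
      (8 * |K x y| + 4 * |K x x * K y y|) *
        (|K y y| * |(K ^ 2) x x - 1| + |K x x| * |(K ^ 2) y y - 1|)
      + 8 * (K x y ^ 2 + |K x x * K y y|) * |(K ^ 2) x y| :=
  rem_scalar hs rfl (Dl_ge hs hg.2.1 hg.2.2) hg.2.1 hg.2.2

lemma dT_sub_first {s : ℝ} (hs : s ^ 2 = 1) {K : Matrix ι ι ℝ} {x y : ι} (hg : GoodPair K x y) :
    |dT s K x y - 2 * s * (K ^ 2) x y| ≤
      4 * (|K y y| * |(K ^ 2) x x - 1| + |K x x| * |(K ^ 2) y y - 1|)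
      + 8 * (|K x y| + |K x x * K y y|) * |(K ^ 2) x y| :=
  first_scalar hs rfl (Dl_ge hs hg.2.1 hg.2.2) hg.2.1 hg.2.2

lemma abs_dT {s : ℝ} (hs : s ^ 2 = 1) {K : Matrix ι ι ℝ} {x y : ι} (hg : GoodPair K x y) :
    |dT s K x y| ≤
      4 * (|K y y| * |(K ^ 2) x x - 1| + |K x x| * |(K ^ 2) y y - 1|)
      + 8 * |(K ^ 2) x y| :=
  abs_scalar hs rfl (Dl_ge hs hg.2.1 hg.2.2) hg.2.1 hg.2.2


/-! ### sums over pairs -/

/-- `∑ K_xx^2` -/
def Vf (K : Matrix ι ι ℝ) : ℝ := ∑ x, K x x ^ 2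
/-- `∑_F (Q_xx - 1)^2` -/
def Wf (F : Finset ι) (K : Matrix ι ι ℝ) : ℝ := ∑ x ∈ F, ((K ^ 2) x x - 1) ^ 2

lemma Vf_nonneg (K : Matrix ι ι ℝ) : 0 ≤ Vf K := Finset.sum_nonneg fun _ _ => sq_nonneg _
lemma Wf_nonneg (F : Finset ι) (K : Matrix ι ι ℝ) : 0 ≤ Wf F K :=
  Finset.sum_nonneg fun _ _ => sq_nonneg _

/-- Cauchy–Schwarz on a set of pairs, with absolute values -/
lemma cs_abs (S T : Finset (ι × ι)) (h : S ⊆ T) (f g : ι × ι → ℝ) :
    ∑ p ∈ S, |f p| * |g p| ≤ √(∑ p ∈ T, f p ^ 2) * √(∑ p ∈ T, g p ^ 2) := by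
  calc ∑ p ∈ S, |f p| * |g p| ≤ √(∑ p ∈ S, |f p| ^ 2) * √(∑ p ∈ S, |g p| ^ 2) :=
        Real.sum_mul_le_sqrt_mul_sqrt _ _ _
    _ = √(∑ p ∈ S, f p ^ 2) * √(∑ p ∈ S, g p ^ 2) := by simp only [sq_abs]
    _ ≤ _ := mul_le_mul
        (Real.sqrt_le_sqrt (Finset.sum_le_sum_of_subset_of_nonneg h fun _ _ _ => sq_nonneg _))
        (Real.sqrt_le_sqrt (Finset.sum_le_sum_of_subset_of_nonneg h fun _ _ _ => sq_nonneg _))
        (Real.sqrt_nonneg _) (Real.sqrt_nonneg _)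

lemma sum_prod_le_univ (F : Finset ι) (f : ι → ι → ℝ) (hf : ∀ x y, 0 ≤ f x y) :
    ∑ p ∈ F ×ˢ F, f p.1 p.2 ≤ ∑ x, ∑ y, f x y := by
  rw [← Finset.sum_product']
  exact Finset.sum_le_sum_of_subset_of_nonneg (by intro p _; simp) fun p _ _ => hf _ _

lemma sum_K_sq_le (F : Finset ι) {K : Matrix ι ι ℝ} (hK : K.IsSymm) :
    ∑ p ∈ F ×ˢ F, K p.1 p.2 ^ 2 ≤ (K ^ 2).trace := by
  have h := AvBase.frob_pow hK.eq 1
  simp only [pow_one, mul_one] at h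
  rw [← h]
  exact sum_prod_le_univ F (fun x y => K x y ^ 2) fun _ _ => sq_nonneg _

lemma sum_Q_sq_le (F : Finset ι) {K : Matrix ι ι ℝ} (hK : K.IsSymm) :
    ∑ p ∈ F ×ˢ F, (K ^ 2) p.1 p.2 ^ 2 ≤ (K ^ 4).trace := by
  have h := AvBase.frob_pow hK.eq 2
  simp only [Nat.reduceMul] at h
  rw [← h]
  exact sum_prod_le_univ F (fun x y => (K ^ 2) x y ^ 2) fun _ _ => sq_nonneg _

lemma sum_VW_le (F : Finset ι) (K : Matrix ι ι ℝ) :
    ∑ p ∈ F ×ˢ F, (K p.2 p.2 * ((K ^ 2) p.1 p.1 - 1)) ^ 2 ≤ Vf K * Wf F K := by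
  rw [Finset.sum_product]
  simp only [mul_pow]
  have h : ∑ x ∈ F, ∑ y ∈ F, K y y ^ 2 * ((K ^ 2) x x - 1) ^ 2
      = (∑ y ∈ F, K y y ^ 2) * Wf F K := by
    unfold Wf
    rw [Finset.sum_mul_sum, Finset.sum_comm]
  rw [h]
  refine mul_le_mul_of_nonneg_right ?_ (Wf_nonneg F K)
  exact Finset.sum_le_sum_of_subset_of_nonneg (Finset.subset_univ _) fun _ _ _ => sq_nonneg _

lemma sum_VW_le' (F : Finset ι) (K : Matrix ι ι ℝ) :
    ∑ p ∈ F ×ˢ F, (K p.1 p.1 * ((K ^ 2) p.2 p.2 - 1)) ^ 2 ≤ Vf K * Wf F K := by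
  rw [Finset.sum_product]
  simp only [mul_pow]
  have h : ∑ x ∈ F, ∑ y ∈ F, K x x ^ 2 * ((K ^ 2) y y - 1) ^ 2
      = (∑ y ∈ F, K y y ^ 2) * Wf F K := by
    unfold Wf
    rw [Finset.sum_mul_sum]
  rw [h]
  refine mul_le_mul_of_nonneg_right ?_ (Wf_nonneg F K)
  exact Finset.sum_le_sum_of_subset_of_nonneg (Finset.subset_univ _) fun _ _ _ => sq_nonneg _

lemma sum_VV_le (F : Finset ι) (K : Matrix ι ι ℝ) :
    ∑ p ∈ F ×ˢ F, (K p.1 p.1 * K p.2 p.2) ^ 2 ≤ Vf K ^ 2 := by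
  rw [Finset.sum_product]
  simp only [mul_pow]
  rw [← Finset.sum_mul_sum, pow_two]
  have h : ∑ y ∈ F, K y y ^ 2 ≤ Vf K :=
    Finset.sum_le_sum_of_subset_of_nonneg (Finset.subset_univ _) fun _ _ _ => sq_nonneg _
  exact mul_le_mul h h (Finset.sum_nonneg fun _ _ => sq_nonneg _) (Vf_nonneg K)

section sums

variable {F : Finset ι} {K : Matrix ι ι ℝ} {S : Finset (ι × ι)}

lemma s_cQ (hK : K.IsSymm) (hS : S ⊆ F ×ˢ F) :
    ∑ p ∈ S, |K p.1 p.2| * |(K ^ 2) p.1 p.2| ≤ √(K ^ 2).trace * √(K ^ 4).trace :=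
  (cs_abs S (F ×ˢ F) hS (fun p => K p.1 p.2) (fun p => (K ^ 2) p.1 p.2)).trans
    (mul_le_mul (Real.sqrt_le_sqrt (sum_K_sq_le F hK)) (Real.sqrt_le_sqrt (sum_Q_sq_le F hK))
      (Real.sqrt_nonneg _) (Real.sqrt_nonneg _))

lemma s_abQ (hK : K.IsSymm) (hS : S ⊆ F ×ˢ F) :
    ∑ p ∈ S, |K p.1 p.1 * K p.2 p.2| * |(K ^ 2) p.1 p.2| ≤ Vf K * √(K ^ 4).trace := by
  have h := cs_abs S (F ×ˢ F) hS (fun p => K p.1 p.1 * K p.2 p.2) (fun p => (K ^ 2) p.1 p.2)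
  refine h.trans (mul_le_mul ?_ (Real.sqrt_le_sqrt (sum_Q_sq_le F hK))
      (Real.sqrt_nonneg _) (Vf_nonneg K))
  rw [← Real.sqrt_sq (Vf_nonneg K)]
  exact Real.sqrt_le_sqrt (sum_VV_le F K)

lemma s_g_bu (hS : S ⊆ F ×ˢ F) (g : ι × ι → ℝ) :
    ∑ p ∈ S, |g p| * (|K p.2 p.2| * |(K ^ 2) p.1 p.1 - 1| + |K p.1 p.1| * |(K ^ 2) p.2 p.2 - 1|)
      ≤ 2 * √(∑ p ∈ S, g p ^ 2) * √(Vf K * Wf F K) := by
  have h1 := cs_abs S S (Finset.Subset.refl _) g (fun p => K p.2 p.2 * ((K ^ 2) p.1 p.1 - 1))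
  have h2 := cs_abs S S (Finset.Subset.refl _) g (fun p => K p.1 p.1 * ((K ^ 2) p.2 p.2 - 1))
  have e1 : ∑ p ∈ S, (K p.2 p.2 * ((K ^ 2) p.1 p.1 - 1)) ^ 2 ≤ Vf K * Wf F K :=
    (Finset.sum_le_sum_of_subset_of_nonneg hS fun _ _ _ => sq_nonneg _).trans (sum_VW_le F K)
  have e2 : ∑ p ∈ S, (K p.1 p.1 * ((K ^ 2) p.2 p.2 - 1)) ^ 2 ≤ Vf K * Wf F K :=
    (Finset.sum_le_sum_of_subset_of_nonneg hS fun _ _ _ => sq_nonneg _).trans (sum_VW_le' F K)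
  have h1' := h1.trans (mul_le_mul_of_nonneg_left (Real.sqrt_le_sqrt e1) (Real.sqrt_nonneg _))
  have h2' := h2.trans (mul_le_mul_of_nonneg_left (Real.sqrt_le_sqrt e2) (Real.sqrt_nonneg _))
  have e : ∑ p ∈ S, |g p| * (|K p.2 p.2| * |(K ^ 2) p.1 p.1 - 1|
        + |K p.1 p.1| * |(K ^ 2) p.2 p.2 - 1|)
      = ∑ p ∈ S, |g p| * |K p.2 p.2 * ((K ^ 2) p.1 p.1 - 1)|
        + ∑ p ∈ S, |g p| * |K p.1 p.1 * ((K ^ 2) p.2 p.2 - 1)| := by
    rw [← Finset.sum_add_distrib]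
    exact Finset.sum_congr rfl fun p _ => by rw [abs_mul, abs_mul]; ring
  rw [e]
  linarith

/-- remainder of the leading part, summed over good pairs -/
theorem sum_rem {s : ℝ} (hs : s ^ 2 = 1) (hK : K.IsSymm) (hS : S ⊆ F ×ˢ F)
    (hg : ∀ p ∈ S, GoodPair K p.1 p.2) :
    ∑ p ∈ S, |dT s K p.1 p.2 - ld s K p.1 p.2| ≤
      (16 * √(K ^ 2).trace + 8 * Vf K) * √(Vf K * Wf F K)
        + (2 * √(K ^ 2).trace + 8 * Vf K) * √(K ^ 4).trace := by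
  obtain ⟨M, hM⟩ : ∃ M : ι × ι → ℝ, ∀ p, M p =
    |K p.2 p.2| * |(K ^ 2) p.1 p.1 - 1| + |K p.1 p.1| * |(K ^ 2) p.2 p.2 - 1| := ⟨_, fun _ => rfl⟩
  have h1 : ∀ p ∈ S, |dT s K p.1 p.2 - ld s K p.1 p.2| ≤
      8 * (|K p.1 p.2| * M p) + 4 * (|K p.1 p.1 * K p.2 p.2| * M p)
        + 2 * (|K p.1 p.2| * |(K ^ 2) p.1 p.2|)
        + 8 * (|K p.1 p.1 * K p.2 p.2| * |(K ^ 2) p.1 p.2|) := by
    intro p hp
    refine (dT_sub_ld hs (hg p hp)).trans ?_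
    have hc := (hg p hp).2.1
    have hc2 : K p.1 p.2 ^ 2 ≤ 1 / 4 * |K p.1 p.2| := by
      rw [← sq_abs]; nlinarith [abs_nonneg (K p.1 p.2)]
    have : K p.1 p.2 ^ 2 * |(K ^ 2) p.1 p.2| ≤ 1 / 4 * |K p.1 p.2| * |(K ^ 2) p.1 p.2| :=
      mul_le_mul_of_nonneg_right hc2 (abs_nonneg _)
    simp only [hM]
    nlinarith
  refine (Finset.sum_le_sum h1).trans ?_
  simp only [Finset.sum_add_distrib, ← Finset.mul_sum]
  have a1 := s_g_bu (K := K) hS (fun p => K p.1 p.2)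
  have a2 := s_g_bu (K := K) hS (fun p => K p.1 p.1 * K p.2 p.2)
  have a3 := s_cQ hK hS
  have a4 := s_abQ hK hS
  have b1 : √(∑ p ∈ S, K p.1 p.2 ^ 2) ≤ √(K ^ 2).trace :=
    Real.sqrt_le_sqrt ((Finset.sum_le_sum_of_subset_of_nonneg hS fun _ _ _ => sq_nonneg _).trans
      (sum_K_sq_le F hK))
  have b2 : √(∑ p ∈ S, (K p.1 p.1 * K p.2 p.2) ^ 2) ≤ Vf K := by
    rw [← Real.sqrt_sq (Vf_nonneg K)]
    exact Real.sqrt_le_sqrt ((Finset.sum_le_sum_of_subset_of_nonneg hS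
      fun _ _ _ => sq_nonneg _).trans (sum_VV_le F K))
  have c1 := mul_le_mul_of_nonneg_right b1 (Real.sqrt_nonneg (Vf K * Wf F K))
  have c2 := mul_le_mul_of_nonneg_right b2 (Real.sqrt_nonneg (Vf K * Wf F K))
  simp only [hM]
  nlinarith

/-- second moment of the change, summed over good pairs -/
theorem sum_dT_sq {s : ℝ} (hs : s ^ 2 = 1) (hK : K.IsSymm) (hS : S ⊆ F ×ˢ F)
    (hg : ∀ p ∈ S, GoodPair K p.1 p.2) :
    ∑ p ∈ S, dT s K p.1 p.2 ^ 2 ≤ 96 * (Vf K * Wf F K) + 192 * (K ^ 4).trace := by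
  have h1 : ∀ p ∈ S, dT s K p.1 p.2 ^ 2 ≤
      48 * (K p.2 p.2 * ((K ^ 2) p.1 p.1 - 1)) ^ 2
      + 48 * (K p.1 p.1 * ((K ^ 2) p.2 p.2 - 1)) ^ 2 + 192 * (K ^ 2) p.1 p.2 ^ 2 := by
    intro p hp
    have h := abs_dT hs (hg p hp)
    rw [← abs_mul, ← abs_mul] at h
    set A := |K p.2 p.2 * ((K ^ 2) p.1 p.1 - 1)| with hA
    set B := |K p.1 p.1 * ((K ^ 2) p.2 p.2 - 1)| with hB
    set C := |(K ^ 2) p.1 p.2| with hC
    have hA2 : (K p.2 p.2 * ((K ^ 2) p.1 p.1 - 1)) ^ 2 = A ^ 2 := by rw [hA, sq_abs]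
    have hB2 : (K p.1 p.1 * ((K ^ 2) p.2 p.2 - 1)) ^ 2 = B ^ 2 := by rw [hB, sq_abs]
    have hC2 : (K ^ 2) p.1 p.2 ^ 2 = C ^ 2 := by rw [hC, sq_abs]
    rw [hA2, hB2, hC2, ← sq_abs (dT s K p.1 p.2)]
    have h0 := abs_nonneg (dT s K p.1 p.2)
    have hA0 : 0 ≤ A := abs_nonneg _
    have hB0 : 0 ≤ B := abs_nonneg _
    have hC0 : 0 ≤ C := abs_nonneg _
    have h2 : |dT s K p.1 p.2| ^ 2 ≤ (4 * (A + B) + 8 * C) ^ 2 :=
      pow_le_pow_left₀ h0 h 2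
    nlinarith [sq_nonneg (A - B), sq_nonneg (A - 2 * C), sq_nonneg (B - 2 * C)]
  refine (Finset.sum_le_sum h1).trans ?_
  simp only [Finset.sum_add_distrib, ← Finset.mul_sum]
  have e1 : ∑ p ∈ S, (K p.2 p.2 * ((K ^ 2) p.1 p.1 - 1)) ^ 2 ≤ Vf K * Wf F K :=
    (Finset.sum_le_sum_of_subset_of_nonneg hS fun _ _ _ => sq_nonneg _).trans (sum_VW_le F K)
  have e2 : ∑ p ∈ S, (K p.1 p.1 * ((K ^ 2) p.2 p.2 - 1)) ^ 2 ≤ Vf K * Wf F K :=
    (Finset.sum_le_sum_of_subset_of_nonneg hS fun _ _ _ => sq_nonneg _).trans (sum_VW_le' F K)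
  have e3 : ∑ p ∈ S, (K ^ 2) p.1 p.2 ^ 2 ≤ (K ^ 4).trace :=
    (Finset.sum_le_sum_of_subset_of_nonneg hS fun _ _ _ => sq_nonneg _).trans (sum_Q_sq_le F hK)
  linarith

/-- tilt: first order effect with weights `Θ` -/
theorem sum_tilt {s : ℝ} (hs : s ^ 2 = 1) (hK : K.IsSymm) (hS : S ⊆ F ×ˢ F)
    (hg : ∀ p ∈ S, GoodPair K p.1 p.2) (Θ : ι × ι → ℝ) {η : ℝ} (hη : ∀ p ∈ S, |Θ p| ≤ η)
    (hη0 : 0 ≤ η) :
    |∑ p ∈ S, Θ p * dT s K p.1 p.2 - 2 * s * ∑ p ∈ S, Θ p * (K ^ 2) p.1 p.2| ≤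
      8 * √(∑ p ∈ S, Θ p ^ 2) * √(Vf K * Wf F K)
        + 8 * η * ((√(K ^ 2).trace + Vf K) * √(K ^ 4).trace) := by
  obtain ⟨M, hM⟩ : ∃ M : ι × ι → ℝ, ∀ p, M p =
    |K p.2 p.2| * |(K ^ 2) p.1 p.1 - 1| + |K p.1 p.1| * |(K ^ 2) p.2 p.2 - 1| := ⟨_, fun _ => rfl⟩
  have e : ∑ p ∈ S, Θ p * dT s K p.1 p.2 - 2 * s * ∑ p ∈ S, Θ p * (K ^ 2) p.1 p.2
      = ∑ p ∈ S, Θ p * (dT s K p.1 p.2 - 2 * s * (K ^ 2) p.1 p.2) := by
    rw [Finset.mul_sum, ← Finset.sum_sub_distrib]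
    exact Finset.sum_congr rfl fun p _ => by ring
  rw [e]
  refine (Finset.abs_sum_le_sum_abs _ _).trans ?_
  have h1 : ∀ p ∈ S, |Θ p * (dT s K p.1 p.2 - 2 * s * (K ^ 2) p.1 p.2)| ≤
      4 * (|Θ p| * M p) + 8 * η * (|K p.1 p.2| * |(K ^ 2) p.1 p.2|)
        + 8 * η * (|K p.1 p.1 * K p.2 p.2| * |(K ^ 2) p.1 p.2|) := by
    intro p hp
    rw [abs_mul]
    have h2 := mul_le_mul_of_nonneg_left (dT_sub_first hs (hg p hp)) (abs_nonneg (Θ p))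
    refine h2.trans ?_
    have h3 : |Θ p| * (8 * (|K p.1 p.2| + |K p.1 p.1 * K p.2 p.2|) * |(K ^ 2) p.1 p.2|)
        ≤ η * (8 * (|K p.1 p.2| + |K p.1 p.1 * K p.2 p.2|) * |(K ^ 2) p.1 p.2|) :=
      mul_le_mul_of_nonneg_right (hη p hp) (by positivity)
    simp only [hM]
    nlinarith
  refine (Finset.sum_le_sum h1).trans ?_
  simp only [Finset.sum_add_distrib, ← Finset.mul_sum]
  have a1 := s_g_bu (K := K) hS Θ
  have a3 := mul_le_mul_of_nonneg_left (s_cQ hK hS) (by positivity : 0 ≤ 8 * η)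
  have a4 := mul_le_mul_of_nonneg_left (s_abQ hK hS) (by positivity : 0 ≤ 8 * η)
  simp only [hM]
  nlinarith

end sums


/-! ### exact mean of the leading part over all ordered pairs -/

section mean

variable {F : Finset ι} {K : Matrix ι ι ℝ}

/-- indicator vector of the live stubs -/
def ind (F : Finset ι) : ι → ℝ := fun i => if i ∈ F then 1 else 0

lemma sum_F_eq_univ (F : Finset ι) (f : ι → ℝ) (hf : ∀ x, x ∉ F → f x = 0) :
    ∑ x ∈ F, f x = ∑ x, f x :=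
  Finset.sum_subset (Finset.subset_univ _) fun x _ hx => hf x hx

lemma dead_col (hK : K.IsSymm) (hdead : ∀ i j, i ∉ F → K i j = 0) (i j : ι) (hj : j ∉ F) :
    K i j = 0 := by
  rw [← hK.apply i j]; exact hdead j i hj

lemma dead_pow (hK : K.IsSymm) (hdead : ∀ i j, i ∉ F → K i j = 0) (n : ℕ) (i j : ι)
    (hi : i ∉ F) : (K ^ (n + 1)) i j = 0 := by
  rw [pow_succ', Matrix.mul_apply]
  exact Finset.sum_eq_zero fun k _ => by rw [hdead i k hi, zero_mul]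

lemma dead_pow' (hK : K.IsSymm) (hdead : ∀ i j, i ∉ F → K i j = 0) (n : ℕ) (i j : ι)
    (hj : j ∉ F) : (K ^ (n + 1)) i j = 0 := by
  rw [AvBase.pow_apply_comm hK.eq]; exact dead_pow hK hdead n j i hj

lemma sum_FF (A : ι → ι → ℝ) (h1 : ∀ i j, i ∉ F → A i j = 0) (h2 : ∀ i j, j ∉ F → A i j = 0) :
    ∑ p ∈ F ×ˢ F, A p.1 p.2 = ∑ x, ∑ y, A x y := by
  rw [Finset.sum_product]
  rw [sum_F_eq_univ F (fun x => ∑ y ∈ F, A x y)
    (fun x hx => Finset.sum_eq_zero fun y _ => h1 x y hx)]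
  exact Finset.sum_congr rfl fun x _ => sum_F_eq_univ F (fun y => A x y) fun y hy => h2 x y hy

/-- `∑_{F×F} (K^j)_xy = s^j ρ` -/
lemma sum_FF_pow {s : ℝ} (hrow : K *ᵥ ind F = s • ind F) (j : ℕ) :
    ∑ p ∈ F ×ˢ F, (K ^ j) p.1 p.2 = s ^ j * (F.card : ℝ) := by
  have h := AvBase.row_pow hrow j
  rw [Finset.sum_product]
  have h1 : ∀ x, ∑ y ∈ F, (K ^ j) x y = ((K ^ j) *ᵥ ind F) x := by
    intro x
    simp [Matrix.mulVec, dotProduct, ind, Finset.sum_ite_mem]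
  simp_rw [h1, h]
  simp [ind, Finset.sum_ite_mem, mul_comm]

theorem sum_ld {s : ℝ} (hs : s ^ 2 = 1) (hK : K.IsSymm) (hdead : ∀ i j, i ∉ F → K i j = 0)
    (hrow : K *ᵥ ind F = s • ind F) :
    ∑ p ∈ F ×ˢ F, ld s K p.1 p.2 =
      2 * K.trace * ((K ^ 2).trace - F.card) + 2 * s * F.card + 2 * (K ^ 3).trace := by
  have hT : ∑ y ∈ F, K y y = K.trace :=
    sum_F_eq_univ F (fun y => K y y) fun y hy => hdead y y hy
  have hX2 : ∑ y ∈ F, (K ^ 2) y y = (K ^ 2).trace :=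
    sum_F_eq_univ F (fun y => (K ^ 2) y y) fun y hy => dead_pow hK hdead 1 y y hy
  have hX2' : ∑ y ∈ F, ((K ^ 2) y y - 1) = (K ^ 2).trace - F.card := by
    rw [Finset.sum_sub_distrib, hX2]; simp
  have e1 : ∑ p ∈ F ×ˢ F, K p.2 p.2 * ((K ^ 2) p.1 p.1 - 1)
      = K.trace * ((K ^ 2).trace - F.card) := by
    rw [Finset.sum_product, ← hT, ← hX2', Finset.sum_mul_sum, Finset.sum_comm]
  have e2 : ∑ p ∈ F ×ˢ F, K p.1 p.1 * ((K ^ 2) p.2 p.2 - 1)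
      = K.trace * ((K ^ 2).trace - F.card) := by
    rw [Finset.sum_product, ← hT, ← hX2', Finset.sum_mul_sum]
  have e3 : ∑ p ∈ F ×ˢ F, (K ^ 2) p.1 p.2 = F.card := by
    rw [sum_FF_pow hrow 2, hs, one_mul]
  have e4 : ∑ p ∈ F ×ˢ F, K p.1 p.2 * (K ^ 2) p.1 p.2 = (K ^ 3).trace := by
    rw [sum_FF (fun x y => K x y * (K ^ 2) x y) (fun i j hi => by simp [hdead i j hi])
      (fun i j hj => by simp [dead_col hK hdead i j hj])]
    have := AvBase.trace_pow_add hK.eq 1 2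
    simpa using this
  have e : ∀ p ∈ F ×ˢ F, ld s K p.1 p.2 = K p.2 p.2 * ((K ^ 2) p.1 p.1 - 1)
      + K p.1 p.1 * ((K ^ 2) p.2 p.2 - 1) + 2 * s * (K ^ 2) p.1 p.2
      + 2 * (K p.1 p.2 * (K ^ 2) p.1 p.2) := by
    intro p _; unfold ld; ring
  rw [Finset.sum_congr rfl e]
  simp only [Finset.sum_add_distrib, ← Finset.mul_sum]
  rw [e1, e2, e3, e4]
  ring

/-- bias of the bad pairs -/
theorem sum_ld_bad {s : ℝ} (hs : s ^ 2 = 1) (hK : K.IsSymm) {B : Finset (ι × ι)}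
    (hB : B ⊆ F ×ˢ F) :
    |∑ p ∈ B, ld s K p.1 p.2| ≤ 2 * √B.card * √(Vf K * Wf F K)
      + 2 * (√B.card + √(K ^ 2).trace) * √(K ^ 4).trace := by
  have hs1 := abs_s hs
  refine (Finset.abs_sum_le_sum_abs _ _).trans ?_
  have h1 : ∀ p ∈ B, |ld s K p.1 p.2| ≤
      |(1 : ℝ)| * (|K p.2 p.2| * |(K ^ 2) p.1 p.1 - 1| + |K p.1 p.1| * |(K ^ 2) p.2 p.2 - 1|)
      + 2 * (|(1 : ℝ)| * |(K ^ 2) p.1 p.2|) + 2 * (|K p.1 p.2| * |(K ^ 2) p.1 p.2|) := by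
    intro p _
    unfold ld
    have a1 := abs_add_le (K p.2 p.2 * ((K ^ 2) p.1 p.1 - 1)
      + K p.1 p.1 * ((K ^ 2) p.2 p.2 - 1)) (2 * (s + K p.1 p.2) * (K ^ 2) p.1 p.2)
    have a2 := abs_add_le (K p.2 p.2 * ((K ^ 2) p.1 p.1 - 1))
      (K p.1 p.1 * ((K ^ 2) p.2 p.2 - 1))
    have a3 : |2 * (s + K p.1 p.2) * (K ^ 2) p.1 p.2|
        ≤ 2 * (1 + |K p.1 p.2|) * |(K ^ 2) p.1 p.2| := by
      rw [abs_mul, abs_mul]
      have : |s + K p.1 p.2| ≤ 1 + |K p.1 p.2| := by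
        calc _ ≤ |s| + |K p.1 p.2| := abs_add_le _ _
          _ = _ := by rw [hs1]
      have h2 : |(2 : ℝ)| = 2 := by norm_num
      rw [h2]
      exact mul_le_mul_of_nonneg_right (by linarith) (abs_nonneg _)
    rw [abs_mul (K p.2 p.2), abs_mul (K p.1 p.1)] at a2
    rw [abs_one]
    nlinarith
  refine (Finset.sum_le_sum h1).trans ?_
  rw [Finset.sum_add_distrib, Finset.sum_add_distrib]
  have m1 : ∑ p ∈ B, 2 * (|(1 : ℝ)| * |(K ^ 2) p.1 p.2|)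
      = 2 * ∑ p ∈ B, (|(1 : ℝ)| * |(K ^ 2) p.1 p.2|) := (Finset.mul_sum _ _ _).symm
  have m2 : ∑ p ∈ B, 2 * (|K p.1 p.2| * |(K ^ 2) p.1 p.2|)
      = 2 * ∑ p ∈ B, (|K p.1 p.2| * |(K ^ 2) p.1 p.2|) := (Finset.mul_sum _ _ _).symm
  rw [m1, m2]
  have b1 := s_g_bu (K := K) hB (fun _ => 1)
  have b2 := cs_abs B B (Finset.Subset.refl _) (fun _ => (1 : ℝ)) (fun p => (K ^ 2) p.1 p.2)
  have b3 := s_cQ hK hB
  have hc : ∑ p ∈ B, ((fun _ => 1 : ι × ι → ℝ) p) ^ 2 = (B.card : ℝ) := by simp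
  rw [hc] at b1 b2
  have b4 : √(∑ p ∈ B, (K ^ 2) p.1 p.2 ^ 2) ≤ √(K ^ 4).trace :=
    Real.sqrt_le_sqrt ((Finset.sum_le_sum_of_subset_of_nonneg hB fun _ _ _ => sq_nonneg _).trans
      (sum_Q_sq_le F hK))
  have b5 := mul_le_mul_of_nonneg_left b4 (Real.sqrt_nonneg (B.card : ℝ))
  nlinarith

lemma fin_scalar {A1 A2 A3 A4 q2 q4 w v β : ℝ} (h3 : A3 + A2 = A4)
    (h4 : |A1 - A2| ≤ (16 * q2 + 8 * v) * w + (2 * q2 + 8 * v) * q4)
    (h2 : |A3| ≤ 2 * β * w + 2 * (β + q2) * q4) :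
    |A1 - A4| ≤ (16 * q2 + 8 * v + 2 * β) * w + (4 * q2 + 8 * v + 2 * β) * q4 := by
  have h5 : |A1 - A4| ≤ |A1 - A2| + |A3| := by
    have : A1 - A4 = (A1 - A2) - A3 := by rw [← h3]; ring
    rw [this]; exact abs_sub _ _
  linarith

/-- **One-step estimate for `X_1 = Tr K`**: the sum of the exact change over any set `S` of good
ordered pairs. -/
theorem one_step {s : ℝ} (hs : s ^ 2 = 1) (hK : K.IsSymm) (hdead : ∀ i j, i ∉ F → K i j = 0)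
    (hrow : K *ᵥ ind F = s • ind F) {S : Finset (ι × ι)} (hS : S ⊆ F ×ˢ F)
    (hg : ∀ p ∈ S, GoodPair K p.1 p.2) :
    |∑ p ∈ S, dT s K p.1 p.2
      - (2 * K.trace * ((K ^ 2).trace - F.card) + 2 * s * F.card + 2 * (K ^ 3).trace)| ≤
      (16 * √(K ^ 2).trace + 8 * Vf K + 2 * √(((F ×ˢ F) \ S).card : ℝ)) * √(Vf K * Wf F K)
        + (4 * √(K ^ 2).trace + 8 * Vf K + 2 * √(((F ×ˢ F) \ S).card : ℝ))
          * √(K ^ 4).trace := by
  have h1 := sum_rem (F := F) hs hK hS hg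
  have h2 := sum_ld_bad (F := F) hs hK (B := (F ×ˢ F) \ S) Finset.sdiff_subset
  have h3 := sum_ld hs hK hdead hrow
  have h3' := Finset.sum_sdiff hS (f := fun p => ld s K p.1 p.2)
  have h4 : |∑ p ∈ S, dT s K p.1 p.2 - ∑ p ∈ S, ld s K p.1 p.2| ≤
      ∑ p ∈ S, |dT s K p.1 p.2 - ld s K p.1 p.2| := by
    rw [← Finset.sum_sub_distrib]
    exact Finset.abs_sum_le_sum_abs _ _
  exact fin_scalar (h3'.trans h3) (h4.trans h1) h2

lemma tilt_scalar {A1 B1 M Q s q2 q4 w v β η n : ℝ}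
    (h1 : |A1 - M| ≤ (16 * q2 + 8 * v + 2 * β) * w + (4 * q2 + 8 * v + 2 * β) * q4)
    (h2 : |B1 - 2 * s * Q| ≤ 8 * n * w + 8 * η * ((q2 + v) * q4)) :
    |A1 - B1 - (M - 2 * s * Q)| ≤ (16 * q2 + 8 * v + 2 * β + 8 * n) * w
      + (4 * q2 + 8 * v + 2 * β + 8 * η * (q2 + v)) * q4 := by
  have h5 : |A1 - B1 - (M - 2 * s * Q)| ≤ |A1 - M| + |B1 - 2 * s * Q| := by
    have : A1 - B1 - (M - 2 * s * Q) = (A1 - M) - (B1 - 2 * s * Q) := by ring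
    rw [this]; exact abs_sub _ _
  linarith

/-- **One-step estimate for `X_1` with tilted weights `1 - Θ`** (`|Θ| ≤ η` on `S`). -/
theorem one_step_tilt {s : ℝ} (hs : s ^ 2 = 1) (hK : K.IsSymm) (hdead : ∀ i j, i ∉ F → K i j = 0)
    (hrow : K *ᵥ ind F = s • ind F) {S : Finset (ι × ι)} (hS : S ⊆ F ×ˢ F)
    (hg : ∀ p ∈ S, GoodPair K p.1 p.2) (Θ : ι × ι → ℝ) {η : ℝ} (hη : ∀ p ∈ S, |Θ p| ≤ η)
    (hη0 : 0 ≤ η) :
    |∑ p ∈ S, (1 - Θ p) * dT s K p.1 p.2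
      - (2 * K.trace * ((K ^ 2).trace - F.card) + 2 * s * F.card + 2 * (K ^ 3).trace
        - 2 * s * ∑ p ∈ S, Θ p * (K ^ 2) p.1 p.2)| ≤
      (16 * √(K ^ 2).trace + 8 * Vf K + 2 * √(((F ×ˢ F) \ S).card : ℝ)
          + 8 * √(∑ p ∈ S, Θ p ^ 2)) * √(Vf K * Wf F K)
        + (4 * √(K ^ 2).trace + 8 * Vf K + 2 * √(((F ×ˢ F) \ S).card : ℝ)
          + 8 * η * (√(K ^ 2).trace + Vf K)) * √(K ^ 4).trace := by
  have h1 := one_step hs hK hdead hrow hS hg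
  have h2 := sum_tilt (F := F) hs hK hS hg Θ hη hη0
  have e : ∑ p ∈ S, (1 - Θ p) * dT s K p.1 p.2
      = ∑ p ∈ S, dT s K p.1 p.2 - ∑ p ∈ S, Θ p * dT s K p.1 p.2 := by
    rw [← Finset.sum_sub_distrib]
    exact Finset.sum_congr rfl fun p _ => by ring
  rw [e]
  exact tilt_scalar h1 h2

/-- second moment with tilted weights -/
theorem sum_dT_sq_tilt {s : ℝ} (hs : s ^ 2 = 1) (hK : K.IsSymm) {S : Finset (ι × ι)}
    (hS : S ⊆ F ×ˢ F) (hg : ∀ p ∈ S, GoodPair K p.1 p.2) (Θ : ι × ι → ℝ) {η : ℝ}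
    (hη : ∀ p ∈ S, |Θ p| ≤ η) (hη0 : 0 ≤ η) :
    ∑ p ∈ S, (1 - Θ p) * dT s K p.1 p.2 ^ 2
      ≤ (1 + η) * (96 * (Vf K * Wf F K) + 192 * (K ^ 4).trace) := by
  calc ∑ p ∈ S, (1 - Θ p) * dT s K p.1 p.2 ^ 2
      ≤ ∑ p ∈ S, (1 + η) * dT s K p.1 p.2 ^ 2 :=
        Finset.sum_le_sum fun p hp => mul_le_mul_of_nonneg_right
          (by linarith [(abs_le.mp (hη p hp)).1]) (sq_nonneg _)
    _ = (1 + η) * ∑ p ∈ S, dT s K p.1 p.2 ^ 2 := by rw [Finset.mul_sum]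
    _ ≤ _ := mul_le_mul_of_nonneg_left (sum_dT_sq hs hK hS hg) (by linarith)

end mean

end Crest.Agent.R62.AvX1
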