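import Crest.Agent.R62.AvBase

/-!
R62 (helper420): averaged one-step inequality for `X_2 = Tr K^2`.

`f2 s K x y = X_2' - X_2 + 2` (exact one step change, killing the stubs `x, y`).
-/

set_option autoImplicit false
set_option linter.unusedSectionVars false
set_option linter.unusedVariables false

open scoped Matrix BigOperators

namespace Crest.Agent.R62.AvX2

open Crest.Agent.R62.AvBase

/-! ### scalar part -/

/-- exact identity behind the expansion of the step formula -/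
lemma scalar_identity {s a b c c2 E S P T D i : ℝ} (hs : s ^ 2 = 1)
    (hD : D = (1 - s * c) ^ 2 - a * b) (hi : D * i = 1) :
    2 * i * (2 * s * (1 - s * c) * E - c2 ^ 2 + S + P) + (2 * s * (1 - s * c) * c2 + T) ^ 2 * i ^ 2
      - (4 * s * E + 4 * c * E + 2 * c2 ^ 2 + 2 * P + 2 * S)
    = 4 * s * i * ((1 - s * c) * c ^ 2 + (1 + s * c) * (a * b)) * E
      + i ^ 2 * (2 * (1 - s * c) ^ 2 * (s * c) * (2 - s * c) + 2 * (a * b)
          + 4 * (1 - s * c) ^ 2 * (a * b) - 2 * (a * b) ^ 2) * c2 ^ 2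
      + 2 * i * (s * c * (2 - s * c) + a * b) * (S + P)
      + 4 * s * (1 - s * c) * i ^ 2 * (c2 * T) + i ^ 2 * T ^ 2 := by
  subst hD
  have h1 : i * ((1 - s * c) ^ 2 - a * b) - 1 = 0 := by linarith
  have h2 : s ^ 2 - 1 = 0 := by linarith
  -- each coefficient separately
  have e1 : 4 * s * i * (1 - s * c) - 4 * s - 4 * c
      = 4 * s * i * ((1 - s * c) * c ^ 2 + (1 + s * c) * (a * b)) := by
    linear_combination (4 * s + 4 * s ^ 2 * c) * h1 + (4 * s * i * (1 - s * c) * c ^ 2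
      + 4 * c) * h2
  have e2 : -2 * i + 4 * s ^ 2 * (1 - s * c) ^ 2 * i ^ 2 - 2
      = i ^ 2 * (2 * (1 - s * c) ^ 2 * (s * c) * (2 - s * c) + 2 * (a * b)
          + 4 * (1 - s * c) ^ 2 * (a * b) - 2 * (a * b) ^ 2) := by
    linear_combination (2 * i + 2 * i * ((1 - s * c) ^ 2 - a * b) + 2) * h1
      + (4 * (1 - s * c) ^ 2 * i ^ 2) * h2
  have e3 : 2 * i - 2 = 2 * i * (s * c * (2 - s * c) + a * b) := by
    linear_combination 2 * h1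
  linear_combination E * e1 + c2 ^ 2 * e2 + (S + P) * e3

/-- bounds of the denominator on good pairs -/
lemma D_bounds {s a b c D i : ℝ} (hs : s ^ 2 = 1) (hc : |c| ≤ 1 / 5) (hab : |a * b| ≤ 1 / 10)
    (hD : D = (1 - s * c) ^ 2 - a * b) (hi : D * i = 1) :
    1 / 2 ≤ D ∧ 0 < i ∧ i ≤ 2 ∧ |s * c| ≤ 1 / 4 := by
  have hsc : |s * c| ≤ 1 / 5 := by
    have : |s| = 1 := by
      have h1 : |s| ^ 2 = 1 := by rw [sq_abs]; exact hs
      have h2 : 0 ≤ |s| := abs_nonneg s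
      nlinarith
    rw [abs_mul, this, one_mul]; exact hc
  have h1 := abs_le.mp hsc
  have h2 := abs_le.mp hab
  have hD' : 1 / 2 ≤ D := by rw [hD]; nlinarith
  have hi0 : 0 < i := by
    by_contra h
    push Not at h
    nlinarith
  have hi2 : i ≤ 2 := by nlinarith
  exact ⟨hD', hi0, hi2, by linarith⟩

set_option maxHeartbeats 1000000 in
lemma scalar_rem {s a b c c2 E S P T D i : ℝ} (hs : s ^ 2 = 1) (hc : |c| ≤ 1 / 5)
    (hab : |a * b| ≤ 1 / 10) (hD : D = (1 - s * c) ^ 2 - a * b) (hi : D * i = 1) :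
    |2 * i * (2 * s * (1 - s * c) * E - c2 ^ 2 + S + P)
        + (2 * s * (1 - s * c) * c2 + T) ^ 2 * i ^ 2
      - (4 * s * E + 4 * c * E + 2 * c2 ^ 2 + 2 * P + 2 * S)|
    ≤ 10 * (c ^ 2 + |a * b|) * |E| + 34 * (|c| + |a * b|) * (c2 ^ 2 + |S| + |P|)
      + 20 * |c2 * T| + 4 * T ^ 2 := by
  obtain ⟨hD', hi0, hi2, hsc⟩ := D_bounds hs hc hab hD hi
  rw [scalar_identity hs hD hi]
  set h := a * b with hh
  have habs : |s| = 1 := by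
    have h1 : |s| ^ 2 = 1 := by rw [sq_abs]; exact hs
    have h2 : 0 ≤ |s| := abs_nonneg s
    nlinarith
  have hscc : |s * c| = |c| := by rw [abs_mul, habs, one_mul]
  obtain ⟨hl, hu⟩ := abs_le.mp hsc
  have hh0 := abs_nonneg h
  have hc0 := abs_nonneg c
  have hi2' : i ^ 2 ≤ 4 := by nlinarith
  have hi2'' : 0 ≤ i ^ 2 := sq_nonneg i
  -- coefficient of E
  have k1 : |4 * s * i * ((1 - s * c) * c ^ 2 + (1 + s * c) * h)| ≤ 10 * (c ^ 2 + |h|) := by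
    have h1 : |(1 - s * c) * c ^ 2 + (1 + s * c) * h| ≤ 5 / 4 * (c ^ 2 + |h|) := by
      refine (abs_add_le _ _).trans ?_
      rw [abs_mul, abs_mul, abs_of_nonneg (sq_nonneg c), abs_of_nonneg (by linarith : 0 ≤ 1 - s * c),
        abs_of_nonneg (by linarith : 0 ≤ 1 + s * c)]
      nlinarith [sq_nonneg c]
    rw [abs_mul, abs_mul, abs_mul, habs, abs_of_pos hi0, abs_of_pos (by norm_num : (0:ℝ) < 4)]
    have h2 : 0 ≤ |(1 - s * c) * c ^ 2 + (1 + s * c) * h| := abs_nonneg _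
    nlinarith
  have k2 : |i ^ 2 * (2 * (1 - s * c) ^ 2 * (s * c) * (2 - s * c) + 2 * h
          + 4 * (1 - s * c) ^ 2 * h - 2 * h ^ 2)| ≤ 34 * (|c| + |h|) := by
    rw [abs_mul, abs_of_nonneg hi2'']
    have hp2 : (1 - s * c) ^ 2 ≤ 25 / 16 := by nlinarith
    have hp0 : 0 ≤ (1 - s * c) ^ 2 := sq_nonneg _
    have h1 : |2 * (1 - s * c) ^ 2 * (s * c) * (2 - s * c)| ≤ 225 / 32 * |c| := by
      rw [abs_mul, abs_mul, hscc, abs_of_nonneg (by linarith : 0 ≤ 2 - s * c),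
        abs_of_nonneg (by positivity : 0 ≤ 2 * (1 - s * c) ^ 2)]
      have : 2 * (1 - s * c) ^ 2 * (2 - s * c) ≤ 225 / 32 := by nlinarith
      nlinarith
    have h2 : |2 * h + 4 * (1 - s * c) ^ 2 * h - 2 * h ^ 2| ≤ 17 / 2 * |h| := by
      have : 2 * h + 4 * (1 - s * c) ^ 2 * h - 2 * h ^ 2
          = h * (2 + 4 * (1 - s * c) ^ 2 - 2 * h) := by ring
      rw [this, abs_mul]
      have h3 : |2 + 4 * (1 - s * c) ^ 2 - 2 * h| ≤ 17 / 2 := by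
        obtain ⟨q1, q2⟩ := abs_le.mp hab
        rw [abs_le]; constructor <;> nlinarith [sq_nonneg (1 - s * c)]
      nlinarith
    have h4 : |2 * (1 - s * c) ^ 2 * (s * c) * (2 - s * c) + 2 * h
          + 4 * (1 - s * c) ^ 2 * h - 2 * h ^ 2| ≤ 225 / 32 * |c| + 17 / 2 * |h| := by
      calc _ = |2 * (1 - s * c) ^ 2 * (s * c) * (2 - s * c) + (2 * h
          + 4 * (1 - s * c) ^ 2 * h - 2 * h ^ 2)| := by ring_nf
        _ ≤ _ := (abs_add_le _ _).trans (add_le_add h1 h2)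
    have h5 : 0 ≤ |2 * (1 - s * c) ^ 2 * (s * c) * (2 - s * c) + 2 * h
          + 4 * (1 - s * c) ^ 2 * h - 2 * h ^ 2| := abs_nonneg _
    nlinarith
  have k3 : |2 * i * (s * c * (2 - s * c) + h)| ≤ 9 * (|c| + |h|) := by
    have h1 : |s * c * (2 - s * c) + h| ≤ 9 / 4 * |c| + |h| := by
      refine (abs_add_le _ _).trans ?_
      rw [abs_mul, hscc, abs_of_nonneg (by linarith : 0 ≤ 2 - s * c)]
      nlinarith
    rw [abs_mul, abs_of_nonneg (by linarith : 0 ≤ 2 * i)]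
    have h2 : 0 ≤ |s * c * (2 - s * c) + h| := abs_nonneg _
    nlinarith
  have k4 : |4 * s * (1 - s * c) * i ^ 2| ≤ 20 := by
    rw [abs_mul, abs_mul, abs_mul, habs, abs_of_nonneg hi2'',
      abs_of_nonneg (by linarith : 0 ≤ 1 - s * c), abs_of_pos (by norm_num : (0:ℝ) < 4)]
    have h9 : (1 - s * c) * i ^ 2 ≤ 5 / 4 * 4 :=
      mul_le_mul (by linarith) hi2' hi2'' (by norm_num)
    linarith
  have t1 : |4 * s * i * ((1 - s * c) * c ^ 2 + (1 + s * c) * h) * E|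
      ≤ 10 * (c ^ 2 + |h|) * |E| := by
    rw [abs_mul]; exact mul_le_mul_of_nonneg_right k1 (abs_nonneg _)
  have t2 : |i ^ 2 * (2 * (1 - s * c) ^ 2 * (s * c) * (2 - s * c) + 2 * h
          + 4 * (1 - s * c) ^ 2 * h - 2 * h ^ 2) * c2 ^ 2| ≤ 34 * (|c| + |h|) * c2 ^ 2 := by
    rw [abs_mul, abs_of_nonneg (sq_nonneg c2)]
    exact mul_le_mul_of_nonneg_right k2 (sq_nonneg _)
  have t3 : |2 * i * (s * c * (2 - s * c) + h) * (S + P)| ≤ 34 * (|c| + |h|) * (|S| + |P|) := by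
    rw [abs_mul]
    refine (mul_le_mul k3 (abs_add_le S P) (abs_nonneg _) (by positivity)).trans ?_
    have : 0 ≤ (|c| + |h|) * (|S| + |P|) := by positivity
    nlinarith
  have t4 : |4 * s * (1 - s * c) * i ^ 2 * (c2 * T)| ≤ 20 * |c2 * T| := by
    rw [abs_mul]; exact mul_le_mul_of_nonneg_right k4 (abs_nonneg _)
  have t5 : |i ^ 2 * T ^ 2| ≤ 4 * T ^ 2 := by
    rw [abs_of_nonneg (by positivity)]
    exact mul_le_mul_of_nonneg_right hi2' (sq_nonneg _)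
  calc _ ≤ |4 * s * i * ((1 - s * c) * c ^ 2 + (1 + s * c) * h) * E|
        + |i ^ 2 * (2 * (1 - s * c) ^ 2 * (s * c) * (2 - s * c) + 2 * h
          + 4 * (1 - s * c) ^ 2 * h - 2 * h ^ 2) * c2 ^ 2|
        + |2 * i * (s * c * (2 - s * c) + h) * (S + P)|
        + |4 * s * (1 - s * c) * i ^ 2 * (c2 * T)| + |i ^ 2 * T ^ 2| := by
          refine (abs_add_le _ _).trans (add_le_add ?_ le_rfl)
          refine (abs_add_le _ _).trans (add_le_add ?_ le_rfl)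
          refine (abs_add_le _ _).trans (add_le_add ?_ le_rfl)
          exact abs_add_le _ _
    _ ≤ 10 * (c ^ 2 + |h|) * |E| + 34 * (|c| + |h|) * c2 ^ 2
        + 34 * (|c| + |h|) * (|S| + |P|) + 20 * |c2 * T| + 4 * T ^ 2 := by linarith
    _ = _ := by ring

/-- absolute bound of the full step function on good pairs -/
lemma scalar_abs {s a b c c2 E S P T D i : ℝ} (hs : s ^ 2 = 1) (hc : |c| ≤ 1 / 5)
    (hab : |a * b| ≤ 1 / 10) (hD : D = (1 - s * c) ^ 2 - a * b) (hi : D * i = 1) :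
    |2 * i * (2 * s * (1 - s * c) * E - c2 ^ 2 + S + P)
        + (2 * s * (1 - s * c) * c2 + T) ^ 2 * i ^ 2|
    ≤ 10 * |E| + 54 * c2 ^ 2 + 4 * |S| + 4 * |P| + 8 * T ^ 2 := by
  obtain ⟨hD', hi0, hi2, hsc⟩ := D_bounds hs hc hab hD hi
  have habs : |s| = 1 := by
    have h1 : |s| ^ 2 = 1 := by rw [sq_abs]; exact hs
    have h2 : 0 ≤ |s| := abs_nonneg s
    nlinarith
  obtain ⟨hl, hu⟩ := abs_le.mp hsc
  have hi2' : i ^ 2 ≤ 4 := by nlinarith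
  have h1 : |2 * s * (1 - s * c) * E - c2 ^ 2 + S + P| ≤ 5 / 2 * |E| + c2 ^ 2 + |S| + |P| := by
    have e1 : |2 * s * (1 - s * c) * E| ≤ 5 / 2 * |E| := by
      rw [abs_mul, abs_mul, abs_mul, habs, abs_of_pos (by norm_num : (0:ℝ) < 2),
        abs_of_nonneg (by linarith : 0 ≤ 1 - s * c)]
      have := abs_nonneg E
      nlinarith
    have e2 : |2 * s * (1 - s * c) * E - c2 ^ 2| ≤ 5 / 2 * |E| + c2 ^ 2 := by
      refine (abs_sub _ _).trans ?_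
      rw [abs_of_nonneg (sq_nonneg c2)]; linarith
    refine (abs_add_le _ _).trans (add_le_add ?_ le_rfl)
    exact (abs_add_le _ _).trans (add_le_add e2 le_rfl)
  have h2 : |2 * i * (2 * s * (1 - s * c) * E - c2 ^ 2 + S + P)|
      ≤ 4 * (5 / 2 * |E| + c2 ^ 2 + |S| + |P|) := by
    rw [abs_mul, abs_of_nonneg (by linarith : 0 ≤ 2 * i)]
    have := abs_nonneg (2 * s * (1 - s * c) * E - c2 ^ 2 + S + P)
    nlinarith
  have h3 : (2 * s * (1 - s * c) * c2 + T) ^ 2 * i ^ 2 ≤ 50 * c2 ^ 2 + 8 * T ^ 2 := by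
    have e1 : (2 * s * (1 - s * c) * c2 + T) ^ 2
        ≤ 2 * (2 * s * (1 - s * c) * c2) ^ 2 + 2 * T ^ 2 := by
      nlinarith [sq_nonneg (2 * s * (1 - s * c) * c2 - T)]
    have e2 : (2 * s * (1 - s * c) * c2) ^ 2 ≤ 25 / 4 * c2 ^ 2 := by
      have : (2 * s * (1 - s * c) * c2) ^ 2 = 4 * s ^ 2 * (1 - s * c) ^ 2 * c2 ^ 2 := by ring
      rw [this, hs]
      have : (1 - s * c) ^ 2 ≤ 25 / 16 := by nlinarith
      nlinarith [sq_nonneg c2]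
    have e3 : 0 ≤ (2 * s * (1 - s * c) * c2 + T) ^ 2 := sq_nonneg _
    nlinarith [sq_nonneg c2, sq_nonneg T]
  refine (abs_add_le _ _).trans ?_
  rw [abs_of_nonneg (by positivity : 0 ≤ (2 * s * (1 - s * c) * c2 + T) ^ 2 * i ^ 2)]
  linarith

/-! ### matrix part -/

variable {ι : Type*} [Fintype ι] [DecidableEq ι]

def E3 (K : Matrix ι ι ℝ) (x y : ι) : ℝ := (K ^ 3) x y - K x y
def S2 (K : Matrix ι ι ℝ) (x y : ι) : ℝ :=
  K x x * ((K ^ 3) y y - K y y) + K y y * ((K ^ 3) x x - K x x)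
def P2 (K : Matrix ι ι ℝ) (x y : ι) : ℝ := ((K ^ 2) x x - 1) * ((K ^ 2) y y - 1)
def T2 (K : Matrix ι ι ℝ) (x y : ι) : ℝ :=
  K x x * ((K ^ 2) y y - 1) + K y y * ((K ^ 2) x x - 1)
/-- the denominator -/
def Dl (s : ℝ) (K : Matrix ι ι ℝ) (x y : ι) : ℝ := (1 - s * K x y) ^ 2 - K x x * K y y

/-- `X_2' - X_2 + 2` -/
noncomputable def f2 (s : ℝ) (K : Matrix ι ι ℝ) (x y : ι) : ℝ :=
  2 * (Dl s K x y)⁻¹ * (2 * s * (1 - s * K x y) * E3 K x y - ((K ^ 2) x y) ^ 2 + S2 K x y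
      + P2 K x y)
    + (2 * s * (1 - s * K x y) * (K ^ 2) x y + T2 K x y) ^ 2 * ((Dl s K x y)⁻¹) ^ 2

/-- leading polynomial part of `f2` -/
def L2 (s : ℝ) (K : Matrix ι ι ℝ) (x y : ι) : ℝ :=
  4 * s * E3 K x y + 4 * K x y * E3 K x y + 2 * ((K ^ 2) x y) ^ 2 + 2 * P2 K x y + 2 * S2 K x y

section mean

variable {K : Matrix ι ι ℝ} {F : Finset ι} {s : ℝ}

lemma dead_pow (hd : ∀ x, x ∉ F → ∀ y, K x y = 0) (j : ℕ) {x : ι} (hx : x ∉ F) (y : ι) :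
    (K ^ (j + 1)) x y = 0 := by
  rw [pow_succ', Matrix.mul_apply]
  exact Finset.sum_eq_zero fun z _ => by rw [hd x hx z, zero_mul]

lemma sumF_eq (g : ι → ι → ℝ) (h : ∀ x, x ∉ F → ∀ y, g x y = 0)
    (h' : ∀ y, y ∉ F → ∀ x, g x y = 0) :
    ∑ x ∈ F, ∑ y ∈ F, g x y = ∑ x, ∑ y, g x y := by
  have e1 : ∀ x, ∑ y ∈ F, g x y = ∑ y, g x y := fun x =>
    Finset.sum_subset (Finset.subset_univ F) fun y _ hy => h' y hy x
  simp_rw [e1]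
  exact Finset.sum_subset (Finset.subset_univ F) fun x _ hx =>
    Finset.sum_eq_zero fun y _ => h x hx y

lemma sumF_one (g : ι → ℝ) (h : ∀ x, x ∉ F → g x = 0) : ∑ x ∈ F, g x = ∑ x, g x :=
  Finset.sum_subset (Finset.subset_univ F) fun x _ hx => h x hx

/-- sum over pairs of a product of powers -/
lemma sumF_pow (hs : Kᵀ = K) (hd : ∀ x, x ∉ F → ∀ y, K x y = 0) (i j : ℕ) :
    ∑ x ∈ F, ∑ y ∈ F, (K ^ (i + 1)) x y * (K ^ (j + 1)) x y = (K ^ (i + 1 + (j + 1))).trace := by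
  rw [sumF_eq, trace_pow_add hs]
  · intro x hx y; rw [dead_pow hd i hx, zero_mul]
  · intro y hy x; rw [pow_apply_comm hs (i + 1) x y, dead_pow hd i hy, zero_mul]

lemma sumF_row (hs : Kᵀ = K) (hd : ∀ x, x ∉ F → ∀ y, K x y = 0)
    (hr : ∀ x ∈ F, ∑ y, K x y = s) (j : ℕ) :
    ∑ x ∈ F, ∑ y ∈ F, (K ^ (j + 1)) x y = s ^ (j + 1) * F.card := by
  set u : ι → ℝ := fun x => if x ∈ F then 1 else 0 with hu
  have hKu : K *ᵥ u = s • u := by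
    ext x
    simp only [Matrix.mulVec, dotProduct, Pi.smul_apply, smul_eq_mul, hu]
    by_cases hx : x ∈ F
    · rw [if_pos hx, mul_one, ← hr x hx]
      refine Finset.sum_congr rfl fun y _ => ?_
      by_cases hy : y ∈ F
      · rw [if_pos hy, mul_one]
      · have h0 : K x y = 0 := by
          have := congrFun (congrFun hs x) y
          rw [Matrix.transpose_apply] at this
          rw [← this]; exact hd y hy x
        rw [if_neg hy, mul_zero, h0]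
    · rw [if_neg hx, mul_zero]
      exact Finset.sum_eq_zero fun y _ => by rw [hd x hx y, zero_mul]
  have h1 := row_pow hKu (j + 1)
  have h2 : ∀ x ∈ F, ∑ y ∈ F, (K ^ (j + 1)) x y = s ^ (j + 1) := by
    intro x hx
    have h3 := congrFun h1 x
    simp only [Matrix.mulVec, dotProduct, Pi.smul_apply, smul_eq_mul, hu] at h3
    rw [if_pos hx, mul_one] at h3
    rw [← h3, sumF_one (F := F)]
    · refine Finset.sum_congr rfl fun y _ => ?_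
      by_cases hy : y ∈ F
      · rw [if_pos hy, mul_one]
      · rw [if_neg hy, mul_zero, pow_apply_comm hs (j + 1) x y, dead_pow hd j hy]
    · intro y hy
      rw [pow_apply_comm hs (j + 1) x y, dead_pow hd j hy]
  rw [Finset.sum_congr rfl h2, Finset.sum_const, nsmul_eq_mul, mul_comm]

lemma sumF_diag (hd : ∀ x, x ∉ F → ∀ y, K x y = 0) (j : ℕ) :
    ∑ x ∈ F, (K ^ (j + 1)) x x = (K ^ (j + 1)).trace := by
  rw [sumF_one]
  · rfl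
  · intro x hx; exact dead_pow hd j hx x

/-- EXACT MEAN of the leading part over all ordered pairs (including `x = y`) -/
theorem mean_L2 (hs : Kᵀ = K) (hd : ∀ x, x ∉ F → ∀ y, K x y = 0)
    (hr : ∀ x ∈ F, ∑ y, K x y = s) (hs1 : s ^ 2 = 1) :
    ∑ x ∈ F, ∑ y ∈ F, L2 s K x y
      = 6 * (K ^ 4).trace - 4 * (K ^ 2).trace + 2 * ((K ^ 2).trace - F.card) ^ 2
        + 4 * K.trace * ((K ^ 3).trace - K.trace) := by
  have h3 := sumF_row hs hd hr 2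
  have h1 := sumF_row hs hd hr 0
  have h13 := sumF_pow hs hd 0 2
  have h11 := sumF_pow hs hd 0 0
  have h22 := sumF_pow hs hd 1 1
  have d1 := sumF_diag hd 0
  have d2 := sumF_diag hd 1
  have d3 := sumF_diag hd 2
  simp only [zero_add, pow_one, Nat.reduceAdd] at h3 h1 h13 h11 h22 d1 d2 d3
  have e1 : ∑ x ∈ F, ∑ y ∈ F, E3 K x y = 0 := by
    simp only [E3, Finset.sum_sub_distrib]
    rw [h3, h1]
    have : s ^ 3 = s := by rw [pow_succ, hs1, one_mul]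
    rw [this]; ring
  have e2 : ∑ x ∈ F, ∑ y ∈ F, K x y * E3 K x y = (K ^ 4).trace - (K ^ 2).trace := by
    simp only [E3, mul_sub, Finset.sum_sub_distrib]
    rw [h13, h11]
  have e3 : ∑ x ∈ F, ∑ y ∈ F, ((K ^ 2) x y) ^ 2 = (K ^ 4).trace := by
    rw [← h22]
    exact Finset.sum_congr rfl fun x _ => Finset.sum_congr rfl fun y _ => by ring
  have e4 : ∑ x ∈ F, ∑ y ∈ F, P2 K x y = ((K ^ 2).trace - F.card) ^ 2 := by
    simp only [P2]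
    rw [← Finset.sum_mul_sum]
    have : ∑ x ∈ F, ((K ^ 2) x x - 1) = (K ^ 2).trace - F.card := by
      rw [Finset.sum_sub_distrib, d2, Finset.sum_const, nsmul_eq_mul, mul_one]
    rw [this]; ring
  have e5 : ∑ x ∈ F, ∑ y ∈ F, S2 K x y = 2 * K.trace * ((K ^ 3).trace - K.trace) := by
    simp only [S2, Finset.sum_add_distrib]
    have k1 : ∑ x ∈ F, ∑ y ∈ F, K x x * ((K ^ 3) y y - K y y)
        = K.trace * ((K ^ 3).trace - K.trace) := by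
      rw [← Finset.sum_mul_sum, Finset.sum_sub_distrib, d1, d3]
    have k2 : ∑ x ∈ F, ∑ y ∈ F, K y y * ((K ^ 3) x x - K x x)
        = K.trace * ((K ^ 3).trace - K.trace) := by
      rw [Finset.sum_comm, k1]
    rw [k1, k2]; ring
  have : ∑ x ∈ F, ∑ y ∈ F, L2 s K x y
      = 4 * s * ∑ x ∈ F, ∑ y ∈ F, E3 K x y + 4 * ∑ x ∈ F, ∑ y ∈ F, K x y * E3 K x y
        + 2 * ∑ x ∈ F, ∑ y ∈ F, ((K ^ 2) x y) ^ 2 + 2 * ∑ x ∈ F, ∑ y ∈ F, P2 K x y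
        + 2 * ∑ x ∈ F, ∑ y ∈ F, S2 K x y := by
    simp only [L2, Finset.mul_sum, ← Finset.sum_add_distrib]
    exact Finset.sum_congr rfl fun x _ => Finset.sum_congr rfl fun y _ => by ring
  rw [this, e1, e2, e3, e4, e5]; ring

end mean

/-! ### sums over good pairs -/

section sums

variable {F : Finset ι}

lemma cs_A {A : Finset (ι × ι)} (hA : A ⊆ F ×ˢ F) (g h : ι → ι → ℝ) {G H : ℝ}
    (hG0 : 0 ≤ G) (hH0 : 0 ≤ H)
    (hG : ∑ x ∈ F, ∑ y ∈ F, (g x y) ^ 2 ≤ G ^ 2) (hH : ∑ x ∈ F, ∑ y ∈ F, (h x y) ^ 2 ≤ H ^ 2) :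
    ∑ p ∈ A, |g p.1 p.2| * |h p.1 p.2| ≤ G * H := by
  have h1 := Finset.sum_mul_sq_le_sq_mul_sq A (fun p => |g p.1 p.2|) (fun p => |h p.1 p.2|)
  simp only [sq_abs] at h1
  have hg : ∑ p ∈ A, (g p.1 p.2) ^ 2 ≤ G ^ 2 := by
    refine le_trans ?_ hG
    rw [← Finset.sum_product']
    exact Finset.sum_le_sum_of_subset_of_nonneg hA fun p _ _ => sq_nonneg _
  have hh : ∑ p ∈ A, (h p.1 p.2) ^ 2 ≤ H ^ 2 := by
    refine le_trans ?_ hH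
    rw [← Finset.sum_product']
    exact Finset.sum_le_sum_of_subset_of_nonneg hA fun p _ _ => sq_nonneg _
  have h2 : (∑ p ∈ A, |g p.1 p.2| * |h p.1 p.2|) ^ 2 ≤ (G * H) ^ 2 := by
    rw [mul_pow]
    exact h1.trans (mul_le_mul hg hh (Finset.sum_nonneg fun p _ => sq_nonneg _) (sq_nonneg G))
  exact (abs_le_of_sq_le_sq' h2 (mul_nonneg hG0 hH0)).2

lemma cs_one {A : Finset (ι × ι)} (hA : A ⊆ F ×ˢ F) (g : ι → ι → ℝ) {G β : ℝ}
    (hG0 : 0 ≤ G) (hβ : 0 ≤ β) (hG : ∑ x ∈ F, ∑ y ∈ F, (g x y) ^ 2 ≤ G ^ 2)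
    (hc : (A.card : ℝ) ≤ β ^ 2) : ∑ p ∈ A, |g p.1 p.2| ≤ β * G := by
  have h1 := Finset.sum_mul_sq_le_sq_mul_sq A (fun _ => (1:ℝ)) (fun p => |g p.1 p.2|)
  simp only [sq_abs, one_mul, one_pow, Finset.sum_const, nsmul_eq_mul, mul_one] at h1
  have hg : ∑ p ∈ A, (g p.1 p.2) ^ 2 ≤ G ^ 2 := by
    refine le_trans ?_ hG
    rw [← Finset.sum_product']
    exact Finset.sum_le_sum_of_subset_of_nonneg hA fun p _ _ => sq_nonneg _
  have h2 : (∑ p ∈ A, |g p.1 p.2|) ^ 2 ≤ (β * G) ^ 2 := by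
    rw [mul_pow]
    exact h1.trans (mul_le_mul hc hg (Finset.sum_nonneg fun p _ => sq_nonneg _) (sq_nonneg β))
  exact (abs_le_of_sq_le_sq' h2 (mul_nonneg hβ hG0)).2

lemma sum_sq_A {A : Finset (ι × ι)} (hA : A ⊆ F ×ˢ F) (g : ι → ι → ℝ) {G : ℝ}
    (hG : ∑ x ∈ F, ∑ y ∈ F, (g x y) ^ 2 ≤ G) : ∑ p ∈ A, (g p.1 p.2) ^ 2 ≤ G := by
  refine le_trans ?_ hG
  rw [← Finset.sum_product']
  exact Finset.sum_le_sum_of_subset_of_nonneg hA fun p _ _ => sq_nonneg _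

end sums

/-- the numerical hypotheses at one state -/
structure Bd (K : Matrix ι ι ℝ) (F : Finset ι) (s N2 N4 N6 v r w : ℝ) : Prop where
  symm : Kᵀ = K
  dead : ∀ x, x ∉ F → ∀ y, K x y = 0
  row : ∀ x ∈ F, ∑ y, K x y = s
  ss : s ^ 2 = 1
  n2 : 0 ≤ N2
  n4 : 0 ≤ N4
  n6 : 0 ≤ N6
  v0 : 0 ≤ v
  r0 : 0 ≤ r
  w0 : 0 ≤ w
  X2 : (K ^ 2).trace ≤ N2 ^ 2
  X4 : (K ^ 4).trace ≤ N4 ^ 2
  X6 : (K ^ 6).trace ≤ N6 ^ 2
  V : ∑ x ∈ F, (K x x) ^ 2 ≤ v ^ 2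
  R : ∑ x ∈ F, ((K ^ 2) x x - 1) ^ 2 ≤ r ^ 2
  W : ∑ x ∈ F, ((K ^ 3) x x - K x x) ^ 2 ≤ w ^ 2

section bounds

variable {K : Matrix ι ι ℝ} {F : Finset ι} {s N2 N4 N6 v r w : ℝ}

lemma Bd.sum_c (h : Bd K F s N2 N4 N6 v r w) : ∑ x ∈ F, ∑ y ∈ F, (K x y) ^ 2 ≤ N2 ^ 2 := by
  have h11 := sumF_pow h.symm h.dead 0 0
  simp only [zero_add, pow_one, Nat.reduceAdd] at h11
  calc _ = ∑ x ∈ F, ∑ y ∈ F, K x y * K x y :=
        Finset.sum_congr rfl fun x _ => Finset.sum_congr rfl fun y _ => by ring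
    _ = _ := h11
    _ ≤ _ := h.X2

lemma Bd.sum_c2 (h : Bd K F s N2 N4 N6 v r w) :
    ∑ x ∈ F, ∑ y ∈ F, ((K ^ 2) x y) ^ 2 ≤ N4 ^ 2 := by
  have h11 := sumF_pow h.symm h.dead 1 1
  simp only [Nat.reduceAdd] at h11
  calc _ = ∑ x ∈ F, ∑ y ∈ F, (K ^ 2) x y * (K ^ 2) x y :=
        Finset.sum_congr rfl fun x _ => Finset.sum_congr rfl fun y _ => by ring
    _ = _ := h11
    _ ≤ _ := h.X4

lemma Bd.sum_c3 (h : Bd K F s N2 N4 N6 v r w) :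
    ∑ x ∈ F, ∑ y ∈ F, ((K ^ 3) x y) ^ 2 ≤ N6 ^ 2 := by
  have h11 := sumF_pow h.symm h.dead 2 2
  simp only [Nat.reduceAdd] at h11
  calc _ = ∑ x ∈ F, ∑ y ∈ F, (K ^ 3) x y * (K ^ 3) x y :=
        Finset.sum_congr rfl fun x _ => Finset.sum_congr rfl fun y _ => by ring
    _ = _ := h11
    _ ≤ _ := h.X6

lemma Bd.sum_E3 (h : Bd K F s N2 N4 N6 v r w) :
    ∑ x ∈ F, ∑ y ∈ F, (E3 K x y) ^ 2 ≤ (2 * (N6 + N2)) ^ 2 := by
  have h1 := h.sum_c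
  have h3 := h.sum_c3
  have h4 : ∑ x ∈ F, ∑ y ∈ F, (E3 K x y) ^ 2
      ≤ 2 * (∑ x ∈ F, ∑ y ∈ F, ((K ^ 3) x y) ^ 2) + 2 * ∑ x ∈ F, ∑ y ∈ F, (K x y) ^ 2 := by
    simp only [Finset.mul_sum, ← Finset.sum_add_distrib]
    refine Finset.sum_le_sum fun x _ => Finset.sum_le_sum fun y _ => ?_
    simp only [E3]
    nlinarith [sq_nonneg ((K ^ 3) x y + K x y)]
  have := h.n2
  have := h.n6
  nlinarith [mul_nonneg h.n2 h.n6]

lemma Bd.sum_ab (h : Bd K F s N2 N4 N6 v r w) :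
    ∑ x ∈ F, ∑ y ∈ F, (K x x * K y y) ^ 2 ≤ (v ^ 2) ^ 2 := by
  have h1 : ∑ x ∈ F, ∑ y ∈ F, (K x x * K y y) ^ 2
      = (∑ x ∈ F, (K x x) ^ 2) * ∑ y ∈ F, (K y y) ^ 2 := by
    rw [Finset.sum_mul_sum]
    exact Finset.sum_congr rfl fun x _ => Finset.sum_congr rfl fun y _ => by ring
  rw [h1, pow_two (v ^ 2)]
  have h0 : 0 ≤ ∑ x ∈ F, (K x x) ^ 2 := Finset.sum_nonneg fun _ _ => sq_nonneg _
  exact mul_le_mul h.V h.V h0 (sq_nonneg v)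

lemma Bd.sum_P (h : Bd K F s N2 N4 N6 v r w) :
    ∑ x ∈ F, ∑ y ∈ F, (P2 K x y) ^ 2 ≤ (r ^ 2) ^ 2 := by
  have h1 : ∑ x ∈ F, ∑ y ∈ F, (P2 K x y) ^ 2
      = (∑ x ∈ F, ((K ^ 2) x x - 1) ^ 2) * ∑ y ∈ F, ((K ^ 2) y y - 1) ^ 2 := by
    rw [Finset.sum_mul_sum]
    exact Finset.sum_congr rfl fun x _ => Finset.sum_congr rfl fun y _ => by
      simp only [P2]; ring
  rw [h1, pow_two (r ^ 2)]
  have h0 : 0 ≤ ∑ x ∈ F, ((K ^ 2) x x - 1) ^ 2 := Finset.sum_nonneg fun _ _ => sq_nonneg _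
  exact mul_le_mul h.R h.R h0 (sq_nonneg r)

lemma sym_sum_le {f g : ι → ℝ} {a b : ℝ} (ha : 0 ≤ a) (hb : 0 ≤ b)
    (hf : ∑ x ∈ F, (f x) ^ 2 ≤ a ^ 2) (hg : ∑ x ∈ F, (g x) ^ 2 ≤ b ^ 2) :
    ∑ x ∈ F, ∑ y ∈ F, (f x * g y + f y * g x) ^ 2 ≤ (2 * a * b) ^ 2 := by
  have h0 : 0 ≤ ∑ x ∈ F, (f x) ^ 2 := Finset.sum_nonneg fun _ _ => sq_nonneg _
  have h0' : 0 ≤ ∑ x ∈ F, (g x) ^ 2 := Finset.sum_nonneg fun _ _ => sq_nonneg _
  have h1 : ∑ x ∈ F, ∑ y ∈ F, (f x * g y + f y * g x) ^ 2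
      ≤ 2 * (∑ x ∈ F, ∑ y ∈ F, (f x) ^ 2 * (g y) ^ 2)
        + 2 * ∑ x ∈ F, ∑ y ∈ F, (g x) ^ 2 * (f y) ^ 2 := by
    simp only [Finset.mul_sum, ← Finset.sum_add_distrib]
    refine Finset.sum_le_sum fun x _ => Finset.sum_le_sum fun y _ => ?_
    nlinarith [sq_nonneg (f x * g y - f y * g x)]
  rw [← Finset.sum_mul_sum, ← Finset.sum_mul_sum] at h1
  have h2 : (∑ x ∈ F, (f x) ^ 2) * ∑ y ∈ F, (g y) ^ 2 ≤ a ^ 2 * b ^ 2 :=
    mul_le_mul hf hg h0' (sq_nonneg a)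
  nlinarith

lemma Bd.sum_S (h : Bd K F s N2 N4 N6 v r w) :
    ∑ x ∈ F, ∑ y ∈ F, (S2 K x y) ^ 2 ≤ (2 * v * w) ^ 2 :=
  sym_sum_le (f := fun x => K x x) (g := fun x => (K ^ 3) x x - K x x) h.v0 h.w0 h.V h.W

lemma Bd.sum_T (h : Bd K F s N2 N4 N6 v r w) :
    ∑ x ∈ F, ∑ y ∈ F, (T2 K x y) ^ 2 ≤ (2 * v * r) ^ 2 :=
  sym_sum_le (f := fun x => K x x) (g := fun x => (K ^ 2) x x - 1) h.v0 h.r0 h.V h.R

/-- bound for the sum of the remainders -/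
noncomputable def Rem (N2 N4 N6 v r w : ℝ) : ℝ :=
  10 * (1 / 4 * (N2 * (2 * (N6 + N2))) + v ^ 2 * (2 * (N6 + N2)))
    + 34 * (5 / 16 * N4 ^ 2 + (N2 + v ^ 2) * (2 * v * w) + (N2 + v ^ 2) * r ^ 2)
    + 20 * (N4 * (2 * v * r)) + 4 * (2 * v * r) ^ 2

lemma f2_rem {s : ℝ} {K : Matrix ι ι ℝ} {x y : ι} (hs : s ^ 2 = 1) (hc : |K x y| ≤ 1 / 5)
    (hab : |K x x * K y y| ≤ 1 / 10) :
    |f2 s K x y - L2 s K x y| ≤ 10 * ((K x y) ^ 2 + |K x x * K y y|) * |E3 K x y|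
      + 34 * (|K x y| + |K x x * K y y|) * (((K ^ 2) x y) ^ 2 + |S2 K x y| + |P2 K x y|)
      + 20 * |(K ^ 2) x y * T2 K x y| + 4 * (T2 K x y) ^ 2 := by
  have hD0 : Dl s K x y ≠ 0 := by
    have h1 : |s * K x y| ≤ 1 / 5 := by
      have : |s| = 1 := by
        have h1 : |s| ^ 2 = 1 := by rw [sq_abs]; exact hs
        have h2 : 0 ≤ |s| := abs_nonneg s
        nlinarith
      rw [abs_mul, this, one_mul]; exact hc
    have h2 := abs_le.mp h1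
    have h3 := abs_le.mp hab
    simp only [Dl]
    have : 0 < (1 - s * K x y) ^ 2 - K x x * K y y := by nlinarith
    exact this.ne'
  exact scalar_rem hs hc hab rfl (mul_inv_cancel₀ hD0)

lemma f2_abs {s : ℝ} {K : Matrix ι ι ℝ} {x y : ι} (hs : s ^ 2 = 1) (hc : |K x y| ≤ 1 / 5)
    (hab : |K x x * K y y| ≤ 1 / 10) :
    |f2 s K x y| ≤ 10 * |E3 K x y| + 54 * ((K ^ 2) x y) ^ 2 + 4 * |S2 K x y| + 4 * |P2 K x y|
      + 8 * (T2 K x y) ^ 2 := by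
  have hD0 : Dl s K x y ≠ 0 := by
    have h1 : |s * K x y| ≤ 1 / 5 := by
      have : |s| = 1 := by
        have h1 : |s| ^ 2 = 1 := by rw [sq_abs]; exact hs
        have h2 : 0 ≤ |s| := abs_nonneg s
        nlinarith
      rw [abs_mul, this, one_mul]; exact hc
    have h2 := abs_le.mp h1
    have h3 := abs_le.mp hab
    simp only [Dl]
    have : 0 < (1 - s * K x y) ^ 2 - K x x * K y y := by nlinarith
    exact this.ne'
  exact scalar_abs hs hc hab rfl (mul_inv_cancel₀ hD0)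

theorem sum_rem (h : Bd K F s N2 N4 N6 v r w) {A : Finset (ι × ι)} (hA : A ⊆ F ×ˢ F)
    (hc : ∀ p ∈ A, |K p.1 p.2| ≤ 1 / 5) (hab : ∀ p ∈ A, |K p.1 p.1 * K p.2 p.2| ≤ 1 / 10) :
    ∑ p ∈ A, |f2 s K p.1 p.2 - L2 s K p.1 p.2| ≤ Rem N2 N4 N6 v r w := by
  have he0 : 0 ≤ 2 * (N6 + N2) := by have := h.n2; have := h.n6; linarith
  have hv2 : 0 ≤ v ^ 2 := sq_nonneg v
  have hr2 : 0 ≤ r ^ 2 := sq_nonneg r
  have hvw : 0 ≤ 2 * v * w := by have := h.v0; have := h.w0; positivity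
  have hvr : 0 ≤ 2 * v * r := by have := h.v0; have := h.r0; positivity
  have b1 := cs_A hA (fun x y => K x y) (fun x y => E3 K x y) h.n2 he0 h.sum_c h.sum_E3
  have b2 := cs_A hA (fun x y => K x x * K y y) (fun x y => E3 K x y) hv2 he0 h.sum_ab h.sum_E3
  have b3 := sum_sq_A hA (fun x y => (K ^ 2) x y) h.sum_c2
  have b4 := cs_A hA (fun x y => K x y) (fun x y => S2 K x y) h.n2 hvw h.sum_c h.sum_S
  have b5 := cs_A hA (fun x y => K x x * K y y) (fun x y => S2 K x y) hv2 hvw h.sum_ab h.sum_S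
  have b6 := cs_A hA (fun x y => K x y) (fun x y => P2 K x y) h.n2 hr2 h.sum_c h.sum_P
  have b7 := cs_A hA (fun x y => K x x * K y y) (fun x y => P2 K x y) hv2 hr2 h.sum_ab h.sum_P
  have b8 := cs_A hA (fun x y => (K ^ 2) x y) (fun x y => T2 K x y) h.n4 hvr h.sum_c2 h.sum_T
  have b9 := sum_sq_A hA (fun x y => T2 K x y) h.sum_T
  have key : ∑ p ∈ A, |f2 s K p.1 p.2 - L2 s K p.1 p.2|
      ≤ ∑ p ∈ A, (10 * (1 / 4 * (|K p.1 p.2| * |E3 K p.1 p.2|)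
            + |K p.1 p.1 * K p.2 p.2| * |E3 K p.1 p.2|)
          + 34 * (5 / 16 * ((K ^ 2) p.1 p.2) ^ 2
            + (|K p.1 p.2| * |S2 K p.1 p.2| + |K p.1 p.1 * K p.2 p.2| * |S2 K p.1 p.2|)
            + (|K p.1 p.2| * |P2 K p.1 p.2| + |K p.1 p.1 * K p.2 p.2| * |P2 K p.1 p.2|))
          + 20 * (|(K ^ 2) p.1 p.2| * |T2 K p.1 p.2|) + 4 * (T2 K p.1 p.2) ^ 2) := by
    refine Finset.sum_le_sum fun p hp => (f2_rem h.ss (hc p hp) (hab p hp)).trans ?_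
    have q1 := hc p hp
    have q2 := hab p hp
    have q3 : (K p.1 p.2) ^ 2 ≤ 1 / 4 * |K p.1 p.2| := by
      rw [← sq_abs]; have := abs_nonneg (K p.1 p.2); nlinarith
    have q4 := abs_nonneg (E3 K p.1 p.2)
    have q5 : (|K p.1 p.2| + |K p.1 p.1 * K p.2 p.2|) * ((K ^ 2) p.1 p.2) ^ 2
        ≤ 5 / 16 * ((K ^ 2) p.1 p.2) ^ 2 :=
      mul_le_mul_of_nonneg_right (by linarith) (sq_nonneg _)
    have q6 : (K p.1 p.2) ^ 2 * |E3 K p.1 p.2| ≤ 1 / 4 * |K p.1 p.2| * |E3 K p.1 p.2| :=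
      mul_le_mul_of_nonneg_right q3 q4
    rw [abs_mul ((K ^ 2) p.1 p.2)]
    nlinarith
  refine key.trans ?_
  simp only [Finset.sum_add_distrib, ← Finset.mul_sum, Rem]
  linarith

/-- bound for the bias of the complement (at most `β²` pairs) -/
def Bias (N2 N4 N6 v r w β : ℝ) : ℝ :=
  4 * (β * (2 * (N6 + N2))) + 4 * (N2 * (2 * (N6 + N2))) + 2 * N4 ^ 2 + 2 * (β * r ^ 2)
    + 2 * (β * (2 * v * w))

theorem sum_bias (h : Bd K F s N2 N4 N6 v r w) {B : Finset (ι × ι)} (hB : B ⊆ F ×ˢ F) {β : ℝ}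
    (hβ : 0 ≤ β) (hc : (B.card : ℝ) ≤ β ^ 2) :
    ∑ p ∈ B, |L2 s K p.1 p.2| ≤ Bias N2 N4 N6 v r w β := by
  have he0 : 0 ≤ 2 * (N6 + N2) := by have := h.n2; have := h.n6; linarith
  have hr2 : 0 ≤ r ^ 2 := sq_nonneg r
  have hvw : 0 ≤ 2 * v * w := by have := h.v0; have := h.w0; positivity
  have b1 := cs_one hB (fun x y => E3 K x y) he0 hβ h.sum_E3 hc
  have b2 := cs_A hB (fun x y => K x y) (fun x y => E3 K x y) h.n2 he0 h.sum_c h.sum_E3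
  have b3 := sum_sq_A hB (fun x y => (K ^ 2) x y) h.sum_c2
  have b4 := cs_one hB (fun x y => P2 K x y) hr2 hβ h.sum_P hc
  have b5 := cs_one hB (fun x y => S2 K x y) hvw hβ h.sum_S hc
  have habs : |s| = 1 := by
    have h1 : |s| ^ 2 = 1 := by rw [sq_abs]; exact h.ss
    have h2 : 0 ≤ |s| := abs_nonneg s
    nlinarith
  have key : ∑ p ∈ B, |L2 s K p.1 p.2|
      ≤ ∑ p ∈ B, (4 * |E3 K p.1 p.2| + 4 * (|K p.1 p.2| * |E3 K p.1 p.2|)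
          + 2 * ((K ^ 2) p.1 p.2) ^ 2 + 2 * |P2 K p.1 p.2| + 2 * |S2 K p.1 p.2|) := by
    refine Finset.sum_le_sum fun p _ => ?_
    simp only [L2]
    refine (abs_add_le _ _).trans (add_le_add ?_ ?_)
    · refine (abs_add_le _ _).trans (add_le_add ?_ ?_)
      · refine (abs_add_le _ _).trans (add_le_add ?_ ?_)
        · refine (abs_add_le _ _).trans (add_le_add ?_ ?_)
          · rw [abs_mul, abs_mul, habs, abs_of_pos (by norm_num : (0:ℝ) < 4), mul_one]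
          · rw [abs_mul, abs_mul, abs_of_pos (by norm_num : (0:ℝ) < 4), mul_assoc]
        · rw [abs_of_nonneg (by positivity)]
      · rw [abs_mul, abs_of_pos (by norm_num : (0:ℝ) < 2)]
    · rw [abs_mul, abs_of_pos (by norm_num : (0:ℝ) < 2)]
  refine key.trans ?_
  simp only [Finset.sum_add_distrib, ← Finset.mul_sum, Bias]
  linarith

/-- MAIN: sum over good pairs of `X_2' - X_2 + 2` -/
theorem sum_f2 (h : Bd K F s N2 N4 N6 v r w) {A : Finset (ι × ι)} (hA : A ⊆ F ×ˢ F)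
    (hc : ∀ p ∈ A, |K p.1 p.2| ≤ 1 / 5) (hab : ∀ p ∈ A, |K p.1 p.1 * K p.2 p.2| ≤ 1 / 10)
    {β : ℝ} (hβ : 0 ≤ β) (hcard : (((F ×ˢ F) \ A).card : ℝ) ≤ β ^ 2) :
    |∑ p ∈ A, f2 s K p.1 p.2 - (6 * (K ^ 4).trace - 4 * (K ^ 2).trace
        + 2 * ((K ^ 2).trace - F.card) ^ 2 + 4 * K.trace * ((K ^ 3).trace - K.trace))|
      ≤ Rem N2 N4 N6 v r w + Bias N2 N4 N6 v r w β := by
  have h1 := sum_rem h hA hc hab
  have h2 := sum_bias h (B := (F ×ˢ F) \ A) Finset.sdiff_subset hβ hcard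
  have h3 := mean_L2 h.symm h.dead h.row h.ss
  rw [← Finset.sum_product'] at h3
  have h4 : ∑ p ∈ F ×ˢ F, L2 s K p.1 p.2
      = ∑ p ∈ (F ×ˢ F) \ A, L2 s K p.1 p.2 + ∑ p ∈ A, L2 s K p.1 p.2 :=
    (Finset.sum_sdiff hA).symm
  have h5 : |∑ p ∈ A, (f2 s K p.1 p.2 - L2 s K p.1 p.2)| ≤ Rem N2 N4 N6 v r w :=
    (Finset.abs_sum_le_sum_abs _ _).trans h1
  have h6 : |∑ p ∈ (F ×ˢ F) \ A, L2 s K p.1 p.2| ≤ Bias N2 N4 N6 v r w β :=
    (Finset.abs_sum_le_sum_abs _ _).trans h2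
  rw [← h3, h4]
  rw [Finset.sum_sub_distrib] at h5
  have h7 : ∑ p ∈ A, f2 s K p.1 p.2 - (∑ p ∈ (F ×ˢ F) \ A, L2 s K p.1 p.2
      + ∑ p ∈ A, L2 s K p.1 p.2)
      = (∑ p ∈ A, f2 s K p.1 p.2 - ∑ p ∈ A, L2 s K p.1 p.2)
        - ∑ p ∈ (F ×ˢ F) \ A, L2 s K p.1 p.2 := by ring
  rw [h7]
  exact (abs_sub _ _).trans (add_le_add h5 h6)

/-- MAIN (tilt): effect of an arbitrary weight `Θ`, `|Θ| ≤ η`, `ΣΘ² ≤ t²` -/
theorem sum_tilt (h : Bd K F s N2 N4 N6 v r w) {A : Finset (ι × ι)} (hA : A ⊆ F ×ˢ F)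
    (hc : ∀ p ∈ A, |K p.1 p.2| ≤ 1 / 5) (hab : ∀ p ∈ A, |K p.1 p.1 * K p.2 p.2| ≤ 1 / 10)
    (Θ : ι → ι → ℝ) {η t : ℝ} (hη : 0 ≤ η) (ht : 0 ≤ t) (hΘ : ∀ p ∈ A, |Θ p.1 p.2| ≤ η)
    (hΘ2 : ∑ p ∈ A, (Θ p.1 p.2) ^ 2 ≤ t ^ 2) :
    |∑ p ∈ A, Θ p.1 p.2 * f2 s K p.1 p.2 - 4 * s * ∑ p ∈ A, Θ p.1 p.2 * E3 K p.1 p.2|
      ≤ η * (4 * (N2 * (2 * (N6 + N2))) + 2 * N4 ^ 2 + Rem N2 N4 N6 v r w)
        + 2 * (t * r ^ 2) + 2 * (t * (2 * v * w)) := by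
  have he0 : 0 ≤ 2 * (N6 + N2) := by have := h.n2; have := h.n6; linarith
  have hr2 : 0 ≤ r ^ 2 := sq_nonneg r
  have hvw : 0 ≤ 2 * v * w := by have := h.v0; have := h.w0; positivity
  have b0 := sum_rem h hA hc hab
  have b2 := cs_A hA (fun x y => K x y) (fun x y => E3 K x y) h.n2 he0 h.sum_c h.sum_E3
  have b3 := sum_sq_A hA (fun x y => (K ^ 2) x y) h.sum_c2
  have csT : ∀ (g : ι → ι → ℝ) (G : ℝ), 0 ≤ G → (∑ x ∈ F, ∑ y ∈ F, (g x y) ^ 2 ≤ G ^ 2) →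
      ∑ p ∈ A, |Θ p.1 p.2| * |g p.1 p.2| ≤ t * G := by
    intro g G hG0 hG
    have h1 := Finset.sum_mul_sq_le_sq_mul_sq A (fun p => |Θ p.1 p.2|) (fun p => |g p.1 p.2|)
    simp only [sq_abs] at h1
    have hg := sum_sq_A hA g hG
    have h2 : (∑ p ∈ A, |Θ p.1 p.2| * |g p.1 p.2|) ^ 2 ≤ (t * G) ^ 2 := by
      rw [mul_pow]
      exact h1.trans (mul_le_mul hΘ2 hg (Finset.sum_nonneg fun p _ => sq_nonneg _) (sq_nonneg t))
    exact (abs_le_of_sq_le_sq' h2 (mul_nonneg ht hG0)).2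
  have b4 := csT (fun x y => P2 K x y) _ hr2 h.sum_P
  have b5 := csT (fun x y => S2 K x y) _ hvw h.sum_S
  have e1 : ∑ p ∈ A, Θ p.1 p.2 * f2 s K p.1 p.2 - 4 * s * ∑ p ∈ A, Θ p.1 p.2 * E3 K p.1 p.2
      = ∑ p ∈ A, Θ p.1 p.2 * (f2 s K p.1 p.2 - 4 * s * E3 K p.1 p.2) := by
    rw [Finset.mul_sum, ← Finset.sum_sub_distrib]
    exact Finset.sum_congr rfl fun p _ => by ring
  rw [e1]
  refine (Finset.abs_sum_le_sum_abs _ _).trans ?_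
  have key : ∑ p ∈ A, |Θ p.1 p.2 * (f2 s K p.1 p.2 - 4 * s * E3 K p.1 p.2)|
      ≤ ∑ p ∈ A, (η * (4 * (|K p.1 p.2| * |E3 K p.1 p.2|) + 2 * ((K ^ 2) p.1 p.2) ^ 2
            + |f2 s K p.1 p.2 - L2 s K p.1 p.2|)
          + 2 * (|Θ p.1 p.2| * |P2 K p.1 p.2|) + 2 * (|Θ p.1 p.2| * |S2 K p.1 p.2|)) := by
    refine Finset.sum_le_sum fun p hp => ?_
    have q1 := hΘ p hp
    have q2 := abs_nonneg (Θ p.1 p.2)
    have e2 : f2 s K p.1 p.2 - 4 * s * E3 K p.1 p.2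
        = (4 * K p.1 p.2 * E3 K p.1 p.2 + 2 * ((K ^ 2) p.1 p.2) ^ 2
            + (f2 s K p.1 p.2 - L2 s K p.1 p.2)) + 2 * P2 K p.1 p.2 + 2 * S2 K p.1 p.2 := by
      simp only [L2]; ring
    have e3 : |4 * K p.1 p.2 * E3 K p.1 p.2 + 2 * ((K ^ 2) p.1 p.2) ^ 2
            + (f2 s K p.1 p.2 - L2 s K p.1 p.2)|
        ≤ 4 * (|K p.1 p.2| * |E3 K p.1 p.2|) + 2 * ((K ^ 2) p.1 p.2) ^ 2
            + |f2 s K p.1 p.2 - L2 s K p.1 p.2| := by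
      refine (abs_add_le _ _).trans (add_le_add ?_ le_rfl)
      refine (abs_add_le _ _).trans (add_le_add ?_ ?_)
      · rw [abs_mul, abs_mul, abs_of_pos (by norm_num : (0:ℝ) < 4), mul_assoc]
      · rw [abs_of_nonneg (by positivity)]
    have e4 : |2 * P2 K p.1 p.2| = 2 * |P2 K p.1 p.2| := by
      rw [abs_mul, abs_of_pos (by norm_num : (0:ℝ) < 2)]
    have e5 : |2 * S2 K p.1 p.2| = 2 * |S2 K p.1 p.2| := by
      rw [abs_mul, abs_of_pos (by norm_num : (0:ℝ) < 2)]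
    rw [abs_mul, e2]
    set Z := 4 * K p.1 p.2 * E3 K p.1 p.2 + 2 * ((K ^ 2) p.1 p.2) ^ 2
            + (f2 s K p.1 p.2 - L2 s K p.1 p.2) with hZ
    have e6 : |Z + 2 * P2 K p.1 p.2 + 2 * S2 K p.1 p.2|
        ≤ |Z| + 2 * |P2 K p.1 p.2| + 2 * |S2 K p.1 p.2| := by
      refine (abs_add_le _ _).trans ?_
      rw [e5]
      refine add_le_add ((abs_add_le _ _).trans ?_) le_rfl
      rw [e4]
    have e7 : |Θ p.1 p.2| * |Z| ≤ η * (4 * (|K p.1 p.2| * |E3 K p.1 p.2|)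
        + 2 * ((K ^ 2) p.1 p.2) ^ 2 + |f2 s K p.1 p.2 - L2 s K p.1 p.2|) :=
      mul_le_mul q1 e3 (abs_nonneg _) hη
    have e8 := mul_le_mul_of_nonneg_left e6 q2
    nlinarith
  refine key.trans ?_
  simp only [Finset.sum_add_distrib, ← Finset.mul_sum]
  have b6 : η * (4 * ∑ p ∈ A, |K p.1 p.2| * |E3 K p.1 p.2| + 2 * ∑ p ∈ A, ((K ^ 2) p.1 p.2) ^ 2
      + ∑ p ∈ A, |f2 s K p.1 p.2 - L2 s K p.1 p.2|)
      ≤ η * (4 * (N2 * (2 * (N6 + N2))) + 2 * N4 ^ 2 + Rem N2 N4 N6 v r w) :=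
    mul_le_mul_of_nonneg_left (by linarith) hη
  linarith

/-- MAIN (second moment) -/
theorem sum_f2_sq (h : Bd K F s N2 N4 N6 v r w) {A : Finset (ι × ι)} (hA : A ⊆ F ×ˢ F)
    (hc : ∀ p ∈ A, |K p.1 p.2| ≤ 1 / 5) (hab : ∀ p ∈ A, |K p.1 p.1 * K p.2 p.2| ≤ 1 / 10)
    {q κ : ℝ} (hκ : 0 ≤ κ) (hT : ∀ p ∈ A, (T2 K p.1 p.2) ^ 2 ≤ κ)
    (hq : ∑ x ∈ F, ((K ^ 2) x x) ^ 2 ≤ q) :
    ∑ p ∈ A, (f2 s K p.1 p.2) ^ 2
      ≤ 500 * (2 * (N6 + N2)) ^ 2 + 14580 * q ^ 2 + 80 * (2 * v * w) ^ 2 + 80 * (r ^ 2) ^ 2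
        + 320 * (κ * (2 * v * r) ^ 2) := by
  have b1 := sum_sq_A hA (fun x y => E3 K x y) h.sum_E3
  have b3 := sum_sq_A hA (fun x y => S2 K x y) h.sum_S
  have b4 := sum_sq_A hA (fun x y => P2 K x y) h.sum_P
  have b5 := sum_sq_A hA (fun x y => T2 K x y) h.sum_T
  have hq0 : 0 ≤ ∑ x ∈ F, ((K ^ 2) x x) ^ 2 := Finset.sum_nonneg fun _ _ => sq_nonneg _
  have b2 : ∑ p ∈ A, (((K ^ 2) p.1 p.2) ^ 2) ^ 2 ≤ q ^ 2 := by
    refine sum_sq_A hA (fun x y => ((K ^ 2) x y) ^ 2) ?_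
    calc ∑ x ∈ F, ∑ y ∈ F, (((K ^ 2) x y) ^ 2) ^ 2
        ≤ ∑ x ∈ F, ∑ y ∈ F, ((K ^ 2) x x) ^ 2 * ((K ^ 2) y y) ^ 2 := by
          refine Finset.sum_le_sum fun x _ => Finset.sum_le_sum fun y _ => ?_
          have h1 := entry_sq_le h.symm 1 1 x y
          simp only [Nat.reduceAdd, mul_one] at h1
          calc (((K ^ 2) x y) ^ 2) ^ 2 ≤ ((K ^ 2) x x * (K ^ 2) y y) ^ 2 :=
                pow_le_pow_left₀ (sq_nonneg _) h1 2
            _ = _ := by ring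
      _ = (∑ x ∈ F, ((K ^ 2) x x) ^ 2) * ∑ y ∈ F, ((K ^ 2) y y) ^ 2 := by
          rw [Finset.sum_mul_sum]
      _ ≤ q * q := mul_le_mul hq hq hq0 (hq0.trans hq)
      _ = q ^ 2 := by ring
  have key : ∑ p ∈ A, (f2 s K p.1 p.2) ^ 2
      ≤ ∑ p ∈ A, (500 * (E3 K p.1 p.2) ^ 2 + 14580 * (((K ^ 2) p.1 p.2) ^ 2) ^ 2
          + 80 * (S2 K p.1 p.2) ^ 2 + 80 * (P2 K p.1 p.2) ^ 2 + 320 * (κ * (T2 K p.1 p.2) ^ 2)) := by
    refine Finset.sum_le_sum fun p hp => ?_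
    have h1 := f2_abs h.ss (hc p hp) (hab p hp)
    have h2 := hT p hp
    have h3 := sq_nonneg (T2 K p.1 p.2)
    set e := E3 K p.1 p.2
    set c := ((K ^ 2) p.1 p.2) ^ 2
    set S := S2 K p.1 p.2
    set P := P2 K p.1 p.2
    set T := (T2 K p.1 p.2) ^ 2
    have h5 : (f2 s K p.1 p.2) ^ 2 ≤ (10 * |e| + 54 * c + 4 * |S| + 4 * |P| + 8 * T) ^ 2 := by
      rw [← sq_abs]
      exact pow_le_pow_left₀ (abs_nonneg _) h1 2
    have h6 : (10 * |e| + 54 * c + 4 * |S| + 4 * |P| + 8 * T) ^ 2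
        ≤ 5 * ((10 * |e|) ^ 2 + (54 * c) ^ 2 + (4 * |S|) ^ 2 + (4 * |P|) ^ 2 + (8 * T) ^ 2) := by
      nlinarith [sq_nonneg (10 * |e| - 54 * c), sq_nonneg (10 * |e| - 4 * |S|),
        sq_nonneg (10 * |e| - 4 * |P|), sq_nonneg (10 * |e| - 8 * T),
        sq_nonneg (54 * c - 4 * |S|), sq_nonneg (54 * c - 4 * |P|), sq_nonneg (54 * c - 8 * T),
        sq_nonneg (4 * |S| - 4 * |P|), sq_nonneg (4 * |S| - 8 * T), sq_nonneg (4 * |P| - 8 * T)]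
    have h7 : T ^ 2 ≤ κ * T := by nlinarith
    have h8 := sq_abs e
    have h9 := sq_abs S
    have h10 := sq_abs P
    nlinarith
  refine key.trans ?_
  simp only [Finset.sum_add_distrib, ← Finset.mul_sum]
  have b6 : κ * ∑ p ∈ A, (T2 K p.1 p.2) ^ 2 ≤ κ * (2 * v * r) ^ 2 :=
    mul_le_mul_of_nonneg_left b5 hκ
  linarith

end bounds

end Crest.Agent.R62.AvX2
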