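import Crest.Agent.R62.X3Upd
import Crest.Agent.R62.AvBase

/-!
R62: averaged one-step inequalities for `X₃ = Tr K³` (helper298).

* `dX3 s K x y` : exact one-step change, `L3 s K x y` : its leading polynomial;
* `dX3_sub_L3` : pointwise remainder on a good pair;
* `sum_L3` : exact sum of the leading part over all ordered pairs of live stubs;
* `mean_X3`, `tilt_X3`, `sq_X3` : the sums over a set of good pairs.
-/

set_option autoImplicit false
set_option linter.unusedSectionVars false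
set_option linter.unusedVariables false

open Matrix Finset

namespace Crest.Agent.R62.AvX3
open Crest.Agent.R62.Upd Crest.Agent.R62.X3Upd

section scalar
variable {s a b c : ℝ}

/-- facts on the coefficients for a good pair -/
lemma coef (hs : s ^ 2 = 1) (hc : |c| ≤ 1 / 4) (hab : |a * b| ≤ 1 / 4) :
    5 / 16 ≤ (1 - s * c) ^ 2 - a * b ∧
    |b / ((1 - s * c) ^ 2 - a * b)| ≤ 4 * |b| ∧
    |a / ((1 - s * c) ^ 2 - a * b)| ≤ 4 * |a| ∧
    |s * (1 - s * c) / ((1 - s * c) ^ 2 - a * b)| ≤ 4 ∧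
    |s * (1 - s * c) / ((1 - s * c) ^ 2 - a * b) - s| ≤ 4 * (|c| + |a| * |b|) ∧
    |s * (1 - s * c) / ((1 - s * c) ^ 2 - a * b) - s - c| ≤ 4 * (|c| + |a| * |b|) ∧
    |b / ((1 - s * c) ^ 2 - a * b) - b| ≤ 8 * |b| * (|c| + |a| * |b|) ∧
    |a / ((1 - s * c) ^ 2 - a * b) - a| ≤ 8 * |a| * (|c| + |a| * |b|) := by
  have hs1 : |s| = 1 := by
    have : |s| ^ 2 = 1 := by rw [sq_abs]; exact hs
    nlinarith [abs_nonneg s]
  have hsc : |s * c| ≤ 1 / 4 := by rw [abs_mul, hs1, one_mul]; exact hc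
  obtain ⟨h1, h2⟩ := abs_le.1 hsc
  obtain ⟨h3, h4⟩ := abs_le.1 hab
  obtain ⟨h5, h6⟩ := abs_le.1 hc
  set D := (1 - s * c) ^ 2 - a * b with hD
  have hD1 : 5 / 16 ≤ D := by rw [hD]; nlinarith
  have hDp : 0 < D := by linarith
  have hD0 : D ≠ 0 := ne_of_gt hDp
  have hc0 := abs_nonneg c
  have ha0 := abs_nonneg a
  have hb0 := abs_nonneg b
  have hab' : |a| * |b| ≤ 1 / 4 := by rw [← abs_mul]; exact hab
  have key : ∀ u U : ℝ, |u| ≤ U → |u / D| ≤ 16 / 5 * U := by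
    intro u U hu
    rw [abs_div, abs_of_pos hDp, div_le_iff₀ hDp]
    have : 0 ≤ U := (abs_nonneg u).trans hu
    nlinarith
  have hp : |1 - s * c| ≤ 5 / 4 := abs_le.2 ⟨by linarith, by linarith⟩
  have hcc : |c| * |c| ≤ |c| / 4 := by nlinarith
  have hcc' : c * c ≤ |c| / 4 := by rw [← abs_mul_abs_self]; exact hcc
  refine ⟨hD1, ?_, ?_, ?_, ?_, ?_, ?_, ?_⟩
  · exact (key b |b| le_rfl).trans (by nlinarith)
  · exact (key a |a| le_rfl).trans (by nlinarith)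
  · refine (key _ (5 / 4) ?_).trans (by norm_num)
    rw [abs_mul, hs1, one_mul]; exact hp
  · have e : s * (1 - s * c) / D - s = ((1 - s * c) * c + s * (a * b)) / D := by
      field_simp
      rw [hD]
      linear_combination (c - s * c ^ 2) * hs
    rw [e]
    refine (key _ (5 / 4 * |c| + |a| * |b|) ?_).trans ?_
    · refine (abs_add_le _ _).trans (add_le_add ?_ ?_)
      · rw [abs_mul]; exact mul_le_mul_of_nonneg_right hp hc0
      · rw [abs_mul, hs1, one_mul, abs_mul]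
    · nlinarith [mul_nonneg ha0 hb0]
  · have e : s * (1 - s * c) / D - s - c = (s * (1 - s * c) * (c * c) + (s + c) * (a * b)) / D := by
      field_simp
      rw [hD]
      linear_combination (c - s * c ^ 2) * hs
    rw [e]
    refine (key _ (5 / 4 * (|c| / 4) + 5 / 4 * (|a| * |b|)) ?_).trans ?_
    · refine (abs_add_le _ _).trans (add_le_add ?_ ?_)
      · rw [abs_mul, abs_mul, hs1, one_mul, abs_mul]
        exact mul_le_mul hp hcc (by positivity) (by norm_num)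
      · rw [abs_mul, abs_mul]
        refine mul_le_mul_of_nonneg_right ?_ (by positivity)
        refine (abs_add_le _ _).trans ?_
        rw [hs1]; linarith
    · nlinarith [mul_nonneg ha0 hb0]
  · have e : b / D - b = b * (2 * (s * c) - s ^ 2 * (c * c) + a * b) / D := by
      field_simp
      rw [hD]; ring
    rw [e]
    refine (key _ (|b| * (9 / 4 * |c| + |a| * |b|)) ?_).trans ?_
    · rw [abs_mul]
      refine mul_le_mul_of_nonneg_left ?_ hb0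
      refine (abs_add_le _ _).trans (add_le_add ?_ (by rw [abs_mul]))
      refine (abs_sub _ _).trans ?_
      rw [abs_mul, abs_mul, hs1, abs_mul, hs, abs_one, abs_mul]
      norm_num
      nlinarith
    · have := mul_nonneg hb0 (mul_nonneg ha0 hb0)
      have := mul_nonneg hb0 hc0
      nlinarith
  · have e : a / D - a = a * (2 * (s * c) - s ^ 2 * (c * c) + a * b) / D := by
      field_simp
      rw [hD]; ring
    rw [e]
    refine (key _ (|a| * (9 / 4 * |c| + |a| * |b|)) ?_).trans ?_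
    · rw [abs_mul]
      refine mul_le_mul_of_nonneg_left ?_ ha0
      refine (abs_add_le _ _).trans (add_le_add ?_ (by rw [abs_mul]))
      refine (abs_sub _ _).trans ?_
      rw [abs_mul, abs_mul, hs1, abs_mul, hs, abs_one, abs_mul]
      norm_num
      nlinarith
    · have := mul_nonneg ha0 (mul_nonneg ha0 hb0)
      have := mul_nonneg ha0 hc0
      nlinarith


/-- remainder of the `t1` part -/
lemma rem1 {B1 B2 B3 s a b c h1 h2 h3 : ℝ}
    (e1 : |B1 - b| ≤ 8 * |b| * (|c| + |a| * |b|)) (e2 : |B2 - s - c| ≤ 4 * (|c| + |a| * |b|))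
    (e3 : |B3 - a| ≤ 8 * |a| * (|c| + |a| * |b|)) :
    |t1 B1 B2 B3 h1 h2 h3 - (2 * s * h2 + b * h1 + 2 * c * h2 + a * h3)|
      ≤ 8 * ((|c| + |a| * |b|) * (|b| * |h1|)) + 8 * ((|c| + |a| * |b|) * (|a| * |h3|))
        + 8 * ((|c| + |a| * |b|) * |h2|) := by
  have e : t1 B1 B2 B3 h1 h2 h3 - (2 * s * h2 + b * h1 + 2 * c * h2 + a * h3)
      = (B1 - b) * h1 + (B3 - a) * h3 + 2 * (B2 - s - c) * h2 := by unfold t1; ring
  rw [e]
  refine (abs_add_le _ _).trans (add_le_add ((abs_add_le _ _).trans (add_le_add ?_ ?_)) ?_)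
  · rw [abs_mul]
    calc _ ≤ 8 * |b| * (|c| + |a| * |b|) * |h1| := mul_le_mul_of_nonneg_right e1 (abs_nonneg _)
      _ = _ := by ring
  · rw [abs_mul]
    calc _ ≤ 8 * |a| * (|c| + |a| * |b|) * |h3| := mul_le_mul_of_nonneg_right e3 (abs_nonneg _)
      _ = _ := by ring
  · rw [abs_mul, abs_mul, abs_two]
    calc _ ≤ 2 * (4 * (|c| + |a| * |b|)) * |h2| :=
          mul_le_mul_of_nonneg_right (mul_le_mul_of_nonneg_left e2 (by norm_num)) (abs_nonneg _)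
      _ = _ := by ring

/-- remainder of the `t2` part -/
lemma rem2 {B1 B2 B3 s a b c w m v g1 g2 g3 : ℝ} (hs : s ^ 2 = 1)
    (hc : |c| ≤ 1 / 4) (hab : |a| * |b| ≤ 1 / 4)
    (e1 : |B1| ≤ 4 * |b|) (e2 : |B2 - s| ≤ 4 * (|c| + |a| * |b|))
    (e3 : |B3| ≤ 4 * |a|) :
    |t2 B1 B2 B3 w m v g1 g2 g3 - (v * g1 + 2 * (m * g2) + w * g3)|
      ≤ 24 * (|b| * (|w| * |g2| + |m| * |g1|)) + 24 * (|a| * (|v| * |g2| + |m| * |g3|))
        + 24 * (|m| * |g2|) + 16 * ((|c| + |a| * |b|) * (|v| * |g1| + |w| * |g3|))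
        + 16 * (|b| ^ 2 * (|w| * |g1|)) + 16 * (|a| ^ 2 * (|v| * |g3|)) := by
  have hs1 : |s| = 1 := by
    have : |s| ^ 2 = 1 := by rw [sq_abs]; exact hs
    nlinarith [abs_nonneg s]
  obtain ⟨e, he⟩ : ∃ e, e = B2 - s := ⟨_, rfl⟩
  have hB2 : B2 = s + e := by rw [he]; ring
  rw [← he] at e2
  have hb0 := abs_nonneg b
  have ha0 := abs_nonneg a
  have hc0 := abs_nonneg c
  have hE2 : |e| ≤ 2 := e2.trans (by linarith)
  have hE0 := abs_nonneg e
  have id : t2 B1 B2 B3 w m v g1 g2 g3 - (v * g1 + 2 * (m * g2) + w * g3)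
      = B1 * (2 * (s + e)) * (w * g2 + m * g1) + B3 * (2 * (s + e)) * (v * g2 + m * g3)
        + (e * (4 * s + 2 * e) + 2 * (B1 * B3)) * (m * g2)
        + e * (2 * s + e) * (v * g1 + w * g3) + B1 ^ 2 * (w * g1) + B3 ^ 2 * (v * g3) := by
    rw [hB2]; unfold t2
    linear_combination (2 * m * g2 + v * g1 + w * g3) * hs
  rw [id]
  have hse : |2 * (s + e)| ≤ 6 := by
    rw [abs_mul, abs_two]
    have := abs_add_le s e
    rw [hs1] at this; linarith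
  have hB1 : |B1 * (2 * (s + e))| ≤ 24 * |b| := by
    rw [abs_mul]
    calc _ ≤ 4 * |b| * 6 := mul_le_mul e1 hse (abs_nonneg _) (by positivity)
      _ = _ := by ring
  have hB3 : |B3 * (2 * (s + e))| ≤ 24 * |a| := by
    rw [abs_mul]
    calc _ ≤ 4 * |a| * 6 := mul_le_mul e3 hse (abs_nonneg _) (by positivity)
      _ = _ := by ring
  have hM : |e * (4 * s + 2 * e) + 2 * (B1 * B3)| ≤ 24 := by
    have h1 : |4 * s + 2 * e| ≤ 8 := by
      refine (abs_add_le _ _).trans ?_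
      rw [abs_mul, abs_mul, hs1, abs_two, abs_of_pos (by norm_num : (0:ℝ) < 4)]; linarith
    have h2 : |B1 * B3| ≤ 4 := by
      rw [abs_mul]
      calc _ ≤ 4 * |b| * (4 * |a|) := mul_le_mul e1 e3 (abs_nonneg _) (by positivity)
        _ = 16 * (|a| * |b|) := by ring
        _ ≤ _ := by linarith
    refine (abs_add_le _ _).trans ?_
    rw [abs_mul, abs_mul, abs_two]
    have : |e| * |4 * s + 2 * e| ≤ 2 * 8 := mul_le_mul hE2 h1 (abs_nonneg _) (by norm_num)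
    linarith
  have hE : |e * (2 * s + e)| ≤ 16 * (|c| + |a| * |b|) := by
    have h1 : |2 * s + e| ≤ 4 := by
      refine (abs_add_le _ _).trans ?_
      rw [abs_mul, hs1, abs_two]; linarith
    rw [abs_mul]
    calc _ ≤ 4 * (|c| + |a| * |b|) * 4 := mul_le_mul e2 h1 (abs_nonneg _) (by positivity)
      _ = _ := by ring
  have hB1s : |B1 ^ 2| ≤ 16 * |b| ^ 2 := by
    rw [abs_pow]
    calc _ ≤ (4 * |b|) ^ 2 := pow_le_pow_left₀ (abs_nonneg _) e1 2
      _ = _ := by ring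
  have hB3s : |B3 ^ 2| ≤ 16 * |a| ^ 2 := by
    rw [abs_pow]
    calc _ ≤ (4 * |a|) ^ 2 := pow_le_pow_left₀ (abs_nonneg _) e3 2
      _ = _ := by ring
  have pr : ∀ p q P Q : ℝ, |p| ≤ P → |q| ≤ Q → |p * q| ≤ P * Q := by
    intro p q P Q hp hq
    rw [abs_mul]; exact mul_le_mul hp hq (abs_nonneg _) ((abs_nonneg _).trans hp)
  have sm : ∀ p q r t : ℝ, |p * q + r * t| ≤ |p| * |q| + |r| * |t| := by
    intro p q r t
    refine (abs_add_le _ _).trans ?_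
    rw [abs_mul, abs_mul]
  refine (abs_add_le _ _).trans (add_le_add ((abs_add_le _ _).trans (add_le_add
    ((abs_add_le _ _).trans (add_le_add ((abs_add_le _ _).trans (add_le_add
    ((abs_add_le _ _).trans (add_le_add ?_ ?_)) ?_)) ?_)) ?_)) ?_)
  · refine (pr _ _ _ _ hB1 (sm _ _ _ _)).trans (le_of_eq (by ring))
  · refine (pr _ _ _ _ hB3 (sm _ _ _ _)).trans (le_of_eq (by ring))
  · refine (pr _ _ _ _ hM (le_of_eq (abs_mul _ _))).trans (le_of_eq (by ring))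
  · refine (pr _ _ _ _ hE (sm _ _ _ _)).trans (le_of_eq (by ring))
  · refine (pr _ _ _ _ hB1s (le_of_eq (abs_mul _ _))).trans (le_of_eq (by ring))
  · refine (pr _ _ _ _ hB3s (le_of_eq (abs_mul _ _))).trans (le_of_eq (by ring))

/-- bound of the cubic part -/
lemma rem3 {B1 B2 B3 a b w m v : ℝ} (hab : |a| * |b| ≤ 1 / 4)
    (e1 : |B1| ≤ 4 * |b|) (e2 : |B2| ≤ 4) (e3 : |B3| ≤ 4 * |a|) :
    |t3 B1 B2 B3 w m v|
      ≤ 1500 * ((|b| * |w|) ^ 3 + (|a| * |v|) ^ 3 + |m| ^ 3) + 200 * (|b| * |w| ^ 2 * |v|)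
        + 200 * (|a| * |v| ^ 2 * |w|) + 400 * (|m| * (|w| * |v|)) := by
  have hb0 := abs_nonneg b
  have ha0 := abs_nonneg a
  have hm0 := abs_nonneg m
  have hw0 := abs_nonneg w
  have hv0 := abs_nonneg v
  have pr : ∀ p q P Q : ℝ, |p| ≤ P → |q| ≤ Q → |p * q| ≤ P * Q := by
    intro p q P Q hp hq
    rw [abs_mul]; exact mul_le_mul hp hq (abs_nonneg _) ((abs_nonneg _).trans hp)
  have m11 : |B1 * w + B2 * m| ≤ 4 * (|b| * |w| + |m|) := by
    refine (abs_add_le _ _).trans ?_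
    have h1 := pr _ _ _ _ e1 (le_refl |w|)
    have h2 := pr _ _ _ _ e2 (le_refl |m|)
    linarith
  have m12 : |B1 * m + B2 * v| ≤ 4 * (|b| * |m| + |v|) := by
    refine (abs_add_le _ _).trans ?_
    have h1 := pr _ _ _ _ e1 (le_refl |m|)
    have h2 := pr _ _ _ _ e2 (le_refl |v|)
    linarith
  have m21 : |B2 * w + B3 * m| ≤ 4 * (|w| + |a| * |m|) := by
    refine (abs_add_le _ _).trans ?_
    have h1 := pr _ _ _ _ e2 (le_refl |w|)
    have h2 := pr _ _ _ _ e3 (le_refl |m|)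
    linarith
  have m22 : |B2 * m + B3 * v| ≤ 4 * (|m| + |a| * |v|) := by
    refine (abs_add_le _ _).trans ?_
    have h1 := pr _ _ _ _ e2 (le_refl |m|)
    have h2 := pr _ _ _ _ e3 (le_refl |v|)
    linarith
  have hoff : |(B1 * m + B2 * v) * (B2 * w + B3 * m)| ≤
      16 * ((|b| * |w|) * |m| + |m| ^ 2 / 4 + |w| * |v| + (|a| * |v|) * |m|) := by
    refine (pr _ _ _ _ m12 m21).trans ?_
    have : |a| * |b| * |m| ^ 2 ≤ 1 / 4 * |m| ^ 2 := mul_le_mul_of_nonneg_right hab (sq_nonneg _)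
    nlinarith
  have id : t3 B1 B2 B3 w m v = (B1 * w + B2 * m) ^ 3 + (B2 * m + B3 * v) ^ 3
      + 3 * ((B1 * w + B2 * m) + (B2 * m + B3 * v))
        * ((B1 * m + B2 * v) * (B2 * w + B3 * m)) := by unfold t3; ring
  rw [id]
  obtain ⟨u, hu⟩ : ∃ u, u = |b| * |w| := ⟨_, rfl⟩
  obtain ⟨z, hz⟩ : ∃ z, z = |a| * |v| := ⟨_, rfl⟩
  obtain ⟨n, hn⟩ : ∃ n, n = |m| := ⟨_, rfl⟩
  obtain ⟨r, hr⟩ : ∃ r, r = |w| * |v| := ⟨_, rfl⟩
  have hu0 : 0 ≤ u := by rw [hu]; positivity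
  have hz0 : 0 ≤ z := by rw [hz]; positivity
  have hn0 : 0 ≤ n := by rw [hn]; positivity
  have hr0 : 0 ≤ r := by rw [hr]; positivity
  have h1 : |(B1 * w + B2 * m) ^ 3| ≤ 64 * (u + n) ^ 3 := by
    rw [abs_pow, hu, hn]
    calc _ ≤ (4 * (|b| * |w| + |m|)) ^ 3 := pow_le_pow_left₀ (abs_nonneg _) m11 3
      _ = _ := by ring
  have h2 : |(B2 * m + B3 * v) ^ 3| ≤ 64 * (n + z) ^ 3 := by
    rw [abs_pow, hz, hn]
    calc _ ≤ (4 * (|m| + |a| * |v|)) ^ 3 := pow_le_pow_left₀ (abs_nonneg _) m22 3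
      _ = _ := by ring
  have h3 : |3 * ((B1 * w + B2 * m) + (B2 * m + B3 * v))
        * ((B1 * m + B2 * v) * (B2 * w + B3 * m))|
      ≤ (12 * (u + 2 * n + z)) * (16 * (u * n + n ^ 2 / 4 + r + z * n)) := by
    refine pr _ _ _ _ ?_ ?_
    · rw [abs_mul, abs_of_pos (by norm_num : (0:ℝ) < 3)]
      have := abs_add_le (B1 * w + B2 * m) (B2 * m + B3 * v)
      rw [hu, hz, hn]; linarith
    · rw [hu, hz, hn, hr]; exact hoff
  have hfin : 64 * (u + n) ^ 3 + 64 * (n + z) ^ 3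
      + (12 * (u + 2 * n + z)) * (16 * (u * n + n ^ 2 / 4 + r + z * n))
      ≤ 1500 * (u ^ 3 + z ^ 3 + n ^ 3) + 200 * (u * r) + 200 * (z * r) + 400 * (n * r) := by
    have am1 : ∀ p q : ℝ, 0 ≤ p → 0 ≤ q → p ^ 2 * q ≤ (2 * p ^ 3 + q ^ 3) / 3 := by
      intro p q hp hq
      nlinarith [mul_nonneg (by linarith : 0 ≤ 2 * p + q) (sq_nonneg (p - q))]
    have k1 := am1 u n hu0 hn0
    have k2 := am1 n u hn0 hu0
    have k3 := am1 z n hz0 hn0
    have k4 := am1 n z hn0 hz0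
    have k5 : u * z * n ≤ (u ^ 3 + z ^ 3 + n ^ 3) / 3 := by
      nlinarith [mul_nonneg (by linarith : 0 ≤ u + z + n) (add_nonneg (add_nonneg
        (sq_nonneg (u - z)) (sq_nonneg (z - n))) (sq_nonneg (u - n)))]
    have p1 := pow_nonneg hu0 3
    have p2 := pow_nonneg hz0 3
    have p3 := pow_nonneg hn0 3
    have q1 := mul_nonneg hu0 hr0
    have q2 := mul_nonneg hz0 hr0
    have q3 := mul_nonneg hn0 hr0
    linarith
  have hge : |b| * |w| ^ 2 * |v| = u * r := by rw [hu, hr]; ring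
  have hge' : |a| * |v| ^ 2 * |w| = z * r := by rw [hz, hr]; ring
  rw [hge, hge', ← hu, ← hz, ← hn, ← hr]
  refine le_trans ((abs_add_le _ _).trans (add_le_add ((abs_add_le _ _).trans
    (add_le_add h1 h2)) h3)) hfin

end scalar
/-! ### sums over pairs -/

variable {ι : Type*} [Fintype ι] [DecidableEq ι]

lemma cs (S : Finset (ι × ι)) (f g : ι → ι → ℝ) {α β : ℝ} (hα : 0 ≤ α) (hβ : 0 ≤ β)
    (hf : ∑ x, ∑ y, f x y ^ 2 ≤ α ^ 2) (hg : ∑ x, ∑ y, g x y ^ 2 ≤ β ^ 2) :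
    ∑ p ∈ S, |f p.1 p.2| * |g p.1 p.2| ≤ α * β := by
  have h := AvBase.sum_pairs_sq_le S (fun x y => |f x y|) (fun x y => |g x y|)
  simp only [sq_abs] at h
  have h0 : 0 ≤ ∑ x, ∑ y, f x y ^ 2 :=
    Finset.sum_nonneg fun x _ => Finset.sum_nonneg fun y _ => sq_nonneg _
  have h1 : (∑ p ∈ S, |f p.1 p.2| * |g p.1 p.2|) ^ 2 ≤ (α * β) ^ 2 := by
    rw [mul_pow]
    exact h.trans (mul_le_mul hf hg
      (Finset.sum_nonneg fun x _ => Finset.sum_nonneg fun y _ => sq_nonneg _) (sq_nonneg _))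
  exact (abs_le_of_sq_le_sq' h1 (mul_nonneg hα hβ)).2

lemma n2 (f g : ι → ℝ) {α β : ℝ} (hf : ∑ x, f x ^ 2 ≤ α ^ 2)
    (hg : ∑ x, g x ^ 2 ≤ β ^ 2) : ∑ x, ∑ y, (f x * g y) ^ 2 ≤ (α * β) ^ 2 := by
  have e : ∑ x, ∑ y, (f x * g y) ^ 2 = (∑ x, f x ^ 2) * ∑ y, g y ^ 2 := by
    rw [Finset.sum_mul_sum]
    exact Finset.sum_congr rfl fun x _ => Finset.sum_congr rfl fun y _ => by ring
  rw [e, mul_pow]
  exact mul_le_mul hf hg (Finset.sum_nonneg fun x _ => sq_nonneg _) (sq_nonneg _)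

lemma entry_le (f : ι → ι → ℝ) {α : ℝ} (hα : 0 ≤ α) (hf : ∑ x, ∑ y, f x y ^ 2 ≤ α ^ 2)
    (x y : ι) : |f x y| ≤ α := by
  refine abs_le_of_sq_le_sq ?_ hα
  refine le_trans ?_ hf
  refine le_trans ?_ (Finset.single_le_sum (f := fun x => ∑ y, f x y ^ 2)
    (fun x _ => Finset.sum_nonneg fun y _ => sq_nonneg _) (Finset.mem_univ x))
  exact Finset.single_le_sum (f := fun y => f x y ^ 2) (fun y _ => sq_nonneg _)
    (Finset.mem_univ y)

lemma sum_sq_le (S : Finset (ι × ι)) (f : ι → ι → ℝ) {α : ℝ}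
    (hf : ∑ x, ∑ y, f x y ^ 2 ≤ α) : ∑ p ∈ S, f p.1 p.2 ^ 2 ≤ α := by
  refine le_trans ?_ hf
  rw [← Finset.sum_product']
  exact Finset.sum_le_sum_of_subset_of_nonneg (by intro p _; simp) fun p _ _ => sq_nonneg _

lemma cube (S : Finset (ι × ι)) (f : ι → ι → ℝ) {α : ℝ} (hα : 0 ≤ α)
    (hf : ∑ x, ∑ y, f x y ^ 2 ≤ α ^ 2) : ∑ p ∈ S, |f p.1 p.2| ^ 3 ≤ α ^ 3 := by
  calc ∑ p ∈ S, |f p.1 p.2| ^ 3 ≤ ∑ p ∈ S, α * f p.1 p.2 ^ 2 := by
        refine Finset.sum_le_sum fun p _ => ?_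
        have h := entry_le f hα hf p.1 p.2
        calc |f p.1 p.2| ^ 3 = |f p.1 p.2| * |f p.1 p.2| ^ 2 := by ring
          _ ≤ α * |f p.1 p.2| ^ 2 := mul_le_mul_of_nonneg_right h (by positivity)
          _ = _ := by rw [sq_abs]
    _ = α * ∑ p ∈ S, f p.1 p.2 ^ 2 := by rw [Finset.mul_sum]
    _ ≤ α * α ^ 2 := mul_le_mul_of_nonneg_left (sum_sq_le S f hf) hα
    _ = _ := by ring

/-! ### the objects -/

/-- one-step change of `X₃` -/
noncomputable def dX3 (s : ℝ) (K : Matrix ι ι ℝ) (x y : ι) : ℝ :=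
  ip (upd s K x y) ((upd s K x y) ^ 2) - ip K (K ^ 2)

/-- `(K³ - K)_xy` -/
def G3 (K : Matrix ι ι ℝ) (x y : ι) : ℝ := (K ^ 3) x y - K x y
/-- `(K⁴ - K²)_xy` -/
def G4 (K : Matrix ι ι ℝ) (x y : ι) : ℝ := (K ^ 4) x y - (K ^ 2) x y
/-- `(K²)_xx - 1` on live stubs -/
def wF (K : Matrix ι ι ℝ) (F : Finset ι) (x : ι) : ℝ := if x ∈ F then (K ^ 2) x x - 1 else 0

/-- leading part of `X₃' - X₃` -/
def L3 (s : ℝ) (K : Matrix ι ι ℝ) (F : Finset ι) (x y : ι) : ℝ :=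
  6 * s * G4 K x y + 6 * (K x y * G4 K x y + (K ^ 2) x y * G3 K x y)
    + 3 * (G4 K x x * K y y + K x x * G4 K y y + G3 K x x * wF K F y + wF K F x * G3 K y y)

/-- good ordered pairs of live stubs -/
def GoodS (K : Matrix ι ι ℝ) (F : Finset ι) (S : Finset (ι × ι)) : Prop :=
  ∀ p ∈ S, p.1 ∈ F ∧ p.2 ∈ F ∧ p.1 ≠ p.2 ∧ |K p.1 p.2| ≤ 1 / 4 ∧ |K p.1 p.1 * K p.2 p.2| ≤ 1 / 4

/-- pointwise remainder -/
def Rem (K : Matrix ι ι ℝ) (F : Finset ι) (x y : ι) : ℝ :=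
  24 * (|K x y| * |G4 K x x * K y y|) + 24 * (|K x x * K y y| * |G4 K x x * K y y|)
  + 24 * (|K x y| * |K x x * G4 K y y|) + 24 * (|K x x * K y y| * |K x x * G4 K y y|)
  + 24 * (|K x y| * |G4 K x y|) + 24 * (|K x x * K y y| * |G4 K x y|)
  + 72 * (|wF K F x * K y y| * |G3 K x y|) + 72 * (|G3 K x x * K y y| * |(K ^ 2) x y|)
  + 72 * (|K x x * wF K F y| * |G3 K x y|) + 72 * (|K x x * G3 K y y| * |(K ^ 2) x y|)
  + 72 * (|(K ^ 2) x y| * |G3 K x y|)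
  + 48 * (|K x y| * |G3 K x x * wF K F y|) + 48 * (|K x x * K y y| * |G3 K x x * wF K F y|)
  + 48 * (|K x y| * |wF K F x * G3 K y y|) + 48 * (|K x x * K y y| * |wF K F x * G3 K y y|)
  + 48 * (|wF K F x * K y y| * |G3 K x x * K y y|)
  + 48 * (|K x x * wF K F y| * |K x x * G3 K y y|)
  + 1500 * |wF K F x * K y y| ^ 3 + 1500 * |K x x * wF K F y| ^ 3
  + 1500 * (|(K ^ 2) x y| * |(K ^ 2) x x * (K ^ 2) y y|)
  + 200 * (|wF K F x * K y y| * |wF K F x * wF K F y|)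
  + 200 * (|K x x * wF K F y| * |wF K F x * wF K F y|)
  + 400 * (|(K ^ 2) x y| * |wF K F x * wF K F y|)

lemma m_cube_le {K : Matrix ι ι ℝ} (hK : K.IsSymm) (x y : ι) :
    |(K ^ 2) x y| ^ 3 ≤ |(K ^ 2) x y| * |(K ^ 2) x x * (K ^ 2) y y| := by
  have h := AvBase.entry_sq_le (K := K) hK 1 1 x y
  simp only [Nat.reduceAdd, mul_one] at h
  have h0 : 0 ≤ (K ^ 2) x x * (K ^ 2) y y :=
    mul_nonneg (AvBase.diag_sq_nonneg hK x) (AvBase.diag_sq_nonneg hK y)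
  rw [abs_of_nonneg h0]
  calc |(K ^ 2) x y| ^ 3 = |(K ^ 2) x y| * |(K ^ 2) x y| ^ 2 := by ring
    _ = |(K ^ 2) x y| * (K ^ 2) x y ^ 2 := by rw [sq_abs]
    _ ≤ _ := mul_le_mul_of_nonneg_left h (abs_nonneg _)

lemma abs3 {u v w U V W : ℝ} (h1 : |u| ≤ U) (h2 : |v| ≤ V) (h3 : |w| ≤ W) :
    |3 * u + 3 * v + w| ≤ 3 * U + 3 * V + W := by
  rw [abs_le] at *
  constructor <;> linarith [h1.1, h1.2, h2.1, h2.2, h3.1, h3.2]

/-- **pointwise remainder** -/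
theorem dX3_sub_L3 {s : ℝ} (hs : s ^ 2 = 1) {K : Matrix ι ι ℝ} (hK : K.IsSymm) {F : Finset ι}
    {x y : ι} (hx : x ∈ F) (hy : y ∈ F) (hxy : x ≠ y) (hc : |K x y| ≤ 1 / 4)
    (hab : |K x x * K y y| ≤ 1 / 4) :
    |dX3 s K x y - L3 s K F x y| ≤ Rem K F x y := by
  obtain ⟨c0, c1, c2, c3, c4, c5, c6, c7⟩ := coef hs hc hab
  have hD : Dl s K x y ≠ 0 := by
    have : 0 < Dl s K x y := by unfold Dl; linarith
    exact ne_of_gt this
  have hm := m_cube_le hK x y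
  have hab' : |K x x| * |K y y| ≤ 1 / 4 := by rw [← abs_mul]; exact hab
  unfold dX3
  rw [X3_upd hs hK hxy hD]
  have hwx : wF K F x = (K ^ 2) x x - 1 := by simp [wF, hx]
  have hwy : wF K F y = (K ^ 2) y y - 1 := by simp [wF, hy]
  have k1 := rem1 (h1 := G4 K x x) (h2 := G4 K x y) (h3 := G4 K y y) c6 c5 c7
  have k2 := rem2 (w := wF K F x) (m := (K ^ 2) x y) (v := wF K F y) (g1 := G3 K x x)
    (g2 := G3 K x y) (g3 := G3 K y y) hs hc hab' c1 c4 c2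
  have k3 := rem3 (w := wF K F x) (m := (K ^ 2) x y) (v := wF K F y) hab' c1 c3 c2
  have e : ip K (K ^ 2)
      + 3 * t1 (Bxx s K x y) (Bxy s K x y) (Byy s K x y) ((K ^ 4) x x - (K ^ 2) x x)
          ((K ^ 4) x y - (K ^ 2) x y) ((K ^ 4) y y - (K ^ 2) y y)
      + 3 * t2 (Bxx s K x y) (Bxy s K x y) (Byy s K x y) ((K ^ 2) x x - 1)
          ((K ^ 2) x y) ((K ^ 2) y y - 1) ((K ^ 3) x x - K x x)
          ((K ^ 3) x y - K x y) ((K ^ 3) y y - K y y)
      + t3 (Bxx s K x y) (Bxy s K x y) (Byy s K x y) ((K ^ 2) x x - 1)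
          ((K ^ 2) x y) ((K ^ 2) y y - 1) - ip K (K ^ 2) - L3 s K F x y
      = 3 * (t1 (K y y / ((1 - s * K x y) ^ 2 - K x x * K y y))
            (s * (1 - s * K x y) / ((1 - s * K x y) ^ 2 - K x x * K y y))
            (K x x / ((1 - s * K x y) ^ 2 - K x x * K y y))
            (G4 K x x) (G4 K x y) (G4 K y y)
            - (2 * s * G4 K x y + K y y * G4 K x x + 2 * K x y * G4 K x y + K x x * G4 K y y))
        + 3 * (t2 (K y y / ((1 - s * K x y) ^ 2 - K x x * K y y))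
            (s * (1 - s * K x y) / ((1 - s * K x y) ^ 2 - K x x * K y y))
            (K x x / ((1 - s * K x y) ^ 2 - K x x * K y y))
            (wF K F x) ((K ^ 2) x y) (wF K F y) (G3 K x x) (G3 K x y) (G3 K y y)
            - (wF K F y * G3 K x x + 2 * ((K ^ 2) x y * G3 K x y) + wF K F x * G3 K y y))
        + t3 (K y y / ((1 - s * K x y) ^ 2 - K x x * K y y))
            (s * (1 - s * K x y) / ((1 - s * K x y) ^ 2 - K x x * K y y))
            (K x x / ((1 - s * K x y) ^ 2 - K x x * K y y))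
            (wF K F x) ((K ^ 2) x y) (wF K F y) := by
    rw [hwx, hwy]
    simp only [L3, hwx, hwy, Bxx, Bxy, Byy, Dl, G3, G4]
    ring
  rw [e]
  refine (abs3 k1 k2 k3).trans ?_
  clear e k1 k2 k3 c0 c1 c2 c3 c4 c5 c6 c7 hD hwx hwy
  unfold Rem
  simp only [abs_mul] at hm ⊢
  generalize |G4 K x x| = H1
  generalize |G4 K x y| = H2
  generalize |G4 K y y| = H3
  generalize |G3 K x x| = E1
  generalize |G3 K x y| = E2
  generalize |G3 K y y| = E3
  generalize |wF K F x| = W1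
  generalize |wF K F y| = W3
  generalize |K x x| = A at *
  generalize |K y y| = B at *
  generalize |K x y| = C at *
  generalize |(K ^ 2) x y| = M at *
  generalize |(K ^ 2) x x| = Q1 at *
  generalize |(K ^ 2) y y| = Q2 at *
  linarith [hm]

/-! ### sums of the remainder -/

/-- bounds used everywhere -/
structure Bds (K : Matrix ι ι ℝ) (F : Finset ι) (v w r x1 x2 t3 t4 d3 d4 : ℝ) : Prop where
  sym : K.IsSymm
  v0 : 0 ≤ v
  w0 : 0 ≤ w
  r0 : 0 ≤ r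
  x10 : 0 ≤ x1
  x20 : 0 ≤ x2
  t30 : 0 ≤ t3
  t40 : 0 ≤ t4
  d30 : 0 ≤ d3
  d40 : 0 ≤ d4
  hV : ∑ x, K x x ^ 2 ≤ v ^ 2
  hW : ∑ x, wF K F x ^ 2 ≤ w ^ 2
  hR : ∑ x, (K ^ 2) x x ^ 2 ≤ r ^ 2
  hX1 : ∑ x, ∑ y, K x y ^ 2 ≤ x1 ^ 2
  hX2 : ∑ x, ∑ y, (K ^ 2) x y ^ 2 ≤ x2 ^ 2
  hT3 : ∑ x, ∑ y, G3 K x y ^ 2 ≤ t3 ^ 2
  hT4 : ∑ x, ∑ y, G4 K x y ^ 2 ≤ t4 ^ 2
  hD3 : ∑ x, G3 K x x ^ 2 ≤ d3 ^ 2
  hD4 : ∑ x, G4 K x x ^ 2 ≤ d4 ^ 2

/-- total remainder -/
def Err (v w r x1 x2 t3 t4 d3 d4 : ℝ) : ℝ :=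
  24 * ((x1 + v ^ 2) * (2 * (v * d4) + t4)) + 144 * (v * (w * t3 + d3 * x2)) + 72 * (x2 * t3)
    + 96 * ((x1 + 2 * v ^ 2) * (w * d3)) + 3000 * (v * w) ^ 3 + 1500 * (x2 * r ^ 2)
    + 400 * (v * w ^ 3) + 400 * (x2 * w ^ 2)

section
variable {K : Matrix ι ι ℝ} {F : Finset ι} {v w r x1 x2 t3 t4 d3 d4 : ℝ}

lemma Err_nonneg (h : Bds K F v w r x1 x2 t3 t4 d3 d4) : 0 ≤ Err v w r x1 x2 t3 t4 d3 d4 := by
  have := h.v0; have := h.w0; have := h.r0; have := h.x10; have := h.x20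
  have := h.t30; have := h.t40; have := h.d30; have := h.d40
  unfold Err; positivity

theorem sum_Rem (h : Bds K F v w r x1 x2 t3 t4 d3 d4) (S : Finset (ι × ι)) :
    ∑ p ∈ S, Rem K F p.1 p.2 ≤ Err v w r x1 x2 t3 t4 d3 d4 := by
  obtain ⟨sym, v0, w0, r0, x10, x20, t30, t40, d30, d40, hV, hW, hR, hX1, hX2, hT3, hT4,
    hD3, hD4⟩ := h
  have n_d4v := n2 (fun x => G4 K x x) (fun y => K y y) hD4 hV
  have n_vd4 := n2 (fun x => K x x) (fun y => G4 K y y) hV hD4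
  have n_vv := n2 (fun x => K x x) (fun y => K y y) hV hV
  have n_wv := n2 (wF K F) (fun y => K y y) hW hV
  have n_vw := n2 (fun x => K x x) (wF K F) hV hW
  have n_d3v := n2 (fun x => G3 K x x) (fun y => K y y) hD3 hV
  have n_vd3 := n2 (fun x => K x x) (fun y => G3 K y y) hV hD3
  have n_d3w := n2 (fun x => G3 K x x) (wF K F) hD3 hW
  have n_wd3 := n2 (wF K F) (fun y => G3 K y y) hW hD3
  have n_rr := n2 (fun x => (K ^ 2) x x) (fun y => (K ^ 2) y y) hR hR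
  have n_ww := n2 (wF K F) (wF K F) hW hW
  have v40 := mul_nonneg d40 v0
  have v41 := mul_nonneg v0 d40
  have vv0 := mul_nonneg v0 v0
  have wv0 := mul_nonneg w0 v0
  have vw0 := mul_nonneg v0 w0
  have v30 := mul_nonneg d30 v0
  have v31 := mul_nonneg v0 d30
  have w30 := mul_nonneg d30 w0
  have w31 := mul_nonneg w0 d30
  have rr0 := mul_nonneg r0 r0
  have ww0 := mul_nonneg w0 w0
  have a1 := cs S (fun x y => K x y) (fun x y => G4 K x x * K y y) x10 v40 hX1 n_d4v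
  have a2 := cs S (fun x y => K x x * K y y) (fun x y => G4 K x x * K y y) vv0 v40 n_vv n_d4v
  have a3 := cs S (fun x y => K x y) (fun x y => K x x * G4 K y y) x10 v41 hX1 n_vd4
  have a4 := cs S (fun x y => K x x * K y y) (fun x y => K x x * G4 K y y) vv0 v41 n_vv n_vd4
  have a5 := cs S (fun x y => K x y) (fun x y => G4 K x y) x10 t40 hX1 hT4
  have a6 := cs S (fun x y => K x x * K y y) (fun x y => G4 K x y) vv0 t40 n_vv hT4
  have a7 := cs S (fun x y => wF K F x * K y y) (fun x y => G3 K x y) wv0 t30 n_wv hT3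
  have a8 := cs S (fun x y => G3 K x x * K y y) (fun x y => (K ^ 2) x y) v30 x20 n_d3v hX2
  have a9 := cs S (fun x y => K x x * wF K F y) (fun x y => G3 K x y) vw0 t30 n_vw hT3
  have a10 := cs S (fun x y => K x x * G3 K y y) (fun x y => (K ^ 2) x y) v31 x20 n_vd3 hX2
  have a11 := cs S (fun x y => (K ^ 2) x y) (fun x y => G3 K x y) x20 t30 hX2 hT3
  have a12 := cs S (fun x y => K x y) (fun x y => G3 K x x * wF K F y) x10 w30 hX1 n_d3w
  have a13 := cs S (fun x y => K x x * K y y) (fun x y => G3 K x x * wF K F y) vv0 w30 n_vv n_d3w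
  have a14 := cs S (fun x y => K x y) (fun x y => wF K F x * G3 K y y) x10 w31 hX1 n_wd3
  have a15 := cs S (fun x y => K x x * K y y) (fun x y => wF K F x * G3 K y y) vv0 w31 n_vv n_wd3
  have a16 := cs S (fun x y => wF K F x * K y y) (fun x y => G3 K x x * K y y) wv0 v30 n_wv n_d3v
  have a17 := cs S (fun x y => K x x * wF K F y) (fun x y => K x x * G3 K y y) vw0 v31 n_vw n_vd3
  have a18 := cube S (fun x y => wF K F x * K y y) wv0 n_wv
  have a19 := cube S (fun x y => K x x * wF K F y) vw0 n_vw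
  have a20 := cs S (fun x y => (K ^ 2) x y) (fun x y => (K ^ 2) x x * (K ^ 2) y y) x20 rr0 hX2 n_rr
  have a21 := cs S (fun x y => wF K F x * K y y) (fun x y => wF K F x * wF K F y) wv0 ww0 n_wv n_ww
  have a22 := cs S (fun x y => K x x * wF K F y) (fun x y => wF K F x * wF K F y) vw0 ww0 n_vw n_ww
  have a23 := cs S (fun x y => (K ^ 2) x y) (fun x y => wF K F x * wF K F y) x20 ww0 hX2 n_ww
  simp only [Rem, Finset.sum_add_distrib, ← Finset.mul_sum]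
  unfold Err
  linarith

end

end Crest.Agent.R62.AvX3
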