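import Crest.Agent.R62.AvX3

/-!
R62: second moment of `X₃' - X₃` over good pairs (helper298).
-/

set_option autoImplicit false
set_option linter.unusedSectionVars false
set_option linter.unusedVariables false

open Matrix Finset

namespace Crest.Agent.R62.AvX3

variable {ι : Type*} [Fintype ι] [DecidableEq ι]

lemma sq18 (u1 u2 u3 u4 u5 u6 u7 u8 u9 u10 u11 u12 u13 u14 u15 u16 u17 u18 : ℝ) :
    (u1 + u2 + u3 + u4 + u5 + u6 + u7 + u8 + u9 + u10 + u11 + u12 + u13 + u14 + u15 + u16 + u17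
      + u18) ^ 2 ≤ 18 * (u1 ^ 2 + u2 ^ 2 + u3 ^ 2 + u4 ^ 2 + u5 ^ 2 + u6 ^ 2 + u7 ^ 2 + u8 ^ 2
      + u9 ^ 2 + u10 ^ 2 + u11 ^ 2 + u12 ^ 2 + u13 ^ 2 + u14 ^ 2 + u15 ^ 2 + u16 ^ 2 + u17 ^ 2
      + u18 ^ 2) := by
  have h := sq_sum_le_card_mul_sum_sq (s := (Finset.univ : Finset (Fin 18)))
    (f := ![u1, u2, u3, u4, u5, u6, u7, u8, u9, u10, u11, u12, u13, u14, u15, u16, u17, u18])
  simp only [Fin.sum_univ_succ, Finset.card_univ, Fintype.card_fin] at h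
  simp at h
  refine le_trans (le_of_eq ?_) (h.trans (le_of_eq ?_))
  · ring
  · ring

section
variable {s : ℝ} {K : Matrix ι ι ℝ} {F : Finset ι} {v w r x1 x2 t3 t4 d3 d4 : ℝ}

lemma sq_mul_le {a b t : ℝ} (ha : |a| ≤ t) : (|a| * |b|) ^ 2 ≤ t ^ 2 * b ^ 2 := by
  rw [mul_pow, sq_abs b]
  exact mul_le_mul_of_nonneg_right (pow_le_pow_left₀ (abs_nonneg _) ha 2) (sq_nonneg _)

lemma cube_sq_le {a t : ℝ} (ha : |a| ≤ t) : (|a| ^ 3) ^ 2 ≤ t ^ 4 * a ^ 2 := by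
  have : (|a| ^ 3) ^ 2 = |a| ^ 4 * a ^ 2 := by rw [← sq_abs a]; ring
  rw [this]
  exact mul_le_mul_of_nonneg_right (pow_le_pow_left₀ (abs_nonneg _) ha 4) (sq_nonneg _)

/-- pointwise square bound -/
theorem dX3_sq (hs : s ^ 2 = 1) (hK : K.IsSymm) {x y : ι} (hx : x ∈ F) (hy : y ∈ F)
    (hxy : x ≠ y) (hc : |K x y| ≤ 1 / 4) (hab : |K x x * K y y| ≤ 1 / 4) {τ σ : ℝ}
    (hτ : |(K ^ 2) x y| ≤ τ) (hσ : |wF K F x * K y y| ≤ σ) (hσ' : |K x x * wF K F y| ≤ σ) :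
    dX3 s K x y ^ 2 ≤ 18 * (400 * G4 K x y ^ 2 + 225 * (G4 K x x * K y y) ^ 2
      + 225 * (K x x * G4 K y y) ^ 2 + 729 * (G3 K x x * wF K F y) ^ 2
      + 729 * (wF K F x * G3 K y y) ^ 2 + 6084 * ((K ^ 2) x y ^ 2 * G3 K x y ^ 2)
      + 5184 * ((wF K F x * K y y) ^ 2 * G3 K x y ^ 2)
      + 5184 * ((K x x * wF K F y) ^ 2 * G3 K x y ^ 2)
      + 5184 * (τ ^ 2 * (G3 K x x * K y y) ^ 2) + 5184 * (τ ^ 2 * (K x x * G3 K y y) ^ 2)
      + 2304 * (σ ^ 2 * (G3 K x x * K y y) ^ 2) + 2304 * (σ ^ 2 * (K x x * G3 K y y) ^ 2)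
      + 2250000 * (σ ^ 4 * (wF K F x * K y y) ^ 2) + 2250000 * (σ ^ 4 * (K x x * wF K F y) ^ 2)
      + 2250000 * (τ ^ 2 * ((K ^ 2) x x * (K ^ 2) y y) ^ 2)
      + 40000 * (σ ^ 2 * (wF K F x * wF K F y) ^ 2)
      + 40000 * (σ ^ 2 * (wF K F x * wF K F y) ^ 2)
      + 160000 * (τ ^ 2 * (wF K F x * wF K F y) ^ 2)) := by
  have h0 := dX3_sub_L3 hs hK hx hy hxy hc hab
  have hs1 : |s| = 1 := by
    have : |s| ^ 2 = 1 := by rw [sq_abs]; exact hs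
    nlinarith [abs_nonneg s]
  have hL : |L3 s K F x y| ≤ 6 * |G4 K x y| + 6 * (|K x y| * |G4 K x y|)
      + 6 * (|(K ^ 2) x y| * |G3 K x y|) + 3 * |G4 K x x * K y y| + 3 * |K x x * G4 K y y|
      + 3 * |G3 K x x * wF K F y| + 3 * |wF K F x * G3 K y y| := by
    unfold L3
    have e : 6 * s * G4 K x y + 6 * (K x y * G4 K x y + (K ^ 2) x y * G3 K x y)
        + 3 * (G4 K x x * K y y + K x x * G4 K y y + G3 K x x * wF K F y + wF K F x * G3 K y y)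
        = 6 * (s * G4 K x y) + 6 * (K x y * G4 K x y) + 6 * ((K ^ 2) x y * G3 K x y)
          + 3 * (G4 K x x * K y y) + 3 * (K x x * G4 K y y) + 3 * (G3 K x x * wF K F y)
          + 3 * (wF K F x * G3 K y y) := by ring
    rw [e]
    have k3 : |(3 : ℝ)| = 3 := abs_of_pos (by norm_num)
    have k6 : |(6 : ℝ)| = 6 := abs_of_pos (by norm_num)
    have p1 : |s * G4 K x y| = |G4 K x y| := by rw [abs_mul, hs1, one_mul]
    refine (abs_add_le _ _).trans (add_le_add ((abs_add_le _ _).trans (add_le_add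
      ((abs_add_le _ _).trans (add_le_add ((abs_add_le _ _).trans (add_le_add
      ((abs_add_le _ _).trans (add_le_add ((abs_add_le _ _).trans (add_le_add ?_ ?_)) ?_)) ?_))
      ?_)) ?_)) ?_)
    · rw [abs_mul, k6, p1]
    · rw [abs_mul, k6, abs_mul]
    · rw [abs_mul, k6, abs_mul]
    all_goals rw [abs_mul, k3]
  have hb : |dX3 s K x y| ≤ 20 * |G4 K x y| + 15 * |G4 K x x * K y y| + 15 * |K x x * G4 K y y|
      + 27 * |G3 K x x * wF K F y| + 27 * |wF K F x * G3 K y y|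
      + 78 * (|(K ^ 2) x y| * |G3 K x y|)
      + 72 * (|wF K F x * K y y| * |G3 K x y|) + 72 * (|K x x * wF K F y| * |G3 K x y|)
      + 72 * (|(K ^ 2) x y| * |G3 K x x * K y y|) + 72 * (|(K ^ 2) x y| * |K x x * G3 K y y|)
      + 48 * (|wF K F x * K y y| * |G3 K x x * K y y|)
      + 48 * (|K x x * wF K F y| * |K x x * G3 K y y|)
      + 1500 * |wF K F x * K y y| ^ 3 + 1500 * |K x x * wF K F y| ^ 3
      + 1500 * (|(K ^ 2) x y| * |(K ^ 2) x x * (K ^ 2) y y|)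
      + 200 * (|wF K F x * K y y| * |wF K F x * wF K F y|)
      + 200 * (|K x x * wF K F y| * |wF K F x * wF K F y|)
      + 400 * (|(K ^ 2) x y| * |wF K F x * wF K F y|) := by
    have q : ∀ a b : ℝ, |a| ≤ 1 / 4 → |a| * |b| ≤ 1 / 4 * |b| := fun a b h =>
      mul_le_mul_of_nonneg_right h (abs_nonneg _)
    have g1 := q _ (G4 K x x * K y y) hc
    have g2 := q _ (G4 K x x * K y y) hab
    have g3 := q _ (K x x * G4 K y y) hc
    have g4 := q _ (K x x * G4 K y y) hab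
    have g5 := q _ (G4 K x y) hc
    have g6 := q _ (G4 K x y) hab
    have g7 := q _ (G3 K x x * wF K F y) hc
    have g8 := q _ (G3 K x x * wF K F y) hab
    have g9 := q _ (wF K F x * G3 K y y) hc
    have g10 := q _ (wF K F x * G3 K y y) hab
    have z1 := abs_nonneg (G4 K x y)
    have z2 := abs_nonneg (G4 K x x * K y y)
    have z3 := abs_nonneg (K x x * G4 K y y)
    have hA : |dX3 s K x y| ≤ |dX3 s K x y - L3 s K F x y| + |L3 s K F x y| := by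
      have := abs_add_le (dX3 s K x y - L3 s K F x y) (L3 s K F x y)
      rwa [sub_add_cancel] at this
    unfold Rem at h0
    linarith
  have h1 : dX3 s K x y ^ 2 = |dX3 s K x y| ^ 2 := (sq_abs _).symm
  rw [h1]
  refine (pow_le_pow_left₀ (abs_nonneg _) hb 2).trans ((sq18 _ _ _ _ _ _ _ _ _ _ _ _ _ _ _ _ _ _
    ).trans (mul_le_mul_of_nonneg_left ?_ (by norm_num)))
  have e1 : ∀ a c : ℝ, (c * |a|) ^ 2 = c ^ 2 * a ^ 2 := fun a c => by rw [mul_pow, sq_abs]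
  have e2 : ∀ a b c t : ℝ, |a| ≤ t → (c * (|a| * |b|)) ^ 2 ≤ c ^ 2 * (t ^ 2 * b ^ 2) := by
    intro a b c t h
    rw [mul_pow]
    exact mul_le_mul_of_nonneg_left (sq_mul_le h) (sq_nonneg _)
  have e3 : ∀ a c t : ℝ, |a| ≤ t → (c * |a| ^ 3) ^ 2 ≤ c ^ 2 * (t ^ 4 * a ^ 2) := by
    intro a c t h
    rw [mul_pow]
    exact mul_le_mul_of_nonneg_left (cube_sq_le h) (sq_nonneg _)
  have f1 := e1 (G4 K x y) 20
  have f2 := e1 (G4 K x x * K y y) 15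
  have f3 := e1 (K x x * G4 K y y) 15
  have f4 := e1 (G3 K x x * wF K F y) 27
  have f5 := e1 (wF K F x * G3 K y y) 27
  have e4 : ∀ a b c : ℝ, (c * (|a| * |b|)) ^ 2 = c ^ 2 * (a ^ 2 * b ^ 2) := by
    intro a b c; rw [mul_pow, mul_pow, sq_abs, sq_abs]
  have f6 := e4 ((K ^ 2) x y) (G3 K x y) 78
  have f7 := e4 (wF K F x * K y y) (G3 K x y) 72
  have f8 := e4 (K x x * wF K F y) (G3 K x y) 72
  have f9 := e2 _ (G3 K x x * K y y) 72 _ hτ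
  have f10 := e2 _ (K x x * G3 K y y) 72 _ hτ
  have f11 := e2 _ (G3 K x x * K y y) 48 _ hσ
  have f12 := e2 _ (K x x * G3 K y y) 48 _ hσ'
  have f13 := e3 _ 1500 _ hσ
  have f14 := e3 _ 1500 _ hσ'
  have f15 := e2 _ ((K ^ 2) x x * (K ^ 2) y y) 1500 _ hτ
  have f16 := e2 _ (wF K F x * wF K F y) 200 _ hσ
  have f17 := e2 _ (wF K F x * wF K F y) 200 _ hσ'
  have f18 := e2 _ (wF K F x * wF K F y) 400 _ hτ
  rw [f1, f2, f3, f4, f5, f6, f7, f8]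
  norm_num at f9 f10 f11 f12 f13 f14 f15 f16 f17 f18 ⊢
  gcongr

/-- `(K³ - K)_xy² ≤ 2 L² Q_xx Q_yy + 1/8` on a good pair -/
lemma G3_sq_le {L : ℝ} (hK : K.IsSymm) (hL : AvBase.OpB K L) {x y : ι} (hc : |K x y| ≤ 1 / 4) :
    G3 K x y ^ 2 ≤ 2 * (L ^ 2 * ((K ^ 2) x x * (K ^ 2) y y)) + 1 / 8 := by
  have h := AvBase.entry_sq_le' (K := K) hK hL 1 x y
  simp only [Nat.reduceAdd, mul_one] at h
  have h2 : K x y ^ 2 ≤ (1 / 4) ^ 2 := by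
    rw [← sq_abs]; exact pow_le_pow_left₀ (abs_nonneg _) hc 2
  unfold G3
  nlinarith [sq_nonneg ((K ^ 3) x y + K x y)]

/-- `max_x Q_xx ≤ r` -/
lemma Q_le (hr : 0 ≤ r) (hR : ∑ x, (K ^ 2) x x ^ 2 ≤ r ^ 2) (x : ι) : (K ^ 2) x x ≤ r := by
  have h : (K ^ 2) x x ^ 2 ≤ r ^ 2 := le_trans (Finset.single_le_sum
    (f := fun x => (K ^ 2) x x ^ 2) (fun x _ => sq_nonneg _) (Finset.mem_univ x)) hR
  exact (abs_le_of_sq_le_sq' h hr).2

/-- bound of the second moment -/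
noncomputable def SqB (L τ σ v w r x2 d3 d4 t4 : ℝ) : ℝ :=
  18 * (400 * t4 ^ 2 + 450 * (v * d4) ^ 2 + 1458 * (w * d3) ^ 2
    + 6084 * (2 * (L ^ 2 * (r * r) ^ 2) + 1 / 8 * x2 ^ 2)
    + 10368 * (2 * (L ^ 2 * ((r * w ^ 2) * (r * v ^ 2))) + 1 / 8 * (v * w) ^ 2)
    + 10368 * (τ ^ 2 * (v * d3) ^ 2) + 4608 * (σ ^ 2 * (v * d3) ^ 2)
    + 4500000 * (σ ^ 4 * (v * w) ^ 2) + 2250000 * (τ ^ 2 * (r * r) ^ 2)
    + 80000 * (σ ^ 2 * (w * w) ^ 2) + 160000 * (τ ^ 2 * (w * w) ^ 2))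

/-- tensor sums of nonnegative functions -/
lemma tens (S : Finset (ι × ι)) (f g : ι → ℝ) {α β : ℝ} (hf : ∀ x, 0 ≤ f x) (hg : ∀ x, 0 ≤ g x)
    (h1 : ∑ x, f x ≤ α) (h2 : ∑ x, g x ≤ β) : ∑ p ∈ S, f p.1 * g p.2 ≤ α * β := by
  calc ∑ p ∈ S, f p.1 * g p.2 ≤ ∑ p : ι × ι, f p.1 * g p.2 :=
        Finset.sum_le_sum_of_subset_of_nonneg (Finset.subset_univ S)
          fun p _ _ => mul_nonneg (hf _) (hg _)
    _ = (∑ x, f x) * ∑ y, g y := by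
        rw [Fintype.sum_prod_type, Finset.sum_mul_sum]
    _ ≤ α * β := mul_le_mul h1 h2 (Finset.sum_nonneg fun x _ => hg x)
        (le_trans (Finset.sum_nonneg fun x _ => hf x) h1)

lemma fQ_le (f : ι → ℝ) {α : ℝ} (hr : 0 ≤ r) (hR : ∑ x, (K ^ 2) x x ^ 2 ≤ r ^ 2)
    (hf : ∑ x, f x ^ 2 ≤ α) : ∑ x, f x ^ 2 * (K ^ 2) x x ≤ r * α := by
  calc ∑ x, f x ^ 2 * (K ^ 2) x x ≤ ∑ x, f x ^ 2 * r :=
        Finset.sum_le_sum fun x _ => mul_le_mul_of_nonneg_left (Q_le hr hR x) (sq_nonneg _)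
    _ = r * ∑ x, f x ^ 2 := by rw [← Finset.sum_mul, mul_comm]
    _ ≤ _ := mul_le_mul_of_nonneg_left hf hr

/-- **second moment over good pairs** -/
theorem sq_X3 (hs1 : s ^ 2 = 1) (h : Bds K F v w r x1 x2 t3 t4 d3 d4) {L : ℝ}
    (hL : AvBase.OpB K L) {S : Finset (ι × ι)}
    (hS : GoodS K F S) {τ σ : ℝ} (hτ : ∀ p ∈ S, |(K ^ 2) p.1 p.2| ≤ τ)
    (hσ : ∀ p ∈ S, |wF K F p.1 * K p.2 p.2| ≤ σ) (hσ' : ∀ p ∈ S, |K p.1 p.1 * wF K F p.2| ≤ σ) :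
    ∑ p ∈ S, dX3 s K p.1 p.2 ^ 2 ≤ SqB L τ σ v w r x2 d3 d4 t4 := by
  obtain ⟨sym, v0, w0, r0, x10, x20, t30, t40, d30, d40, hV, hW, hR, hX1, hX2, hT3, hT4,
    hD3, hD4⟩ := h
  have step : ∑ p ∈ S, dX3 s K p.1 p.2 ^ 2 ≤ ∑ p ∈ S, _ := Finset.sum_le_sum fun p hp => by
    obtain ⟨q1, q2, q3, q4, q5⟩ := hS p hp
    exact dX3_sq hs1 sym q1 q2 q3 q4 q5 (hτ p hp) (hσ p hp) (hσ' p hp)
  refine step.trans ?_
  have a1 := sum_sq_le S (fun x y => G4 K x y) hT4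
  have a2 := sum_sq_le S (fun x y => G4 K x x * K y y)
    (n2 (fun x => G4 K x x) (fun y => K y y) hD4 hV)
  have a3 := sum_sq_le S (fun x y => K x x * G4 K y y)
    (n2 (fun x => K x x) (fun y => G4 K y y) hV hD4)
  have a4 := sum_sq_le S (fun x y => G3 K x x * wF K F y)
    (n2 (fun x => G3 K x x) (wF K F) hD3 hW)
  have a5 := sum_sq_le S (fun x y => wF K F x * G3 K y y)
    (n2 (wF K F) (fun y => G3 K y y) hW hD3)
  have a7 := sum_sq_le S (fun x y => G3 K x x * K y y)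
    (n2 (fun x => G3 K x x) (fun y => K y y) hD3 hV)
  have a8 := sum_sq_le S (fun x y => K x x * G3 K y y)
    (n2 (fun x => K x x) (fun y => G3 K y y) hV hD3)
  have a9 := sum_sq_le S (fun x y => wF K F x * K y y) (n2 (wF K F) (fun y => K y y) hW hV)
  have a10 := sum_sq_le S (fun x y => K x x * wF K F y) (n2 (fun x => K x x) (wF K F) hV hW)
  have a11 := sum_sq_le S (fun x y => (K ^ 2) x x * (K ^ 2) y y)
    (n2 (fun x => (K ^ 2) x x) (fun y => (K ^ 2) y y) hR hR)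
  have a12 := sum_sq_le S (fun x y => wF K F x * wF K F y) (n2 (wF K F) (wF K F) hW hW)
  have a13 := sum_sq_le S (fun x y => (K ^ 2) x y) hX2
  have Q0 : ∀ x, 0 ≤ (K ^ 2) x x := fun x => AvBase.diag_sq_nonneg sym x
  -- products with `G3²`
  have b6 : ∑ p ∈ S, (K ^ 2) p.1 p.2 ^ 2 * G3 K p.1 p.2 ^ 2
      ≤ 2 * (L ^ 2 * (r * r) ^ 2) + 1 / 8 * x2 ^ 2 := by
    calc ∑ p ∈ S, (K ^ 2) p.1 p.2 ^ 2 * G3 K p.1 p.2 ^ 2
        ≤ ∑ p ∈ S, (2 * (L ^ 2 * ((K ^ 2) p.1 p.1 * (K ^ 2) p.2 p.2) ^ 2)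
            + 1 / 8 * (K ^ 2) p.1 p.2 ^ 2) := by
          refine Finset.sum_le_sum fun p hp => ?_
          obtain ⟨q1, q2, q3, q4, q5⟩ := hS p hp
          have h1 := G3_sq_le sym hL q4
          have h2 := AvBase.entry_sq_le (K := K) sym 1 1 p.1 p.2
          simp only [Nat.reduceAdd, mul_one] at h2
          have h3 : 0 ≤ (K ^ 2) p.1 p.1 * (K ^ 2) p.2 p.2 := mul_nonneg (Q0 _) (Q0 _)
          calc (K ^ 2) p.1 p.2 ^ 2 * G3 K p.1 p.2 ^ 2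
              ≤ (K ^ 2) p.1 p.2 ^ 2
                * (2 * (L ^ 2 * ((K ^ 2) p.1 p.1 * (K ^ 2) p.2 p.2)) + 1 / 8) :=
                mul_le_mul_of_nonneg_left h1 (sq_nonneg _)
            _ = 2 * (L ^ 2 * ((K ^ 2) p.1 p.2 ^ 2 * ((K ^ 2) p.1 p.1 * (K ^ 2) p.2 p.2)))
                + 1 / 8 * (K ^ 2) p.1 p.2 ^ 2 := by ring
            _ ≤ 2 * (L ^ 2 * (((K ^ 2) p.1 p.1 * (K ^ 2) p.2 p.2)
                  * ((K ^ 2) p.1 p.1 * (K ^ 2) p.2 p.2)))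
                + 1 / 8 * (K ^ 2) p.1 p.2 ^ 2 := by gcongr
            _ = _ := by ring
      _ = 2 * (L ^ 2 * ∑ p ∈ S, ((K ^ 2) p.1 p.1 * (K ^ 2) p.2 p.2) ^ 2)
            + 1 / 8 * ∑ p ∈ S, (K ^ 2) p.1 p.2 ^ 2 := by
          rw [Finset.sum_add_distrib, Finset.mul_sum, Finset.mul_sum, Finset.mul_sum]
      _ ≤ _ := by gcongr
  have bw : ∀ f g : ι → ℝ, ∑ x, f x ^ 2 ≤ w ^ 2 → ∑ x, g x ^ 2 ≤ v ^ 2 →
      ∑ p ∈ S, (f p.1 * g p.2) ^ 2 * G3 K p.1 p.2 ^ 2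
        ≤ 2 * (L ^ 2 * ((r * w ^ 2) * (r * v ^ 2))) + 1 / 8 * (v * w) ^ 2 := by
    intro f g hf hg
    have c1 := tens S (fun x => f x ^ 2 * (K ^ 2) x x) (fun x => g x ^ 2 * (K ^ 2) x x)
      (fun x => mul_nonneg (sq_nonneg _) (Q0 x)) (fun x => mul_nonneg (sq_nonneg _) (Q0 x))
      (fQ_le f r0 hR hf) (fQ_le g r0 hR hg)
    have c2 := sum_sq_le S (fun x y => f x * g y) (n2 f g hf hg)
    calc ∑ p ∈ S, (f p.1 * g p.2) ^ 2 * G3 K p.1 p.2 ^ 2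
        ≤ ∑ p ∈ S, (2 * (L ^ 2 * ((f p.1 ^ 2 * (K ^ 2) p.1 p.1) * (g p.2 ^ 2 * (K ^ 2) p.2 p.2)))
            + 1 / 8 * (f p.1 * g p.2) ^ 2) := by
          refine Finset.sum_le_sum fun p hp => ?_
          obtain ⟨q1, q2, q3, q4, q5⟩ := hS p hp
          have h1 := G3_sq_le sym hL q4
          calc (f p.1 * g p.2) ^ 2 * G3 K p.1 p.2 ^ 2
              ≤ (f p.1 * g p.2) ^ 2
                * (2 * (L ^ 2 * ((K ^ 2) p.1 p.1 * (K ^ 2) p.2 p.2)) + 1 / 8) :=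
                mul_le_mul_of_nonneg_left h1 (sq_nonneg _)
            _ = _ := by ring
      _ = 2 * (L ^ 2 * ∑ p ∈ S, (f p.1 ^ 2 * (K ^ 2) p.1 p.1) * (g p.2 ^ 2 * (K ^ 2) p.2 p.2))
            + 1 / 8 * ∑ p ∈ S, (f p.1 * g p.2) ^ 2 := by
          rw [Finset.sum_add_distrib, Finset.mul_sum, Finset.mul_sum, Finset.mul_sum]
      _ ≤ 2 * (L ^ 2 * ((r * w ^ 2) * (r * v ^ 2))) + 1 / 8 * (w * v) ^ 2 := by gcongr
      _ = _ := by ring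
  have b7 := bw (wF K F) (fun y => K y y) hW hV
  have b8 : ∑ p ∈ S, (K p.1 p.1 * wF K F p.2) ^ 2 * G3 K p.1 p.2 ^ 2
      ≤ 2 * (L ^ 2 * ((r * w ^ 2) * (r * v ^ 2))) + 1 / 8 * (v * w) ^ 2 := by
    have c1 := tens S (fun x => K x x ^ 2 * (K ^ 2) x x) (fun x => wF K F x ^ 2 * (K ^ 2) x x)
      (fun x => mul_nonneg (sq_nonneg _) (Q0 x)) (fun x => mul_nonneg (sq_nonneg _) (Q0 x))
      (fQ_le (fun x => K x x) r0 hR hV) (fQ_le (wF K F) r0 hR hW)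
    calc ∑ p ∈ S, (K p.1 p.1 * wF K F p.2) ^ 2 * G3 K p.1 p.2 ^ 2
        ≤ ∑ p ∈ S, (2 * (L ^ 2 * ((K p.1 p.1 ^ 2 * (K ^ 2) p.1 p.1)
              * (wF K F p.2 ^ 2 * (K ^ 2) p.2 p.2)))
            + 1 / 8 * (K p.1 p.1 * wF K F p.2) ^ 2) := by
          refine Finset.sum_le_sum fun p hp => ?_
          obtain ⟨q1, q2, q3, q4, q5⟩ := hS p hp
          have h1 := G3_sq_le sym hL q4
          calc (K p.1 p.1 * wF K F p.2) ^ 2 * G3 K p.1 p.2 ^ 2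
              ≤ (K p.1 p.1 * wF K F p.2) ^ 2
                * (2 * (L ^ 2 * ((K ^ 2) p.1 p.1 * (K ^ 2) p.2 p.2)) + 1 / 8) :=
                mul_le_mul_of_nonneg_left h1 (sq_nonneg _)
            _ = _ := by ring
      _ = 2 * (L ^ 2 * ∑ p ∈ S, (K p.1 p.1 ^ 2 * (K ^ 2) p.1 p.1)
              * (wF K F p.2 ^ 2 * (K ^ 2) p.2 p.2))
            + 1 / 8 * ∑ p ∈ S, (K p.1 p.1 * wF K F p.2) ^ 2 := by
          rw [Finset.sum_add_distrib, Finset.mul_sum, Finset.mul_sum, Finset.mul_sum]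
      _ ≤ 2 * (L ^ 2 * ((r * v ^ 2) * (r * w ^ 2))) + 1 / 8 * (v * w) ^ 2 := by gcongr
      _ = _ := by ring
  simp only [← Finset.mul_sum, Finset.sum_add_distrib]
  have m7 := mul_le_mul_of_nonneg_left a7 (sq_nonneg τ)
  have m7' := mul_le_mul_of_nonneg_left a7 (sq_nonneg σ)
  have m8 := mul_le_mul_of_nonneg_left a8 (sq_nonneg τ)
  have m8' := mul_le_mul_of_nonneg_left a8 (sq_nonneg σ)
  have p4 : (0:ℝ) ≤ σ ^ 4 := by positivity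
  have m9 := mul_le_mul_of_nonneg_left a9 p4
  have m10 := mul_le_mul_of_nonneg_left a10 p4
  have m11 := mul_le_mul_of_nonneg_left a11 (sq_nonneg τ)
  have m12 := mul_le_mul_of_nonneg_left a12 (sq_nonneg τ)
  have m12' := mul_le_mul_of_nonneg_left a12 (sq_nonneg σ)
  unfold SqB
  rw [mul_comm d4 v] at a2
  rw [mul_comm d3 w] at a4
  rw [mul_comm d3 v] at m7 m7'
  rw [mul_comm w v] at m9
  refine mul_le_mul_of_nonneg_left ?_ (by norm_num)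
  linarith

/-- automatic values of `τ` and `σ` -/
theorem sq_X3' (hs1 : s ^ 2 = 1) (h : Bds K F v w r x1 x2 t3 t4 d3 d4) {L : ℝ}
    (hL : AvBase.OpB K L) {S : Finset (ι × ι)} (hS : GoodS K F S) :
    ∑ p ∈ S, dX3 s K p.1 p.2 ^ 2 ≤ SqB L (1 + w) (v * w) v w r x2 d3 d4 t4 := by
  have Q0 : ∀ x, 0 ≤ (K ^ 2) x x := fun x => AvBase.diag_sq_nonneg h.sym x
  have Q1 : ∀ x ∈ F, (K ^ 2) x x ≤ 1 + w := by
    intro x hx
    have h1 : wF K F x ^ 2 ≤ w ^ 2 := le_trans (Finset.single_le_sum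
      (f := fun x => wF K F x ^ 2) (fun x _ => sq_nonneg _) (Finset.mem_univ x)) h.hW
    have h2 := (abs_le_of_sq_le_sq' h1 h.w0).2
    have h3 : wF K F x = (K ^ 2) x x - 1 := by simp [wF, hx]
    linarith
  refine sq_X3 hs1 h hL hS ?_ ?_ ?_
  · intro p hp
    obtain ⟨q1, q2, -⟩ := hS p hp
    have h2 := AvBase.entry_sq_le (K := K) h.sym 1 1 p.1 p.2
    simp only [Nat.reduceAdd, mul_one] at h2
    have h0 : 0 ≤ 1 + w := by linarith [h.w0]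
    refine abs_le_of_sq_le_sq (h2.trans ?_) h0
    rw [pow_two (1 + w)]
    exact mul_le_mul (Q1 _ q1) (Q1 _ q2) (Q0 _) h0
  · intro p _
    have := entry_le (fun x y => wF K F x * K y y) (mul_nonneg h.w0 h.v0)
      (n2 (wF K F) (fun y => K y y) h.hW h.hV) p.1 p.2
    rwa [mul_comm w v] at this
  · intro p _
    exact entry_le (fun x y => K x x * wF K F y) (mul_nonneg h.v0 h.w0)
      (n2 (fun x => K x x) (wF K F) h.hV h.hW) p.1 p.2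

end

end Crest.Agent.R62.AvX3
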