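import Crest.Agent.R62.AvX3
import Crest.Agent.R62.AvX2

/-!
R62: averaged one-step inequalities for `X₃ = Tr K³` (helper298), part 2:
exact mean of the leading part, bias of bad pairs, weights (tilt).
-/

set_option autoImplicit false
set_option linter.unusedSectionVars false
set_option linter.unusedVariables false

open Matrix Finset

namespace Crest.Agent.R62.AvX3

open Crest.Agent.R62.AvX2 (sumF_eq sumF_one sumF_pow sumF_row sumF_diag dead_pow)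

variable {ι : Type*} [Fintype ι] [DecidableEq ι]

section mean
variable {s : ℝ} {K : Matrix ι ι ℝ} {F : Finset ι}

/-- EXACT SUM of the leading part over all ordered pairs of live stubs (including `x = y`). -/
theorem sum_L3 (hs : Kᵀ = K) (hd : ∀ x, x ∉ F → ∀ y, K x y = 0)
    (hr : ∀ x ∈ F, ∑ y, K x y = s) (hs1 : s ^ 2 = 1) :
    ∑ p ∈ F ×ˢ F, L3 s K F p.1 p.2
      = 12 * ((K ^ 5).trace - (K ^ 3).trace)
        + 6 * (K.trace * ((K ^ 4).trace - (K ^ 2).trace)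
            + ((K ^ 2).trace - F.card) * ((K ^ 3).trace - K.trace)) := by
  rw [Finset.sum_product]
  have h4 := sumF_row hs hd hr 3
  have h2 := sumF_row hs hd hr 1
  have h14 := sumF_pow hs hd 0 3
  have h12 := sumF_pow hs hd 0 1
  have h23 := sumF_pow hs hd 1 2
  have h21 := sumF_pow hs hd 1 0
  have d1 := sumF_diag hd 0
  have d2 := sumF_diag hd 1
  have d3 := sumF_diag hd 2
  have d4 := sumF_diag hd 3
  simp only [zero_add, pow_one, Nat.reduceAdd] at h4 h2 h14 h12 h23 h21 d1 d2 d3 d4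
  have e1 : ∑ x ∈ F, ∑ y ∈ F, G4 K x y = 0 := by
    simp only [G4, Finset.sum_sub_distrib]
    rw [h4, h2]
    have : s ^ 4 = 1 := by rw [show s ^ 4 = (s ^ 2) ^ 2 by ring, hs1, one_pow]
    rw [this, hs1]; ring
  have e2 : ∑ x ∈ F, ∑ y ∈ F, K x y * G4 K x y = (K ^ 5).trace - (K ^ 3).trace := by
    simp only [G4, mul_sub, Finset.sum_sub_distrib]
    rw [h14, h12]
  have e3 : ∑ x ∈ F, ∑ y ∈ F, (K ^ 2) x y * G3 K x y = (K ^ 5).trace - (K ^ 3).trace := by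
    simp only [G3, mul_sub, Finset.sum_sub_distrib]
    rw [h23, h21]
  have g4 : ∑ x ∈ F, G4 K x x = (K ^ 4).trace - (K ^ 2).trace := by
    simp only [G4, Finset.sum_sub_distrib]; rw [d4, d2]
  have g3 : ∑ x ∈ F, G3 K x x = (K ^ 3).trace - K.trace := by
    simp only [G3, Finset.sum_sub_distrib]; rw [d3, d1]
  have gw : ∑ x ∈ F, wF K F x = (K ^ 2).trace - F.card := by
    have : ∀ x ∈ F, wF K F x = (K ^ 2) x x - 1 := fun x hx => by simp [wF, hx]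
    rw [Finset.sum_congr rfl this, Finset.sum_sub_distrib, d2, Finset.sum_const, nsmul_eq_mul,
      mul_one]
  have e4 : ∑ x ∈ F, ∑ y ∈ F, G4 K x x * K y y = ((K ^ 4).trace - (K ^ 2).trace) * K.trace := by
    rw [← Finset.sum_mul_sum, g4, d1]
  have e5 : ∑ x ∈ F, ∑ y ∈ F, K x x * G4 K y y = K.trace * ((K ^ 4).trace - (K ^ 2).trace) := by
    rw [← Finset.sum_mul_sum, g4, d1]
  have e6 : ∑ x ∈ F, ∑ y ∈ F, G3 K x x * wF K F y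
      = ((K ^ 3).trace - K.trace) * ((K ^ 2).trace - F.card) := by
    rw [← Finset.sum_mul_sum, g3, gw]
  have e7 : ∑ x ∈ F, ∑ y ∈ F, wF K F x * G3 K y y
      = ((K ^ 2).trace - F.card) * ((K ^ 3).trace - K.trace) := by
    rw [← Finset.sum_mul_sum, g3, gw]
  have : ∑ x ∈ F, ∑ y ∈ F, L3 s K F x y
      = 6 * s * ∑ x ∈ F, ∑ y ∈ F, G4 K x y + 6 * ∑ x ∈ F, ∑ y ∈ F, K x y * G4 K x y
        + 6 * ∑ x ∈ F, ∑ y ∈ F, (K ^ 2) x y * G3 K x y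
        + 3 * ∑ x ∈ F, ∑ y ∈ F, G4 K x x * K y y + 3 * ∑ x ∈ F, ∑ y ∈ F, K x x * G4 K y y
        + 3 * ∑ x ∈ F, ∑ y ∈ F, G3 K x x * wF K F y
        + 3 * ∑ x ∈ F, ∑ y ∈ F, wF K F x * G3 K y y := by
    simp only [L3, Finset.mul_sum, ← Finset.sum_add_distrib]
    exact Finset.sum_congr rfl fun x _ => Finset.sum_congr rfl fun y _ => by ring
  rw [this, e1, e2, e3, e4, e5, e6, e7]; ring

end mean

section weights
variable {s : ℝ} {K : Matrix ι ι ℝ} {F : Finset ι} {v w r x1 x2 t3 t4 d3 d4 : ℝ}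

/-- Cauchy–Schwarz for a weight against a matrix. -/
lemma cs_w (S : Finset (ι × ι)) (Θ g : ι → ι → ℝ) {θ β : ℝ} (hθ : 0 ≤ θ) (hβ : 0 ≤ β)
    (hΘ : ∑ p ∈ S, Θ p.1 p.2 ^ 2 ≤ θ ^ 2) (hg : ∑ x, ∑ y, g x y ^ 2 ≤ β ^ 2) :
    |∑ p ∈ S, Θ p.1 p.2 * g p.1 p.2| ≤ θ * β := by
  have h := Finset.sum_mul_sq_le_sq_mul_sq S (fun p => Θ p.1 p.2) (fun p => g p.1 p.2)
  have hg' := sum_sq_le S g hg
  have h1 : (∑ p ∈ S, Θ p.1 p.2 * g p.1 p.2) ^ 2 ≤ (θ * β) ^ 2 := by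
    rw [mul_pow]
    exact h.trans (mul_le_mul hΘ hg' (Finset.sum_nonneg fun p _ => sq_nonneg _) (sq_nonneg _))
  exact abs_le_of_sq_le_sq h1 (mul_nonneg hθ hβ)

/-- bounded weight, product of two matrices -/
lemma cs_b (S : Finset (ι × ι)) (Θ f g : ι → ι → ℝ) {η α β : ℝ} (hη : 0 ≤ η) (hα : 0 ≤ α)
    (hβ : 0 ≤ β) (hΘ : ∀ p ∈ S, |Θ p.1 p.2| ≤ η)
    (hf : ∑ x, ∑ y, f x y ^ 2 ≤ α ^ 2) (hg : ∑ x, ∑ y, g x y ^ 2 ≤ β ^ 2) :
    |∑ p ∈ S, Θ p.1 p.2 * (f p.1 p.2 * g p.1 p.2)| ≤ η * (α * β) := by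
  refine (Finset.abs_sum_le_sum_abs _ _).trans ?_
  calc ∑ p ∈ S, |Θ p.1 p.2 * (f p.1 p.2 * g p.1 p.2)|
      ≤ ∑ p ∈ S, η * (|f p.1 p.2| * |g p.1 p.2|) := by
        refine Finset.sum_le_sum fun p hp => ?_
        rw [abs_mul, abs_mul]
        exact mul_le_mul_of_nonneg_right (hΘ p hp) (by positivity)
    _ = η * ∑ p ∈ S, |f p.1 p.2| * |g p.1 p.2| := by rw [Finset.mul_sum]
    _ ≤ _ := mul_le_mul_of_nonneg_left (cs S f g hα hβ hf hg) hη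

lemma abs6 {a b c d e f A B C D E F : ℝ} (ha : |a| ≤ A) (hb : |b| ≤ B) (hc : |c| ≤ C)
    (hd : |d| ≤ D) (he : |e| ≤ E) (hf : |f| ≤ F) :
    |6 * a + 6 * b + 3 * c + 3 * d + 3 * e + 3 * f|
      ≤ 6 * A + 6 * B + 3 * C + 3 * D + 3 * E + 3 * F := by
  rw [abs_le] at *
  constructor <;> linarith [ha.1, ha.2, hb.1, hb.2, hc.1, hc.2, hd.1, hd.2, he.1, he.2,
    hf.1, hf.2]

/-- the weighted sum of the leading part, minus the first order term -/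
theorem weight_L3 (h : Bds K F v w r x1 x2 t3 t4 d3 d4) (S : Finset (ι × ι))
    (Θ : ι → ι → ℝ) {η θ : ℝ} (hη : 0 ≤ η) (hθ : 0 ≤ θ) (hΘ : ∀ p ∈ S, |Θ p.1 p.2| ≤ η)
    (hΘ2 : ∑ p ∈ S, Θ p.1 p.2 ^ 2 ≤ θ ^ 2) :
    |∑ p ∈ S, Θ p.1 p.2 * L3 s K F p.1 p.2 - 6 * s * ∑ p ∈ S, Θ p.1 p.2 * G4 K p.1 p.2|
      ≤ 6 * (θ * (v * d4 + w * d3)) + 6 * (η * (x1 * t4 + x2 * t3)) := by
  obtain ⟨sym, v0, w0, r0, x10, x20, t30, t40, d30, d40, hV, hW, hR, hX1, hX2, hT3, hT4,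
    hD3, hD4⟩ := h
  have n_d4v := n2 (fun x => G4 K x x) (fun y => K y y) hD4 hV
  have n_vd4 := n2 (fun x => K x x) (fun y => G4 K y y) hV hD4
  have n_d3w := n2 (fun x => G3 K x x) (wF K F) hD3 hW
  have n_wd3 := n2 (wF K F) (fun y => G3 K y y) hW hD3
  have b1 := cs_b S Θ (fun x y => K x y) (fun x y => G4 K x y) hη x10 t40 hΘ hX1 hT4
  have b2 := cs_b S Θ (fun x y => (K ^ 2) x y) (fun x y => G3 K x y) hη x20 t30 hΘ hX2 hT3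
  have c1 := cs_w S Θ (fun x y => G4 K x x * K y y) hθ (mul_nonneg d40 v0) hΘ2 n_d4v
  have c2 := cs_w S Θ (fun x y => K x x * G4 K y y) hθ (mul_nonneg v0 d40) hΘ2 n_vd4
  have c3 := cs_w S Θ (fun x y => G3 K x x * wF K F y) hθ (mul_nonneg d30 w0) hΘ2 n_d3w
  have c4 := cs_w S Θ (fun x y => wF K F x * G3 K y y) hθ (mul_nonneg w0 d30) hΘ2 n_wd3
  have e : ∑ p ∈ S, Θ p.1 p.2 * L3 s K F p.1 p.2 - 6 * s * ∑ p ∈ S, Θ p.1 p.2 * G4 K p.1 p.2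
      = 6 * ∑ p ∈ S, Θ p.1 p.2 * (K p.1 p.2 * G4 K p.1 p.2)
        + 6 * ∑ p ∈ S, Θ p.1 p.2 * ((K ^ 2) p.1 p.2 * G3 K p.1 p.2)
        + 3 * ∑ p ∈ S, Θ p.1 p.2 * (G4 K p.1 p.1 * K p.2 p.2)
        + 3 * ∑ p ∈ S, Θ p.1 p.2 * (K p.1 p.1 * G4 K p.2 p.2)
        + 3 * ∑ p ∈ S, Θ p.1 p.2 * (G3 K p.1 p.1 * wF K F p.2)
        + 3 * ∑ p ∈ S, Θ p.1 p.2 * (wF K F p.1 * G3 K p.2 p.2) := by
    simp only [Finset.mul_sum, ← Finset.sum_add_distrib, ← Finset.sum_sub_distrib]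
    exact Finset.sum_congr rfl fun p _ => by unfold L3; ring
  rw [e]
  refine (abs6 b1 b2 c1 c2 c3 c4).trans (le_of_eq ?_)
  ring

/-- weighted sum of `dX3` over good pairs (tilt) -/
theorem tilt_X3 (hs1 : s ^ 2 = 1) (h : Bds K F v w r x1 x2 t3 t4 d3 d4) {S : Finset (ι × ι)}
    (hS : GoodS K F S) (Θ : ι → ι → ℝ) {η θ : ℝ} (hη : 0 ≤ η) (hθ : 0 ≤ θ)
    (hΘ : ∀ p ∈ S, |Θ p.1 p.2| ≤ η) (hΘ2 : ∑ p ∈ S, Θ p.1 p.2 ^ 2 ≤ θ ^ 2) :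
    |∑ p ∈ S, Θ p.1 p.2 * dX3 s K p.1 p.2 - 6 * s * ∑ p ∈ S, Θ p.1 p.2 * G4 K p.1 p.2|
      ≤ 6 * (θ * (v * d4 + w * d3))
        + η * (6 * (x1 * t4 + x2 * t3) + Err v w r x1 x2 t3 t4 d3 d4) := by
  have h1 := weight_L3 (s := s) h S Θ hη hθ hΘ hΘ2
  have h2 : |∑ p ∈ S, Θ p.1 p.2 * (dX3 s K p.1 p.2 - L3 s K F p.1 p.2)|
      ≤ η * Err v w r x1 x2 t3 t4 d3 d4 := by
    refine (Finset.abs_sum_le_sum_abs _ _).trans ?_
    calc ∑ p ∈ S, |Θ p.1 p.2 * (dX3 s K p.1 p.2 - L3 s K F p.1 p.2)|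
        ≤ ∑ p ∈ S, η * Rem K F p.1 p.2 := by
          refine Finset.sum_le_sum fun p hp => ?_
          obtain ⟨q1, q2, q3, q4, q5⟩ := hS p hp
          rw [abs_mul]
          exact mul_le_mul (hΘ p hp) (dX3_sub_L3 hs1 h.sym q1 q2 q3 q4 q5) (abs_nonneg _) hη
      _ = η * ∑ p ∈ S, Rem K F p.1 p.2 := by rw [Finset.mul_sum]
      _ ≤ _ := mul_le_mul_of_nonneg_left (sum_Rem h S) hη
  have e : ∑ p ∈ S, Θ p.1 p.2 * dX3 s K p.1 p.2 - 6 * s * ∑ p ∈ S, Θ p.1 p.2 * G4 K p.1 p.2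
      = (∑ p ∈ S, Θ p.1 p.2 * L3 s K F p.1 p.2 - 6 * s * ∑ p ∈ S, Θ p.1 p.2 * G4 K p.1 p.2)
        + ∑ p ∈ S, Θ p.1 p.2 * (dX3 s K p.1 p.2 - L3 s K F p.1 p.2) := by
    simp only [mul_sub, Finset.sum_sub_distrib]; ring
  rw [e]
  refine (abs_add_le _ _).trans ((add_le_add h1 h2).trans (le_of_eq ?_))
  ring

/-- error of the mean -/
def ErrM (v w r x1 x2 t3 t4 d3 d4 β : ℝ) : ℝ :=
  6 * (β * (t4 + v * d4 + w * d3)) + 6 * (x1 * t4 + x2 * t3) + Err v w r x1 x2 t3 t4 d3 d4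

/-- **mean of `X₃' - X₃` over a set of good pairs** -/
theorem mean_X3 (hs1 : s ^ 2 = 1) (h : Bds K F v w r x1 x2 t3 t4 d3 d4)
    (hd : ∀ x, x ∉ F → ∀ y, K x y = 0) (hr : ∀ x ∈ F, ∑ y, K x y = s) {S : Finset (ι × ι)}
    (hS : GoodS K F S) {β : ℝ} (hβ : 0 ≤ β) (hcard : (((F ×ˢ F) \ S).card : ℝ) ≤ β ^ 2) :
    |∑ p ∈ S, dX3 s K p.1 p.2 - (12 * ((K ^ 5).trace - (K ^ 3).trace)
        + 6 * (K.trace * ((K ^ 4).trace - (K ^ 2).trace)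
            + ((K ^ 2).trace - F.card) * ((K ^ 3).trace - K.trace)))|
      ≤ ErrM v w r x1 x2 t3 t4 d3 d4 β := by
  have hsub : S ⊆ F ×ˢ F := fun p hp => by
    obtain ⟨q1, q2, -⟩ := hS p hp
    exact Finset.mem_product.2 ⟨q1, q2⟩
  rw [← sum_L3 h.sym hd hr hs1, ← Finset.sum_sdiff hsub]
  have hs2 : |s| = 1 := by
    have : |s| ^ 2 = 1 := by rw [sq_abs]; exact hs1
    nlinarith [abs_nonneg s]
  -- bad pairs
  have hb := weight_L3 (s := s) h ((F ×ˢ F) \ S) (fun _ _ => 1) zero_le_one hβ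
    (fun p _ => by simp) (by simpa using hcard)
  have hb2 := cs_w ((F ×ˢ F) \ S) (fun _ _ => 1) (fun x y => G4 K x y) hβ h.t40
    (by simpa using hcard) h.hT4
  simp only [one_mul] at hb hb2
  have hb3 : |6 * s * ∑ p ∈ (F ×ˢ F) \ S, G4 K p.1 p.2| ≤ 6 * (β * t4) := by
    rw [abs_mul, abs_mul, hs2, abs_of_pos (by norm_num : (0:ℝ) < 6), mul_one]
    exact mul_le_mul_of_nonneg_left hb2 (by norm_num)
  -- remainder
  have h2 : |∑ p ∈ S, (dX3 s K p.1 p.2 - L3 s K F p.1 p.2)| ≤ Err v w r x1 x2 t3 t4 d3 d4 := by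
    refine (Finset.abs_sum_le_sum_abs _ _).trans (le_trans ?_ (sum_Rem h S))
    refine Finset.sum_le_sum fun p hp => ?_
    obtain ⟨q1, q2, q3, q4, q5⟩ := hS p hp
    exact dX3_sub_L3 hs1 h.sym q1 q2 q3 q4 q5
  rw [Finset.sum_sub_distrib] at h2
  unfold ErrM
  rw [abs_le] at *
  constructor <;> linarith [hb.1, hb.2, hb3.1, hb3.2, h2.1, h2.2]

end weights

end Crest.Agent.R62.AvX3
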