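import Mathlib

/-!
R62 (helper486): `L²` bounds on finite sets of pairs.  `L2 S f h` : `h ≥ 0` and `∑_S f² ≤ h²`.
-/

set_option autoImplicit false
set_option linter.unusedSectionVars false
set_option linter.unusedVariables false

open scoped BigOperators

namespace Crest.Agent.R62.L2P

variable {α ι : Type*}

/-- the `L²` norm of `f` on the finite set `S` is at most `h`. -/
def L2 (S : Finset α) (f : α → ℝ) (h : ℝ) : Prop := 0 ≤ h ∧ ∑ p ∈ S, f p ^ 2 ≤ h ^ 2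

lemma L2.nonneg {S : Finset α} {f : α → ℝ} {h : ℝ} (H : L2 S f h) : 0 ≤ h := H.1

lemma L2.of_le {S : Finset α} {f : α → ℝ} {M : ℝ} (H : ∑ p ∈ S, f p ^ 2 ≤ M) :
    L2 S f (Real.sqrt M) := by
  refine ⟨Real.sqrt_nonneg _, ?_⟩
  have h0 : 0 ≤ ∑ p ∈ S, f p ^ 2 := Finset.sum_nonneg fun _ _ => sq_nonneg _
  rw [Real.sq_sqrt (h0.trans H)]
  exact H

lemma L2.mono {S : Finset α} {f : α → ℝ} {h h' : ℝ} (H : L2 S f h) (hh : h ≤ h') : L2 S f h' :=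
  ⟨H.1.trans hh, H.2.trans (pow_le_pow_left₀ H.1 hh 2)⟩

lemma L2.subset {S T : Finset α} {f : α → ℝ} {h : ℝ} (H : L2 T f h) (hST : S ⊆ T) : L2 S f h :=
  ⟨H.1, (Finset.sum_le_sum_of_subset_of_nonneg hST fun _ _ _ => sq_nonneg _).trans H.2⟩

lemma L2.of_abs_le {S : Finset α} {f g : α → ℝ} {h : ℝ} (H : L2 S g h)
    (hfg : ∀ p ∈ S, |f p| ≤ |g p|) : L2 S f h := by
  refine ⟨H.1, (Finset.sum_le_sum fun p hp => ?_).trans H.2⟩
  exact sq_le_sq.mpr (hfg p hp)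

lemma L2.congr {S : Finset α} {f g : α → ℝ} {h : ℝ} (H : L2 S g h)
    (hfg : ∀ p ∈ S, f p = g p) : L2 S f h :=
  H.of_abs_le fun p hp => by rw [hfg p hp]

lemma L2.abs {S : Finset α} {f : α → ℝ} {h : ℝ} (H : L2 S f h) : L2 S (fun p => |f p|) h :=
  H.of_abs_le fun p _ => by rw [abs_abs]

lemma L2.neg {S : Finset α} {f : α → ℝ} {h : ℝ} (H : L2 S f h) : L2 S (fun p => -f p) h :=
  H.of_abs_le fun p _ => by rw [abs_neg]

lemma L2.smul {S : Finset α} {f : α → ℝ} {h : ℝ} (H : L2 S f h) (c : ℝ) :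
    L2 S (fun p => c * f p) (|c| * h) := by
  refine ⟨mul_nonneg (abs_nonneg c) H.1, ?_⟩
  simp only [mul_pow, sq_abs, ← Finset.mul_sum]
  exact mul_le_mul_of_nonneg_left H.2 (sq_nonneg c)

/-- Cauchy–Schwarz. -/
lemma L2.sum_mul {S : Finset α} {f g : α → ℝ} {a b : ℝ} (hf : L2 S f a) (hg : L2 S g b) :
    ∑ p ∈ S, |f p| * |g p| ≤ a * b := by
  have h := Finset.sum_mul_sq_le_sq_mul_sq S (fun p => |f p|) (fun p => |g p|)
  simp only [sq_abs] at h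
  have hab : 0 ≤ a * b := mul_nonneg hf.1 hg.1
  refine le_of_sq_le_sq' ?_ hab
  calc _ ≤ _ := h
    _ ≤ a ^ 2 * b ^ 2 := mul_le_mul hf.2 hg.2 (Finset.sum_nonneg fun _ _ => sq_nonneg _)
        (sq_nonneg a)
    _ = _ := by ring
where
  le_of_sq_le_sq' {x y : ℝ} (h : x ^ 2 ≤ y ^ 2) (hy : 0 ≤ y) : x ≤ y :=
    (abs_le_of_sq_le_sq' h hy).2

lemma L2.abs_sum_mul {S : Finset α} {f g : α → ℝ} {a b : ℝ} (hf : L2 S f a) (hg : L2 S g b) :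
    |∑ p ∈ S, f p * g p| ≤ a * b :=
  (Finset.abs_sum_le_sum_abs _ _).trans (by simpa only [abs_mul] using hf.sum_mul hg)

/-- Minkowski. -/
lemma L2.add {S : Finset α} {f g : α → ℝ} {a b : ℝ} (hf : L2 S f a) (hg : L2 S g b) :
    L2 S (fun p => f p + g p) (a + b) := by
  refine ⟨add_nonneg hf.1 hg.1, ?_⟩
  have h := (abs_le.mp (hf.abs_sum_mul hg)).2
  have e : ∑ p ∈ S, (f p + g p) ^ 2 = ∑ p ∈ S, f p ^ 2 + 2 * ∑ p ∈ S, f p * g p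
      + ∑ p ∈ S, g p ^ 2 := by
    rw [Finset.mul_sum, ← Finset.sum_add_distrib, ← Finset.sum_add_distrib]
    exact Finset.sum_congr rfl fun p _ => by ring
  rw [e]
  nlinarith [hf.2, hg.2]

lemma L2.sub {S : Finset α} {f g : α → ℝ} {a b : ℝ} (hf : L2 S f a) (hg : L2 S g b) :
    L2 S (fun p => f p - g p) (a + b) := by
  simpa only [sub_eq_add_neg] using hf.add hg.neg

/-- `∑ f² ≤ h²`. -/
lemma L2.sum_sq {S : Finset α} {f : α → ℝ} {h : ℝ} (H : L2 S f h) : ∑ p ∈ S, f p ^ 2 ≤ h ^ 2 :=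
  H.2

/-- `∑ f⁴ ≤ (∑ f²)²`. -/
lemma L2.sum_pow_four {S : Finset α} {f : α → ℝ} {h : ℝ} (H : L2 S f h) :
    ∑ p ∈ S, f p ^ 4 ≤ h ^ 4 := by
  have h1 : ∀ p ∈ S, f p ^ 4 ≤ (∑ q ∈ S, f q ^ 2) * f p ^ 2 := fun p hp => by
    have h2 : f p ^ 2 ≤ ∑ q ∈ S, f q ^ 2 :=
      Finset.single_le_sum (f := fun q => f q ^ 2) (fun _ _ => sq_nonneg _) hp
    calc f p ^ 4 = f p ^ 2 * f p ^ 2 := by ring
      _ ≤ _ := mul_le_mul_of_nonneg_right h2 (sq_nonneg _)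
  have h0 : 0 ≤ ∑ q ∈ S, f q ^ 2 := Finset.sum_nonneg fun _ _ => sq_nonneg _
  calc ∑ p ∈ S, f p ^ 4 ≤ ∑ p ∈ S, (∑ q ∈ S, f q ^ 2) * f p ^ 2 := Finset.sum_le_sum h1
    _ = (∑ q ∈ S, f q ^ 2) * (∑ q ∈ S, f q ^ 2) := by rw [Finset.mul_sum]
    _ ≤ h ^ 2 * h ^ 2 := mul_le_mul H.2 H.2 h0 (sq_nonneg h)
    _ = h ^ 4 := by ring

/-- pointwise: `|f p| ≤ h`. -/
lemma L2.abs_le {S : Finset α} {f : α → ℝ} {h : ℝ} (H : L2 S f h) {p : α} (hp : p ∈ S) :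
    |f p| ≤ h := by
  refine abs_le_of_sq_le_sq ?_ H.1
  exact (Finset.single_le_sum (f := fun q => f q ^ 2) (fun _ _ => sq_nonneg _) hp).trans H.2

/-- bias of a set of pairs: `∑_T |f| ≤ √|T| ‖f‖`. -/
lemma L2.sum_abs_le {S : Finset α} {f : α → ℝ} {h : ℝ} (H : L2 S f h) :
    ∑ p ∈ S, |f p| ≤ Real.sqrt (S.card : ℝ) * h := by
  have h1 : L2 S (fun _ => (1 : ℝ)) (Real.sqrt (S.card : ℝ)) := L2.of_le (by simp)
  have h2 := h1.sum_mul H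
  simpa using h2

lemma L2.abs_sum_le {S : Finset α} {f : α → ℝ} {h : ℝ} (H : L2 S f h) :
    |∑ p ∈ S, f p| ≤ Real.sqrt (S.card : ℝ) * h :=
  (Finset.abs_sum_le_sum_abs _ _).trans H.sum_abs_le

/-- `∑_T |f| ≤ √β ‖f‖` with an upper bound `|T| ≤ β`. -/
lemma L2.abs_sum_le' {S : Finset α} {f : α → ℝ} {h β : ℝ} (H : L2 S f h)
    (hβ : (S.card : ℝ) ≤ β) : |∑ p ∈ S, f p| ≤ Real.sqrt β * h :=
  H.abs_sum_le.trans (mul_le_mul_of_nonneg_right (Real.sqrt_le_sqrt hβ) H.1)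

lemma L2.sum_abs_le' {S : Finset α} {f : α → ℝ} {h β : ℝ} (H : L2 S f h)
    (hβ : (S.card : ℝ) ≤ β) : ∑ p ∈ S, |f p| ≤ Real.sqrt β * h :=
  H.sum_abs_le.trans (mul_le_mul_of_nonneg_right (Real.sqrt_le_sqrt hβ) H.1)

/-- multiplication by a bounded function. -/
lemma L2.mul_bdd {S : Finset α} {f g : α → ℝ} {h M : ℝ} (H : L2 S f h) (hM : 0 ≤ M)
    (hg : ∀ p ∈ S, |g p| ≤ M) : L2 S (fun p => g p * f p) (M * h) := by
  refine ⟨mul_nonneg hM H.1, ?_⟩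
  have h1 : ∀ p ∈ S, (g p * f p) ^ 2 ≤ M ^ 2 * f p ^ 2 := fun p hp => by
    rw [mul_pow]
    refine mul_le_mul_of_nonneg_right ?_ (sq_nonneg _)
    exact sq_le_sq.mpr (by rw [abs_of_nonneg hM]; exact hg p hp)
  calc _ ≤ ∑ p ∈ S, M ^ 2 * f p ^ 2 := Finset.sum_le_sum h1
    _ = M ^ 2 * ∑ p ∈ S, f p ^ 2 := by rw [Finset.mul_sum]
    _ ≤ M ^ 2 * h ^ 2 := mul_le_mul_of_nonneg_left H.2 (sq_nonneg M)
    _ = _ := by ring

/-! ### products -/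

/-- tensor product of two one-variable functions. -/
lemma L2.tensor {F G : Finset ι} {u v : ι → ℝ} {a b : ℝ} (hu : L2 F u a) (hv : L2 G v b)
    {S : Finset (ι × ι)} (hS : S ⊆ F ×ˢ G) : L2 S (fun p => u p.1 * v p.2) (a * b) := by
  refine L2.subset (T := F ×ˢ G) ⟨mul_nonneg hu.1 hv.1, ?_⟩ hS
  rw [Finset.sum_product]
  simp only [mul_pow, ← Finset.mul_sum, ← Finset.sum_mul]
  exact mul_le_mul hu.2 hv.2 (Finset.sum_nonneg fun _ _ => sq_nonneg _) (sq_nonneg a)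

/-- a matrix whose full Frobenius norm is bounded. -/
lemma L2.ofMatrix [Fintype ι] {f : ι → ι → ℝ} {h : ℝ} (hh : 0 ≤ h)
    (H : ∑ x, ∑ y, f x y ^ 2 ≤ h ^ 2) (S : Finset (ι × ι)) : L2 S (fun p => f p.1 p.2) h := by
  refine ⟨hh, le_trans ?_ H⟩
  rw [← Finset.sum_product' (f := fun x y => f x y ^ 2)]
  exact Finset.sum_le_sum_of_subset_of_nonneg (by intro p _; simp) fun p _ _ => sq_nonneg _

lemma sum_tensor (F G : Finset ι) (u v : ι → ℝ) :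
    ∑ p ∈ F ×ˢ G, u p.1 * v p.2 = (∑ x ∈ F, u x) * ∑ y ∈ G, v y := by
  rw [Finset.sum_product, Finset.sum_mul_sum]

/-- sum over a subset = full sum minus sum over the complement. -/
lemma sum_good [DecidableEq α] {T S : Finset α} (h : S ⊆ T) (f : α → ℝ) :
    ∑ p ∈ S, f p = ∑ p ∈ T, f p - ∑ p ∈ T \ S, f p := by
  rw [← Finset.sum_sdiff h]; ring

/-- `|∑_S f - ∑_T f| ≤ √β ‖f‖`. -/
lemma abs_sum_sub_le [DecidableEq α] {T S : Finset α} (hST : S ⊆ T) {f : α → ℝ} {h β : ℝ}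
    (H : L2 T f h) (hβ : ((T \ S).card : ℝ) ≤ β) :
    |∑ p ∈ S, f p - ∑ p ∈ T, f p| ≤ Real.sqrt β * h := by
  rw [sum_good hST]
  have : ∑ p ∈ T, f p - ∑ p ∈ T \ S, f p - ∑ p ∈ T, f p = -∑ p ∈ T \ S, f p := by ring
  rw [this, abs_neg]
  exact (H.subset Finset.sdiff_subset).abs_sum_le' hβ

end Crest.Agent.R62.L2P
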