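import Crest.Agent.R62.AvBase
import Crest.Agent.R62.L2P

/-!
R62 (helper486): averaged one-step inequality for `X₄ = Tr K⁴`.
-/

set_option autoImplicit false
set_option linter.unusedSectionVars false
set_option linter.unusedVariables false

open scoped Matrix BigOperators

namespace Crest.Agent.R62.AvX4

open Crest.Agent.R62.AvBase Crest.Agent.R62.L2P

/-! ### the scalar (pointwise) inequality -/

/-- `Δ₀` -/
def d0 (s c w : ℝ) : ℝ := (1 - s * c) ^ 2 - w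
def d1 (s c C1 P1 : ℝ) : ℝ := -2 * s * (1 - s * c) * C1 - P1
def d2 (s c C1 C2 P2 : ℝ) : ℝ := C1 ^ 2 - 2 * s * (1 - s * c) * C2 - P2
def d3 (s c C1 C2 C3 P3 : ℝ) : ℝ := -2 * s * (1 - s * c) * C3 + 2 * C1 * C2 - P3
def d4 (s c C1 C2 C3 C4 P4 : ℝ) : ℝ :=
  -2 * s * (1 - s * c) * C4 + 2 * C1 * C3 + C2 ^ 2 - P4

/-- `X₄' - X₄ = -2 - 4e₄ + 4e₁e₃ + 2e₂² - 4e₁²e₂ + e₁⁴` -/
noncomputable def inc4 (e1 e2 e3 e4 : ℝ) : ℝ :=
  -2 - 4 * e4 + 4 * e1 * e3 + 2 * e2 ^ 2 - 4 * e1 ^ 2 * e2 + e1 ^ 4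

/-- the sum of the twelve remainder monomials -/
def mono12 (c w C1 C2 C3 C4 P1 P2 P3 P4 : ℝ) : ℝ :=
  |C4| * |c| + |C4| * |w| + |C1| * |C3| + C2 ^ 2 + |P4| * |c| + |P4| * |w| + C1 ^ 4 + P2 ^ 2
    + P1 ^ 4 + |C1| * |P3| + |P1| * |C3| + |P1| * |P3|

lemma mono12_nonneg (c w C1 C2 C3 C4 P1 P2 P3 P4 : ℝ) :
    0 ≤ mono12 c w C1 C2 C3 C4 P1 P2 P3 P4 := by
  unfold mono12; positivity

section scalar
variable {s c w : ℝ}

lemma p_bounds (hs : s ^ 2 = 1) (hc : |c| ≤ 1 / 4) :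
    3 / 4 ≤ 1 - s * c ∧ 1 - s * c ≤ 5 / 4 := by
  have h1 : |s| = 1 := by
    have : |s| ^ 2 = 1 := by rw [sq_abs]; exact hs
    exact (pow_eq_one_iff_of_nonneg (abs_nonneg s) two_ne_zero).mp this
  have h2 : |s * c| ≤ 1 / 4 := by rw [abs_mul, h1, one_mul]; exact hc
  rw [abs_le] at h2
  constructor <;> linarith [h2.1, h2.2]

lemma abs_s (hs : s ^ 2 = 1) : |s| = 1 := by
  have : |s| ^ 2 = 1 := by rw [sq_abs]; exact hs
  exact (pow_eq_one_iff_of_nonneg (abs_nonneg s) two_ne_zero).mp this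

lemma d0_lower (hs : s ^ 2 = 1) (hc : |c| ≤ 1 / 4) (hw : |w| ≤ 1 / 8) : 7 / 16 ≤ d0 s c w := by
  obtain ⟨h1, h2⟩ := p_bounds hs hc
  have h3 := (abs_le.mp hw).2
  unfold d0
  nlinarith

lemma abs_d1_le (hs : s ^ 2 = 1) (hc : |c| ≤ 1 / 4) (C1 P1 : ℝ) :
    |d1 s c C1 P1| ≤ 5 / 2 * |C1| + |P1| := by
  obtain ⟨h1, h2⟩ := p_bounds hs hc
  unfold d1
  have e : |-2 * s * (1 - s * c) * C1| = 2 * (1 - s * c) * |C1| := by
    rw [abs_mul, abs_mul, abs_mul, abs_s hs, abs_of_nonneg (by linarith : 0 ≤ 1 - s * c)]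
    norm_num
  calc _ ≤ |-2 * s * (1 - s * c) * C1| + |P1| := abs_sub _ _
    _ ≤ _ := by rw [e]; nlinarith [abs_nonneg C1]

lemma abs_d2_le (hs : s ^ 2 = 1) (hc : |c| ≤ 1 / 4) (C1 C2 P2 : ℝ) :
    |d2 s c C1 C2 P2| ≤ 5 / 2 * |C2| + C1 ^ 2 + |P2| := by
  obtain ⟨h1, h2⟩ := p_bounds hs hc
  unfold d2
  have e : |2 * s * (1 - s * c) * C2| = 2 * (1 - s * c) * |C2| := by
    rw [abs_mul, abs_mul, abs_mul, abs_s hs, abs_of_nonneg (by linarith : 0 ≤ 1 - s * c)]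
    norm_num
  calc _ ≤ |C1 ^ 2 - 2 * s * (1 - s * c) * C2| + |P2| := abs_sub _ _
    _ ≤ |C1 ^ 2| + |2 * s * (1 - s * c) * C2| + |P2| := by
        gcongr; exact abs_sub _ _
    _ ≤ _ := by rw [e, abs_of_nonneg (sq_nonneg C1)]; nlinarith [abs_nonneg C2]

lemma abs_d3_le (hs : s ^ 2 = 1) (hc : |c| ≤ 1 / 4) (C1 C2 C3 P3 : ℝ) :
    |d3 s c C1 C2 C3 P3| ≤ 5 / 2 * |C3| + 2 * (|C1| * |C2|) + |P3| := by
  obtain ⟨h1, h2⟩ := p_bounds hs hc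
  unfold d3
  have e : |-2 * s * (1 - s * c) * C3| = 2 * (1 - s * c) * |C3| := by
    rw [abs_mul, abs_mul, abs_mul, abs_s hs, abs_of_nonneg (by linarith : 0 ≤ 1 - s * c)]
    norm_num
  have e2 : |2 * C1 * C2| = 2 * (|C1| * |C2|) := by
    rw [abs_mul, abs_mul]; norm_num; ring
  calc _ ≤ |-2 * s * (1 - s * c) * C3 + 2 * C1 * C2| + |P3| := abs_sub _ _
    _ ≤ |-2 * s * (1 - s * c) * C3| + |2 * C1 * C2| + |P3| := by
        gcongr; exact abs_add_le _ _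
    _ ≤ _ := by rw [e, e2]; nlinarith [abs_nonneg C3]

lemma div_bound {D0 x y : ℝ} (h0 : 7 / 16 ≤ D0) (hx : |x| ≤ y) : |x / D0| ≤ 16 / 7 * y := by
  have hD : 0 < D0 := by linarith
  rw [abs_div, abs_of_pos hD, div_le_iff₀ hD]
  have hy : 0 ≤ y := (abs_nonneg x).trans hx
  nlinarith

/-- the first and second order part of `e₄` -/
lemma e4_bound (hs : s ^ 2 = 1) (hc : |c| ≤ 1 / 4) (hw : |w| ≤ 1 / 8)
    (C1 C2 C3 C4 P4 : ℝ) :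
    |d4 s c C1 C2 C3 C4 P4 / d0 s c w + 2 * s * C4 + P4| ≤
      6 * (|C4| * |c|) + 5 * (|C4| * |w|) + 5 * (|C1| * |C3|) + 3 * C2 ^ 2
        + 6 * (|P4| * |c|) + 3 * (|P4| * |w|) := by
  have h0 := d0_lower hs hc hw
  have hD : d0 s c w ≠ 0 := by linarith
  obtain ⟨hp1, hp2⟩ := p_bounds hs hc
  have e : d4 s c C1 C2 C3 C4 P4 / d0 s c w + 2 * s * C4 + P4
      = (-2 * s * C4 * ((1 - s * c) * (s * c) + w) + (2 * C1 * C3 + C2 ^ 2)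
          - P4 * (2 * s * c - c ^ 2 + w)) / d0 s c w := by
    field_simp
    unfold d0 d4
    linear_combination (P4 * c ^ 2) * hs
  rw [e]
  have hsc : |s * c| = |c| := by rw [abs_mul, abs_s hs, one_mul]
  have t1 : |(1 - s * c) * (s * c) + w| ≤ 5 / 4 * |c| + |w| := by
    calc _ ≤ |(1 - s * c) * (s * c)| + |w| := abs_add_le _ _
      _ ≤ _ := by
        rw [abs_mul, hsc, abs_of_nonneg (by linarith : 0 ≤ 1 - s * c)]
        nlinarith [abs_nonneg c]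
  have t2 : |2 * s * c - c ^ 2 + w| ≤ 9 / 4 * |c| + |w| := by
    have e2 : |2 * s * c| = 2 * |c| := by
      rw [mul_assoc, abs_mul, hsc]; norm_num
    calc _ ≤ |2 * s * c - c ^ 2| + |w| := abs_add_le _ _
      _ ≤ |2 * s * c| + |c ^ 2| + |w| := by gcongr; exact abs_sub _ _
      _ ≤ _ := by
        rw [e2, abs_pow]
        nlinarith [abs_nonneg c]
  have e3 : |-2 * s * C4 * ((1 - s * c) * (s * c) + w)|
      = 2 * |C4| * |(1 - s * c) * (s * c) + w| := by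
    rw [abs_mul, abs_mul, abs_mul, abs_s hs]; norm_num
  have e4 : |2 * C1 * C3 + C2 ^ 2| ≤ 2 * (|C1| * |C3|) + C2 ^ 2 := by
    calc _ ≤ |2 * C1 * C3| + |C2 ^ 2| := abs_add_le _ _
      _ = _ := by
        rw [abs_of_nonneg (sq_nonneg C2), abs_mul, abs_mul]; norm_num; ring
  have hnum : |-2 * s * C4 * ((1 - s * c) * (s * c) + w) + (2 * C1 * C3 + C2 ^ 2)
          - P4 * (2 * s * c - c ^ 2 + w)| ≤
      2 * |C4| * (5 / 4 * |c| + |w|) + (2 * (|C1| * |C3|) + C2 ^ 2)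
        + |P4| * (9 / 4 * |c| + |w|) := by
    calc _ ≤ |-2 * s * C4 * ((1 - s * c) * (s * c) + w) + (2 * C1 * C3 + C2 ^ 2)|
            + |P4 * (2 * s * c - c ^ 2 + w)| := abs_sub _ _
      _ ≤ |-2 * s * C4 * ((1 - s * c) * (s * c) + w)| + |2 * C1 * C3 + C2 ^ 2|
            + |P4 * (2 * s * c - c ^ 2 + w)| := by gcongr; exact abs_add_le _ _
      _ ≤ _ := by
        rw [e3, abs_mul P4]
        gcongr
  refine (div_bound h0 hnum).trans ?_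
  nlinarith [mul_nonneg (abs_nonneg C4) (abs_nonneg c), mul_nonneg (abs_nonneg C4) (abs_nonneg w),
    mul_nonneg (abs_nonneg C1) (abs_nonneg C3), mul_nonneg (abs_nonneg P4) (abs_nonneg c),
    mul_nonneg (abs_nonneg P4) (abs_nonneg w), sq_nonneg C2]

lemma quad_bound {x1 x2 x3 : ℝ} {a1 a2 a3 p1 p2 p3 : ℝ}
    (ha1 : 0 ≤ a1) (ha2 : 0 ≤ a2) (ha3 : 0 ≤ a3) (hp1 : 0 ≤ p1) (hp2 : 0 ≤ p2) (hp3 : 0 ≤ p3)
    (h1 : |x1| ≤ 6 * a1 + 3 * p1) (h2 : |x2| ≤ 6 * a2 + 3 * a1 ^ 2 + 3 * p2)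
    (h3 : |x3| ≤ 6 * a3 + 5 * (a1 * a2) + 3 * p3) :
    |4 * x1 * x3 + 2 * x2 ^ 2 - 4 * x1 ^ 2 * x2 + x1 ^ 4| ≤
      144 * (a1 * a3) + 72 * (a1 * p3) + 72 * (p1 * a3) + 36 * (p1 * p3)
        + 522 * a2 ^ 2 + 31287 * a1 ^ 4 + 1959 * p1 ^ 4 + 108 * p2 ^ 2 := by
  have b1 : |4 * x1 * x3| ≤ 4 * ((6 * a1 + 3 * p1) * (6 * a3 + 5 * (a1 * a2) + 3 * p3)) := by
    rw [mul_assoc, abs_mul, abs_mul, abs_of_pos (by norm_num : (0:ℝ) < 4)]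
    gcongr
  have b2 : |4 * x1 ^ 2 * x2| ≤ 2 * x1 ^ 4 + 2 * x2 ^ 2 := by
    rw [abs_le]; constructor <;> nlinarith [sq_nonneg (x1 ^ 2 - x2), sq_nonneg (x1 ^ 2 + x2)]
  have b3 : x2 ^ 2 ≤ 3 * (36 * a2 ^ 2 + 9 * a1 ^ 4 + 9 * p2 ^ 2) := by
    have h : x2 ^ 2 ≤ (6 * a2 + 3 * a1 ^ 2 + 3 * p2) ^ 2 :=
      sq_le_sq.mpr (h2.trans (le_abs_self _))
    nlinarith [sq_nonneg (6 * a2 - 3 * a1 ^ 2), sq_nonneg (6 * a2 - 3 * p2),
      sq_nonneg (3 * a1 ^ 2 - 3 * p2)]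
  have b4 : x1 ^ 4 ≤ 8 * (1296 * a1 ^ 4 + 81 * p1 ^ 4) := by
    have h : x1 ^ 2 ≤ (6 * a1 + 3 * p1) ^ 2 := sq_le_sq.mpr (h1.trans (le_abs_self _))
    have h' : x1 ^ 2 ≤ 2 * (36 * a1 ^ 2 + 9 * p1 ^ 2) := by
      nlinarith [sq_nonneg (6 * a1 - 3 * p1)]
    have h'' : (x1 ^ 2) ^ 2 ≤ (2 * (36 * a1 ^ 2 + 9 * p1 ^ 2)) ^ 2 :=
      pow_le_pow_left₀ (sq_nonneg _) h' 2
    nlinarith [sq_nonneg (36 * a1 ^ 2 - 9 * p1 ^ 2)]
  have b5 : a1 ^ 2 * a2 ≤ (a1 ^ 4 + a2 ^ 2) / 2 := by nlinarith [sq_nonneg (a1 ^ 2 - a2)]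
  have b6 : p1 * (a1 * a2) ≤ a2 ^ 2 / 2 + p1 ^ 4 / 4 + a1 ^ 4 / 4 := by
    nlinarith [sq_nonneg (p1 * a1 - a2), sq_nonneg (p1 ^ 2 - a1 ^ 2)]
  have b0 : |4 * x1 * x3 + 2 * x2 ^ 2 - 4 * x1 ^ 2 * x2 + x1 ^ 4|
      ≤ |4 * x1 * x3| + 2 * x2 ^ 2 + |4 * x1 ^ 2 * x2| + x1 ^ 4 := by
    have i1 := le_abs_self (4 * x1 * x3)
    have i2 := neg_abs_le (4 * x1 * x3)
    have i3 := le_abs_self (4 * x1 ^ 2 * x2)
    have i4 := neg_abs_le (4 * x1 ^ 2 * x2)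
    have i5 := sq_nonneg x2
    have i6 : 0 ≤ x1 ^ 4 := by positivity
    rw [abs_le]; constructor <;> linarith
  refine b0.trans ?_
  have e1 : 4 * ((6 * a1 + 3 * p1) * (6 * a3 + 5 * (a1 * a2) + 3 * p3))
      = 144 * (a1 * a3) + 120 * (a1 ^ 2 * a2) + 72 * (a1 * p3) + 72 * (p1 * a3)
        + 60 * (p1 * (a1 * a2)) + 36 * (p1 * p3) := by ring
  rw [e1] at b1
  linarith

/-- **pointwise expansion** of the increment of `X₄` on a good pair. -/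
theorem inc4_bound (hs : s ^ 2 = 1) (hc : |c| ≤ 1 / 4) (hw : |w| ≤ 1 / 8)
    (C1 C2 C3 C4 P1 P2 P3 P4 : ℝ) :
    |inc4 (d1 s c C1 P1 / d0 s c w) (d2 s c C1 C2 P2 / d0 s c w)
        (d3 s c C1 C2 C3 P3 / d0 s c w) (d4 s c C1 C2 C3 C4 P4 / d0 s c w)
      - (-2 + 8 * s * C4 + 4 * P4)| ≤ 32000 * mono12 c w C1 C2 C3 C4 P1 P2 P3 P4 := by
  have h0 := d0_lower hs hc hw
  have n1 := div_bound h0 (abs_d1_le hs hc C1 P1)
  have n2 := div_bound h0 (abs_d2_le hs hc C1 C2 P2)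
  have n3 := div_bound h0 (abs_d3_le hs hc C1 C2 C3 P3)
  have n4 := e4_bound hs hc hw C1 C2 C3 C4 P4
  have p1 := abs_nonneg C1
  have p2 := abs_nonneg C2
  have p3 := abs_nonneg C3
  have q1 := abs_nonneg P1
  have q2 := abs_nonneg P2
  have q3 := abs_nonneg P3
  have m12 := mul_nonneg p1 p2
  have s1 := sq_abs C1
  have s2 := sq_abs C2
  have s3 := sq_abs P2
  have f1 : |C1| ^ 4 = C1 ^ 4 := by
    rw [show |C1| ^ 4 = (|C1| ^ 2) ^ 2 by ring, s1]; ring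
  have f2 : |P1| ^ 4 = P1 ^ 4 := by
    rw [show |P1| ^ 4 = (|P1| ^ 2) ^ 2 by ring, sq_abs]; ring
  have hq := quad_bound (x1 := d1 s c C1 P1 / d0 s c w) (x2 := d2 s c C1 C2 P2 / d0 s c w)
    (x3 := d3 s c C1 C2 C3 P3 / d0 s c w) p1 p2 p3 q1 q2 q3 (by linarith)
    (by rw [s1]; nlinarith [sq_nonneg C1]) (by linarith)
  rw [f1, f2, s2, s3] at hq
  set x1 := d1 s c C1 P1 / d0 s c w
  set x2 := d2 s c C1 C2 P2 / d0 s c w
  set x3 := d3 s c C1 C2 C3 P3 / d0 s c w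
  set x4 := d4 s c C1 C2 C3 C4 P4 / d0 s c w
  have e : inc4 x1 x2 x3 x4 - (-2 + 8 * s * C4 + 4 * P4)
      = (4 * x1 * x3 + 2 * x2 ^ 2 - 4 * x1 ^ 2 * x2 + x1 ^ 4)
        - 4 * (x4 + 2 * s * C4 + P4) := by
    unfold inc4; ring
  rw [e]
  have e' : |4 * (x4 + 2 * s * C4 + P4)| = 4 * |x4 + 2 * s * C4 + P4| := by
    rw [abs_mul]; norm_num
  have g1 := mul_nonneg p1 p3
  have g2 := mul_nonneg p1 q3
  have g3 := mul_nonneg q1 p3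
  have g4 := mul_nonneg q1 q3
  have g5 := mul_nonneg (abs_nonneg C4) (abs_nonneg c)
  have g6 := mul_nonneg (abs_nonneg C4) (abs_nonneg w)
  have g7 := mul_nonneg (abs_nonneg P4) (abs_nonneg c)
  have g8 := mul_nonneg (abs_nonneg P4) (abs_nonneg w)
  have g9 := sq_nonneg C2
  have g10 := sq_nonneg P2
  have g11 : 0 ≤ C1 ^ 4 := by positivity
  have g12 : 0 ≤ P1 ^ 4 := by positivity
  calc _ ≤ |4 * x1 * x3 + 2 * x2 ^ 2 - 4 * x1 ^ 2 * x2 + x1 ^ 4|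
        + |4 * (x4 + 2 * s * C4 + P4)| := abs_sub _ _
    _ ≤ _ := by
      rw [e']
      unfold mono12
      linarith

end scalar


/-! ### the matrix quantities -/

variable {ι : Type*} [Fintype ι] [DecidableEq ι]

def A0 (K : Matrix ι ι ℝ) (x : ι) : ℝ := K x x
def A1 (K : Matrix ι ι ℝ) (x : ι) : ℝ := (K ^ 2) x x - 1
def A2 (K : Matrix ι ι ℝ) (x : ι) : ℝ := (K ^ 3) x x - K x x
def A3 (K : Matrix ι ι ℝ) (x : ι) : ℝ := (K ^ 4) x x - (K ^ 2) x x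
def A4 (K : Matrix ι ι ℝ) (x : ι) : ℝ := (K ^ 5) x x - (K ^ 3) x x

def C0 (K : Matrix ι ι ℝ) (p : ι × ι) : ℝ := K p.1 p.2
def C1 (K : Matrix ι ι ℝ) (p : ι × ι) : ℝ := (K ^ 2) p.1 p.2
def C2 (K : Matrix ι ι ℝ) (p : ι × ι) : ℝ := (K ^ 3) p.1 p.2 - K p.1 p.2
def C3 (K : Matrix ι ι ℝ) (p : ι × ι) : ℝ := (K ^ 4) p.1 p.2 - (K ^ 2) p.1 p.2
def C4 (K : Matrix ι ι ℝ) (p : ι × ι) : ℝ := (K ^ 5) p.1 p.2 - (K ^ 3) p.1 p.2

def W0 (K : Matrix ι ι ℝ) (p : ι × ι) : ℝ := A0 K p.1 * A0 K p.2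
def P1 (K : Matrix ι ι ℝ) (p : ι × ι) : ℝ := A0 K p.1 * A1 K p.2 + A1 K p.1 * A0 K p.2
def P2 (K : Matrix ι ι ℝ) (p : ι × ι) : ℝ :=
  A0 K p.1 * A2 K p.2 + A1 K p.1 * A1 K p.2 + A2 K p.1 * A0 K p.2
def P3 (K : Matrix ι ι ℝ) (p : ι × ι) : ℝ :=
  A0 K p.1 * A3 K p.2 + A1 K p.1 * A2 K p.2 + A2 K p.1 * A1 K p.2 + A3 K p.1 * A0 K p.2
def P4 (K : Matrix ι ι ℝ) (p : ι × ι) : ℝ :=
  A0 K p.1 * A4 K p.2 + A1 K p.1 * A3 K p.2 + A2 K p.1 * A2 K p.2 + A3 K p.1 * A1 K p.2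
    + A4 K p.1 * A0 K p.2

/-- the increment of `X₄` in the step `(p.1, p.2)`. -/
noncomputable def dX4 (s : ℝ) (K : Matrix ι ι ℝ) (p : ι × ι) : ℝ :=
  inc4 (d1 s (C0 K p) (C1 K p) (P1 K p) / d0 s (C0 K p) (W0 K p))
    (d2 s (C0 K p) (C1 K p) (C2 K p) (P2 K p) / d0 s (C0 K p) (W0 K p))
    (d3 s (C0 K p) (C1 K p) (C2 K p) (C3 K p) (P3 K p) / d0 s (C0 K p) (W0 K p))
    (d4 s (C0 K p) (C1 K p) (C2 K p) (C3 K p) (C4 K p) (P4 K p) / d0 s (C0 K p) (W0 K p))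

/-- remainder monomials at `p`. -/
def mono (K : Matrix ι ι ℝ) (p : ι × ι) : ℝ :=
  mono12 (C0 K p) (W0 K p) (C1 K p) (C2 K p) (C3 K p) (C4 K p) (P1 K p) (P2 K p) (P3 K p) (P4 K p)

lemma mono_nonneg (K : Matrix ι ι ℝ) (p : ι × ι) : 0 ≤ mono K p := mono12_nonneg _ _ _ _ _ _ _ _ _ _

/-- a good pair -/
def Good (K : Matrix ι ι ℝ) (p : ι × ι) : Prop :=
  |K p.1 p.2| ≤ 1 / 4 ∧ |K p.1 p.1 * K p.2 p.2| ≤ 1 / 8

lemma dX4_bound {s : ℝ} (hs : s ^ 2 = 1) (K : Matrix ι ι ℝ) {p : ι × ι} (hp : Good K p) :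
    |dX4 s K p - (-2 + 8 * s * C4 K p + 4 * P4 K p)| ≤ 32000 * mono K p :=
  inc4_bound hs hp.1 hp.2 _ _ _ _ _ _ _ _

/-- the numbers controlling all the error terms -/
structure Bnd (K : Matrix ι ι ℝ) (F : Finset ι) (n0 n1 n2 n3 n4 h0 h1 h2 h3 h4 q4 : ℝ) :
    Prop where
  a0 : L2 F (A0 K) n0
  a1 : L2 F (A1 K) n1
  a2 : L2 F (A2 K) n2
  a3 : L2 F (A3 K) n3
  a4 : L2 F (A4 K) n4
  c0 : L2 (F ×ˢ F) (C0 K) h0
  c1 : L2 (F ×ˢ F) (C1 K) h1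
  c2 : L2 (F ×ˢ F) (C2 K) h2
  c3 : L2 (F ×ˢ F) (C3 K) h3
  c4 : L2 (F ×ˢ F) (C4 K) h4
  cq : ∑ p ∈ F ×ˢ F, C1 K p ^ 4 ≤ q4

def m1 (n0 n1 : ℝ) : ℝ := 2 * (n0 * n1)
def m2 (n0 n1 n2 : ℝ) : ℝ := 2 * (n0 * n2) + n1 ^ 2
def m3 (n0 n1 n2 n3 : ℝ) : ℝ := 2 * (n0 * n3) + 2 * (n1 * n2)
def m4 (n0 n1 n2 n3 n4 : ℝ) : ℝ := 2 * (n0 * n4) + 2 * (n1 * n3) + n2 ^ 2

/-- the total of the remainder monomials -/
def errTot (n0 n1 n2 n3 n4 h0 h1 h2 h3 h4 q4 : ℝ) : ℝ :=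
  h4 * h0 + h4 * n0 ^ 2 + h1 * h3 + h2 ^ 2 + m4 n0 n1 n2 n3 n4 * h0
    + m4 n0 n1 n2 n3 n4 * n0 ^ 2 + q4 + m2 n0 n1 n2 ^ 2 + m1 n0 n1 ^ 4
    + h1 * m3 n0 n1 n2 n3 + m1 n0 n1 * h3 + m1 n0 n1 * m3 n0 n1 n2 n3

section bounds
variable {K : Matrix ι ι ℝ} {F : Finset ι} {n0 n1 n2 n3 n4 h0 h1 h2 h3 h4 q4 : ℝ}

lemma Bnd.w0 (B : Bnd K F n0 n1 n2 n3 n4 h0 h1 h2 h3 h4 q4) : L2 (F ×ˢ F) (W0 K) (n0 ^ 2) := by
  rw [pow_two]; exact B.a0.tensor B.a0 subset_rfl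

lemma Bnd.p1 (B : Bnd K F n0 n1 n2 n3 n4 h0 h1 h2 h3 h4 q4) :
    L2 (F ×ˢ F) (P1 K) (m1 n0 n1) :=
  ((B.a0.tensor B.a1 subset_rfl).add (B.a1.tensor B.a0 subset_rfl)).mono
    (by unfold m1; linarith [mul_comm n0 n1])

lemma Bnd.p2 (B : Bnd K F n0 n1 n2 n3 n4 h0 h1 h2 h3 h4 q4) :
    L2 (F ×ˢ F) (P2 K) (m2 n0 n1 n2) :=
  (((B.a0.tensor B.a2 subset_rfl).add (B.a1.tensor B.a1 subset_rfl)).add
    (B.a2.tensor B.a0 subset_rfl)).mono (by unfold m2; nlinarith)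

lemma Bnd.p3 (B : Bnd K F n0 n1 n2 n3 n4 h0 h1 h2 h3 h4 q4) :
    L2 (F ×ˢ F) (P3 K) (m3 n0 n1 n2 n3) :=
  ((((B.a0.tensor B.a3 subset_rfl).add (B.a1.tensor B.a2 subset_rfl)).add
    (B.a2.tensor B.a1 subset_rfl)).add (B.a3.tensor B.a0 subset_rfl)).mono
      (by unfold m3; nlinarith)

lemma Bnd.p4 (B : Bnd K F n0 n1 n2 n3 n4 h0 h1 h2 h3 h4 q4) :
    L2 (F ×ˢ F) (P4 K) (m4 n0 n1 n2 n3 n4) :=
  (((((B.a0.tensor B.a4 subset_rfl).add (B.a1.tensor B.a3 subset_rfl)).add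
    (B.a2.tensor B.a2 subset_rfl)).add (B.a3.tensor B.a1 subset_rfl)).add
      (B.a4.tensor B.a0 subset_rfl)).mono (by unfold m4; nlinarith)

/-- the sum of all remainder monomials over any set of pairs -/
lemma Bnd.sum_mono_le (B : Bnd K F n0 n1 n2 n3 n4 h0 h1 h2 h3 h4 q4) {S : Finset (ι × ι)}
    (hS : S ⊆ F ×ˢ F) :
    ∑ p ∈ S, mono K p ≤ errTot n0 n1 n2 n3 n4 h0 h1 h2 h3 h4 q4 := by
  have b0 := B.c0.subset hS
  have b1 := B.c1.subset hS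
  have b2 := B.c2.subset hS
  have b3 := B.c3.subset hS
  have b4 := B.c4.subset hS
  have w0 := B.w0.subset hS
  have p1 := B.p1.subset hS
  have p2 := B.p2.subset hS
  have p3 := B.p3.subset hS
  have p4 := B.p4.subset hS
  have e1 := b4.sum_mul b0
  have e2 := b4.sum_mul w0
  have e3 := b1.sum_mul b3
  have e4 := b2.sum_sq
  have e5 := p4.sum_mul b0
  have e6 := p4.sum_mul w0
  have e7 : ∑ p ∈ S, C1 K p ^ 4 ≤ q4 :=
    (Finset.sum_le_sum_of_subset_of_nonneg hS fun _ _ _ => by positivity).trans B.cq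
  have e8 := p2.sum_sq
  have e9 := p1.sum_pow_four
  have e10 := b1.sum_mul p3
  have e11 := p1.sum_mul b3
  have e12 := p1.sum_mul p3
  unfold mono mono12 errTot
  simp only [Finset.sum_add_distrib]
  linarith

/-- **Unweighted average** of the increment of `X₄` over a set `S` of good pairs. -/
theorem Bnd.sum_dX4 (B : Bnd K F n0 n1 n2 n3 n4 h0 h1 h2 h3 h4 q4) {s : ℝ} (hs : s ^ 2 = 1)
    {S : Finset (ι × ι)} (hS : S ⊆ F ×ˢ F) (hgood : ∀ p ∈ S, Good K p) {β : ℝ}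
    (hβ : ((F ×ˢ F \ S).card : ℝ) ≤ β) (hC4 : ∑ p ∈ F ×ˢ F, C4 K p = 0) :
    |∑ p ∈ S, dX4 s K p - (-2 * (S.card : ℝ) + 4 * ∑ p ∈ F ×ˢ F, P4 K p)| ≤
      Real.sqrt β * (8 * h4 + 4 * m4 n0 n1 n2 n3 n4)
        + 32000 * errTot n0 n1 n2 n3 n4 h0 h1 h2 h3 h4 q4 := by
  have e1 : |∑ p ∈ S, (dX4 s K p - (-2 + 8 * s * C4 K p + 4 * P4 K p))|
      ≤ 32000 * errTot n0 n1 n2 n3 n4 h0 h1 h2 h3 h4 q4 :=
    calc _ ≤ ∑ p ∈ S, |dX4 s K p - (-2 + 8 * s * C4 K p + 4 * P4 K p)| :=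
          Finset.abs_sum_le_sum_abs _ _
      _ ≤ ∑ p ∈ S, 32000 * mono K p :=
          Finset.sum_le_sum fun p hp => dX4_bound hs K (hgood p hp)
      _ = 32000 * ∑ p ∈ S, mono K p := by rw [Finset.mul_sum]
      _ ≤ _ := by gcongr; exact B.sum_mono_le hS
  have e2 := abs_sum_sub_le hS B.c4 hβ
  have e3 := abs_sum_sub_le hS B.p4 hβ
  rw [hC4, sub_zero] at e2
  have e4 : ∑ p ∈ S, dX4 s K p - (-2 * (S.card : ℝ) + 4 * ∑ p ∈ F ×ˢ F, P4 K p)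
      = ∑ p ∈ S, (dX4 s K p - (-2 + 8 * s * C4 K p + 4 * P4 K p))
        + 8 * s * ∑ p ∈ S, C4 K p
        + 4 * (∑ p ∈ S, P4 K p - ∑ p ∈ F ×ˢ F, P4 K p) := by
    simp only [Finset.sum_sub_distrib, Finset.sum_add_distrib, Finset.mul_sum, Finset.sum_const,
      nsmul_eq_mul, mul_sub]
    ring
  rw [e4]
  have e5 : |8 * s * ∑ p ∈ S, C4 K p| ≤ 8 * (Real.sqrt β * h4) := by
    rw [abs_mul, abs_mul, abs_s hs, mul_one]
    have : |(8:ℝ)| = 8 := by norm_num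
    rw [this]; gcongr
  have e6 : |4 * (∑ p ∈ S, P4 K p - ∑ p ∈ F ×ˢ F, P4 K p)|
      ≤ 4 * (Real.sqrt β * m4 n0 n1 n2 n3 n4) := by
    rw [abs_mul]
    have : |(4:ℝ)| = 4 := by norm_num
    rw [this]; gcongr
  calc _ ≤ |∑ p ∈ S, (dX4 s K p - (-2 + 8 * s * C4 K p + 4 * P4 K p))
        + 8 * s * ∑ p ∈ S, C4 K p| + |4 * (∑ p ∈ S, P4 K p - ∑ p ∈ F ×ˢ F, P4 K p)| :=
        abs_add_le _ _
    _ ≤ |∑ p ∈ S, (dX4 s K p - (-2 + 8 * s * C4 K p + 4 * P4 K p))|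
        + |8 * s * ∑ p ∈ S, C4 K p| + |4 * (∑ p ∈ S, P4 K p - ∑ p ∈ F ×ˢ F, P4 K p)| := by
        gcongr; exact abs_add_le _ _
    _ ≤ _ := by linarith

/-- effect of bounded weights, apart from the first order term `8 s C₄` -/
theorem Bnd.sum_weight (B : Bnd K F n0 n1 n2 n3 n4 h0 h1 h2 h3 h4 q4) {s : ℝ} (hs : s ^ 2 = 1)
    {S : Finset (ι × ι)} (hS : S ⊆ F ×ˢ F) (hgood : ∀ p ∈ S, Good K p)
    {θ : ι × ι → ℝ} {η : ℝ} (hη : 0 ≤ η) (hθ : ∀ p ∈ S, |θ p| ≤ η) :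
    |∑ p ∈ S, θ p * dX4 s K p - 8 * s * ∑ p ∈ S, θ p * C4 K p| ≤
      η * (2 * (S.card : ℝ) + 4 * ∑ p ∈ F ×ˢ F, |P4 K p|
        + 32000 * errTot n0 n1 n2 n3 n4 h0 h1 h2 h3 h4 q4) := by
  have e0 : ∑ p ∈ S, θ p * dX4 s K p - 8 * s * ∑ p ∈ S, θ p * C4 K p
      = ∑ p ∈ S, θ p * (dX4 s K p - 8 * s * C4 K p) := by
    simp only [mul_sub, Finset.sum_sub_distrib, Finset.mul_sum]
    congr 1
    exact Finset.sum_congr rfl fun p _ => by ring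
  rw [e0]
  have e1 : ∀ p ∈ S, |θ p * (dX4 s K p - 8 * s * C4 K p)|
      ≤ η * (2 + 4 * |P4 K p| + 32000 * mono K p) := fun p hp => by
    rw [abs_mul]
    refine mul_le_mul (hθ p hp) ?_ (abs_nonneg _) hη
    have h := dX4_bound hs K (hgood p hp)
    have e : dX4 s K p - 8 * s * C4 K p
        = (dX4 s K p - (-2 + 8 * s * C4 K p + 4 * P4 K p)) + (-2 + 4 * P4 K p) := by ring
    rw [e]
    calc _ ≤ |dX4 s K p - (-2 + 8 * s * C4 K p + 4 * P4 K p)| + |-2 + 4 * P4 K p| :=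
          abs_add_le _ _
      _ ≤ 32000 * mono K p + (|(-2 : ℝ)| + |4 * P4 K p|) := by gcongr; exact abs_add_le _ _
      _ = _ := by rw [abs_mul]; norm_num; ring
  calc _ ≤ ∑ p ∈ S, |θ p * (dX4 s K p - 8 * s * C4 K p)| := Finset.abs_sum_le_sum_abs _ _
    _ ≤ ∑ p ∈ S, η * (2 + 4 * |P4 K p| + 32000 * mono K p) := Finset.sum_le_sum e1
    _ = η * (2 * (S.card : ℝ) + 4 * ∑ p ∈ S, |P4 K p| + 32000 * ∑ p ∈ S, mono K p) := by
        rw [← Finset.mul_sum]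
        simp only [Finset.sum_add_distrib, Finset.mul_sum, Finset.sum_const, nsmul_eq_mul]
        ring
    _ ≤ _ := by
        have h1 : ∑ p ∈ S, |P4 K p| ≤ ∑ p ∈ F ×ˢ F, |P4 K p| :=
          Finset.sum_le_sum_of_subset_of_nonneg hS fun _ _ _ => abs_nonneg _
        have h2 := B.sum_mono_le hS
        gcongr

/-- effect of bounded weights (Frobenius norm `t` for the diagonal products), apart from the
first order term `8 s C₄` -/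
theorem Bnd.sum_weight' (B : Bnd K F n0 n1 n2 n3 n4 h0 h1 h2 h3 h4 q4) {s : ℝ} (hs : s ^ 2 = 1)
    {S : Finset (ι × ι)} (hS : S ⊆ F ×ˢ F) (hgood : ∀ p ∈ S, Good K p)
    {θ : ι × ι → ℝ} {η t : ℝ} (hη : 0 ≤ η) (hθ : ∀ p ∈ S, |θ p| ≤ η) (ht : L2 S θ t) :
    |∑ p ∈ S, θ p * dX4 s K p - 8 * s * ∑ p ∈ S, θ p * C4 K p| ≤
      η * (2 * (S.card : ℝ) + 32000 * errTot n0 n1 n2 n3 n4 h0 h1 h2 h3 h4 q4)
        + 4 * (t * m4 n0 n1 n2 n3 n4) := by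
  have e0 : ∑ p ∈ S, θ p * dX4 s K p - 8 * s * ∑ p ∈ S, θ p * C4 K p
      = ∑ p ∈ S, θ p * (dX4 s K p - 8 * s * C4 K p - 4 * P4 K p)
        + 4 * ∑ p ∈ S, θ p * P4 K p := by
    rw [Finset.mul_sum, Finset.mul_sum, ← Finset.sum_sub_distrib, ← Finset.sum_add_distrib]
    exact Finset.sum_congr rfl fun p _ => by ring
  rw [e0]
  have e1 : ∀ p ∈ S, |θ p * (dX4 s K p - 8 * s * C4 K p - 4 * P4 K p)|
      ≤ η * (2 + 32000 * mono K p) := fun p hp => by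
    rw [abs_mul]
    refine mul_le_mul (hθ p hp) ?_ (abs_nonneg _) hη
    have h := dX4_bound hs K (hgood p hp)
    have e : dX4 s K p - 8 * s * C4 K p - 4 * P4 K p
        = (dX4 s K p - (-2 + 8 * s * C4 K p + 4 * P4 K p)) + (-2) := by ring
    rw [e]
    calc _ ≤ |dX4 s K p - (-2 + 8 * s * C4 K p + 4 * P4 K p)| + |(-2 : ℝ)| :=
          abs_add_le _ _
      _ ≤ 32000 * mono K p + |(-2 : ℝ)| := by gcongr
      _ = _ := by norm_num; ring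
  have e2 : |∑ p ∈ S, θ p * (dX4 s K p - 8 * s * C4 K p - 4 * P4 K p)| ≤
      η * (2 * (S.card : ℝ) + 32000 * errTot n0 n1 n2 n3 n4 h0 h1 h2 h3 h4 q4) :=
    calc _ ≤ ∑ p ∈ S, |θ p * (dX4 s K p - 8 * s * C4 K p - 4 * P4 K p)| :=
          Finset.abs_sum_le_sum_abs _ _
      _ ≤ ∑ p ∈ S, η * (2 + 32000 * mono K p) := Finset.sum_le_sum e1
      _ = η * (2 * (S.card : ℝ) + 32000 * ∑ p ∈ S, mono K p) := by
          rw [← Finset.mul_sum]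
          simp only [Finset.sum_add_distrib, Finset.mul_sum, Finset.sum_const, nsmul_eq_mul]
          ring
      _ ≤ _ := by
          have h2 := B.sum_mono_le hS
          gcongr
  have e3 : |4 * ∑ p ∈ S, θ p * P4 K p| ≤ 4 * (t * m4 n0 n1 n2 n3 n4) := by
    rw [abs_mul]
    have : |(4:ℝ)| = 4 := by norm_num
    rw [this]
    exact mul_le_mul_of_nonneg_left (ht.abs_sum_mul (B.p4.subset hS)) (by norm_num)
  exact (abs_add_le _ _).trans (add_le_add e2 e3)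

end bounds


/-! ### instantiation of the bounds -/

/-- the indicator of the live set -/
def ind (F : Finset ι) : ι → ℝ := fun i => if i ∈ F then 1 else 0

/-- `Y = ∑ (K²)_xx (K⁴)_xx` -/
def Yv (K : Matrix ι ι ℝ) : ℝ := ∑ x, (K ^ 2) x x * (K ^ 4) x x
/-- `R₂ = ∑ ((K²)_xx)²` -/
def R2v (K : Matrix ι ι ℝ) : ℝ := ∑ x, ((K ^ 2) x x) ^ 2
/-- `V = ∑ (K_xx)²` -/
def Vv (K : Matrix ι ι ℝ) : ℝ := ∑ x, (K x x) ^ 2
/-- `W = ∑_F ((K²)_xx - 1)²` -/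
def Wv (K : Matrix ι ι ℝ) (F : Finset ι) : ℝ := ∑ x ∈ F, ((K ^ 2) x x - 1) ^ 2

section inst
variable {K : Matrix ι ι ℝ} {F : Finset ι} {L : ℝ}

lemma dead_pow (hF : ∀ i j, i ∉ F → K i j = 0) {n : ℕ} (hn : n ≠ 0) {i : ι} (hi : i ∉ F)
    (j : ι) : (K ^ n) i j = 0 := by
  obtain ⟨m, rfl⟩ := Nat.exists_eq_succ_of_ne_zero hn
  rw [pow_succ', Matrix.mul_apply]
  exact Finset.sum_eq_zero fun k _ => by rw [hF i k hi, zero_mul]

lemma sum_F_diag (hF : ∀ i j, i ∉ F → K i j = 0) {n : ℕ} (hn : n ≠ 0) :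
    ∑ x ∈ F, (K ^ n) x x = (K ^ n).trace := by
  rw [Matrix.trace]
  exact Finset.sum_subset (Finset.subset_univ F) fun x _ hx => dead_pow hF hn hx x

lemma sum_F_diag_one (hF : ∀ i j, i ∉ F → K i j = 0) : ∑ x ∈ F, K x x = K.trace := by
  simpa using sum_F_diag hF (n := 1) one_ne_zero

/-- `∑_{F×F} C₄ = 0` -/
lemma sum_C4 {s : ℝ} (hs : s ^ 2 = 1) (hF : ∀ i j, i ∉ F → K i j = 0)
    (hrow : K *ᵥ ind F = s • ind F) : ∑ p ∈ F ×ˢ F, C4 K p = 0 := by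
  have key : ∀ n : ℕ, ∑ p ∈ F ×ˢ F, (K ^ n) p.1 p.2 = s ^ n * (F.card : ℝ) := fun n => by
    rw [Finset.sum_product]
    have h := row_pow hrow n
    have h1 : ∀ x, ∑ y ∈ F, (K ^ n) x y = s ^ n * ind F x := fun x => by
      have h2 := congrFun h x
      simp only [Matrix.mulVec, dotProduct, Pi.smul_apply, smul_eq_mul] at h2
      rw [← h2]
      simp [ind, Finset.sum_ite_mem]
    simp only [h1, ← Finset.mul_sum]
    congr 1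
    simp [ind, Finset.sum_ite_mem]
  unfold C4
  rw [Finset.sum_sub_distrib, key 5, key 3]
  have : s ^ 5 = s ^ 3 := by rw [show s ^ 5 = s ^ 3 * s ^ 2 by ring, hs, mul_one]
  rw [this]; ring

lemma sum_P4 (hF : ∀ i j, i ∉ F → K i j = 0) :
    ∑ p ∈ F ×ˢ F, P4 K p = 2 * (K.trace * ((K ^ 5).trace - (K ^ 3).trace))
      + 2 * (((K ^ 2).trace - (F.card : ℝ)) * ((K ^ 4).trace - (K ^ 2).trace))
      + ((K ^ 3).trace - K.trace) ^ 2 := by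
  have s0 : ∑ x ∈ F, A0 K x = K.trace := by
    unfold A0; exact sum_F_diag_one hF
  have s1 : ∑ x ∈ F, A1 K x = (K ^ 2).trace - (F.card : ℝ) := by
    unfold A1
    rw [Finset.sum_sub_distrib, sum_F_diag hF two_ne_zero]; simp
  have s2 : ∑ x ∈ F, A2 K x = (K ^ 3).trace - K.trace := by
    unfold A2
    rw [Finset.sum_sub_distrib, sum_F_diag hF three_ne_zero, sum_F_diag_one hF]
  have s3 : ∑ x ∈ F, A3 K x = (K ^ 4).trace - (K ^ 2).trace := by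
    unfold A3
    rw [Finset.sum_sub_distrib, sum_F_diag hF four_ne_zero, sum_F_diag hF two_ne_zero]
  have s4 : ∑ x ∈ F, A4 K x = (K ^ 5).trace - (K ^ 3).trace := by
    unfold A4
    rw [Finset.sum_sub_distrib, sum_F_diag hF (by norm_num), sum_F_diag hF three_ne_zero]
  unfold P4
  simp only [Finset.sum_add_distrib]
  rw [sum_tensor F F (A0 K) (A4 K), sum_tensor F F (A1 K) (A3 K), sum_tensor F F (A2 K) (A2 K),
    sum_tensor F F (A3 K) (A1 K), sum_tensor F F (A4 K) (A0 K), s0, s1, s2, s3, s4]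
  ring

lemma Yv_nonneg (hK : Kᵀ = K) : 0 ≤ Yv K :=
  Finset.sum_nonneg fun x _ => mul_nonneg (diag_sq_nonneg hK x) (diag_four_nonneg hK x)

lemma R2v_nonneg : 0 ≤ R2v K := Finset.sum_nonneg fun x _ => sq_nonneg _
lemma Vv_nonneg : 0 ≤ Vv K := Finset.sum_nonneg fun x _ => sq_nonneg _
lemma Wv_nonneg : 0 ≤ Wv K F := Finset.sum_nonneg fun x _ => sq_nonneg _

lemma four_le (hK : Kᵀ = K) (hL : OpB K L) (x : ι) : (K ^ 4) x x ≤ L ^ 2 * (K ^ 2) x x := by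
  simpa using diag_even_le hK hL 1 1 x

lemma Yv_le (hK : Kᵀ = K) (hL : OpB K L) : Yv K ≤ L ^ 2 * R2v K := by
  unfold Yv R2v
  rw [Finset.mul_sum]
  refine Finset.sum_le_sum fun x _ => ?_
  have := mul_le_mul_of_nonneg_left (four_le hK hL x) (diag_sq_nonneg hK x)
  calc _ ≤ _ := this
    _ = _ := by ring

lemma Yv_le' (hK : Kᵀ = K) (hL : OpB K L) (hF : ∀ i j, i ∉ F → K i j = 0) :
    Yv K ≤ (K ^ 4).trace + L ^ 2 * (Real.sqrt (R2v K) * Real.sqrt (Wv K F)) := by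
  have e1 : Yv K = (K ^ 4).trace + ∑ x ∈ F, (K ^ 4) x x * ((K ^ 2) x x - 1) := by
    rw [← sum_F_diag hF four_ne_zero, ← Finset.sum_add_distrib, Yv]
    rw [← Finset.sum_subset (Finset.subset_univ F) fun x _ hx => by
      rw [dead_pow hF two_ne_zero hx, zero_mul]]
    exact Finset.sum_congr rfl fun x _ => by ring
  have a : L2 F (fun x => (K ^ 4) x x) (L ^ 2 * Real.sqrt (R2v K)) := by
    refine ⟨mul_nonneg (sq_nonneg L) (Real.sqrt_nonneg _), ?_⟩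
    rw [mul_pow, Real.sq_sqrt R2v_nonneg]
    calc _ ≤ ∑ x, ((K ^ 4) x x) ^ 2 :=
          Finset.sum_le_sum_of_subset_of_nonneg (Finset.subset_univ F) fun _ _ _ => sq_nonneg _
      _ ≤ ∑ x, (L ^ 2) ^ 2 * ((K ^ 2) x x) ^ 2 := Finset.sum_le_sum fun x _ => by
          rw [← mul_pow]
          exact pow_le_pow_left₀ (diag_four_nonneg hK x) (four_le hK hL x) 2
      _ = _ := by rw [← Finset.mul_sum]; rfl
  have b : L2 F (fun x => (K ^ 2) x x - 1) (Real.sqrt (Wv K F)) := L2.of_le le_rfl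
  have h := (abs_le.mp (a.abs_sum_mul b)).2
  rw [e1]
  linarith [h, mul_assoc (L ^ 2) (Real.sqrt (R2v K)) (Real.sqrt (Wv K F))]

lemma sq_add_le (a b : ℝ) : (a - b) ^ 2 ≤ 2 * a ^ 2 + 2 * b ^ 2 := by nlinarith [sq_nonneg (a + b)]

lemma l2_A2 (hK : Kᵀ = K) : L2 F (A2 K) (Real.sqrt (2 * Yv K + 2 * Vv K)) := by
  refine L2.of_le ?_
  calc _ ≤ ∑ x, (A2 K x) ^ 2 :=
        Finset.sum_le_sum_of_subset_of_nonneg (Finset.subset_univ F) fun _ _ _ => sq_nonneg _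
    _ ≤ ∑ x, (2 * ((K ^ 2) x x * (K ^ 4) x x) + 2 * (K x x) ^ 2) :=
        Finset.sum_le_sum fun x _ => by
          have h := entry_sq_le hK 1 2 x x
          simp only [Nat.reduceAdd, Nat.reduceMul] at h
          have := sq_add_le ((K ^ 3) x x) (K x x)
          unfold A2
          linarith
    _ = _ := by
        rw [Finset.sum_add_distrib, ← Finset.mul_sum, ← Finset.mul_sum]; rfl

lemma l2_diag_aux {f : ι → ℝ} {M : ℝ} (hM : 0 ≤ M) (hf : ∀ x, |f x| ≤ M * (K ^ 2) x x) :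
    L2 F f (M * Real.sqrt (R2v K)) := by
  refine ⟨mul_nonneg hM (Real.sqrt_nonneg _), ?_⟩
  rw [mul_pow, Real.sq_sqrt R2v_nonneg]
  calc _ ≤ ∑ x, (f x) ^ 2 :=
        Finset.sum_le_sum_of_subset_of_nonneg (Finset.subset_univ F) fun _ _ _ => sq_nonneg _
    _ ≤ ∑ x, M ^ 2 * ((K ^ 2) x x) ^ 2 := Finset.sum_le_sum fun x _ => by
        rw [← mul_pow, ← sq_abs (f x)]
        exact pow_le_pow_left₀ (abs_nonneg _) (hf x) 2
    _ = _ := by rw [← Finset.mul_sum]; rfl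

lemma l2_A3 (hK : Kᵀ = K) (hL : OpB K L) (h1 : 1 ≤ L) :
    L2 F (A3 K) (2 * L ^ 2 * Real.sqrt (R2v K)) := by
  refine l2_diag_aux (by positivity) fun x => ?_
  have a := abs_diag_le hK hL 2 x
  have b := diag_sq_nonneg hK x
  have c : 1 ≤ L ^ 2 := one_le_pow₀ h1
  simp only [Nat.reduceAdd] at a
  unfold A3
  calc _ ≤ |(K ^ 4) x x| + |(K ^ 2) x x| := abs_sub _ _
    _ ≤ _ := by rw [abs_of_nonneg b]; nlinarith

lemma l2_A4 (hK : Kᵀ = K) (hL : OpB K L) (h1 : 1 ≤ L) :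
    L2 F (A4 K) (2 * L ^ 3 * Real.sqrt (R2v K)) := by
  have h0 : 0 ≤ L := zero_le_one.trans h1
  refine l2_diag_aux (by positivity) fun x => ?_
  have a := abs_diag_le hK hL 3 x
  have a' := abs_diag_le hK hL 1 x
  have b := diag_sq_nonneg hK x
  have c : L ^ 1 ≤ L ^ 3 := pow_le_pow_right₀ h1 (by norm_num)
  simp only [Nat.reduceAdd] at a a'
  unfold A4
  calc _ ≤ |(K ^ 5) x x| + |(K ^ 3) x x| := abs_sub _ _
    _ ≤ _ := by nlinarith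

lemma l2_mat {f : ι → ι → ℝ} {M : ℝ} (H : ∑ x, ∑ y, f x y ^ 2 ≤ M) (S : Finset (ι × ι)) :
    L2 S (fun p => f p.1 p.2) (Real.sqrt M) := by
  have h0 : 0 ≤ ∑ x, ∑ y, f x y ^ 2 :=
    Finset.sum_nonneg fun _ _ => Finset.sum_nonneg fun _ _ => sq_nonneg _
  exact L2.ofMatrix (Real.sqrt_nonneg _) (by rw [Real.sq_sqrt (h0.trans H)]; exact H) S

lemma l2_C0 (hK : Kᵀ = K) (S : Finset (ι × ι)) :
    L2 S (C0 K) (Real.sqrt ((K ^ 2).trace)) := by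
  refine l2_mat (f := fun x y => K x y) ?_ S
  have := frob_pow hK 1
  simp only [pow_one, mul_one] at this
  exact this.le

lemma l2_C1 (hK : Kᵀ = K) (S : Finset (ι × ι)) :
    L2 S (C1 K) (Real.sqrt ((K ^ 4).trace)) := by
  refine l2_mat (f := fun x y => (K ^ 2) x y) ?_ S
  have := frob_pow hK 2
  simp only [Nat.reduceMul] at this
  exact this.le

lemma frob_sub_le (hK : Kᵀ = K) (i j : ℕ) :
    ∑ x, ∑ y, ((K ^ i) x y - (K ^ j) x y) ^ 2 ≤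
      2 * (K ^ (2 * i)).trace + 2 * (K ^ (2 * j)).trace := by
  rw [← frob_pow hK i, ← frob_pow hK j, Finset.mul_sum, Finset.mul_sum, ← Finset.sum_add_distrib]
  refine Finset.sum_le_sum fun x _ => ?_
  rw [Finset.mul_sum, Finset.mul_sum, ← Finset.sum_add_distrib]
  exact Finset.sum_le_sum fun y _ => sq_add_le _ _

lemma l2_C2 (hK : Kᵀ = K) (hL : OpB K L) (S : Finset (ι × ι)) :
    L2 S (C2 K) (Real.sqrt (2 * (L ^ 2 * (K ^ 4).trace + (K ^ 2).trace))) := by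
  refine l2_mat (f := fun x y => (K ^ 3) x y - K x y) ?_ S
  have h := frob_sub_le hK 3 1
  simp only [pow_one, Nat.reduceMul] at h
  have h2 := trace_six_le hK hL
  linarith

lemma tr4_nonneg (hK : Kᵀ = K) : 0 ≤ (K ^ 4).trace := by
  simpa using trace_even_nonneg hK 2

lemma tr2_nonneg (hK : Kᵀ = K) : 0 ≤ (K ^ 2).trace := by
  simpa using trace_even_nonneg hK 1

lemma l2_C3 (hK : Kᵀ = K) (hL : OpB K L) (h1 : 1 ≤ L) (S : Finset (ι × ι)) :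
    L2 S (C3 K) (2 * L ^ 2 * Real.sqrt ((K ^ 4).trace)) := by
  have t := tr4_nonneg hK
  have h : ∑ x, ∑ y, ((K ^ 4) x y - (K ^ 2) x y) ^ 2 ≤ (2 * L ^ 2) ^ 2 * (K ^ 4).trace := by
    have h := frob_sub_le hK 4 2
    simp only [Nat.reduceMul] at h
    have h2 := trace_eight_le hK hL
    have h3 : 1 ≤ L ^ 4 := one_le_pow₀ h1
    nlinarith
  have := l2_mat (f := fun x y => (K ^ 4) x y - (K ^ 2) x y) h S
  rwa [Real.sqrt_mul (sq_nonneg _), Real.sqrt_sq (by positivity)] at this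

lemma l2_C4 (hK : Kᵀ = K) (hL : OpB K L) (h1 : 1 ≤ L) (S : Finset (ι × ι)) :
    L2 S (C4 K) (2 * L ^ 3 * Real.sqrt ((K ^ 4).trace)) := by
  have h0 : 0 ≤ L := zero_le_one.trans h1
  have t := tr4_nonneg hK
  have h : ∑ x, ∑ y, ((K ^ 5) x y - (K ^ 3) x y) ^ 2 ≤ (2 * L ^ 3) ^ 2 * (K ^ 4).trace := by
    have h := frob_sub_le hK 5 3
    simp only [Nat.reduceMul] at h
    have h2 := trace_ten_le hK hL
    have h2' := trace_six_le hK hL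
    have h3 : L ^ 2 ≤ L ^ 6 := pow_le_pow_right₀ h1 (by norm_num)
    nlinarith
  have := l2_mat (f := fun x y => (K ^ 5) x y - (K ^ 3) x y) h S
  rwa [Real.sqrt_mul (sq_nonneg _), Real.sqrt_sq (by positivity)] at this

/-- `∑ Q_xy⁴ ≤ √R₂ · Y` -/
lemma sum_C1_four (hK : Kᵀ = K) :
    ∑ p ∈ F ×ˢ F, C1 K p ^ 4 ≤ Real.sqrt (R2v K) * Yv K := by
  have q0 : ∀ x, 0 ≤ (K ^ 2) x x := diag_sq_nonneg hK
  have e1 : ∀ x y, (K ^ 2) x y ^ 2 ≤ (K ^ 2) x x * (K ^ 2) y y := fun x y => by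
    have := entry_sq_le hK 1 1 x y
    simpa using this
  have e2 : ∀ x y, ((K ^ 2) x y) ^ 4 ≤
      ((K ^ 2) x y) ^ 2 * ((K ^ 2) x x) ^ 2 / 2 + ((K ^ 2) x y) ^ 2 * ((K ^ 2) y y) ^ 2 / 2 := by
    intro x y
    have h1 := mul_le_mul_of_nonneg_left (e1 x y) (sq_nonneg ((K ^ 2) x y))
    have h2 : (K ^ 2) x x * (K ^ 2) y y ≤ ((K ^ 2) x x) ^ 2 / 2 + ((K ^ 2) y y) ^ 2 / 2 := by
      nlinarith [sq_nonneg ((K ^ 2) x x - (K ^ 2) y y)]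
    have h3 := mul_le_mul_of_nonneg_left h2 (sq_nonneg ((K ^ 2) x y))
    calc _ = (K ^ 2) x y ^ 2 * (K ^ 2) x y ^ 2 := by ring
      _ ≤ _ := h1.trans h3
      _ = _ := by ring
  have e3 : ∀ x, ∑ y, ((K ^ 2) x y) ^ 2 = (K ^ 4) x x := fun x => by
    have := pow_add_apply hK 2 2 x x
    simp only [Nat.reduceAdd, dotProduct] at this
    rw [this]
    exact Finset.sum_congr rfl fun y _ => by rw [pow_apply_comm hK 2 x y]; ring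
  have e4 : ∀ y, ∑ x, ((K ^ 2) x y) ^ 2 = (K ^ 4) y y := fun y => by
    rw [← e3 y]
    exact Finset.sum_congr rfl fun x _ => by rw [pow_apply_comm hK 2 x y]
  have qle : ∀ x, (K ^ 2) x x ≤ Real.sqrt (R2v K) := fun x => by
    apply Real.le_sqrt_of_sq_le
    exact Finset.single_le_sum (f := fun x => ((K ^ 2) x x) ^ 2) (fun _ _ => sq_nonneg _)
      (Finset.mem_univ x)
  calc _ ≤ ∑ p : ι × ι, C1 K p ^ 4 :=
        Finset.sum_le_sum_of_subset_of_nonneg (Finset.subset_univ _) fun _ _ _ => by positivity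
    _ = ∑ x, ∑ y, ((K ^ 2) x y) ^ 4 := by rw [← Finset.univ_product_univ, Finset.sum_product]; rfl
    _ ≤ ∑ x, ∑ y, (((K ^ 2) x y) ^ 2 * ((K ^ 2) x x) ^ 2 / 2
          + ((K ^ 2) x y) ^ 2 * ((K ^ 2) y y) ^ 2 / 2) :=
        Finset.sum_le_sum fun x _ => Finset.sum_le_sum fun y _ => e2 x y
    _ = ∑ x, ((K ^ 2) x x) ^ 2 * (K ^ 4) x x := by
        simp only [Finset.sum_add_distrib]
        have a1 : ∑ x, ∑ y, ((K ^ 2) x y) ^ 2 * ((K ^ 2) x x) ^ 2 / 2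
            = ∑ x, ((K ^ 2) x x) ^ 2 * (K ^ 4) x x / 2 :=
          Finset.sum_congr rfl fun x _ => by
            rw [← Finset.sum_div, ← Finset.sum_mul, e3 x]; ring
        have a2 : ∑ x, ∑ y, ((K ^ 2) x y) ^ 2 * ((K ^ 2) y y) ^ 2 / 2
            = ∑ x, ((K ^ 2) x x) ^ 2 * (K ^ 4) x x / 2 := by
          rw [Finset.sum_comm]
          exact Finset.sum_congr rfl fun y _ => by
            rw [← Finset.sum_div, ← Finset.sum_mul, e4 y]; ring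
        rw [a1, a2, ← Finset.sum_add_distrib]
        exact Finset.sum_congr rfl fun x _ => by ring
    _ ≤ ∑ x, Real.sqrt (R2v K) * ((K ^ 2) x x * (K ^ 4) x x) := by
        refine Finset.sum_le_sum fun x _ => ?_
        have h := mul_nonneg (q0 x) (diag_four_nonneg hK x)
        calc _ = (K ^ 2) x x * ((K ^ 2) x x * (K ^ 4) x x) := by ring
          _ ≤ _ := mul_le_mul_of_nonneg_right (qle x) h
    _ = _ := by rw [← Finset.mul_sum]; rfl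

/-- all the bounds with the explicit norms -/
theorem bnd (hK : Kᵀ = K) (hL : OpB K L) (h1 : 1 ≤ L) (F : Finset ι) :
    Bnd K F (Real.sqrt (Vv K)) (Real.sqrt (Wv K F)) (Real.sqrt (2 * Yv K + 2 * Vv K))
      (2 * L ^ 2 * Real.sqrt (R2v K)) (2 * L ^ 3 * Real.sqrt (R2v K))
      (Real.sqrt ((K ^ 2).trace)) (Real.sqrt ((K ^ 4).trace))
      (Real.sqrt (2 * (L ^ 2 * (K ^ 4).trace + (K ^ 2).trace)))
      (2 * L ^ 2 * Real.sqrt ((K ^ 4).trace)) (2 * L ^ 3 * Real.sqrt ((K ^ 4).trace))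
      (Real.sqrt (R2v K) * Yv K) where
  a0 := L2.of_le (Finset.sum_le_sum_of_subset_of_nonneg (Finset.subset_univ F)
    fun _ _ _ => sq_nonneg _)
  a1 := L2.of_le le_rfl
  a2 := l2_A2 hK
  a3 := l2_A3 hK hL h1
  a4 := l2_A4 hK hL h1
  c0 := l2_C0 hK _
  c1 := l2_C1 hK _
  c2 := l2_C2 hK hL _
  c3 := l2_C3 hK hL h1 _
  c4 := l2_C4 hK hL h1 _
  cq := sum_C1_four hK

end inst

end Crest.Agent.R62.AvX4
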