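import Mathlib
import Crest.Agent.R62.Upd
import Crest.Agent.R62.AvBase

/-!
R62 (helper214): the cross functional `M₂₂ = ‖K⁺K⁻‖_F²` — algebra of one step.

With `X = K L`, `K' = upd s K x y`, `L' = upd t L x y`:
`K' L' = Π (X + A + B + C) Π`, and the pointwise upper bound of `‖K' L'‖²`.
-/

set_option autoImplicit false
set_option linter.unusedSectionVars false
set_option linter.unusedVariables false

open Matrix Finset

namespace Crest.Agent.R62.Cross

open Crest.Agent.R62.Upd

variable {ι : Type*} [Fintype ι] [DecidableEq ι]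

/-- Frobenius norm squared. -/
def fr (A : Matrix ι ι ℝ) : ℝ := ∑ i, ∑ j, A i j ^ 2

lemma fr_nonneg (A : Matrix ι ι ℝ) : 0 ≤ fr A :=
  Finset.sum_nonneg fun _ _ => Finset.sum_nonneg fun _ _ => sq_nonneg _

/-- left coefficients `E_K k_i`. -/
noncomputable def al (s : ℝ) (K : Matrix ι ι ℝ) (x y i : ι) : ℝ :=
  Bxx s K x y * K i x + Bxy s K x y * K i y
noncomputable def be (s : ℝ) (K : Matrix ι ι ℝ) (x y i : ι) : ℝ :=
  Bxy s K x y * K i x + Byy s K x y * K i y

lemma Khat_eq (s : ℝ) (K : Matrix ι ι ℝ) (x y i j : ι) :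
    Khat s K x y i j = K i j + al s K x y i * K j x + be s K x y i * K j y := by
  rw [Khat_apply, al, be]; ring

lemma Khat_x {s : ℝ} (hs : s ^ 2 = 1) {K : Matrix ι ι ℝ} (hK : K.IsSymm) {x y : ι}
    (hD : Dl s K x y ≠ 0) (i : ι) : Khat s K x y i x = s * be s K x y i := by
  rw [Khat_col_x hs hK hD, be, Bxy, Byy]
  field_simp
  linear_combination (-(1 - s * K x y) * K i x) * hs

lemma Khat_y {s : ℝ} (hs : s ^ 2 = 1) {K : Matrix ι ι ℝ} (hK : K.IsSymm) {x y : ι}
    (hD : Dl s K x y ≠ 0) (i : ι) : Khat s K x y i y = s * al s K x y i := by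
  rw [Khat_col_y hs hK hD, al, Bxy, Bxx]
  field_simp
  linear_combination (-(1 - s * K x y) * K i y) * hs

/-- The product before killing the indices. -/
noncomputable def Wh (s t : ℝ) (K L : Matrix ι ι ℝ) (x y : ι) : Matrix ι ι ℝ := fun i j =>
  (K * L) i j
  + (al s K x y i * (K * L) x j + be s K x y i * (K * L) y j)
  + ((K * L) i x * al t L x y j + (K * L) i y * be t L x y j)
  + (((K * L) x x - s * t) * (al s K x y i * al t L x y j)
    + (K * L) x y * (al s K x y i * be t L x y j)
    + (K * L) y x * (be s K x y i * al t L x y j)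
    + ((K * L) y y - s * t) * (be s K x y i * be t L x y j))

lemma prod_apply {s t : ℝ} (hs : s ^ 2 = 1) (ht : t ^ 2 = 1) {K L : Matrix ι ι ℝ}
    (hK : K.IsSymm) (hL : L.IsSymm) {x y : ι} (hxy : x ≠ y) (hD : Dl s K x y ≠ 0)
    (hD' : Dl t L x y ≠ 0) {i j : ι} (hi1 : i ≠ x) (hi2 : i ≠ y) (hj1 : j ≠ x) (hj2 : j ≠ y) :
    (upd s K x y * upd t L x y) i j = Wh s t K L x y i j := by
  rw [Matrix.mul_apply]
  have e : ∀ v, upd s K x y i v * upd t L x y v j
      = if v = x ∨ v = y then 0 else Khat s K x y i v * Khat t L x y j v := by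
    intro v
    by_cases hv : v = x ∨ v = y
    · rw [if_pos hv]
      rcases hv with rfl | rfl <;> simp [upd, Pi2]
    · rw [if_neg hv]
      push Not at hv
      rw [upd, Pi2_apply_of_ne _ hi1 hi2 hv.1 hv.2, upd, Pi2_apply_of_ne _ hv.1 hv.2 hj1 hj2,
        (Khat_symm t hL x y).apply j v]
  simp_rw [e]
  rw [sum_ne x y hxy, Khat_x hs hK hD, Khat_x ht hL hD', Khat_y hs hK hD, Khat_y ht hL hD']
  have hX : ∀ u v, ∑ w, K u w * L v w = (K * L) u v := by
    intro u v
    rw [Matrix.mul_apply]
    exact Finset.sum_congr rfl fun w _ => by rw [hL.apply w v]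
  have e2 : ∀ v, Khat s K x y i v * Khat t L x y j v =
      K i v * L j v + al t L x y j * (K i v * L x v) + be t L x y j * (K i v * L y v)
      + al s K x y i * (K x v * L j v) + be s K x y i * (K y v * L j v)
      + (al s K x y i * al t L x y j) * (K x v * L x v)
      + (al s K x y i * be t L x y j) * (K x v * L y v)
      + (be s K x y i * al t L x y j) * (K y v * L x v)
      + (be s K x y i * be t L x y j) * (K y v * L y v) := by
    intro v
    rw [Khat_eq, Khat_eq, hK.apply x v, hK.apply y v, hL.apply x v, hL.apply y v]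
    ring
  simp_rw [e2]
  simp only [Finset.sum_add_distrib, ← Finset.mul_sum, hX]
  rw [Wh]
  ring

/-- Frobenius norm of the new product. -/
lemma fr_prod {s t : ℝ} (hs : s ^ 2 = 1) (ht : t ^ 2 = 1) {K L : Matrix ι ι ℝ}
    (hK : K.IsSymm) (hL : L.IsSymm) {x y : ι} (hxy : x ≠ y) (hD : Dl s K x y ≠ 0)
    (hD' : Dl t L x y ≠ 0) :
    fr (upd s K x y * upd t L x y) =
      ∑ i, (if i = x ∨ i = y then 0 else
        ∑ j, (if j = x ∨ j = y then 0 else Wh s t K L x y i j ^ 2)) := by
  unfold fr
  refine Finset.sum_congr rfl fun i _ => ?_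
  by_cases hi : i = x ∨ i = y
  · rw [if_pos hi]
    apply Finset.sum_eq_zero
    intro j _
    have : (upd s K x y * upd t L x y) i j = 0 := by
      rw [Matrix.mul_apply]
      apply Finset.sum_eq_zero
      intro v _
      rcases hi with rfl | rfl <;> simp [upd, Pi2]
    rw [this]; norm_num
  · rw [if_neg hi]
    refine Finset.sum_congr rfl fun j _ => ?_
    by_cases hj : j = x ∨ j = y
    · rw [if_pos hj]
      have : (upd s K x y * upd t L x y) i j = 0 := by
        rw [Matrix.mul_apply]
        apply Finset.sum_eq_zero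
        intro v _
        rcases hj with rfl | rfl <;> simp [upd, Pi2]
      rw [this]; norm_num
    · rw [if_neg hj]
      push Not at hi hj
      rw [prod_apply hs ht hK hL hxy hD hD' hi.1 hi.2 hj.1 hj.2]

end Crest.Agent.R62.Cross
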