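import Mathlib
import Crest.Agent.R62.CrossA
import Crest.Agent.R62.AvX1

/-!
R62 (helper214): the cross functional — pointwise upper bound of one step.
-/

set_option autoImplicit false
set_option linter.unusedSectionVars false
set_option linter.unusedVariables false

open Matrix Finset

namespace Crest.Agent.R62.Cross

open Crest.Agent.R62.Upd Crest.Agent.R62.AvX1

variable {ι : Type*} [Fintype ι] [DecidableEq ι]

/-! ### scalar bounds -/

section scal
variable {s : ℝ} {K : Matrix ι ι ℝ} {x y : ι}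

lemma abs_Bxx (hs : s ^ 2 = 1) (hg : GoodPair K x y) : |Bxx s K x y| ≤ 4 * |K y y| := by
  have hD := Dl_ge hs hg.2.1 hg.2.2
  rw [Bxx, abs_div, abs_of_pos (by linarith : 0 < Dl s K x y), div_le_iff₀ (by linarith)]
  nlinarith [abs_nonneg (K y y)]

lemma abs_Byy (hs : s ^ 2 = 1) (hg : GoodPair K x y) : |Byy s K x y| ≤ 4 * |K x x| := by
  have hD := Dl_ge hs hg.2.1 hg.2.2
  rw [Byy, abs_div, abs_of_pos (by linarith : 0 < Dl s K x y), div_le_iff₀ (by linarith)]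
  nlinarith [abs_nonneg (K x x)]

lemma abs_Bxy_sub (hs : s ^ 2 = 1) (hg : GoodPair K x y) :
    |Bxy s K x y - s| ≤ 4 * (|K x y| + |K x x * K y y|) := by
  have hD := Dl_ge hs hg.2.1 hg.2.2
  have hD0 : 0 < Dl s K x y := by linarith
  have e : Bxy s K x y - s
      = s * (s * K x y * (1 - s * K x y) + K x x * K y y) / Dl s K x y := by
    rw [Bxy, eq_div_iff hD0.ne', sub_mul, div_mul_cancel₀ _ hD0.ne', Dl]
    ring
  rw [e, abs_div, abs_mul, abs_s hs, one_mul, abs_of_pos hD0, div_le_iff₀ hD0]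
  have h1 : |s * K x y * (1 - s * K x y)| ≤ |K x y| * (5 / 4) := by
    rw [abs_mul, abs_mul, abs_s hs, one_mul]
    refine mul_le_mul_of_nonneg_left ?_ (abs_nonneg _)
    have h2 : |s * K x y| ≤ 1 / 4 := by rw [abs_mul, abs_s hs, one_mul]; exact hg.2.1
    have h3 := abs_le.mp h2
    rw [abs_le]; constructor <;> linarith
  have h4 := abs_add_le (s * K x y * (1 - s * K x y)) (K x x * K y y)
  nlinarith [abs_nonneg (K x y), abs_nonneg (K x x * K y y)]

lemma abs_Bxy (hs : s ^ 2 = 1) (hg : GoodPair K x y) : |Bxy s K x y| ≤ 4 := by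
  have hD := Dl_ge hs hg.2.1 hg.2.2
  have hD0 : 0 < Dl s K x y := by linarith
  rw [Bxy, abs_div, abs_mul, abs_s hs, one_mul, abs_of_pos hD0, div_le_iff₀ hD0]
  have h2 : |s * K x y| ≤ 1 / 4 := by rw [abs_mul, abs_s hs, one_mul]; exact hg.2.1
  have h3 := abs_le.mp h2
  rw [abs_le]; constructor <;> nlinarith

lemma al_x_eq (hs : s ^ 2 = 1) (hD0 : Dl s K x y ≠ 0) :
    al s K x y x = s * (Bxy s K x y - s) := by
  rw [al, Bxx, Bxy]
  field_simp
  rw [Dl]
  linear_combination (-(K x x * K y y) + s ^ 2 * K x y ^ 2 - 2 * s * K x y + 1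
    - (1 - s * K x y)) * hs

lemma abs_al_x (hs : s ^ 2 = 1) (hg : GoodPair K x y) :
    |al s K x y x| ≤ 4 * (|K x y| + |K x x * K y y|) := by
  have hD := Dl_ge hs hg.2.1 hg.2.2
  rw [al_x_eq hs (by linarith), abs_mul, abs_s hs, one_mul]
  exact abs_Bxy_sub hs hg

lemma abs_al_x' (hs : s ^ 2 = 1) (hg : GoodPair K x y) : |al s K x y x| ≤ 2 :=
  (abs_al_x hs hg).trans (by linarith [hg.2.1, hg.2.2])

lemma be_x_eq (hs : s ^ 2 = 1) (hD0 : Dl s K x y ≠ 0) :
    be s K x y x = s * Byy s K x y := by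
  rw [be, Bxy, Byy]
  field_simp
  linear_combination (-(K x x * K x y)) * hs

lemma abs_be_x (hs : s ^ 2 = 1) (hg : GoodPair K x y) :
    |be s K x y x| ≤ 4 * |K x x| := by
  have hD := Dl_ge hs hg.2.1 hg.2.2
  rw [be_x_eq hs (by linarith), abs_mul, abs_s hs, one_mul]
  exact abs_Byy hs hg

end scal

/-! ### row norms -/

/-- squared norm of row `u` -/
def rn (A : Matrix ι ι ℝ) (u : ι) : ℝ := ∑ j, A u j ^ 2

lemma rn_nonneg (A : Matrix ι ι ℝ) (u : ι) : 0 ≤ rn A u := Finset.sum_nonneg fun _ _ => sq_nonneg _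

lemma sum_rn (A : Matrix ι ι ℝ) : ∑ u, rn A u = fr A := rfl

lemma rn_symm {K : Matrix ι ι ℝ} (hK : K.IsSymm) (u : ι) : ∑ i, K i u ^ 2 = rn K u :=
  Finset.sum_congr rfl fun i _ => by rw [hK.apply u i]

/-- squared norm of a vector -/
def nv (f : ι → ℝ) : ℝ := ∑ i, f i ^ 2

lemma nv_nonneg (f : ι → ℝ) : 0 ≤ nv f := Finset.sum_nonneg fun _ _ => sq_nonneg _

lemma nv_add_le (f g : ι → ℝ) : nv (fun i => f i + g i) ≤ 2 * (nv f + nv g) := by
  unfold nv
  rw [← Finset.sum_add_distrib, Finset.mul_sum]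
  exact Finset.sum_le_sum fun i _ => by nlinarith [sq_nonneg (f i - g i)]

lemma nv_smul (c : ℝ) (f : ι → ℝ) : nv (fun i => c * f i) = c ^ 2 * nv f := by
  unfold nv
  rw [Finset.mul_sum]
  exact Finset.sum_congr rfl fun i _ => by ring

lemma nv_lin_le (a b : ℝ) (f g : ι → ℝ) :
    nv (fun i => a * f i + b * g i) ≤ 2 * (a ^ 2 * nv f + b ^ 2 * nv g) := by
  have h := nv_add_le (fun i => a * f i) (fun i => b * g i)
  rw [nv_smul, nv_smul] at h
  exact h

lemma nv_col {K : Matrix ι ι ℝ} (hK : K.IsSymm) (u : ι) : nv (fun i => K i u) = rn K u :=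
  rn_symm hK u

lemma sq_le_of_abs_le {a b : ℝ} (h : |a| ≤ b) : a ^ 2 ≤ b ^ 2 := by
  have := abs_le.mp h
  nlinarith [abs_nonneg a]

section vec
variable {s : ℝ} {K : Matrix ι ι ℝ} {x y : ι}

lemma nv_al (hs : s ^ 2 = 1) (hK : K.IsSymm) (hg : GoodPair K x y) :
    nv (al s K x y) ≤ 32 * (K y y ^ 2 * rn K x + rn K y) := by
  have h := nv_lin_le (Bxx s K x y) (Bxy s K x y) (fun i => K i x) (fun i => K i y)
  rw [nv_col hK, nv_col hK] at h
  have h1 : Bxx s K x y ^ 2 ≤ 16 * K y y ^ 2 := by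
    have := sq_le_of_abs_le (abs_Bxx hs hg)
    rw [mul_pow, sq_abs] at this; linarith
  have h2 : Bxy s K x y ^ 2 ≤ 16 := by
    have := sq_le_of_abs_le (abs_Bxy hs hg); linarith
  have := mul_le_mul_of_nonneg_right h1 (rn_nonneg K x)
  have := mul_le_mul_of_nonneg_right h2 (rn_nonneg K y)
  have e : nv (al s K x y) = nv (fun i => Bxx s K x y * K i x + Bxy s K x y * K i y) := rfl
  rw [e]; linarith

lemma nv_be (hs : s ^ 2 = 1) (hK : K.IsSymm) (hg : GoodPair K x y) :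
    nv (be s K x y) ≤ 32 * (rn K x + K x x ^ 2 * rn K y) := by
  have h := nv_lin_le (Bxy s K x y) (Byy s K x y) (fun i => K i x) (fun i => K i y)
  rw [nv_col hK, nv_col hK] at h
  have h1 : Byy s K x y ^ 2 ≤ 16 * K x x ^ 2 := by
    have := sq_le_of_abs_le (abs_Byy hs hg)
    rw [mul_pow, sq_abs] at this; linarith
  have h2 : Bxy s K x y ^ 2 ≤ 16 := by
    have := sq_le_of_abs_le (abs_Bxy hs hg); linarith
  have := mul_le_mul_of_nonneg_right h1 (rn_nonneg K y)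
  have := mul_le_mul_of_nonneg_right h2 (rn_nonneg K x)
  have e : nv (be s K x y) = nv (fun i => Bxy s K x y * K i x + Byy s K x y * K i y) := rfl
  rw [e]; linarith

/-- `|al - s k_y|²` -/
lemma nv_al_sub (hs : s ^ 2 = 1) (hK : K.IsSymm) (hg : GoodPair K x y) :
    nv (fun i => al s K x y i - s * K i y)
      ≤ 64 * (K y y ^ 2 * rn K x + (K x y ^ 2 + (K x x * K y y) ^ 2) * rn K y) := by
  have h := nv_lin_le (Bxx s K x y) (Bxy s K x y - s) (fun i => K i x) (fun i => K i y)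
  rw [nv_col hK, nv_col hK] at h
  have h1 : Bxx s K x y ^ 2 ≤ 16 * K y y ^ 2 := by
    have := sq_le_of_abs_le (abs_Bxx hs hg)
    rw [mul_pow, sq_abs] at this; linarith
  have h2 : (Bxy s K x y - s) ^ 2 ≤ 32 * (K x y ^ 2 + (K x x * K y y) ^ 2) := by
    have h3 := sq_le_of_abs_le (abs_Bxy_sub hs hg)
    have h4 : (4 * (|K x y| + |K x x * K y y|)) ^ 2
        ≤ 32 * (|K x y| ^ 2 + |K x x * K y y| ^ 2) := by
      nlinarith [sq_nonneg (|K x y| - |K x x * K y y|)]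
    rw [sq_abs, sq_abs] at h4
    linarith
  have := mul_le_mul_of_nonneg_right h1 (rn_nonneg K x)
  have := mul_le_mul_of_nonneg_right h2 (rn_nonneg K y)
  have e : nv (fun i => al s K x y i - s * K i y)
      = nv (fun i => Bxx s K x y * K i x + (Bxy s K x y - s) * K i y) := by
    unfold nv al
    exact Finset.sum_congr rfl fun i _ => by ring
  rw [e]; linarith [mul_nonneg (sq_nonneg (K y y)) (rn_nonneg K x)]

end vec

/-! ### swapping symmetries -/

lemma Dl_comm {s : ℝ} {K : Matrix ι ι ℝ} (hK : K.IsSymm) (x y : ι) : Dl s K y x = Dl s K x y := by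
  rw [Dl, Dl, hK.apply x y]; ring

lemma al_comm {s : ℝ} {K : Matrix ι ι ℝ} (hK : K.IsSymm) (x y i : ι) :
    al s K y x i = be s K x y i := by
  rw [al, be, Bxx, Bxy, Bxy, Byy, Dl_comm hK, hK.apply x y]; ring

lemma be_comm {s : ℝ} {K : Matrix ι ι ℝ} (hK : K.IsSymm) (x y i : ι) :
    be s K y x i = al s K x y i := by
  rw [← al_comm hK]

lemma GoodPair.swap {K : Matrix ι ι ℝ} (hK : K.IsSymm) {x y : ι} (hg : GoodPair K x y) :
    GoodPair K y x := by
  refine ⟨hg.1.symm, ?_, ?_⟩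
  · rw [hK.apply x y]; exact hg.2.1
  · rw [mul_comm]; exact hg.2.2

lemma mulT {K L : Matrix ι ι ℝ} (hK : K.IsSymm) (hL : L.IsSymm) (i j : ι) :
    (L * K) i j = (K * L) j i := by
  rw [Matrix.mul_apply, Matrix.mul_apply]
  exact Finset.sum_congr rfl fun v _ => by rw [hK.apply j v, hL.apply v i]; ring

lemma Wh_comm {s t : ℝ} {K L : Matrix ι ι ℝ} (hK : K.IsSymm) (hL : L.IsSymm) (x y i j : ι) :
    Wh s t K L y x i j = Wh s t K L x y i j := by
  rw [Wh, Wh, al_comm hK x y i, be_comm hK x y i, al_comm hL x y j, be_comm hL x y j]; ring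

lemma Wh_transpose {s t : ℝ} {K L : Matrix ι ι ℝ} (hK : K.IsSymm) (hL : L.IsSymm) (x y i j : ι) :
    Wh t s L K x y j i = Wh s t K L x y i j := by
  rw [Wh, Wh, mulT hK hL j i, mulT hK hL x i, mulT hK hL y i, mulT hK hL j x, mulT hK hL j y,
    mulT hK hL x x, mulT hK hL x y, mulT hK hL y x, mulT hK hL y y]; ring

/-! ### removing the rows and columns -/

/-- the change before killing the indices -/
noncomputable def Dd (s t : ℝ) (K L : Matrix ι ι ℝ) (x y i j : ι) : ℝ :=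
  Wh s t K L x y i j - (K * L) i j

lemma Dd_comm {s t : ℝ} {K L : Matrix ι ι ℝ} (hK : K.IsSymm) (hL : L.IsSymm) (x y i j : ι) :
    Dd s t K L y x i j = Dd s t K L x y i j := by
  rw [Dd, Dd, Wh_comm hK hL]

lemma Dd_transpose {s t : ℝ} {K L : Matrix ι ι ℝ} (hK : K.IsSymm) (hL : L.IsSymm) (x y i j : ι) :
    Dd t s L K x y j i = Dd s t K L x y i j := by
  rw [Dd, Dd, Wh_transpose hK hL, mulT hK hL]

lemma low_sq {δ X D : ℝ} (hδ : 0 < δ) : (1 - δ) * X ^ 2 - δ⁻¹ * D ^ 2 ≤ (X + D) ^ 2 := by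
  have h : 0 ≤ δ⁻¹ * (δ * X + D) ^ 2 := mul_nonneg (inv_nonneg.mpr hδ.le) (sq_nonneg _)
  have e : δ⁻¹ * (δ * X + D) ^ 2 = δ * X ^ 2 + 2 * X * D + δ⁻¹ * D ^ 2 := by
    field_simp; ring
  nlinarith [sq_nonneg D]

lemma drop_rows {δ : ℝ} (hδ : 0 < δ) (hδ1 : δ ≤ 1) {x y : ι} (hxy : x ≠ y)
    (X D : ι → ι → ℝ) :
    (∑ i, (if i = x ∨ i = y then 0 else
        ∑ j, (if j = x ∨ j = y then 0 else (X i j + D i j) ^ 2)))
      ≤ (∑ i, ∑ j, (X i j + D i j) ^ 2)
        - (1 - δ) * ((∑ j, X x j ^ 2) + (∑ j, X y j ^ 2) + (∑ i, X i x ^ 2) + (∑ i, X i y ^ 2))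
        + (X x x ^ 2 + X x y ^ 2 + X y x ^ 2 + X y y ^ 2)
        + δ⁻¹ * ((∑ j, D x j ^ 2) + (∑ j, D y j ^ 2) + (∑ i, D i x ^ 2) + (∑ i, D i y ^ 2)) := by
  have hδi : 0 ≤ δ⁻¹ := inv_nonneg.mpr hδ.le
  set W : ι → ι → ℝ := fun i j => (X i j + D i j) ^ 2 with hW
  have h1 : (∑ i, (if i = x ∨ i = y then 0 else ∑ j, (if j = x ∨ j = y then 0 else W i j)))
      = (∑ i, ∑ j, W i j) - (∑ i, W i x) - (∑ i, W i y)
        - ((∑ j, W x j) - W x x - W x y) - ((∑ j, W y j) - W y x - W y y) := by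
    have e : ∀ i, ∑ j, (if j = x ∨ j = y then 0 else W i j)
        = (∑ j, W i j) - W i x - W i y := fun i => sum_ne x y hxy (fun j => W i j)
    simp_rw [e]
    rw [sum_ne x y hxy (fun i => (∑ j, W i j) - W i x - W i y)]
    simp only [Finset.sum_sub_distrib]
  -- rows
  have hrow : ∀ u, (1 - δ) * (∑ j, X u j ^ 2) - δ⁻¹ * (∑ j, D u j ^ 2) ≤ ∑ j, W u j := by
    intro u
    rw [Finset.mul_sum, Finset.mul_sum, ← Finset.sum_sub_distrib]
    exact Finset.sum_le_sum fun j _ => low_sq hδ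
  -- columns
  have hcol : ∀ u, (1 - δ) * ((∑ i, X i u ^ 2) - X x u ^ 2 - X y u ^ 2) - δ⁻¹ * (∑ i, D i u ^ 2)
      ≤ (∑ i, W i u) - W x u - W y u := by
    intro u
    have e1 := sum_ne x y hxy (fun i => W i u)
    have e2 := sum_ne x y hxy (fun i => X i u ^ 2)
    rw [← e1, ← e2, Finset.mul_sum, Finset.mul_sum, ← Finset.sum_sub_distrib]
    refine Finset.sum_le_sum fun i _ => ?_
    by_cases hi : i = x ∨ i = y
    · rw [if_pos hi, if_pos hi]
      have := mul_nonneg hδi (sq_nonneg (D i u))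
      linarith
    · rw [if_neg hi, if_neg hi]; exact low_sq hδ
  rw [h1]
  have a1 := hrow x
  have a2 := hrow y
  have a3 := hcol x
  have a4 := hcol y
  have b1 := mul_nonneg hδ.le (sq_nonneg (X x x))
  have b2 := mul_nonneg hδ.le (sq_nonneg (X x y))
  have b3 := mul_nonneg hδ.le (sq_nonneg (X y x))
  have b4 := mul_nonneg hδ.le (sq_nonneg (X y y))
  nlinarith

end Crest.Agent.R62.Cross
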