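import Mathlib
import Crest.Agent.R62.CrossB

/-!
R62 (helper214): the cross functional — pointwise upper bound of one step, part 2.
-/

set_option autoImplicit false
set_option linter.unusedSectionVars false
set_option linter.unusedVariables false

open Matrix Finset

namespace Crest.Agent.R62.Cross

open Crest.Agent.R62.Upd Crest.Agent.R62.AvX1

variable {ι : Type*} [Fintype ι] [DecidableEq ι]

/-- `(K X Xᵀ)_uv`, `X = K L`. -/
def Yc (K L : Matrix ι ι ℝ) (u v : ι) : ℝ := ∑ j, (K * (K * L)) u j * (K * L) v j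
/-- `(K X L)_uv`. -/
def Zc (K L : Matrix ι ι ℝ) (u v : ι) : ℝ := ∑ j, (K * (K * L)) u j * L v j

lemma form1 {K L : Matrix ι ι ℝ} (hK : K.IsSymm) (u : ι) (g : ι → ℝ) :
    ∑ i, ∑ j, (K * L) i j * (K i u * g j) = ∑ j, (K * (K * L)) u j * g j := by
  rw [Finset.sum_comm]
  refine Finset.sum_congr rfl fun j _ => ?_
  rw [Matrix.mul_apply (M := K) (N := K * L), Finset.sum_mul]
  exact Finset.sum_congr rfl fun i _ => by rw [hK.apply u i]; ring

lemma form_al {s : ℝ} {K L : Matrix ι ι ℝ} (hK : K.IsSymm) (x y : ι) (g : ι → ℝ) :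
    ∑ i, ∑ j, (K * L) i j * (al s K x y i * g j)
      = Bxx s K x y * (∑ j, (K * (K * L)) x j * g j)
        + Bxy s K x y * (∑ j, (K * (K * L)) y j * g j) := by
  rw [← form1 hK x g, ← form1 hK y g, Finset.mul_sum, Finset.mul_sum, ← Finset.sum_add_distrib]
  refine Finset.sum_congr rfl fun i _ => ?_
  rw [Finset.mul_sum, Finset.mul_sum, ← Finset.sum_add_distrib]
  exact Finset.sum_congr rfl fun j _ => by rw [al]; ring

lemma form_be {s : ℝ} {K L : Matrix ι ι ℝ} (hK : K.IsSymm) (x y : ι) (g : ι → ℝ) :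
    ∑ i, ∑ j, (K * L) i j * (be s K x y i * g j)
      = Bxy s K x y * (∑ j, (K * (K * L)) x j * g j)
        + Byy s K x y * (∑ j, (K * (K * L)) y j * g j) := by
  rw [← form1 hK x g, ← form1 hK y g, Finset.mul_sum, Finset.mul_sum, ← Finset.sum_add_distrib]
  refine Finset.sum_congr rfl fun i _ => ?_
  rw [Finset.mul_sum, Finset.mul_sum, ← Finset.sum_add_distrib]
  exact Finset.sum_congr rfl fun j _ => by rw [be]; ring

/-- first order half -/
noncomputable def h1 (s : ℝ) (K L : Matrix ι ι ℝ) (x y : ι) : ℝ :=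
  Bxx s K x y * Yc K L x x + Bxy s K x y * Yc K L y x

/-- the form `⟨X, al ⊗ al'⟩` -/
noncomputable def Faa (s t : ℝ) (K L : Matrix ι ι ℝ) (x y : ι) : ℝ :=
  Bxx s K x y * (Bxx t L x y * Zc K L x x + Bxy t L x y * Zc K L x y)
    + Bxy s K x y * (Bxx t L x y * Zc K L y x + Bxy t L x y * Zc K L y y)
noncomputable def Fab (s t : ℝ) (K L : Matrix ι ι ℝ) (x y : ι) : ℝ :=
  Bxx s K x y * (Bxy t L x y * Zc K L x x + Byy t L x y * Zc K L x y)
    + Bxy s K x y * (Bxy t L x y * Zc K L y x + Byy t L x y * Zc K L y y)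

/-- second order half -/
noncomputable def h2 (s t : ℝ) (K L : Matrix ι ι ℝ) (x y : ι) : ℝ :=
  ((K * L) x x - s * t) * Faa s t K L x y + (K * L) x y * Fab s t K L x y

lemma Bxx_comm {s : ℝ} {K : Matrix ι ι ℝ} (hK : K.IsSymm) (x y : ι) :
    Bxx s K y x = Byy s K x y := by rw [Bxx, Byy, Dl_comm hK]
lemma Byy_comm {s : ℝ} {K : Matrix ι ι ℝ} (hK : K.IsSymm) (x y : ι) :
    Byy s K y x = Bxx s K x y := by rw [Bxx, Byy, Dl_comm hK]
lemma Bxy_comm {s : ℝ} {K : Matrix ι ι ℝ} (hK : K.IsSymm) (x y : ι) :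
    Bxy s K y x = Bxy s K x y := by rw [Bxy, Bxy, Dl_comm hK, hK.apply x y]

lemma sum_al_g {t : ℝ} {K L : Matrix ι ι ℝ} (x y : ι) (w : ι → ℝ) :
    ∑ j, w j * al t L x y j = Bxx t L x y * (∑ j, w j * L j x) + Bxy t L x y * (∑ j, w j * L j y) := by
  rw [Finset.mul_sum, Finset.mul_sum, ← Finset.sum_add_distrib]
  exact Finset.sum_congr rfl fun j _ => by rw [al]; ring
lemma sum_be_g {t : ℝ} {K L : Matrix ι ι ℝ} (x y : ι) (w : ι → ℝ) :
    ∑ j, w j * be t L x y j = Bxy t L x y * (∑ j, w j * L j x) + Byy t L x y * (∑ j, w j * L j y) := by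
  rw [Finset.mul_sum, Finset.mul_sum, ← Finset.sum_add_distrib]
  exact Finset.sum_congr rfl fun j _ => by rw [be]; ring

lemma Zc_eq {K L : Matrix ι ι ℝ} (hL : L.IsSymm) (u v : ι) :
    ∑ j, (K * (K * L)) u j * L j v = Zc K L u v := by
  rw [Zc]; exact Finset.sum_congr rfl fun j _ => by rw [hL.apply v j]

/-- `⟨X, D⟩` -/
lemma ip_X_D {s t : ℝ} {K L : Matrix ι ι ℝ} (hK : K.IsSymm) (hL : L.IsSymm) (x y : ι) :
    ∑ i, ∑ j, (K * L) i j * Dd s t K L x y i j =
      h1 s K L x y + h1 s K L y x + (h1 t L K x y + h1 t L K y x)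
        + (h2 s t K L x y + h2 s t K L y x) := by
  have e0 : ∀ i j, (K * L) i j * Dd s t K L x y i j =
      (K * L) i j * (al s K x y i * (K * L) x j) + (K * L) i j * (be s K x y i * (K * L) y j)
      + ((L * K) j i * (al t L x y j * (L * K) x i) + (L * K) j i * (be t L x y j * (L * K) y i))
      + (((K * L) x x - s * t) * ((K * L) i j * (al s K x y i * al t L x y j))
        + (K * L) x y * ((K * L) i j * (al s K x y i * be t L x y j))
        + (K * L) y x * ((K * L) i j * (be s K x y i * al t L x y j))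
        + ((K * L) y y - s * t) * ((K * L) i j * (be s K x y i * be t L x y j))) := by
    intro i j
    rw [Dd, Wh, mulT hK hL j i, mulT hK hL x i, mulT hK hL y i]
    ring
  simp_rw [e0]
  simp only [Finset.sum_add_distrib, ← Finset.mul_sum]
  rw [form_al hK, form_be hK, form_al hK, form_al hK, form_be hK, form_be hK]
  have e1 : ∑ i, ∑ j, (L * K) j i * (al t L x y j * (L * K) x i)
      = Bxx t L x y * Yc L K x x + Bxy t L x y * Yc L K y x := by
    rw [Finset.sum_comm, form_al hL]; rfl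
  have e2 : ∑ i, ∑ j, (L * K) j i * (be t L x y j * (L * K) y i)
      = Bxy t L x y * Yc L K x y + Byy t L x y * Yc L K y y := by
    rw [Finset.sum_comm, form_be hL]; rfl
  rw [e1, e2]
  simp only [sum_al_g (K := K), sum_be_g (K := K), Zc_eq hL]
  rw [h1, h1, h1, h1, h2, h2, Faa, Faa, Fab, Fab]
  rw [Bxx_comm hK x y, Bxy_comm hK x y, Bxx_comm hL x y, Bxy_comm hL x y, Byy_comm hL x y]
  simp only [Yc]
  ring

/-- main part of `D` -/
noncomputable def G0 (s t : ℝ) (K L : Matrix ι ι ℝ) (x y : ι) : Matrix ι ι ℝ := fun i j =>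
  s * (K i y * (K * L) x j + K i x * (K * L) y j)
    + t * ((K * L) i x * L j y + (K * L) i y * L j x)

lemma fr_rank_one (c : ℝ) (f g : ι → ℝ) :
    ∑ i, ∑ j, (c * (f i * g j)) ^ 2 = c ^ 2 * (nv f * nv g) := by
  unfold nv
  rw [Finset.sum_mul_sum, Finset.mul_sum]
  refine Finset.sum_congr rfl fun i _ => ?_
  rw [Finset.mul_sum]
  exact Finset.sum_congr rfl fun j _ => by ring

lemma sq_add_le (δ u v : ℝ) (hδ : 0 < δ) :
    (u + v) ^ 2 ≤ (1 + δ) * u ^ 2 + (1 + δ⁻¹) * v ^ 2 := by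
  have h : 0 ≤ δ⁻¹ * (δ * u - v) ^ 2 := mul_nonneg (inv_nonneg.mpr hδ.le) (sq_nonneg _)
  have e : δ⁻¹ * (δ * u - v) ^ 2 = δ * u ^ 2 - 2 * u * v + δ⁻¹ * v ^ 2 := by
    field_simp; ring
  nlinarith

lemma two_sq (a b : ℝ) : (a + b) ^ 2 ≤ 2 * (a ^ 2 + b ^ 2) := by nlinarith [sq_nonneg (a - b)]

lemma eight_sq (a b c d e f g h : ℝ) :
    (a + b + c + d + e + f + g + h) ^ 2
      ≤ 8 * (a ^ 2 + b ^ 2 + c ^ 2 + d ^ 2 + e ^ 2 + f ^ 2 + g ^ 2 + h ^ 2) := by
  have h1 := two_sq (a + b + c + d) (e + f + g + h)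
  have h2 := two_sq (a + b) (c + d)
  have h3 := two_sq (e + f) (g + h)
  have h4 := two_sq a b
  have h5 := two_sq c d
  have h6 := two_sq e f
  have h7 := two_sq g h
  have e1 : a + b + c + d + e + f + g + h = (a + b + c + d) + (e + f + g + h) := by ring
  have e2 : a + b + c + d = (a + b) + (c + d) := by ring
  have e3 : e + f + g + h = (e + f) + (g + h) := by ring
  rw [e1]
  rw [← e2] at h2
  rw [← e3] at h3
  linarith

/-- third half -/
noncomputable def h3 (s : ℝ) (K L : Matrix ι ι ℝ) (x y : ι) : ℝ :=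
  nv (fun i => al s K x y i - s * K i y) * rn (K * L) x
/-- fourth half -/
noncomputable def h4 (s t : ℝ) (K L : Matrix ι ι ℝ) (x y : ι) : ℝ :=
  ((K * L) x x - s * t) ^ 2 * (nv (al s K x y) * nv (al t L x y))
    + (K * L) x y ^ 2 * (nv (al s K x y) * nv (be t L x y))

lemma be_sub_comm {s : ℝ} {K : Matrix ι ι ℝ} (hK : K.IsSymm) (x y : ι) :
    (fun i => be s K x y i - s * K i x) = fun i => al s K y x i - s * K i x := by
  ext i; rw [al_comm hK]

lemma al_fun_comm {s : ℝ} {K : Matrix ι ι ℝ} (hK : K.IsSymm) (x y : ι) :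
    al s K y x = be s K x y := by ext i; exact al_comm hK x y i
lemma be_fun_comm {s : ℝ} {K : Matrix ι ι ℝ} (hK : K.IsSymm) (x y : ι) :
    be s K y x = al s K x y := by ext i; exact be_comm hK x y i

lemma nv_row (A : Matrix ι ι ℝ) (u : ι) : nv (fun j => A u j) = rn A u := rfl

lemma nv_colX {K L : Matrix ι ι ℝ} (hK : K.IsSymm) (hL : L.IsSymm) (u : ι) :
    nv (fun i => (K * L) i u) = rn (L * K) u := by
  unfold nv rn
  exact Finset.sum_congr rfl fun i _ => by rw [mulT hK hL u i]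

lemma fr_D_sub {s t : ℝ} {K L : Matrix ι ι ℝ} (hK : K.IsSymm) (hL : L.IsSymm) (x y : ι) :
    ∑ i, ∑ j, (Dd s t K L x y i j - G0 s t K L x y i j) ^ 2 ≤
      8 * (h3 s K L x y + h3 s K L y x + (h3 t L K x y + h3 t L K y x)
        + (h4 s t K L x y + h4 s t K L y x)) := by
  have e0 : ∀ i j, (Dd s t K L x y i j - G0 s t K L x y i j) ^ 2 ≤
      8 * ((1 * ((al s K x y i - s * K i y) * (K * L) x j)) ^ 2
        + (1 * ((be s K x y i - s * K i x) * (K * L) y j)) ^ 2
        + (1 * ((K * L) i x * (al t L x y j - t * L j y))) ^ 2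
        + (1 * ((K * L) i y * (be t L x y j - t * L j x))) ^ 2
        + (((K * L) x x - s * t) * (al s K x y i * al t L x y j)) ^ 2
        + ((K * L) x y * (al s K x y i * be t L x y j)) ^ 2
        + ((K * L) y x * (be s K x y i * al t L x y j)) ^ 2
        + (((K * L) y y - s * t) * (be s K x y i * be t L x y j)) ^ 2) := by
    intro i j
    have h := eight_sq (1 * ((al s K x y i - s * K i y) * (K * L) x j))
      (1 * ((be s K x y i - s * K i x) * (K * L) y j))
      (1 * ((K * L) i x * (al t L x y j - t * L j y)))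
      (1 * ((K * L) i y * (be t L x y j - t * L j x)))
      (((K * L) x x - s * t) * (al s K x y i * al t L x y j))
      ((K * L) x y * (al s K x y i * be t L x y j))
      ((K * L) y x * (be s K x y i * al t L x y j))
      (((K * L) y y - s * t) * (be s K x y i * be t L x y j))
    refine le_trans (le_of_eq ?_) h
    congr 1
    rw [Dd, Wh, G0]
    ring
  refine (Finset.sum_le_sum fun i _ => Finset.sum_le_sum fun j _ => e0 i j).trans (le_of_eq ?_)
  simp only [← Finset.mul_sum, Finset.sum_add_distrib]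
  rw [fr_rank_one 1 (fun i => al s K x y i - s * K i y) (fun j => (K * L) x j),
    fr_rank_one 1 (fun i => be s K x y i - s * K i x) (fun j => (K * L) y j),
    fr_rank_one 1 (fun i => (K * L) i x) (fun j => al t L x y j - t * L j y),
    fr_rank_one 1 (fun i => (K * L) i y) (fun j => be t L x y j - t * L j x),
    fr_rank_one _ (al s K x y) (al t L x y), fr_rank_one _ (al s K x y) (be t L x y),
    fr_rank_one _ (be s K x y) (al t L x y), fr_rank_one _ (be s K x y) (be t L x y)]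
  rw [nv_row, nv_row, nv_colX hK hL, nv_colX hK hL]
  rw [h3, h3, h3, h3, h4, h4, be_sub_comm hK x y, be_sub_comm hL x y, al_fun_comm hK x y,
    al_fun_comm hL x y, be_fun_comm hL x y]
  ring

/-! ### the rows of `D` -/

lemma six_sq (a b c d e f : ℝ) :
    (a + b + c + d + e + f) ^ 2 ≤ 6 * (a ^ 2 + b ^ 2 + c ^ 2 + d ^ 2 + e ^ 2 + f ^ 2) := by
  nlinarith [sq_nonneg (a - b), sq_nonneg (a - c), sq_nonneg (a - d), sq_nonneg (a - e),
    sq_nonneg (a - f), sq_nonneg (b - c), sq_nonneg (b - d),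
    sq_nonneg (b - e), sq_nonneg (b - f), sq_nonneg (c - d),
    sq_nonneg (c - e), sq_nonneg (c - f), sq_nonneg (d - e),
    sq_nonneg (d - f), sq_nonneg (e - f)]

/-- bound of `∑_j D_xj²` -/
noncomputable def h5 (s t : ℝ) (K L : Matrix ι ι ℝ) (x y : ι) : ℝ :=
  6 * (al s K x y x ^ 2 * rn (K * L) x + be s K x y x ^ 2 * rn (K * L) y
    + (K * L) x x ^ 2 * nv (al t L x y) + (K * L) x y ^ 2 * nv (be t L x y)
    + 2 * (((K * L) x x - s * t) ^ 2 * al s K x y x ^ 2
        + (K * L) y x ^ 2 * be s K x y x ^ 2) * nv (al t L x y)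
    + 2 * ((K * L) x y ^ 2 * al s K x y x ^ 2
        + ((K * L) y y - s * t) ^ 2 * be s K x y x ^ 2) * nv (be t L x y))

lemma row_D {s t : ℝ} {K L : Matrix ι ι ℝ} (x y : ι) :
    ∑ j, Dd s t K L x y x j ^ 2 ≤ h5 s t K L x y := by
  set A := al s K x y x
  set B := be s K x y x
  have e0 : ∀ j, Dd s t K L x y x j ^ 2 ≤
      6 * (A ^ 2 * (K * L) x j ^ 2 + B ^ 2 * (K * L) y j ^ 2
        + (K * L) x x ^ 2 * al t L x y j ^ 2 + (K * L) x y ^ 2 * be t L x y j ^ 2
        + (2 * (((K * L) x x - s * t) ^ 2 * A ^ 2 + (K * L) y x ^ 2 * B ^ 2)) * al t L x y j ^ 2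
        + (2 * ((K * L) x y ^ 2 * A ^ 2 + ((K * L) y y - s * t) ^ 2 * B ^ 2))
          * be t L x y j ^ 2) := by
    intro j
    have h := six_sq (A * (K * L) x j) (B * (K * L) y j) ((K * L) x x * al t L x y j)
      ((K * L) x y * be t L x y j)
      ((((K * L) x x - s * t) * A + (K * L) y x * B) * al t L x y j)
      (((K * L) x y * A + ((K * L) y y - s * t) * B) * be t L x y j)
    have e1 : Dd s t K L x y x j = A * (K * L) x j + B * (K * L) y j
        + (K * L) x x * al t L x y j + (K * L) x y * be t L x y j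
        + (((K * L) x x - s * t) * A + (K * L) y x * B) * al t L x y j
        + ((K * L) x y * A + ((K * L) y y - s * t) * B) * be t L x y j := by
      rw [Dd, Wh]; ring
    rw [e1]
    refine h.trans ?_
    have g1 : (((K * L) x x - s * t) * A + (K * L) y x * B) ^ 2
        ≤ 2 * (((K * L) x x - s * t) ^ 2 * A ^ 2 + (K * L) y x ^ 2 * B ^ 2) := by
      nlinarith [sq_nonneg (((K * L) x x - s * t) * A - (K * L) y x * B)]
    have g2 : ((K * L) x y * A + ((K * L) y y - s * t) * B) ^ 2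
        ≤ 2 * ((K * L) x y ^ 2 * A ^ 2 + ((K * L) y y - s * t) ^ 2 * B ^ 2) := by
      nlinarith [sq_nonneg ((K * L) x y * A - ((K * L) y y - s * t) * B)]
    have g3 := mul_le_mul_of_nonneg_right g1 (sq_nonneg (al t L x y j))
    have g4 := mul_le_mul_of_nonneg_right g2 (sq_nonneg (be t L x y j))
    simp only [mul_pow] at *
    linarith
  refine (Finset.sum_le_sum fun j _ => e0 j).trans (le_of_eq ?_)
  rw [h5]
  unfold rn nv
  simp only [← Finset.mul_sum, Finset.sum_add_distrib]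
  rfl

end Crest.Agent.R62.Cross
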