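import Mathlib
import Crest.Agent.R62.CrossC
import Crest.Agent.R62.L2P

/-!
R62 (helper214): the cross functional — norms and sums of the error terms.
-/

set_option autoImplicit false
set_option linter.unusedSectionVars false
set_option linter.unusedVariables false

open Matrix Finset

namespace Crest.Agent.R62.Cross

open Crest.Agent.R62.Upd Crest.Agent.R62.AvX1 Crest.Agent.R62.L2P

variable {ι : Type*} [Fintype ι] [DecidableEq ι]

/-! ### the pointwise inequality -/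

/-- sum over the two orders and the two signs of the error halves -/
theorem pointwise {s t δ : ℝ} (hs : s ^ 2 = 1) (ht : t ^ 2 = 1) (hδ : 0 < δ) (hδ1 : δ ≤ 1)
    {K L : Matrix ι ι ℝ} (hK : K.IsSymm) (hL : L.IsSymm) {x y : ι}
    (hg : GoodPair K x y) (hg' : GoodPair L x y) :
    fr (upd s K x y * upd t L x y) ≤ fr (K * L)
      + 2 * (h1 s K L x y + h1 s K L y x + (h1 t L K x y + h1 t L K y x))
      + 2 * (h2 s t K L x y + h2 s t K L y x)
      + (1 + δ) * fr (G0 s t K L x y)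
      + (1 + δ⁻¹) * (8 * (h3 s K L x y + h3 s K L y x + (h3 t L K x y + h3 t L K y x)
        + (h4 s t K L x y + h4 s t K L y x)))
      - (1 - δ) * (rn (K * L) x + rn (K * L) y + rn (L * K) x + rn (L * K) y)
      + ((K * L) x x ^ 2 + (K * L) x y ^ 2 + (K * L) y x ^ 2 + (K * L) y y ^ 2)
      + δ⁻¹ * (h5 s t K L x y + h5 s t K L y x + h5 t s L K x y + h5 t s L K y x) := by
  have hD : Dl s K x y ≠ 0 := by have := Dl_ge hs hg.2.1 hg.2.2; linarith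
  have hD' : Dl t L x y ≠ 0 := by have := Dl_ge ht hg'.2.1 hg'.2.2; linarith
  have hδi : 0 ≤ δ⁻¹ := inv_nonneg.mpr hδ.le
  rw [fr_prod hs ht hK hL hg.1 hD hD']
  have e1 : ∀ i j, Wh s t K L x y i j = (K * L) i j + Dd s t K L x y i j := by
    intro i j; rw [Dd]; ring
  simp_rw [e1]
  have h := drop_rows hδ hδ1 hg.1 (fun i j => (K * L) i j) (fun i j => Dd s t K L x y i j)
  refine h.trans ?_
  -- full square
  have e2 : ∑ i, ∑ j, ((K * L) i j + Dd s t K L x y i j) ^ 2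
      = fr (K * L) + 2 * (∑ i, ∑ j, (K * L) i j * Dd s t K L x y i j)
        + ∑ i, ∑ j, Dd s t K L x y i j ^ 2 := by
    unfold fr
    rw [Finset.mul_sum, ← Finset.sum_add_distrib, ← Finset.sum_add_distrib]
    refine Finset.sum_congr rfl fun i _ => ?_
    rw [Finset.mul_sum, ← Finset.sum_add_distrib, ← Finset.sum_add_distrib]
    exact Finset.sum_congr rfl fun j _ => by ring
  have e3 : ∑ i, ∑ j, Dd s t K L x y i j ^ 2 ≤ (1 + δ) * fr (G0 s t K L x y)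
      + (1 + δ⁻¹) * ∑ i, ∑ j, (Dd s t K L x y i j - G0 s t K L x y i j) ^ 2 := by
    unfold fr
    rw [Finset.mul_sum, Finset.mul_sum, ← Finset.sum_add_distrib]
    refine Finset.sum_le_sum fun i _ => ?_
    rw [Finset.mul_sum, Finset.mul_sum, ← Finset.sum_add_distrib]
    refine Finset.sum_le_sum fun j _ => ?_
    have := sq_add_le δ (G0 s t K L x y i j) (Dd s t K L x y i j - G0 s t K L x y i j) hδ
    simpa using this
  have e4 := fr_D_sub (s := s) (t := t) hK hL x y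
  have e5 := mul_le_mul_of_nonneg_left e4 (by linarith : (0 : ℝ) ≤ 1 + δ⁻¹)
  have r1 := row_D (s := s) (t := t) (K := K) (L := L) x y
  have r2 : ∑ j, Dd s t K L x y y j ^ 2 ≤ h5 s t K L y x := by
    have := row_D (s := s) (t := t) (K := K) (L := L) y x
    simpa only [Dd_comm hK hL] using this
  have r3 : ∑ i, Dd s t K L x y i x ^ 2 ≤ h5 t s L K x y := by
    have := row_D (s := t) (t := s) (K := L) (L := K) x y
    simpa only [Dd_transpose hK hL] using this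
  have r4 : ∑ i, Dd s t K L x y i y ^ 2 ≤ h5 t s L K y x := by
    have := row_D (s := t) (t := s) (K := L) (L := K) y x
    simpa only [Dd_transpose hK hL, Dd_comm hK hL] using this
  have r5 := mul_le_mul_of_nonneg_left (add_le_add (add_le_add (add_le_add r1 r2) r3) r4) hδi
  have c1 : ∑ i, (K * L) i x ^ 2 = rn (L * K) x := nv_colX hK hL x
  have c2 : ∑ i, (K * L) i y ^ 2 = rn (L * K) y := nv_colX hK hL y
  rw [e2, ip_X_D hK hL, c1, c2]
  have r6 : rn (K * L) x = ∑ j, (K * L) x j ^ 2 := rfl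
  have r7 : rn (K * L) y = ∑ j, (K * L) y j ^ 2 := rfl
  rw [r6, r7]
  linarith

/-! ### entry bounds -/

lemma sum_mul_sq_le (f g : ι → ℝ) : (∑ j, f j * g j) ^ 2 ≤ (∑ j, f j ^ 2) * ∑ j, g j ^ 2 :=
  Finset.sum_mul_sq_le_sq_mul_sq Finset.univ f g

lemma abs_le_sqrt_mul {a b c : ℝ} (hb : 0 ≤ b) (hc : 0 ≤ c) (h : a ^ 2 ≤ b * c) :
    |a| ≤ Real.sqrt b * Real.sqrt c := by
  rw [← Real.sqrt_mul hb, ← Real.sqrt_sq_eq_abs]
  exact Real.sqrt_le_sqrt h

lemma Yc_le (K L : Matrix ι ι ℝ) (u v : ι) :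
    |Yc K L u v| ≤ Real.sqrt (rn (K * (K * L)) u) * Real.sqrt (rn (K * L) v) :=
  abs_le_sqrt_mul (rn_nonneg _ _) (rn_nonneg _ _) (sum_mul_sq_le _ _)

lemma Zc_le (K L : Matrix ι ι ℝ) (u v : ι) :
    |Zc K L u v| ≤ Real.sqrt (rn (K * (K * L)) u) * Real.sqrt (rn L v) :=
  abs_le_sqrt_mul (rn_nonneg _ _) (rn_nonneg _ _) (sum_mul_sq_le _ _)

/-- `Z(K,L)_uv = Z(L,K)_vu` -/
lemma Zc_comm {K L : Matrix ι ι ℝ} (hK : K.IsSymm) (hL : L.IsSymm) (u v : ι) :
    Zc K L u v = Zc L K v u := by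
  have e1 : Zc K L u v = (K * (K * L) * L) u v := by
    rw [Zc, Matrix.mul_apply (M := K * (K * L))]
    exact Finset.sum_congr rfl fun j _ => by rw [hL.apply v j]
  have e2 : Zc L K v u = (L * (L * K) * K) v u := by
    rw [Zc, Matrix.mul_apply (M := L * (L * K))]
    exact Finset.sum_congr rfl fun j _ => by rw [hK.apply u j]
  rw [e1, e2]
  have e3 : (K * (K * L) * L)ᵀ = L * (L * K) * K := by
    simp only [Matrix.transpose_mul, hK.eq, hL.eq, Matrix.mul_assoc]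
  rw [← e3]; rfl

lemma Zc_le' {K L : Matrix ι ι ℝ} (hK : K.IsSymm) (hL : L.IsSymm) (u v : ι) :
    |Zc K L u v| ≤ Real.sqrt (rn K u) * Real.sqrt (rn (L * (L * K)) v) := by
  rw [Zc_comm hK hL]
  refine (Zc_le L K v u).trans (le_of_eq ?_)
  ring

lemma X_le {K L : Matrix ι ι ℝ} (hL : L.IsSymm) (u v : ι) :
    |(K * L) u v| ≤ Real.sqrt (rn K u) * Real.sqrt (rn L v) := by
  have e : (K * L) u v = ∑ j, K u j * L v j := by
    rw [Matrix.mul_apply]; exact Finset.sum_congr rfl fun j _ => by rw [hL.apply v j]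
  rw [e]
  exact abs_le_sqrt_mul (rn_nonneg _ _) (rn_nonneg _ _) (sum_mul_sq_le _ _)

/-! ### hypotheses -/

/-- one-sided hypotheses (for the pair `K, L`; used also for `L, K`) -/
structure Hy (F : Finset ι) (K L : Matrix ι ι ℝ) (g σ m lam v : ℝ) : Prop where
  hK : K.IsSymm
  hL : L.IsSymm
  g1 : 1 ≤ g
  σ1 : 1 ≤ σ
  v1 : 1 ≤ v
  m0 : 0 ≤ m
  l0 : 0 ≤ lam
  card : (F.card : ℝ) ≤ g ^ 4
  p2 : ∑ x ∈ F, rn K x ^ 2 ≤ g ^ 4
  q2 : ∑ x ∈ F, rn L x ^ 2 ≤ g ^ 4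
  ps : ∀ x ∈ F, rn K x ≤ σ ^ 2
  qs : ∀ x ∈ F, rn L x ≤ σ ^ 2
  vK : ∑ x ∈ F, K x x ^ 2 ≤ v ^ 2
  vL : ∑ x ∈ F, L x x ^ 2 ≤ v ^ 2
  mX : fr (K * L) ≤ m ^ 2
  zK : fr (K * (K * L)) ≤ (lam * m) ^ 2
  zL : fr (L * (L * K)) ≤ (lam * m) ^ 2

lemma fr_comm {K L : Matrix ι ι ℝ} (hK : K.IsSymm) (hL : L.IsSymm) : fr (L * K) = fr (K * L) := by
  unfold fr
  rw [Finset.sum_comm]
  exact Finset.sum_congr rfl fun i _ => Finset.sum_congr rfl fun j _ => by rw [mulT hK hL]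

lemma Hy.swap {F : Finset ι} {K L : Matrix ι ι ℝ} {g σ m lam v : ℝ} (h : Hy F K L g σ m lam v) :
    Hy F L K g σ m lam v where
  hK := h.hL
  hL := h.hK
  g1 := h.g1
  σ1 := h.σ1
  v1 := h.v1
  m0 := h.m0
  l0 := h.l0
  card := h.card
  p2 := h.q2
  q2 := h.p2
  ps := h.qs
  qs := h.ps
  vK := h.vL
  vL := h.vK
  mX := by rw [fr_comm h.hK h.hL]; exact h.mX
  zK := h.zL
  zL := h.zK

lemma lsr_aux {A : Matrix ι ι ℝ} {h : ℝ} (F : Finset ι) (h0 : 0 ≤ h) (hA : fr A ≤ h ^ 2) :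
    L2 F (fun x => Real.sqrt (rn A x)) h := by
  refine ⟨h0, le_trans ?_ hA⟩
  have h1 : ∀ x ∈ F, Real.sqrt (rn A x) ^ 2 = rn A x := fun x _ => Real.sq_sqrt (rn_nonneg _ _)
  rw [Finset.sum_congr rfl h1, ← sum_rn]
  exact Finset.sum_le_sum_of_subset_of_nonneg (Finset.subset_univ _) fun _ _ _ => rn_nonneg _ _

section one
variable {F : Finset ι} {K L : Matrix ι ι ℝ} {g σ m lam v : ℝ} (H : Hy F K L g σ m lam v)
include H

lemma Hy.g0 : 0 ≤ g := by linarith [H.g1]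
lemma Hy.v0 : 0 ≤ v := by linarith [H.v1]

lemma Hy.σ0 : 0 ≤ σ := by linarith [H.σ1]

/-- row norm pointwise: `√p_x ≤ σ` -/
lemma Hy.sp_le {x : ι} (hx : x ∈ F) : Real.sqrt (rn K x) ≤ σ := by
  calc Real.sqrt (rn K x) ≤ Real.sqrt (σ ^ 2) := Real.sqrt_le_sqrt (H.ps x hx)
    _ = σ := Real.sqrt_sq H.σ0

lemma Hy.abs_sp_le {x : ι} (hx : x ∈ F) : |Real.sqrt (rn K x)| ≤ σ := by
  rw [abs_of_nonneg (Real.sqrt_nonneg _)]; exact H.sp_le hx

lemma Hy.kxx_le {x : ι} (hx : x ∈ F) : |K x x| ≤ v := by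
  refine abs_le_of_sq_le_sq ?_ H.v0
  exact (Finset.single_le_sum (f := fun x => K x x ^ 2) (fun _ _ => sq_nonneg _) hx).trans H.vK

lemma Hy.lk : L2 F (fun x => K x x) v := ⟨H.v0, H.vK⟩

lemma Hy.lone : L2 F (fun _ => (1 : ℝ)) (g ^ 2) := by
  refine ⟨by positivity, ?_⟩
  simp only [one_pow, Finset.sum_const, nsmul_eq_mul, mul_one]
  rw [← pow_mul]; exact H.card

lemma Hy.lp : L2 F (fun x => rn K x) (g ^ 2) :=
  ⟨by positivity, by rw [← pow_mul]; exact H.p2⟩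

lemma Hy.lsp : L2 F (fun x => Real.sqrt (rn K x)) (g ^ 2) := by
  refine ⟨by positivity, ?_⟩
  have h1 : ∀ x ∈ F, Real.sqrt (rn K x) ^ 2 = |rn K x| * |(1 : ℝ)| := by
    intro x _
    rw [Real.sq_sqrt (rn_nonneg _ _), abs_one, mul_one, abs_of_nonneg (rn_nonneg _ _)]
  rw [Finset.sum_congr rfl h1]
  refine (H.lp.sum_mul H.lone).trans (le_of_eq (by ring))

lemma Hy.lsr : L2 F (fun x => Real.sqrt (rn (K * L) x)) m := lsr_aux F H.m0 H.mX

lemma Hy.lsz : L2 F (fun x => Real.sqrt (rn (K * (K * L)) x)) (lam * m) :=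
  lsr_aux F (mul_nonneg H.l0 H.m0) H.zK

/-- diagonal of `X` -/
lemma Hy.lX : L2 F (fun x => (K * L) x x) (g ^ 2) := by
  have h1 : L2 F (fun x => Real.sqrt (rn K x) * Real.sqrt (rn L x)) (g ^ 2) := by
    refine ⟨by positivity, ?_⟩
    have e : ∀ x ∈ F, (Real.sqrt (rn K x) * Real.sqrt (rn L x)) ^ 2 = |rn K x| * |rn L x| := by
      intro x _
      rw [mul_pow, Real.sq_sqrt (rn_nonneg _ _), Real.sq_sqrt (rn_nonneg _ _),
        abs_of_nonneg (rn_nonneg _ _), abs_of_nonneg (rn_nonneg _ _)]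
    rw [Finset.sum_congr rfl e]
    exact (H.lp.sum_mul H.swap.lp).trans (le_of_eq (by ring))
  refine h1.of_abs_le fun x _ => ?_
  rw [abs_mul, abs_of_nonneg (Real.sqrt_nonneg _), abs_of_nonneg (Real.sqrt_nonneg _)]
  exact X_le H.hL x x

/-- `|X_xx| + 1` -/
lemma Hy.lX1 : L2 F (fun x => |(K * L) x x| + 1) (2 * g ^ 2) :=
  (H.lX.abs.add H.lone).mono (by linarith)

end one

/-! ### pair norms -/

section pairs
variable {F : Finset ι} {S : Finset (ι × ι)} {K L : Matrix ι ι ℝ} {g σ m lam v : ℝ}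

lemma sum_le_prod {S : Finset (ι × ι)} {f U W : ι × ι → ℝ} {a b : ℝ} (hU : L2 S U a)
    (hW : L2 S W b) (hf : ∀ p ∈ S, f p ≤ |U p| * |W p|) : ∑ p ∈ S, f p ≤ a * b :=
  (Finset.sum_le_sum hf).trans (hU.sum_mul hW)

/-- weighted rows: `A_xy w_x` -/
lemma L2row {A : Matrix ι ι ℝ} {w : ι → ℝ} {h : ℝ} (hS : S ⊆ F ×ˢ F)
    (hw : L2 F (fun x => Real.sqrt (rn A x) * w x) h) : L2 S (fun p => A p.1 p.2 * w p.1) h := by
  refine L2.subset (T := F ×ˢ F) ⟨hw.1, le_trans ?_ hw.2⟩ hS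
  rw [Finset.sum_product]
  refine Finset.sum_le_sum fun x _ => ?_
  simp only [mul_pow, ← Finset.sum_mul]
  rw [Real.sq_sqrt (rn_nonneg _ _)]
  refine mul_le_mul_of_nonneg_right ?_ (sq_nonneg _)
  exact Finset.sum_le_sum_of_subset_of_nonneg (Finset.subset_univ _) fun _ _ _ => sq_nonneg _

/-- weighted columns: `A_xy w_y`, `A'` the transpose of `A` -/
lemma L2col {A A' : Matrix ι ι ℝ} (hA : ∀ i j, A i j = A' j i) {w : ι → ℝ} {h : ℝ}
    (hS : S ⊆ F ×ˢ F) (hw : L2 F (fun x => Real.sqrt (rn A' x) * w x) h) :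
    L2 S (fun p => A p.1 p.2 * w p.2) h := by
  refine L2.subset (T := F ×ˢ F) ⟨hw.1, le_trans ?_ hw.2⟩ hS
  rw [Finset.sum_product_right]
  refine Finset.sum_le_sum fun y _ => ?_
  simp only [mul_pow, ← Finset.sum_mul]
  rw [Real.sq_sqrt (rn_nonneg _ _)]
  refine mul_le_mul_of_nonneg_right ?_ (sq_nonneg _)
  simp only [hA]
  exact Finset.sum_le_sum_of_subset_of_nonneg (Finset.subset_univ _) fun _ _ _ => sq_nonneg _

end pairs

end Crest.Agent.R62.Cross
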