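import Mathlib
import Crest.Agent.R62.CrossD

/-!
R62 (helper214): the cross functional — sums of the error terms.
-/

set_option autoImplicit false
set_option linter.unusedSectionVars false
set_option linter.unusedVariables false

open Matrix Finset

namespace Crest.Agent.R62.Cross

open Crest.Agent.R62.Upd Crest.Agent.R62.AvX1 Crest.Agent.R62.L2P

variable {ι : Type*} [Fintype ι] [DecidableEq ι]

lemma mono {g v : ℝ} (g1 : 1 ≤ g) (v1 : 1 ≤ v) {a b : ℕ} (c d : ℕ) (hac : a ≤ c) (hbd : b ≤ d)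
    {r : ℝ} (hr : 0 ≤ r) : g ^ a * v ^ b * r ≤ g ^ c * v ^ d * r := by
  have g0 : 0 ≤ g := by linarith
  have v0 : 0 ≤ v := by linarith
  exact mul_le_mul_of_nonneg_right (mul_le_mul (pow_le_pow_right₀ g1 hac)
    (pow_le_pow_right₀ v1 hbd) (pow_nonneg v0 _) (pow_nonneg g0 _)) hr

/-! ### first order half -/

/-- error of `h1` -/
def h1err (K L : Matrix ι ι ℝ) (x y : ι) : ℝ :=
  |K y y| * |Yc K L x x| + (|K x y| + |K x x * K y y|) * |Yc K L y x|

lemma h1_sub {s : ℝ} (hs : s ^ 2 = 1) {K L : Matrix ι ι ℝ} {x y : ι} (hg : GoodPair K x y) :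
    |h1 s K L x y - s * Yc K L y x| ≤ 4 * h1err K L x y := by
  have e : h1 s K L x y - s * Yc K L y x
      = Bxx s K x y * Yc K L x x + (Bxy s K x y - s) * Yc K L y x := by rw [h1]; ring
  rw [e, h1err]
  refine (abs_add_le _ _).trans ?_
  rw [abs_mul, abs_mul]
  have a1 := mul_le_mul_of_nonneg_right (abs_Bxx hs hg) (abs_nonneg (Yc K L x x))
  have a2 := mul_le_mul_of_nonneg_right (abs_Bxy_sub hs hg) (abs_nonneg (Yc K L y x))
  linarith

section sums
variable {F : Finset ι} {S : Finset (ι × ι)} {K L : Matrix ι ι ℝ} {g σ m lam v : ℝ}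

/-- `K_xy` on pairs -/
lemma Hy.pK (H : Hy F K L g σ m lam v) (hS : S ⊆ F ×ˢ F) :
    L2 S (fun p => K p.1 p.2) (g ^ 2) := by
  have h := L2row (A := K) (w := fun _ => 1) hS (by simpa using H.lsp)
  simpa using h

/-- `X_xy` on pairs -/
lemma Hy.pX (H : Hy F K L g σ m lam v) (hS : S ⊆ F ×ˢ F) :
    L2 S (fun p => (K * L) p.1 p.2) m := by
  have h := L2row (A := K * L) (w := fun _ => 1) hS (by simpa using H.lsr)
  simpa using h

lemma sum_h1err (H : Hy F K L g σ m lam v) (hS : S ⊆ F ×ˢ F) :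
    ∑ p ∈ S, h1err K L p.1 p.2 ≤ 3 * (g ^ 2 * v ^ 2 * (lam * m ^ 2)) := by
  have g0 := H.g0
  have v0 := H.v0
  have hzk := L2.tensor H.lsz H.lk hS
  have hr1 := L2.tensor H.lsr H.lone hS
  have hrz := L2.tensor H.lsr H.lsz hS
  have hkk := L2.tensor H.lk H.lk hS
  have hK := H.pK hS
  have t1 : ∑ p ∈ S, |K p.2 p.2| * |Yc K L p.1 p.1| ≤ (lam * m * v) * (m * g ^ 2) := by
    refine sum_le_prod hzk hr1 fun p _ => ?_
    have h := Yc_le K L p.1 p.1
    have h2 := mul_le_mul_of_nonneg_left h (abs_nonneg (K p.2 p.2))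
    refine h2.trans (le_of_eq ?_)
    rw [abs_mul, abs_mul, abs_one, abs_of_nonneg (Real.sqrt_nonneg (rn (K * (K * L)) p.1)),
      abs_of_nonneg (Real.sqrt_nonneg (rn (K * L) p.1))]
    ring
  have t2 : ∑ p ∈ S, |K p.1 p.2| * |Yc K L p.2 p.1| ≤ g ^ 2 * (m * (lam * m)) := by
    refine sum_le_prod hK hrz fun p _ => ?_
    refine mul_le_mul_of_nonneg_left ?_ (abs_nonneg _)
    refine (Yc_le K L p.2 p.1).trans (le_of_eq ?_)
    rw [abs_mul, abs_of_nonneg (Real.sqrt_nonneg _), abs_of_nonneg (Real.sqrt_nonneg _)]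
    ring
  have t3 : ∑ p ∈ S, |K p.1 p.1 * K p.2 p.2| * |Yc K L p.2 p.1| ≤ (v * v) * (m * (lam * m)) := by
    refine sum_le_prod hkk hrz fun p _ => ?_
    refine mul_le_mul_of_nonneg_left ?_ (abs_nonneg _)
    refine (Yc_le K L p.2 p.1).trans (le_of_eq ?_)
    rw [abs_mul, abs_of_nonneg (Real.sqrt_nonneg _), abs_of_nonneg (Real.sqrt_nonneg _)]
    ring
  have e : ∑ p ∈ S, h1err K L p.1 p.2 = ∑ p ∈ S, |K p.2 p.2| * |Yc K L p.1 p.1|
      + ∑ p ∈ S, |K p.1 p.2| * |Yc K L p.2 p.1|
      + ∑ p ∈ S, |K p.1 p.1 * K p.2 p.2| * |Yc K L p.2 p.1| := by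
    rw [← Finset.sum_add_distrib, ← Finset.sum_add_distrib]
    exact Finset.sum_congr rfl fun p _ => by rw [h1err]; ring
  rw [e]
  have hlm : 0 ≤ lam * m ^ 2 := mul_nonneg H.l0 (sq_nonneg _)
  have c1 := mono H.g1 H.v1 (a := 2) (b := 1) 2 2 (by norm_num) (by norm_num) hlm
  have c2 := mono H.g1 H.v1 (a := 2) (b := 0) 2 2 (by norm_num) (by norm_num) hlm
  have c3 := mono H.g1 H.v1 (a := 0) (b := 2) 2 2 (by norm_num) (by norm_num) hlm
  linarith

end sums

/-! ### second order half -/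

lemma abs_mul_le {a b A B : ℝ} (ha : |a| ≤ A) (hb : |b| ≤ B) : |a * b| ≤ A * B := by
  rw [abs_mul]
  exact mul_le_mul ha hb (abs_nonneg _) ((abs_nonneg _).trans ha)

/-- error of `h2` -/
def h2err (K L : Matrix ι ι ℝ) (x y : ι) : ℝ :=
  (|(K * L) x x| + 1) * (|K y y * L y y| * |Zc K L x x| + |K y y| * |Zc K L x y|
      + |L y y| * |Zc K L y x|
      + (|K x y| + |K x x * K y y| + (|L x y| + |L x x * L y y|)) * |Zc K L y y|)
    + |(K * L) x y| * (|K y y| * |Zc K L x x| + |K y y * L x x| * |Zc K L x y|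
      + |Zc K L y x| + |L x x| * |Zc K L y y|)

lemma h2_sub {s t : ℝ} (hs : s ^ 2 = 1) (ht : t ^ 2 = 1) {K L : Matrix ι ι ℝ} {x y : ι}
    (hg : GoodPair K x y) (hg' : GoodPair L x y) :
    |h2 s t K L x y - s * t * (((K * L) x x - s * t) * Zc K L y y)| ≤ 16 * h2err K L x y := by
  have a1 := abs_Bxx hs hg
  have a2 := abs_Bxy hs hg
  have a3 := abs_Bxy_sub hs hg
  have b1 := abs_Bxx ht hg'
  have b2 := abs_Bxy ht hg'
  have b3 := abs_Bxy_sub ht hg'
  have b4 := abs_Byy ht hg'
  have hst : |s * t| = 1 := by rw [abs_mul, abs_s hs, abs_s ht, one_mul]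
  -- the form `Faa`
  have f1 : |Faa s t K L x y - s * t * Zc K L y y|
      ≤ 16 * (|K y y * L y y| * |Zc K L x x| + |K y y| * |Zc K L x y|
      + |L y y| * |Zc K L y x|
      + (|K x y| + |K x x * K y y| + (|L x y| + |L x x * L y y|)) * |Zc K L y y|) := by
    have e : Faa s t K L x y - s * t * Zc K L y y
        = (Bxx s K x y * Bxx t L x y) * Zc K L x x + (Bxx s K x y * Bxy t L x y) * Zc K L x y
          + (Bxy s K x y * Bxx t L x y) * Zc K L y x
          + ((Bxy s K x y - s) * Bxy t L x y + s * (Bxy t L x y - t)) * Zc K L y y := by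
      rw [Faa]; ring
    rw [e]
    refine (abs_add_le _ _).trans ?_
    have c1 : |(Bxx s K x y * Bxx t L x y) * Zc K L x x + (Bxx s K x y * Bxy t L x y) * Zc K L x y
          + (Bxy s K x y * Bxx t L x y) * Zc K L y x|
        ≤ |(Bxx s K x y * Bxx t L x y) * Zc K L x x| + |(Bxx s K x y * Bxy t L x y) * Zc K L x y|
          + |(Bxy s K x y * Bxx t L x y) * Zc K L y x| :=
      (abs_add_le _ _).trans (add_le_add_left (abs_add_le _ _) _)
    have d1 : |(Bxx s K x y * Bxx t L x y) * Zc K L x x|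
        ≤ 16 * (|K y y * L y y| * |Zc K L x x|) := by
      rw [abs_mul]
      have := abs_mul_le a1 b1
      have h := mul_le_mul_of_nonneg_right this (abs_nonneg (Zc K L x x))
      rw [abs_mul (K y y)]
      linarith
    have d2 : |(Bxx s K x y * Bxy t L x y) * Zc K L x y| ≤ 16 * (|K y y| * |Zc K L x y|) := by
      rw [abs_mul]
      have := abs_mul_le a1 b2
      have h := mul_le_mul_of_nonneg_right this (abs_nonneg (Zc K L x y))
      linarith
    have d3 : |(Bxy s K x y * Bxx t L x y) * Zc K L y x| ≤ 16 * (|L y y| * |Zc K L y x|) := by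
      rw [abs_mul]
      have := abs_mul_le a2 b1
      have h := mul_le_mul_of_nonneg_right this (abs_nonneg (Zc K L y x))
      linarith
    have d4 : |((Bxy s K x y - s) * Bxy t L x y + s * (Bxy t L x y - t)) * Zc K L y y|
        ≤ 16 * ((|K x y| + |K x x * K y y| + (|L x y| + |L x x * L y y|)) * |Zc K L y y|) := by
      rw [abs_mul]
      have g1 := abs_mul_le a3 b2
      have g2 : |s * (Bxy t L x y - t)| ≤ 4 * (|L x y| + |L x x * L y y|) := by
        rw [abs_mul, abs_s hs, one_mul]; exact b3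
      have g3 := abs_add_le ((Bxy s K x y - s) * Bxy t L x y) (s * (Bxy t L x y - t))
      have g4 : |(Bxy s K x y - s) * Bxy t L x y + s * (Bxy t L x y - t)|
          ≤ 16 * (|K x y| + |K x x * K y y| + (|L x y| + |L x x * L y y|)) := by
        have := abs_nonneg (L x y)
        have := abs_nonneg (L x x * L y y)
        linarith
      have h := mul_le_mul_of_nonneg_right g4 (abs_nonneg (Zc K L y y))
      linarith
    linarith
  have f2 : |Fab s t K L x y|
      ≤ 16 * (|K y y| * |Zc K L x x| + |K y y * L x x| * |Zc K L x y|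
      + |Zc K L y x| + |L x x| * |Zc K L y y|) := by
    have e : Fab s t K L x y
        = (Bxx s K x y * Bxy t L x y) * Zc K L x x + (Bxx s K x y * Byy t L x y) * Zc K L x y
          + (Bxy s K x y * Bxy t L x y) * Zc K L y x
          + (Bxy s K x y * Byy t L x y) * Zc K L y y := by
      rw [Fab]; ring
    rw [e]
    refine (abs_add_le _ _).trans ?_
    have c1 : |(Bxx s K x y * Bxy t L x y) * Zc K L x x + (Bxx s K x y * Byy t L x y) * Zc K L x y
          + (Bxy s K x y * Bxy t L x y) * Zc K L y x|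
        ≤ |(Bxx s K x y * Bxy t L x y) * Zc K L x x| + |(Bxx s K x y * Byy t L x y) * Zc K L x y|
          + |(Bxy s K x y * Bxy t L x y) * Zc K L y x| :=
      (abs_add_le _ _).trans (add_le_add_left (abs_add_le _ _) _)
    have d1 : |(Bxx s K x y * Bxy t L x y) * Zc K L x x| ≤ 16 * (|K y y| * |Zc K L x x|) := by
      rw [abs_mul]
      have h := mul_le_mul_of_nonneg_right (abs_mul_le a1 b2) (abs_nonneg (Zc K L x x))
      linarith
    have d2 : |(Bxx s K x y * Byy t L x y) * Zc K L x y|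
        ≤ 16 * (|K y y * L x x| * |Zc K L x y|) := by
      rw [abs_mul]
      have h := mul_le_mul_of_nonneg_right (abs_mul_le a1 b4) (abs_nonneg (Zc K L x y))
      rw [abs_mul (K y y)]
      linarith
    have d3 : |(Bxy s K x y * Bxy t L x y) * Zc K L y x| ≤ 16 * |Zc K L y x| := by
      rw [abs_mul]
      have h := mul_le_mul_of_nonneg_right (abs_mul_le a2 b2) (abs_nonneg (Zc K L y x))
      linarith
    have d4 : |(Bxy s K x y * Byy t L x y) * Zc K L y y| ≤ 16 * (|L x x| * |Zc K L y y|) := by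
      rw [abs_mul]
      have h := mul_le_mul_of_nonneg_right (abs_mul_le a2 b4) (abs_nonneg (Zc K L y y))
      linarith
    linarith
  have e : h2 s t K L x y - s * t * (((K * L) x x - s * t) * Zc K L y y)
      = ((K * L) x x - s * t) * (Faa s t K L x y - s * t * Zc K L y y)
        + (K * L) x y * Fab s t K L x y := by rw [h2]; ring
  rw [e]
  refine (abs_add_le _ _).trans ?_
  have g1 : |(K * L) x x - s * t| ≤ |(K * L) x x| + 1 := by
    have := abs_sub (( K * L) x x) (s * t)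
    rw [hst] at this; exact this
  have g2 := abs_mul_le g1 f1
  have g3 := abs_mul_le (le_refl |(K * L) x y|) f2
  rw [h2err]
  linarith

end Crest.Agent.R62.Cross
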