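import Mathlib
import Crest.Agent.R62.CrossE

/-!
R62 (helper214): the cross functional — sum of the second order error.
-/

set_option autoImplicit false
set_option linter.unusedSectionVars false
set_option linter.unusedVariables false

open Matrix Finset

namespace Crest.Agent.R62.Cross

open Crest.Agent.R62.Upd Crest.Agent.R62.AvX1 Crest.Agent.R62.L2P

variable {ι : Type*} [Fintype ι] [DecidableEq ι]

section sums2
variable {F : Finset ι} {S : Finset (ι × ι)} {K L : Matrix ι ι ℝ} {g σ m lam v : ℝ}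

/-- `√p` times something with known norm -/
lemma Hy.mul_sp (H : Hy F K L g σ m lam v) {f : ι → ℝ} {h : ℝ} (hf : L2 F f h) :
    L2 F (fun x => Real.sqrt (rn K x) * f x) (σ * h) :=
  hf.mul_bdd H.σ0 fun x hx => H.abs_sp_le hx

lemma Hy.mul_k (H : Hy F K L g σ m lam v) {f : ι → ℝ} {h : ℝ} (hf : L2 F f h) :
    L2 F (fun x => K x x * f x) (v * h) :=
  hf.mul_bdd H.v0 fun x hx => H.kxx_le hx

/-- `K_xy √q_y` on pairs -/
lemma Hy.pKq (H : Hy F K L g σ m lam v) (hS : S ⊆ F ×ˢ F) :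
    L2 S (fun p => K p.1 p.2 * Real.sqrt (rn L p.2)) (g ^ 2) := by
  refine L2col (A' := K) (w := fun y => Real.sqrt (rn L y)) (fun i j => (H.hK.apply i j).symm) hS ?_
  refine ⟨by positivity, ?_⟩
  have e : ∀ x ∈ F, (Real.sqrt (rn K x) * Real.sqrt (rn L x)) ^ 2 = |rn K x| * |rn L x| := by
    intro x _
    rw [mul_pow, Real.sq_sqrt (rn_nonneg _ _), Real.sq_sqrt (rn_nonneg _ _),
      abs_of_nonneg (rn_nonneg _ _), abs_of_nonneg (rn_nonneg _ _)]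
  rw [Finset.sum_congr rfl e]
  exact (H.lp.sum_mul H.swap.lp).trans (le_of_eq (by ring))

/-- `L_xy √q_y` on pairs -/
lemma Hy.pLq (H : Hy F K L g σ m lam v) (hS : S ⊆ F ×ˢ F) :
    L2 S (fun p => L p.1 p.2 * Real.sqrt (rn L p.2)) (g ^ 2) := by
  refine L2col (A' := L) (w := fun y => Real.sqrt (rn L y)) (fun i j => (H.hL.apply i j).symm) hS ?_
  refine ⟨by positivity, ?_⟩
  have e : ∀ x ∈ F, (Real.sqrt (rn L x) * Real.sqrt (rn L x)) ^ 2 = |rn L x| * |rn L x| := by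
    intro x _
    rw [mul_pow, Real.sq_sqrt (rn_nonneg _ _), abs_of_nonneg (rn_nonneg _ _)]
  rw [Finset.sum_congr rfl e]
  exact (H.swap.lp.sum_mul H.swap.lp).trans (le_of_eq (by ring))

/-- `X_xy √q_x` on pairs -/
lemma Hy.pXq (H : Hy F K L g σ m lam v) (hS : S ⊆ F ×ˢ F) :
    L2 S (fun p => (K * L) p.1 p.2 * Real.sqrt (rn L p.1)) (σ * m) := by
  refine L2row (A := K * L) (w := fun y => Real.sqrt (rn L y)) hS ?_
  refine (H.swap.mul_sp H.lsr).congr fun x _ => ?_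
  ring

/-- `X_xy √p_y` on pairs -/
lemma Hy.pXp (H : Hy F K L g σ m lam v) (hS : S ⊆ F ×ˢ F) :
    L2 S (fun p => (K * L) p.1 p.2 * Real.sqrt (rn K p.2)) (σ * m) := by
  refine L2col (A' := L * K) (w := fun y => Real.sqrt (rn K y)) (fun i j => (mulT H.hK H.hL j i).symm) hS ?_
  refine (H.mul_sp H.swap.lsr).congr fun x _ => ?_
  ring

/-- `(|X_xx| + 1) √q_x` -/
lemma Hy.lX1q (H : Hy F K L g σ m lam v) :
    L2 F (fun x => Real.sqrt (rn L x) * (|(K * L) x x| + 1)) (σ * (2 * g ^ 2)) :=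
  H.swap.mul_sp H.lX1

lemma sum_h2err (H : Hy F K L g σ m lam v) (hS : S ⊆ F ×ˢ F) :
    ∑ p ∈ S, h2err K L p.1 p.2 ≤
      8 * (g ^ 4 * v * (lam * m)) + 6 * (g ^ 2 * σ * v ^ 2 * (lam * m))
        + 2 * (g ^ 2 * v ^ 2 * (lam * m ^ 2)) + 2 * (σ * v * (lam * m ^ 2)) := by
  have g0 := H.g0
  have v0 := H.v0
  have hlm : 0 ≤ lam * m := mul_nonneg H.l0 H.m0
  have hlm2 : 0 ≤ lam * m ^ 2 := mul_nonneg H.l0 (sq_nonneg _)
  have sn : ∀ a : ℝ, |Real.sqrt a| = Real.sqrt a := fun a => abs_of_nonneg (Real.sqrt_nonneg a)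
  have an : ∀ x : ι, |(|(K * L) x x| + 1)| = |(K * L) x x| + 1 := fun x =>
    abs_of_nonneg (by positivity)
  have hX1 := H.lX1
  have hz := H.lsz
  have hz' := H.swap.lsz
  -- (1)
  have t1 : ∑ p ∈ S, (|(K * L) p.1 p.1| + 1) * (|K p.2 p.2 * L p.2 p.2| * |Zc K L p.1 p.1|)
      ≤ (lam * m * v) * ((σ * (2 * g ^ 2)) * v) := by
    refine sum_le_prod (L2.tensor hz H.lk hS) (L2.tensor H.lX1q H.swap.lk hS) fun p _ => ?_
    have h := mul_le_mul_of_nonneg_left (mul_le_mul_of_nonneg_left (Zc_le K L p.1 p.1)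
      (abs_nonneg (K p.2 p.2 * L p.2 p.2))) (by positivity : 0 ≤ |(K * L) p.1 p.1| + 1)
    refine h.trans (le_of_eq ?_)
    simp only [abs_mul, sn, an]
    ring
  -- (2)
  have t2 : ∑ p ∈ S, (|(K * L) p.1 p.1| + 1) * (|K p.2 p.2| * |Zc K L p.1 p.2|)
      ≤ ((2 * g ^ 2) * v) * ((lam * m) * g ^ 2) := by
    refine sum_le_prod (L2.tensor hX1 H.lk hS) (L2.tensor hz H.swap.lsp hS) fun p _ => ?_
    have h := mul_le_mul_of_nonneg_left (mul_le_mul_of_nonneg_left (Zc_le K L p.1 p.2)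
      (abs_nonneg (K p.2 p.2))) (by positivity : 0 ≤ |(K * L) p.1 p.1| + 1)
    refine h.trans (le_of_eq ?_)
    simp only [abs_mul, sn, an]
    ring
  -- (3)
  have t3 : ∑ p ∈ S, (|(K * L) p.1 p.1| + 1) * (|L p.2 p.2| * |Zc K L p.2 p.1|)
      ≤ ((2 * g ^ 2) * v) * ((lam * m) * g ^ 2) := by
    refine sum_le_prod (L2.tensor hX1 H.swap.lk hS) (L2.tensor hz' H.lsp hS) fun p _ => ?_
    have h := mul_le_mul_of_nonneg_left (mul_le_mul_of_nonneg_left (Zc_le' H.hK H.hL p.2 p.1)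
      (abs_nonneg (L p.2 p.2))) (by positivity : 0 ≤ |(K * L) p.1 p.1| + 1)
    refine h.trans (le_of_eq ?_)
    simp only [abs_mul, sn, an]
    ring
  -- (4)
  have t4 : ∑ p ∈ S, (|(K * L) p.1 p.1| + 1) * (|K p.1 p.2| * |Zc K L p.2 p.2|)
      ≤ ((2 * g ^ 2) * (lam * m)) * g ^ 2 := by
    refine sum_le_prod (L2.tensor hX1 hz hS) (H.pKq hS) fun p _ => ?_
    have h := mul_le_mul_of_nonneg_left (mul_le_mul_of_nonneg_left (Zc_le K L p.2 p.2)
      (abs_nonneg (K p.1 p.2))) (by positivity : 0 ≤ |(K * L) p.1 p.1| + 1)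
    refine h.trans (le_of_eq ?_)
    simp only [abs_mul, sn, an]
    ring
  -- (5)
  have t5 : ∑ p ∈ S, (|(K * L) p.1 p.1| + 1) * (|L p.1 p.2| * |Zc K L p.2 p.2|)
      ≤ ((2 * g ^ 2) * (lam * m)) * g ^ 2 := by
    refine sum_le_prod (L2.tensor hX1 hz hS) (H.pLq hS) fun p _ => ?_
    have h := mul_le_mul_of_nonneg_left (mul_le_mul_of_nonneg_left (Zc_le K L p.2 p.2)
      (abs_nonneg (L p.1 p.2))) (by positivity : 0 ≤ |(K * L) p.1 p.1| + 1)
    refine h.trans (le_of_eq ?_)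
    simp only [abs_mul, sn, an]
    ring
  -- (6)
  have t6 : ∑ p ∈ S, (|(K * L) p.1 p.1| + 1) * (|K p.1 p.1 * K p.2 p.2| * |Zc K L p.2 p.2|)
      ≤ ((2 * g ^ 2) * (lam * m)) * (v * (σ * v)) := by
    refine sum_le_prod (L2.tensor hX1 hz hS) (L2.tensor H.lk (H.swap.mul_sp H.lk) hS) fun p _ => ?_
    have h := mul_le_mul_of_nonneg_left (mul_le_mul_of_nonneg_left (Zc_le K L p.2 p.2)
      (abs_nonneg (K p.1 p.1 * K p.2 p.2))) (by positivity : 0 ≤ |(K * L) p.1 p.1| + 1)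
    refine h.trans (le_of_eq ?_)
    simp only [abs_mul, sn, an]
    ring
  -- (7)
  have t7 : ∑ p ∈ S, (|(K * L) p.1 p.1| + 1) * (|L p.1 p.1 * L p.2 p.2| * |Zc K L p.2 p.2|)
      ≤ ((2 * g ^ 2) * (lam * m)) * (v * (σ * v)) := by
    refine sum_le_prod (L2.tensor hX1 hz hS)
      (L2.tensor H.swap.lk (H.swap.mul_sp H.swap.lk) hS) fun p _ => ?_
    have h := mul_le_mul_of_nonneg_left (mul_le_mul_of_nonneg_left (Zc_le K L p.2 p.2)
      (abs_nonneg (L p.1 p.1 * L p.2 p.2))) (by positivity : 0 ≤ |(K * L) p.1 p.1| + 1)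
    refine h.trans (le_of_eq ?_)
    simp only [abs_mul, sn, an]
    ring
  -- (8)
  have t8 : ∑ p ∈ S, |(K * L) p.1 p.2| * (|K p.2 p.2| * |Zc K L p.1 p.1|)
      ≤ (σ * m) * ((lam * m) * v) := by
    refine sum_le_prod (H.pXq hS) (L2.tensor hz H.lk hS) fun p _ => ?_
    have h := mul_le_mul_of_nonneg_left (mul_le_mul_of_nonneg_left (Zc_le K L p.1 p.1)
      (abs_nonneg (K p.2 p.2))) (abs_nonneg ((K * L) p.1 p.2))
    refine h.trans (le_of_eq ?_)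
    simp only [abs_mul, sn]
    ring
  -- (9)
  have t9 : ∑ p ∈ S, |(K * L) p.1 p.2| * (|K p.2 p.2 * L p.1 p.1| * |Zc K L p.1 p.2|)
      ≤ m * ((v * (lam * m)) * (v * g ^ 2)) := by
    refine sum_le_prod (H.pX hS)
      (L2.tensor (H.swap.mul_k hz) (H.mul_k H.swap.lsp) hS) fun p _ => ?_
    have h := mul_le_mul_of_nonneg_left (mul_le_mul_of_nonneg_left (Zc_le K L p.1 p.2)
      (abs_nonneg (K p.2 p.2 * L p.1 p.1))) (abs_nonneg ((K * L) p.1 p.2))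
    refine h.trans (le_of_eq ?_)
    simp only [abs_mul, sn]
    ring
  -- (10)
  have t10 : ∑ p ∈ S, |(K * L) p.1 p.2| * |Zc K L p.2 p.1| ≤ m * (g ^ 2 * (lam * m)) := by
    refine sum_le_prod (H.pX hS) (L2.tensor H.swap.lsp hz hS) fun p _ => ?_
    have h := mul_le_mul_of_nonneg_left (Zc_le K L p.2 p.1) (abs_nonneg ((K * L) p.1 p.2))
    refine h.trans (le_of_eq ?_)
    simp only [abs_mul, sn]
    ring
  -- (11)
  have t11 : ∑ p ∈ S, |(K * L) p.1 p.2| * (|L p.1 p.1| * |Zc K L p.2 p.2|)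
      ≤ (σ * m) * (v * (lam * m)) := by
    refine sum_le_prod (H.pXp hS) (L2.tensor H.swap.lk hz' hS) fun p _ => ?_
    have h := mul_le_mul_of_nonneg_left (mul_le_mul_of_nonneg_left (Zc_le' H.hK H.hL p.2 p.2)
      (abs_nonneg (L p.1 p.1))) (abs_nonneg ((K * L) p.1 p.2))
    refine h.trans (le_of_eq ?_)
    simp only [abs_mul, sn]
    ring
  have e : ∑ p ∈ S, h2err K L p.1 p.2 =
      ∑ p ∈ S, (|(K * L) p.1 p.1| + 1) * (|K p.2 p.2 * L p.2 p.2| * |Zc K L p.1 p.1|)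
      + ∑ p ∈ S, (|(K * L) p.1 p.1| + 1) * (|K p.2 p.2| * |Zc K L p.1 p.2|)
      + ∑ p ∈ S, (|(K * L) p.1 p.1| + 1) * (|L p.2 p.2| * |Zc K L p.2 p.1|)
      + ∑ p ∈ S, (|(K * L) p.1 p.1| + 1) * (|K p.1 p.2| * |Zc K L p.2 p.2|)
      + ∑ p ∈ S, (|(K * L) p.1 p.1| + 1) * (|L p.1 p.2| * |Zc K L p.2 p.2|)
      + ∑ p ∈ S, (|(K * L) p.1 p.1| + 1) * (|K p.1 p.1 * K p.2 p.2| * |Zc K L p.2 p.2|)
      + ∑ p ∈ S, (|(K * L) p.1 p.1| + 1) * (|L p.1 p.1 * L p.2 p.2| * |Zc K L p.2 p.2|)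
      + ∑ p ∈ S, |(K * L) p.1 p.2| * (|K p.2 p.2| * |Zc K L p.1 p.1|)
      + ∑ p ∈ S, |(K * L) p.1 p.2| * (|K p.2 p.2 * L p.1 p.1| * |Zc K L p.1 p.2|)
      + ∑ p ∈ S, |(K * L) p.1 p.2| * |Zc K L p.2 p.1|
      + ∑ p ∈ S, |(K * L) p.1 p.2| * (|L p.1 p.1| * |Zc K L p.2 p.2|) := by
    simp only [← Finset.sum_add_distrib]
    exact Finset.sum_congr rfl fun p _ => by rw [h2err]; ring
  rw [e]
  have c4 := mono H.g1 H.v1 (a := 4) (b := 0) 4 1 (by norm_num) (by norm_num) hlm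
  have c10 := mono H.g1 H.v1 (a := 2) (b := 0) 2 2 (by norm_num) (by norm_num) hlm2
  linarith

end sums2

end Crest.Agent.R62.Cross
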