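import Mathlib
import Crest.Agent.R62.CrossF

/-!
R62 (helper214): the cross functional — sums of the quadratic errors `h3`, `h4`, `h5`.
-/

set_option autoImplicit false
set_option linter.unusedSectionVars false
set_option linter.unusedVariables false

open Matrix Finset

namespace Crest.Agent.R62.Cross

open Crest.Agent.R62.Upd Crest.Agent.R62.AvX1 Crest.Agent.R62.L2P

variable {ι : Type*} [Fintype ι] [DecidableEq ι]

section sums3
variable {F : Finset ι} {S : Finset (ι × ι)} {K L : Matrix ι ι ℝ} {g σ m lam v : ℝ}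

lemma sq_sqrt_rn (A : Matrix ι ι ℝ) (x : ι) : Real.sqrt (rn A x) ^ 2 = rn A x :=
  Real.sq_sqrt (rn_nonneg _ _)

/-- `√p √q` -/
lemma Hy.lpq (H : Hy F K L g σ m lam v) :
    L2 F (fun x => Real.sqrt (rn K x) * Real.sqrt (rn L x)) (g ^ 2) := by
  refine ⟨by positivity, ?_⟩
  have e : ∀ x ∈ F, (Real.sqrt (rn K x) * Real.sqrt (rn L x)) ^ 2 = |rn K x| * |rn L x| := by
    intro x _
    rw [mul_pow, Real.sq_sqrt (rn_nonneg _ _), Real.sq_sqrt (rn_nonneg _ _),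
      abs_of_nonneg (rn_nonneg _ _), abs_of_nonneg (rn_nonneg _ _)]
  rw [Finset.sum_congr rfl e]
  exact (H.lp.sum_mul H.swap.lp).trans (le_of_eq (by ring))

/-- good pairs for both signs -/
def GP2 (K L : Matrix ι ι ℝ) (S : Finset (ι × ι)) : Prop :=
  ∀ p ∈ S, GoodPair K p.1 p.2 ∧ GoodPair L p.1 p.2

lemma GP2.swap {K L : Matrix ι ι ℝ} {S : Finset (ι × ι)} (h : GP2 K L S) : GP2 L K S :=
  fun p hp => ⟨(h p hp).2, (h p hp).1⟩

lemma sum_h3 (H : Hy F K L g σ m lam v) (hS : S ⊆ F ×ˢ F) (hg : GP2 K L S) {s : ℝ}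
    (hs : s ^ 2 = 1) :
    ∑ p ∈ S, h3 s K L p.1 p.2 ≤
      64 * ((σ * m * v) ^ 2 + (σ * m) * (m * g ^ 2) + (m * v) * ((v * m) * g ^ 2)) := by
  have g0 := H.g0
  have v0 := H.v0
  have t1 : ∑ p ∈ S, (Real.sqrt (rn K p.1) * Real.sqrt (rn (K * L) p.1) * K p.2 p.2) ^ 2
      ≤ (σ * m * v) ^ 2 := (L2.tensor (H.mul_sp H.lsr) H.lk hS).2
  have hrow : L2 S (fun p => K p.1 p.2 * Real.sqrt (rn (K * L) p.1)) (σ * m) :=
    L2row (A := K) (w := fun x => Real.sqrt (rn (K * L) x)) hS (H.mul_sp H.lsr)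
  have t2 : ∑ p ∈ S, |K p.1 p.2| * (rn K p.2 * rn (K * L) p.1) ≤ (σ * m) * (m * g ^ 2) := by
    refine sum_le_prod hrow (L2.tensor H.lsr H.lp hS) fun p _ => le_of_eq ?_
    rw [abs_mul, abs_mul, abs_of_nonneg (Real.sqrt_nonneg _), abs_of_nonneg (rn_nonneg K p.2)]
    rw [← sq_sqrt_rn (K * L) p.1]; simp only [Real.sqrt_sq (Real.sqrt_nonneg _)]; ring
  have t3 : ∑ p ∈ S, |K p.1 p.1 * K p.2 p.2| * (rn K p.2 * rn (K * L) p.1)
      ≤ (m * v) * ((v * m) * g ^ 2) := by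
    refine sum_le_prod (L2.tensor H.lsr H.lk hS) (L2.tensor (H.mul_k H.lsr) H.lp hS)
      fun p _ => le_of_eq ?_
    rw [abs_mul, abs_mul, abs_mul, abs_mul, abs_of_nonneg (Real.sqrt_nonneg _),
      abs_of_nonneg (rn_nonneg K p.2)]
    rw [← sq_sqrt_rn (K * L) p.1]; simp only [Real.sqrt_sq (Real.sqrt_nonneg _)]; ring
  have hpt : ∀ p ∈ S, h3 s K L p.1 p.2 ≤
      64 * ((Real.sqrt (rn K p.1) * Real.sqrt (rn (K * L) p.1) * K p.2 p.2) ^ 2
        + |K p.1 p.2| * (rn K p.2 * rn (K * L) p.1)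
        + |K p.1 p.1 * K p.2 p.2| * (rn K p.2 * rn (K * L) p.1)) := by
    intro p hp
    have hgp := (hg p hp).1
    have h := mul_le_mul_of_nonneg_right (nv_al_sub hs H.hK hgp) (rn_nonneg (K * L) p.1)
    rw [h3]
    refine h.trans ?_
    have e0 : (Real.sqrt (rn K p.1) * Real.sqrt (rn (K * L) p.1) * K p.2 p.2) ^ 2
        = rn K p.1 * rn (K * L) p.1 * K p.2 p.2 ^ 2 := by
      rw [mul_pow, mul_pow, sq_sqrt_rn, sq_sqrt_rn]
    rw [e0]
    have a1 : K p.1 p.2 ^ 2 ≤ |K p.1 p.2| := by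
      rw [← sq_abs]; nlinarith [abs_nonneg (K p.1 p.2), hgp.2.1]
    have a2 : (K p.1 p.1 * K p.2 p.2) ^ 2 ≤ |K p.1 p.1 * K p.2 p.2| := by
      rw [← sq_abs]; nlinarith [abs_nonneg (K p.1 p.1 * K p.2 p.2), hgp.2.2]
    have a3 : 0 ≤ rn K p.2 * rn (K * L) p.1 := mul_nonneg (rn_nonneg _ _) (rn_nonneg _ _)
    have a4 := mul_le_mul_of_nonneg_right a1 a3
    have a5 := mul_le_mul_of_nonneg_right a2 a3
    linarith
  refine (Finset.sum_le_sum hpt).trans ?_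
  rw [← Finset.mul_sum, Finset.sum_add_distrib, Finset.sum_add_distrib]
  linarith

lemma sq_sub_st {s t X : ℝ} (hs : s ^ 2 = 1) (ht : t ^ 2 = 1) :
    (X - s * t) ^ 2 ≤ (|X| + 1) ^ 2 := by
  have hst : |s * t| = 1 := by rw [abs_mul, abs_s hs, abs_s ht, one_mul]
  have := abs_sub X (s * t)
  rw [hst] at this
  rw [← sq_abs]
  exact pow_le_pow_left₀ (abs_nonneg _) this 2

lemma sum_h4 (H : Hy F K L g σ m lam v) (hS : S ⊆ F ×ˢ F) (hg : GP2 K L S) {s t : ℝ}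
    (hs : s ^ 2 = 1) (ht : t ^ 2 = 1) :
    ∑ p ∈ S, h4 s t K L p.1 p.2 ≤
      1024 * (((σ * (σ * (2 * g ^ 2))) * (v * v)) ^ 2 + ((σ * (2 * g ^ 2)) * (σ * v)) ^ 2
        + ((σ * (2 * g ^ 2)) * (σ * v)) ^ 2 + ((2 * g ^ 2) * g ^ 2) ^ 2
        + m * ((σ * (σ * (σ * g ^ 2))) * (v * (σ * v)))
        + m * ((σ * g ^ 2) * (σ * g ^ 2))
        + m * ((σ * (σ * (σ * (v * v)))) * (σ * (σ * (σ * (v * v)))))
        + m * ((σ * (v * v)) * (σ * (σ * (σ * g ^ 2))))) := by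
  have g0 := H.g0
  have v0 := H.v0
  have sn : ∀ a : ℝ, |Real.sqrt a| = Real.sqrt a := fun a => abs_of_nonneg (Real.sqrt_nonneg a)
  have rp : ∀ x, |rn K x| = Real.sqrt (rn K x) ^ 2 := fun x => by
    rw [sq_sqrt_rn, abs_of_nonneg (rn_nonneg _ _)]
  have rq : ∀ x, |rn L x| = Real.sqrt (rn L x) ^ 2 := fun x => by
    rw [sq_sqrt_rn, abs_of_nonneg (rn_nonneg _ _)]
  have t1 := (L2.tensor (H.swap.mul_sp (H.mul_sp H.lX1)) (H.mul_k H.swap.lk) hS).2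
  have t2 := (L2.tensor (H.mul_sp H.lX1) (H.swap.mul_sp H.lk) hS).2
  have t3 := (L2.tensor H.lX1q (H.mul_sp H.swap.lk) hS).2
  have t4 := (L2.tensor H.lX1 H.lpq hS).2
  have hX := H.pX hS
  have t5 := hX.sum_mul (L2.tensor (H.mul_sp (H.mul_sp (H.mul_sp H.swap.lp)))
    (H.mul_k (H.swap.mul_sp H.lk)) hS)
  have t6 := hX.sum_mul (L2.tensor (H.mul_sp H.swap.lp) (H.swap.mul_sp H.lp) hS)
  have t7 := hX.sum_mul (L2.tensor (H.mul_sp (H.mul_sp (H.mul_sp (H.swap.mul_k H.swap.lk))))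
    (H.swap.mul_sp (H.swap.mul_sp (H.swap.mul_sp (H.mul_k H.lk)))) hS)
  have t8 := hX.sum_mul (L2.tensor (H.mul_sp (H.swap.mul_k H.swap.lk))
    (H.swap.mul_sp (H.swap.mul_sp (H.swap.mul_sp H.lp))) hS)
  have hpt : ∀ p ∈ S, h4 s t K L p.1 p.2 ≤
      1024 * ((Real.sqrt (rn L p.1) * (Real.sqrt (rn K p.1) * (|(K * L) p.1 p.1| + 1))
            * (K p.2 p.2 * L p.2 p.2)) ^ 2
        + (Real.sqrt (rn K p.1) * (|(K * L) p.1 p.1| + 1)
            * (Real.sqrt (rn L p.2) * K p.2 p.2)) ^ 2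
        + (Real.sqrt (rn L p.1) * (|(K * L) p.1 p.1| + 1)
            * (Real.sqrt (rn K p.2) * L p.2 p.2)) ^ 2
        + ((|(K * L) p.1 p.1| + 1) * (Real.sqrt (rn K p.2) * Real.sqrt (rn L p.2))) ^ 2
        + |(K * L) p.1 p.2| * |Real.sqrt (rn K p.1) * (Real.sqrt (rn K p.1)
            * (Real.sqrt (rn K p.1) * rn L p.1)) * (K p.2 p.2 * (Real.sqrt (rn L p.2) * K p.2 p.2))|
        + |(K * L) p.1 p.2| * |Real.sqrt (rn K p.1) * rn L p.1 * (Real.sqrt (rn L p.2) * rn K p.2)|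
        + |(K * L) p.1 p.2| * |Real.sqrt (rn K p.1) * (Real.sqrt (rn K p.1)
            * (Real.sqrt (rn K p.1) * (L p.1 p.1 * L p.1 p.1)))
            * (Real.sqrt (rn L p.2) * (Real.sqrt (rn L p.2)
            * (Real.sqrt (rn L p.2) * (K p.2 p.2 * K p.2 p.2))))|
        + |(K * L) p.1 p.2| * |Real.sqrt (rn K p.1) * (L p.1 p.1 * L p.1 p.1)
            * (Real.sqrt (rn L p.2) * (Real.sqrt (rn L p.2)
            * (Real.sqrt (rn L p.2) * rn K p.2)))|) := by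
    intro p hp
    obtain ⟨hgK, hgL⟩ := hg p hp
    have a1 := nv_al hs H.hK hgK
    have a2 := nv_al ht H.hL hgL
    have a3 := nv_be ht H.hL hgL
    have b1 := nv_nonneg (al s K p.1 p.2)
    have b2 := nv_nonneg (al t L p.1 p.2)
    have b3 := nv_nonneg (be t L p.1 p.2)
    have c1 := mul_le_mul a1 a2 b2 (b1.trans a1)
    have c2 := mul_le_mul a1 a3 b3 (b1.trans a1)
    have d1 := mul_le_mul (sq_sub_st (X := (K * L) p.1 p.1) hs ht) c1 (mul_nonneg b1 b2)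
      (sq_nonneg _)
    have d2 := mul_le_mul_of_nonneg_left c2 (sq_nonneg ((K * L) p.1 p.2))
    have hx := X_le (K := K) H.hL p.1 p.2
    have e1 : (K * L) p.1 p.2 ^ 2 ≤ |(K * L) p.1 p.2| * (Real.sqrt (rn K p.1)
        * Real.sqrt (rn L p.2)) := by
      rw [← sq_abs, sq]; exact mul_le_mul_of_nonneg_left hx (abs_nonneg _)
    have hnn : 0 ≤ 32 * (K p.2 p.2 ^ 2 * rn K p.1 + rn K p.2)
        * (32 * (rn L p.1 + L p.1 p.1 ^ 2 * rn L p.2)) := by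
      have := rn_nonneg K p.1
      have := rn_nonneg K p.2
      have := rn_nonneg L p.1
      have := rn_nonneg L p.2
      positivity
    have d3 := mul_le_mul_of_nonneg_right e1 hnn
    rw [h4]
    refine (add_le_add d1 (d2.trans d3)).trans (le_of_eq ?_)
    simp only [abs_mul, sn, rp, rq]
    rw [← sq_sqrt_rn K p.1, ← sq_sqrt_rn K p.2, ← sq_sqrt_rn L p.1, ← sq_sqrt_rn L p.2]
    simp only [Real.sqrt_sq (Real.sqrt_nonneg _)]
    have k1 : |K p.2 p.2| * |K p.2 p.2| = K p.2 p.2 ^ 2 := by rw [← sq, sq_abs]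
    have k2 : |L p.1 p.1| * |L p.1 p.1| = L p.1 p.1 ^ 2 := by rw [← sq, sq_abs]
    have k3 : |K p.2 p.2| * (Real.sqrt (rn L p.2) * |K p.2 p.2|)
        = Real.sqrt (rn L p.2) * K p.2 p.2 ^ 2 := by rw [← k1]; ring
    rw [k1, k2, k3]
    ring
  refine (Finset.sum_le_sum hpt).trans ?_
  rw [← Finset.mul_sum]
  simp only [Finset.sum_add_distrib]
  linarith

lemma h5_pt {s t : ℝ} (hs : s ^ 2 = 1) (ht : t ^ 2 = 1) (hK : K.IsSymm) (hL : L.IsSymm)
    {x y : ι} (hgK : GoodPair K x y) (hgL : GoodPair L x y) :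
    h5 s t K L x y ≤
      6 * (32 * ((K x y * Real.sqrt (rn (K * L) x)) ^ 2
          + (K x x * Real.sqrt (rn (K * L) x) * K y y) ^ 2)
        + 16 * (K x x * Real.sqrt (rn (K * L) y)) ^ 2
        + 288 * ((Real.sqrt (rn L x) * (|(K * L) x x| + 1) * L y y) ^ 2
          + ((|(K * L) x x| + 1) * Real.sqrt (rn L y)) ^ 2)
        + 288 * (((K * L) x y * Real.sqrt (rn L x)) ^ 2
          + (L x x * ((K * L) x y * Real.sqrt (rn L y))) ^ 2)
        + 1024 * ((K x x * (L y y * (Real.sqrt (rn L x) * (K * L) y x))) ^ 2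
          + (K x x * (Real.sqrt (rn L y) * (K * L) y x)) ^ 2)
        + 1024 * ((Real.sqrt (rn L x) * K x x * (|(K * L) y y| + 1)) ^ 2
          + (K x x * L x x
            * (Real.sqrt (rn L y) * (|(K * L) y y| + 1))) ^ 2)) := by
  have a2 := nv_al ht hL hgL
  have a3 := nv_be ht hL hgL
  have b2 := nv_nonneg (al t L x y)
  have b3 := nv_nonneg (be t L x y)
  have r1 := rn_nonneg (K * L) x
  have r2 := rn_nonneg (K * L) y
  have q1 := rn_nonneg L x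
  have q2 := rn_nonneg L y
  have c1 : al s K x y x ^ 2 ≤ 32 * (K x y ^ 2 + K x x ^ 2 * K y y ^ 2) := by
    have h3 := sq_le_of_abs_le (abs_al_x hs hgK)
    have h4 : (4 * (|K x y| + |K x x * K y y|)) ^ 2
        ≤ 32 * (|K x y| ^ 2 + |K x x * K y y| ^ 2) := by
      nlinarith [sq_nonneg (|K x y| - |K x x * K y y|)]
    rw [sq_abs, sq_abs, mul_pow (K x x) (K y y)] at h4
    linarith
  have c2 : al s K x y x ^ 2 ≤ 4 := by
    have h3 := sq_le_of_abs_le (abs_al_x' hs hgK)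
    linarith
  have c3 : be s K x y x ^ 2 ≤ 16 * K x x ^ 2 := by
    have h3 := sq_le_of_abs_le (abs_be_x hs hgK)
    rw [mul_pow, sq_abs] at h3; linarith
  have s1 := sq_sub_st (X := (K * L) x x) hs ht
  have s2 := sq_sub_st (X := (K * L) y y) hs ht
  have s3 : (K * L) x x ^ 2 ≤ (|(K * L) x x| + 1) ^ 2 := by
    rw [← sq_abs]; exact pow_le_pow_left₀ (abs_nonneg _) (by linarith) 2
  have hA1n : 0 ≤ (|(K * L) x x| + 1) ^ 2 := sq_nonneg _
  have hA2n : 0 ≤ (|(K * L) y y| + 1) ^ 2 := sq_nonneg _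
  have u1 := mul_le_mul_of_nonneg_right c1 r1
  have u2 := mul_le_mul_of_nonneg_right c3 r2
  have u3 : (K * L) x x ^ 2 * nv (al t L x y) ≤ (|(K * L) x x| + 1) ^ 2 *
      (32 * (L y y ^ 2 * rn L x + rn L y)) := mul_le_mul s3 a2 b2 hA1n
  have u4 : (K * L) x y ^ 2 * nv (be t L x y) ≤ (K * L) x y ^ 2 *
      (32 * (rn L x + L x x ^ 2 * rn L y)) :=
    mul_le_mul_of_nonneg_left a3 (sq_nonneg _)
  have w1 : ((K * L) x x - s * t) ^ 2 * al s K x y x ^ 2 ≤ (|(K * L) x x| + 1) ^ 2 * 4 :=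
    mul_le_mul s1 c2 (sq_nonneg _) hA1n
  have w2 : (K * L) y x ^ 2 * be s K x y x ^ 2
      ≤ (K * L) y x ^ 2 * (16 * K x x ^ 2) :=
    mul_le_mul_of_nonneg_left c3 (sq_nonneg _)
  have w3 : (K * L) x y ^ 2 * al s K x y x ^ 2 ≤ (K * L) x y ^ 2 * 4 :=
    mul_le_mul_of_nonneg_left c2 (sq_nonneg _)
  have w4 : ((K * L) y y - s * t) ^ 2 * be s K x y x ^ 2
      ≤ (|(K * L) y y| + 1) ^ 2 * (16 * K x x ^ 2) := mul_le_mul s2 c3 (sq_nonneg _) hA2n
  have x1 := mul_le_mul (add_le_add w1 w2) a2 b2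
    (add_nonneg (mul_nonneg hA1n (by norm_num))
      (mul_nonneg (sq_nonneg _) (mul_nonneg (by norm_num) (sq_nonneg _))))
  have x2 := mul_le_mul (add_le_add w3 w4) a3 b3
    (add_nonneg (mul_nonneg (sq_nonneg _) (by norm_num))
      (mul_nonneg hA2n (mul_nonneg (by norm_num) (sq_nonneg _))))
  rw [h5]
  simp only [mul_pow, sq_sqrt_rn]
  generalize (|(K * L) x x| + 1) ^ 2 = A1 at *
  generalize (|(K * L) y y| + 1) ^ 2 = A2 at *
  generalize (K * L) x y ^ 2 = X1 at *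
  generalize (K * L) y x ^ 2 = X2 at *
  generalize (K * L) x x ^ 2 = X3 at *
  generalize ((K * L) x x - s * t) ^ 2 = X4 at *
  generalize ((K * L) y y - s * t) ^ 2 = X5 at *
  generalize al s K x y x ^ 2 = X6 at *
  generalize be s K x y x ^ 2 = X7 at *
  generalize nv (al t L x y) = N1 at *
  generalize nv (be t L x y) = N2 at *
  generalize rn (K * L) x = R1 at *
  generalize rn (K * L) y = R2 at *
  generalize rn L x = P1 at *
  generalize rn L y = P2 at *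
  generalize K x x ^ 2 = k1 at *
  generalize L x x ^ 2 = k2 at *
  generalize L y y ^ 2 = k3 at *
  refine le_trans (b := 6 * (32 * (K x y ^ 2 + k1 * K y y ^ 2) * R1 + 16 * k1 * R2
    + A1 * (32 * (k3 * P1 + P2)) + X1 * (32 * (P1 + k2 * P2))
    + 2 * ((A1 * 4 + X2 * (16 * k1)) * (32 * (k3 * P1 + P2)))
    + 2 * ((X1 * 4 + A2 * (16 * k1)) * (32 * (P1 + k2 * P2))))) ?_ (le_of_eq ?_)
  · linarith
  · ring

lemma sum_h5 (H : Hy F K L g σ m lam v) (hS : S ⊆ F ×ˢ F) (hg : GP2 K L S) {s t : ℝ}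
    (hs : s ^ 2 = 1) (ht : t ^ 2 = 1) :
    ∑ p ∈ S, h5 s t K L p.1 p.2 ≤
      6 * (32 * ((σ * m) ^ 2 + ((v * m) * v) ^ 2) + 16 * (v * m) ^ 2
        + 288 * (((σ * (2 * g ^ 2)) * v) ^ 2 + ((2 * g ^ 2) * g ^ 2) ^ 2)
        + 288 * ((σ * m) ^ 2 + (v * (σ * m)) ^ 2)
        + 1024 * ((v * (v * (σ * m))) ^ 2 + (v * (σ * m)) ^ 2)
        + 1024 * (((σ * v) * (2 * g ^ 2)) ^ 2 + ((v * v) * (σ * (2 * g ^ 2))) ^ 2)) := by
  have g0 := H.g0
  have v0 := H.v0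
  have hrow : L2 S (fun p => K p.1 p.2 * Real.sqrt (rn (K * L) p.1)) (σ * m) :=
    L2row (A := K) (w := fun x => Real.sqrt (rn (K * L) x)) hS (H.mul_sp H.lsr)
  have t1 := hrow.2
  have t2 := (L2.tensor (H.mul_k H.lsr) H.lk hS).2
  have t3 := (L2.tensor H.lk H.lsr hS).2
  have t4 := (L2.tensor H.lX1q H.swap.lk hS).2
  have t5 := (L2.tensor H.lX1 H.swap.lsp hS).2
  have t6 := (H.pXq hS).2
  have hcol : L2 S (fun p => (K * L) p.1 p.2 * Real.sqrt (rn L p.2)) (σ * m) :=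
    L2col (A' := L * K) (w := fun y => Real.sqrt (rn L y))
      (fun i j => (mulT H.hK H.hL j i).symm) hS
      ((H.swap.mul_sp H.swap.lsr).congr fun x _ => by ring)
  have t7 : ∑ p ∈ S, (L p.1 p.1 * ((K * L) p.1 p.2 * Real.sqrt (rn L p.2))) ^ 2
      ≤ (v * (σ * m)) ^ 2 :=
    (hcol.mul_bdd (g := fun p => L p.1 p.1) v0 fun p hp =>
      H.swap.kxx_le (Finset.mem_product.mp (hS hp)).1).2
  -- `X_yx`
  have hXt : L2 S (fun p => (K * L) p.2 p.1) m :=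
    (H.swap.pX hS).congr fun p _ => by rw [mulT H.hK H.hL]
  have hXt1 : L2 S (fun p => Real.sqrt (rn L p.1) * (K * L) p.2 p.1) (σ * m) :=
    hXt.mul_bdd H.σ0 fun p hp => H.swap.abs_sp_le (Finset.mem_product.mp (hS hp)).1
  have hXt2 : L2 S (fun p => Real.sqrt (rn L p.2) * (K * L) p.2 p.1) (σ * m) :=
    hXt.mul_bdd H.σ0 fun p hp => H.swap.abs_sp_le (Finset.mem_product.mp (hS hp)).2
  have t8 : ∑ p ∈ S, (K p.1 p.1 * (L p.2 p.2 * (Real.sqrt (rn L p.1) * (K * L) p.2 p.1))) ^ 2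
      ≤ (v * (v * (σ * m))) ^ 2 :=
    ((hXt1.mul_bdd (g := fun p => L p.2 p.2) v0 fun p hp =>
      H.swap.kxx_le (Finset.mem_product.mp (hS hp)).2).mul_bdd (g := fun p => K p.1 p.1) v0
      fun p hp => H.kxx_le (Finset.mem_product.mp (hS hp)).1).2
  have t9 : ∑ p ∈ S, (K p.1 p.1 * (Real.sqrt (rn L p.2) * (K * L) p.2 p.1)) ^ 2
      ≤ (v * (σ * m)) ^ 2 :=
    (hXt2.mul_bdd (g := fun p => K p.1 p.1) v0
      fun p hp => H.kxx_le (Finset.mem_product.mp (hS hp)).1).2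
  have t10 := (L2.tensor (H.swap.mul_sp H.lk) H.lX1 hS).2
  have t11 := (L2.tensor (H.mul_k H.swap.lk) H.lX1q hS).2
  have hpt := fun p (hp : p ∈ S) => h5_pt (K := K) (L := L) hs ht H.hK H.hL (hg p hp).1 (hg p hp).2
  refine (Finset.sum_le_sum hpt).trans ?_
  rw [← Finset.mul_sum]
  simp only [Finset.sum_add_distrib, ← Finset.mul_sum]
  linarith

end sums3

end Crest.Agent.R62.Cross
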