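import Crest.Agent.R62.AvBase

/-!
R62 (helper110): the truncated linear tilt `φ = (K - L)` on the stubs with `(K²)_xx, (L²)_xx ≤ B`,
entries at most `τ`, good pairs only (`K = K⁺`, `L = K⁻`).

`phi a b K L G Bad τ` is the version with coefficients `|a|, |b| ≤ 1`: `a K - b L`.

* `phi_symm`, `abs_phi_le`, `phi_eq_zero_of_bad`
* `phi_opB : OpB (phi ..) (ΛK + ΛL + (4B/τ + 2τ D))` (Schur test)
* `gain_left`, `gain_right` : lower bounds of `∑ φ K²`, `-∑ φ L²`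
* `ip_mul_le : |∑ φ_xy (A B)_xy| ≤ N ‖A‖_F ‖B‖_F`
-/

set_option autoImplicit false
set_option linter.unusedSectionVars false
set_option linter.unusedVariables false

open scoped Matrix BigOperators

namespace Crest.Agent.R62.TiltK

open Crest.Agent.R62.AvBase

variable {ι : Type*} [Fintype ι] [DecidableEq ι]

/-! ### operator norm calculus -/

/-- Schur test -/
lemma opB_of_rows {A : Matrix ι ι ℝ} {R : ℝ} (hR : 0 ≤ R) (hs : ∀ x y, |A x y| = |A y x|)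
    (h : ∀ x, ∑ y, |A x y| ≤ R) : OpB A R := by
  refine ⟨hR, fun v => ?_⟩
  have h1 : ∀ x, ((A *ᵥ v) x) ^ 2 ≤ R * ∑ y, |A x y| * (v y) ^ 2 := by
    intro x
    have h2 := Finset.sum_mul_sq_le_sq_mul_sq Finset.univ
      (fun y => Real.sqrt |A x y|) (fun y => Real.sqrt |A x y| * |v y|)
    have e1 : ∀ y, Real.sqrt |A x y| * (Real.sqrt |A x y| * |v y|) = |A x y| * |v y| := by
      intro y; rw [← mul_assoc, Real.mul_self_sqrt (abs_nonneg _)]
    have e2 : ∀ y, (Real.sqrt |A x y|) ^ 2 = |A x y| := fun y => Real.sq_sqrt (abs_nonneg _)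
    have e3 : ∀ y, (Real.sqrt |A x y| * |v y|) ^ 2 = |A x y| * (v y) ^ 2 := by
      intro y; rw [mul_pow, Real.sq_sqrt (abs_nonneg _), sq_abs]
    simp_rw [e1, e2, e3] at h2
    have h3 : |(A *ᵥ v) x| ≤ ∑ y, |A x y| * |v y| := by
      simp only [Matrix.mulVec, dotProduct]
      refine (Finset.abs_sum_le_sum_abs _ _).trans (le_of_eq ?_)
      exact Finset.sum_congr rfl fun y _ => abs_mul _ _
    have h4 : 0 ≤ ∑ y, |A x y| * (v y) ^ 2 :=
      Finset.sum_nonneg fun y _ => mul_nonneg (abs_nonneg _) (sq_nonneg _)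
    calc ((A *ᵥ v) x) ^ 2 = |(A *ᵥ v) x| ^ 2 := (sq_abs _).symm
      _ ≤ (∑ y, |A x y| * |v y|) ^ 2 := pow_le_pow_left₀ (abs_nonneg _) h3 2
      _ ≤ _ := h2
      _ ≤ _ := mul_le_mul_of_nonneg_right (h x) h4
  calc (A *ᵥ v) ⬝ᵥ (A *ᵥ v) = ∑ x, ((A *ᵥ v) x) ^ 2 := by
        simp only [dotProduct]; exact Finset.sum_congr rfl fun x _ => by ring
    _ ≤ ∑ x, R * ∑ y, |A x y| * (v y) ^ 2 := Finset.sum_le_sum fun x _ => h1 x
    _ = R * ∑ y, (∑ x, |A y x|) * (v y) ^ 2 := by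
        rw [← Finset.mul_sum, Finset.sum_comm]
        congr 1
        refine Finset.sum_congr rfl fun y _ => ?_
        rw [Finset.sum_mul]
        exact Finset.sum_congr rfl fun x _ => by rw [hs x y]
    _ ≤ R * ∑ y, R * (v y) ^ 2 := by
        refine mul_le_mul_of_nonneg_left (Finset.sum_le_sum fun y _ => ?_) hR
        exact mul_le_mul_of_nonneg_right (h y) (sq_nonneg _)
    _ = R ^ 2 * (v ⬝ᵥ v) := by
        rw [← Finset.mul_sum]
        simp only [dotProduct, pow_two]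
        ring

lemma OpB_add {A B : Matrix ι ι ℝ} {a b : ℝ} (hA : OpB A a) (hB : OpB B b) :
    OpB (A + B) (a + b) := by
  refine ⟨add_nonneg hA.1 hB.1, fun v => ?_⟩
  have h1 := hA.2 v
  have h2 := hB.2 v
  have hv := dot_self_nonneg v
  have h3 : (A *ᵥ v) ⬝ᵥ (B *ᵥ v) ≤ a * b * (v ⬝ᵥ v) := by
    have h4 := dot_sq_le (A *ᵥ v) (B *ᵥ v)
    have h5 : ((A *ᵥ v) ⬝ᵥ (B *ᵥ v)) ^ 2 ≤ (a * b * (v ⬝ᵥ v)) ^ 2 := by
      calc _ ≤ _ := h4
        _ ≤ (a ^ 2 * (v ⬝ᵥ v)) * (b ^ 2 * (v ⬝ᵥ v)) :=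
            mul_le_mul h1 h2 (dot_self_nonneg _) (mul_nonneg (sq_nonneg _) hv)
        _ = _ := by ring
    exact (abs_le_of_sq_le_sq' h5 (mul_nonneg (mul_nonneg hA.1 hB.1) hv)).2
  rw [Matrix.add_mulVec, add_dotProduct, dotProduct_add, dotProduct_add,
    dotProduct_comm (B *ᵥ v) (A *ᵥ v)]
  nlinarith

lemma OpB_neg {A : Matrix ι ι ℝ} {a : ℝ} (hA : OpB A a) : OpB (-A) a := by
  refine ⟨hA.1, fun v => ?_⟩
  rw [Matrix.neg_mulVec, neg_dotProduct, dotProduct_neg, neg_neg]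
  exact hA.2 v

lemma OpB_sub {A B : Matrix ι ι ℝ} {a b : ℝ} (hA : OpB A a) (hB : OpB B b) :
    OpB (A - B) (a + b) := by
  rw [sub_eq_add_neg]; exact OpB_add hA (OpB_neg hB)

lemma OpB_smul {A : Matrix ι ι ℝ} {a : ℝ} (hA : OpB A a) (t : ℝ) : OpB (t • A) (|t| * a) := by
  refine ⟨mul_nonneg (abs_nonneg _) hA.1, fun v => ?_⟩
  rw [Matrix.smul_mulVec, smul_dotProduct, dotProduct_smul, smul_eq_mul, smul_eq_mul]
  have h := mul_le_mul_of_nonneg_left (hA.2 v) (sq_nonneg t)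
  calc t * (t * ((A *ᵥ v) ⬝ᵥ (A *ᵥ v))) = t ^ 2 * ((A *ᵥ v) ⬝ᵥ (A *ᵥ v)) := by ring
    _ ≤ _ := h
    _ = (|t| * a) ^ 2 * (v ⬝ᵥ v) := by rw [mul_pow, sq_abs]; ring

/-- restriction of a matrix to rows and columns in `G` -/
def res (G : Finset ι) (A : Matrix ι ι ℝ) : Matrix ι ι ℝ := fun x y =>
  if x ∈ G ∧ y ∈ G then A x y else 0

lemma OpB_res {A : Matrix ι ι ℝ} {a : ℝ} (hA : OpB A a) (G : Finset ι) : OpB (res G A) a := by
  refine ⟨hA.1, fun v => ?_⟩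
  set w : ι → ℝ := fun x => if x ∈ G then v x else 0 with hw
  have h1 : ∀ x, (res G A *ᵥ v) x = if x ∈ G then (A *ᵥ w) x else 0 := by
    intro x
    simp only [Matrix.mulVec, dotProduct, res, hw]
    by_cases hx : x ∈ G
    · simp only [hx, true_and, if_true]
      refine Finset.sum_congr rfl fun y _ => ?_
      by_cases hy : y ∈ G <;> simp [hy]
    · simp [hx]
  have h2 : (res G A *ᵥ v) ⬝ᵥ (res G A *ᵥ v) ≤ (A *ᵥ w) ⬝ᵥ (A *ᵥ w) := by
    simp only [dotProduct]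
    refine Finset.sum_le_sum fun x _ => ?_
    rw [h1 x]
    split_ifs
    · exact le_refl _
    · simpa using mul_self_nonneg ((A *ᵥ w) x)
  have h3 : w ⬝ᵥ w ≤ v ⬝ᵥ v := by
    simp only [dotProduct, hw]
    refine Finset.sum_le_sum fun x _ => ?_
    split_ifs
    · exact le_refl _
    · simpa using mul_self_nonneg (v x)
  exact h2.trans ((hA.2 w).trans (mul_le_mul_of_nonneg_left h3 (sq_nonneg _)))

/-- `|∑ φ_xy (A B)_xy| ≤ N ‖A‖_F ‖B‖_F` -/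
lemma ip_mul_le {φ : Matrix ι ι ℝ} {N : ℝ} (hφ : OpB φ N) (A B : Matrix ι ι ℝ) :
    |∑ x, ∑ y, φ x y * (A * B) x y|
      ≤ N * (Real.sqrt (∑ x, ∑ y, (A x y) ^ 2) * Real.sqrt (∑ x, ∑ y, (B x y) ^ 2)) := by
  have h1 : ∑ x, ∑ y, φ x y * (A * B) x y
      = ∑ z, (fun x => A x z) ⬝ᵥ (φ *ᵥ (fun y => B z y)) := by
    simp only [Matrix.mul_apply, dotProduct, Matrix.mulVec, Finset.mul_sum]
    rw [show (∑ x, ∑ y, ∑ z, φ x y * (A x z * B z y))
        = ∑ x, ∑ z, ∑ y, φ x y * (A x z * B z y) from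
      Finset.sum_congr rfl fun x _ => Finset.sum_comm]
    rw [Finset.sum_comm]
    refine Finset.sum_congr rfl fun z _ => Finset.sum_congr rfl fun x _ =>
      Finset.sum_congr rfl fun y _ => by ring
  have h2 : ∀ z, |(fun x => A x z) ⬝ᵥ (φ *ᵥ (fun y => B z y))|
      ≤ N * (Real.sqrt (∑ x, (A x z) ^ 2) * Real.sqrt (∑ y, (B z y) ^ 2)) := by
    intro z
    have h := form_le hφ 1 (fun x => A x z) (fun y => B z y)
    rw [pow_one, pow_one] at h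
    simp only [dotProduct] at h ⊢
    simpa only [← pow_two] using h
  have hA : ∀ z, 0 ≤ ∑ x, (A x z) ^ 2 := fun z => Finset.sum_nonneg fun x _ => sq_nonneg _
  have hB : ∀ z, 0 ≤ ∑ y, (B z y) ^ 2 := fun z => Finset.sum_nonneg fun x _ => sq_nonneg _
  rw [h1]
  refine (Finset.abs_sum_le_sum_abs _ _).trans ((Finset.sum_le_sum fun z _ => h2 z).trans ?_)
  rw [← Finset.mul_sum]
  refine mul_le_mul_of_nonneg_left ?_ hφ.1
  have h3 := Finset.sum_mul_sq_le_sq_mul_sq Finset.univ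
    (fun z => Real.sqrt (∑ x, (A x z) ^ 2)) (fun z => Real.sqrt (∑ y, (B z y) ^ 2))
  simp only [Real.sq_sqrt (hA _), Real.sq_sqrt (hB _)] at h3
  have h4 : 0 ≤ ∑ z, ∑ x, (A x z) ^ 2 := Finset.sum_nonneg fun z _ => hA z
  have h5 : ∑ z, ∑ x, (A x z) ^ 2 = ∑ x, ∑ z, (A x z) ^ 2 := Finset.sum_comm
  rw [← h5, ← Real.sqrt_mul h4]
  exact Real.le_sqrt_of_sq_le h3

/-! ### the tilt -/

lemma apply_comm_of_symm {K : Matrix ι ι ℝ} (hK : Kᵀ = K) (x y : ι) : K x y = K y x := by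
  conv_lhs => rw [← hK]
  rfl

lemma row_sq {K : Matrix ι ι ℝ} (hK : Kᵀ = K) (x : ι) : ∑ y, (K x y) ^ 2 = (K ^ 2) x x := by
  rw [pow_two K, Matrix.mul_apply]
  exact Finset.sum_congr rfl fun y _ => by rw [apply_comm_of_symm hK y x]; ring

lemma frob_sq {K : Matrix ι ι ℝ} (hK : Kᵀ = K) :
    ∑ x, ∑ y, (K x y) ^ 2 = (K ^ 2).trace := by
  simp only [Matrix.trace, Matrix.diag_apply]
  exact Finset.sum_congr rfl fun x _ => row_sq hK x

section Phi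

variable (a b : ℝ) (K L : Matrix ι ι ℝ) (G : Finset ι) (Bad : Finset (ι × ι)) (τ : ℝ)

open Classical in
/-- the truncated linear tilt `a K - b L` -/
noncomputable def phi : Matrix ι ι ℝ := fun x y =>
  if x ∈ G ∧ y ∈ G ∧ |K x y| ≤ τ ∧ |L x y| ≤ τ ∧ (x, y) ∉ Bad then a * K x y - b * L x y else 0

open Classical in
/-- the part removed from `res G (a K - b L)` -/
noncomputable def cutp : Matrix ι ι ℝ := fun x y =>
  if (x ∈ G ∧ y ∈ G) ∧ ¬ (|K x y| ≤ τ ∧ |L x y| ≤ τ ∧ (x, y) ∉ Bad)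
    then a * K x y - b * L x y else 0

variable {a b K L G Bad τ}

lemma abs_comb_le (ha : |a| ≤ 1) (hb : |b| ≤ 1) (p q : ℝ) :
    |a * p - b * q| ≤ |p| + |q| := by
  have h1 : |a * p| ≤ |p| := by
    rw [abs_mul]; nlinarith [abs_nonneg p, abs_nonneg a]
  have h2 : |b * q| ≤ |q| := by
    rw [abs_mul]; nlinarith [abs_nonneg q, abs_nonneg b]
  exact (abs_sub _ _).trans (add_le_add h1 h2)

lemma comb_sq_le (ha : |a| ≤ 1) (hb : |b| ≤ 1) (p q : ℝ) :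
    (a * p - b * q) ^ 2 ≤ 2 * (p ^ 2 + q ^ 2) := by
  have h := abs_comb_le ha hb p q
  have h1 : (a * p - b * q) ^ 2 ≤ (|p| + |q|) ^ 2 := by
    rw [← sq_abs (a * p - b * q)]
    exact pow_le_pow_left₀ (abs_nonneg _) h 2
  nlinarith [sq_nonneg (|p| - |q|), sq_abs p, sq_abs q]

lemma phi_eq : phi a b K L G Bad τ = res G (a • K - b • L) - cutp a b K L G Bad τ := by
  ext x y
  simp only [phi, res, cutp, Matrix.sub_apply, Matrix.smul_apply, smul_eq_mul]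
  by_cases h1 : x ∈ G ∧ y ∈ G
  · by_cases h2 : |K x y| ≤ τ ∧ |L x y| ≤ τ ∧ (x, y) ∉ Bad
    · rw [if_pos ⟨h1.1, h1.2, h2⟩, if_pos h1, if_neg (by tauto)]; ring
    · rw [if_neg (by tauto), if_pos h1, if_pos ⟨h1, h2⟩]; ring
  · rw [if_neg (by tauto), if_neg h1, if_neg (by tauto)]; ring

lemma phi_symm (hK : ∀ x y, K x y = K y x) (hL : ∀ x y, L x y = L y x)
    (hBad : ∀ x y, (x, y) ∈ Bad → (y, x) ∈ Bad) (x y : ι) :
    phi a b K L G Bad τ x y = phi a b K L G Bad τ y x := by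
  have hb : (x, y) ∉ Bad ↔ (y, x) ∉ Bad := not_congr ⟨hBad x y, hBad y x⟩
  simp only [phi, hK x y, hL x y, hb]
  congr 1
  simp only [eq_iff_iff]
  tauto

lemma cutp_symm (hK : ∀ x y, K x y = K y x) (hL : ∀ x y, L x y = L y x)
    (hBad : ∀ x y, (x, y) ∈ Bad → (y, x) ∈ Bad) (x y : ι) :
    cutp a b K L G Bad τ x y = cutp a b K L G Bad τ y x := by
  have hb : (x, y) ∉ Bad ↔ (y, x) ∉ Bad := not_congr ⟨hBad x y, hBad y x⟩
  simp only [cutp, hK x y, hL x y, hb]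
  congr 1
  simp only [eq_iff_iff]
  tauto

lemma abs_phi_le (ha : |a| ≤ 1) (hb : |b| ≤ 1) (hτ : 0 ≤ τ) (x y : ι) :
    |phi a b K L G Bad τ x y| ≤ 2 * τ := by
  simp only [phi]
  split_ifs with h
  · have := abs_comb_le ha hb (K x y) (L x y)
    obtain ⟨_, _, h1, h2, _⟩ := h
    linarith
  · simpa using hτ

lemma phi_eq_zero_of_bad {x y : ι} (h : (x, y) ∈ Bad) : phi a b K L G Bad τ x y = 0 := by
  simp [phi, h]

lemma phi_eq_zero_left {x y : ι} (h : x ∉ G) : phi a b K L G Bad τ x y = 0 := by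
  simp [phi, h]

lemma phi_eq_zero_right {x y : ι} (h : y ∉ G) : phi a b K L G Bad τ x y = 0 := by
  simp [phi, h]

lemma phi_sq_le (ha : |a| ≤ 1) (hb : |b| ≤ 1) (x y : ι) :
    (phi a b K L G Bad τ x y) ^ 2 ≤ 2 * ((K x y) ^ 2 + (L x y) ^ 2) := by
  simp only [phi]
  split_ifs with h
  · exact comb_sq_le ha hb _ _
  · simpa using by positivity

lemma sum_abs_le_of_large {τ p q : ℝ} (hτ : 0 < τ) (h : ¬ (|p| ≤ τ ∧ |q| ≤ τ)) :
    |p| + |q| ≤ 2 / τ * (p ^ 2 + q ^ 2) := by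
  rw [div_mul_eq_mul_div, le_div_iff₀ hτ]
  have e1 := sq_abs p
  have e2 := sq_abs q
  rw [← e1, ← e2]
  have p1 := abs_nonneg p
  have p2 := abs_nonneg q
  rcases not_and_or.mp h with h | h <;> push Not at h
  · nlinarith [sq_nonneg (|p| - |q|)]
  · nlinarith [sq_nonneg (|p| - |q|)]

lemma cutp_abs_le (ha : |a| ≤ 1) (hb : |b| ≤ 1) (hτ : 0 < τ) (x y : ι) :
    |cutp a b K L G Bad τ x y| ≤ 2 / τ * ((K x y) ^ 2 + (L x y) ^ 2)
      + (if (x, y) ∈ Bad then 2 * τ else 0) := by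
  have h0 : 0 ≤ 2 / τ * ((K x y) ^ 2 + (L x y) ^ 2) := by positivity
  have h0' : (0 : ℝ) ≤ if (x, y) ∈ Bad then 2 * τ else 0 := by split_ifs <;> linarith
  have hc := abs_comb_le ha hb (K x y) (L x y)
  simp only [cutp]
  by_cases h : (x ∈ G ∧ y ∈ G) ∧ ¬ (|K x y| ≤ τ ∧ |L x y| ≤ τ ∧ (x, y) ∉ Bad)
  · rw [if_pos h]
    by_cases hk : |K x y| ≤ τ ∧ |L x y| ≤ τ
    · have hb : (x, y) ∈ Bad := by
        by_contra hb
        exact h.2 ⟨hk.1, hk.2, hb⟩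
      rw [if_pos hb]
      linarith [hk.1, hk.2]
    · have := sum_abs_le_of_large hτ hk
      linarith
  · rw [if_neg h, abs_zero]
    linarith

lemma row_cutp_le (ha : |a| ≤ 1) (hb : |b| ≤ 1) (hK : Kᵀ = K) (hL : Lᵀ = L) (hτ : 0 < τ)
    {B D : ℝ} (hB : 0 ≤ B) (hD : 0 ≤ D)
    (hG : ∀ x ∈ G, (K ^ 2) x x ≤ B ∧ (L ^ 2) x x ≤ B)
    (hbad : ∀ x ∈ G, ((Finset.univ.filter (fun y => (x, y) ∈ Bad)).card : ℝ) ≤ D) (x : ι) :
    ∑ y, |cutp a b K L G Bad τ x y| ≤ 4 * B / τ + 2 * τ * D := by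
  by_cases hx : x ∈ G
  · have h1 : ∑ y, |cutp a b K L G Bad τ x y| ≤ ∑ y, (2 / τ * ((K x y) ^ 2 + (L x y) ^ 2)
        + (if (x, y) ∈ Bad then 2 * τ else 0)) :=
      Finset.sum_le_sum fun y _ => cutp_abs_le ha hb hτ x y
    refine h1.trans ?_
    rw [Finset.sum_add_distrib, ← Finset.mul_sum, Finset.sum_add_distrib, row_sq hK, row_sq hL]
    have h2 : ∑ y, (if (x, y) ∈ Bad then 2 * τ else 0)
        = ((Finset.univ.filter (fun y => (x, y) ∈ Bad)).card : ℝ) * (2 * τ) := by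
      rw [← Finset.sum_filter, Finset.sum_const, nsmul_eq_mul]
    rw [h2]
    have h3 := hG x hx
    have h4 : 2 / τ * ((K ^ 2) x x + (L ^ 2) x x) ≤ 2 / τ * (2 * B) :=
      mul_le_mul_of_nonneg_left (by linarith [h3.1, h3.2]) (by positivity)
    have h5 : ((Finset.univ.filter (fun y => (x, y) ∈ Bad)).card : ℝ) * (2 * τ) ≤ D * (2 * τ) :=
      mul_le_mul_of_nonneg_right (hbad x hx) (by positivity)
    have h6 : 2 / τ * (2 * B) = 4 * B / τ := by ring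
    linarith
  · have h1 : ∑ y, |cutp a b K L G Bad τ x y| = 0 := by
      refine Finset.sum_eq_zero fun y _ => ?_
      simp [cutp, hx]
    rw [h1]
    positivity

/-- operator norm of the tilt -/
theorem phi_opB (ha : |a| ≤ 1) (hb : |b| ≤ 1) (hK : Kᵀ = K) (hL : Lᵀ = L) {ΛK ΛL : ℝ}
    (hΛK : OpB K ΛK) (hΛL : OpB L ΛL)
    (hτ : 0 < τ) {B D : ℝ} (hB : 0 ≤ B) (hD : 0 ≤ D)
    (hG : ∀ x ∈ G, (K ^ 2) x x ≤ B ∧ (L ^ 2) x x ≤ B)
    (hBs : ∀ x y, (x, y) ∈ Bad → (y, x) ∈ Bad)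
    (hbad : ∀ x ∈ G, ((Finset.univ.filter (fun y => (x, y) ∈ Bad)).card : ℝ) ≤ D) :
    OpB (phi a b K L G Bad τ) (ΛK + ΛL + (4 * B / τ + 2 * τ * D)) := by
  rw [phi_eq]
  have h1 : OpB (a • K - b • L) (ΛK + ΛL) := by
    refine (OpB_sub (OpB_smul hΛK a) (OpB_smul hΛL b)).mono ?_
    have := hΛK.1
    have := hΛL.1
    nlinarith [abs_nonneg a, abs_nonneg b]
  refine OpB_sub (OpB_res h1 G) (opB_of_rows (by positivity) ?_ ?_)
  · intro x y
    rw [cutp_symm (apply_comm_of_symm hK) (apply_comm_of_symm hL) hBs]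
  · exact row_cutp_le ha hb hK hL hτ hB hD hG hbad

/-- the part of a sum outside `G × G` -/
lemma outside_le {A M : Matrix ι ι ℝ} (hA : ∀ x y, A x y = A y x) (hM : ∀ x y, M x y = M y x) :
    |∑ x, ∑ y, M x y * A x y - ∑ x, ∑ y, res G M x y * A x y|
      ≤ 2 * (Real.sqrt (∑ x ∈ Gᶜ, ∑ y, (M x y) ^ 2) * Real.sqrt (∑ x, ∑ y, (A x y) ^ 2)) := by
  have hS : ∀ (a b : ι → ι → ℝ), ∑ x ∈ Gᶜ, ∑ y, |a x y| * |b x y|
      ≤ Real.sqrt (∑ x ∈ Gᶜ, ∑ y, (a x y) ^ 2) * Real.sqrt (∑ x, ∑ y, (b x y) ^ 2) := by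
    intro a b
    have ha0 : 0 ≤ ∑ x ∈ Gᶜ, ∑ y, (a x y) ^ 2 :=
      Finset.sum_nonneg fun x _ => Finset.sum_nonneg fun y _ => sq_nonneg _
    have h := Finset.sum_mul_sq_le_sq_mul_sq (Gᶜ ×ˢ (Finset.univ : Finset ι))
      (fun p => |a p.1 p.2|) (fun p => |b p.1 p.2|)
    simp only [Finset.sum_product, sq_abs] at h
    have hb1 : ∑ x ∈ Gᶜ, ∑ y, (b x y) ^ 2 ≤ ∑ x, ∑ y, (b x y) ^ 2 :=
      Finset.sum_le_sum_of_subset_of_nonneg (Finset.subset_univ _)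
        fun x _ _ => Finset.sum_nonneg fun y _ => sq_nonneg _
    rw [← Real.sqrt_mul ha0]
    refine Real.le_sqrt_of_sq_le (h.trans (mul_le_mul_of_nonneg_left hb1 ha0))
  have h1 : ∑ x, ∑ y, M x y * A x y - ∑ x, ∑ y, res G M x y * A x y
      = ∑ x, ∑ y, (if x ∈ G ∧ y ∈ G then 0 else M x y * A x y) := by
    rw [← Finset.sum_sub_distrib]
    refine Finset.sum_congr rfl fun x _ => ?_
    rw [← Finset.sum_sub_distrib]
    refine Finset.sum_congr rfl fun y _ => ?_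
    simp only [res]
    split_ifs <;> simp
  rw [h1]
  have h2 : |∑ x, ∑ y, (if x ∈ G ∧ y ∈ G then 0 else M x y * A x y)|
      ≤ ∑ x, ∑ y, ((if x ∈ Gᶜ then |M x y| * |A x y| else 0)
        + (if y ∈ Gᶜ then |M x y| * |A x y| else 0)) := by
    refine (Finset.abs_sum_le_sum_abs _ _).trans (Finset.sum_le_sum fun x _ => ?_)
    refine (Finset.abs_sum_le_sum_abs _ _).trans (Finset.sum_le_sum fun y _ => ?_)
    have h0 : 0 ≤ |M x y| * |A x y| := mul_nonneg (abs_nonneg _) (abs_nonneg _)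
    by_cases hx : x ∈ G <;> by_cases hy : y ∈ G <;>
      simp only [hx, hy, Finset.mem_compl, not_true_eq_false, not_false_eq_true, and_self,
        and_true, and_false, if_true, if_false, abs_zero, abs_mul] <;>
      nlinarith
  refine h2.trans ?_
  have h3 : ∑ x, ∑ y, (if x ∈ Gᶜ then |M x y| * |A x y| else 0)
      = ∑ x ∈ Gᶜ, ∑ y, |M x y| * |A x y| := by
    rw [← Finset.sum_filter_add_sum_filter_not Finset.univ (fun x => x ∈ Gᶜ)
      (fun x => ∑ y, (if x ∈ Gᶜ then |M x y| * |A x y| else 0))]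
    have e1 : (Finset.univ.filter fun x => x ∈ Gᶜ) = Gᶜ := by ext x; simp
    rw [e1]
    have e2 : ∑ x ∈ Finset.univ.filter (fun x => ¬ x ∈ Gᶜ),
        ∑ y, (if x ∈ Gᶜ then |M x y| * |A x y| else 0) = 0 := by
      refine Finset.sum_eq_zero fun x hx => ?_
      rw [Finset.mem_filter] at hx
      simp [hx.2]
    rw [e2, add_zero]
    refine Finset.sum_congr rfl fun x hx => Finset.sum_congr rfl fun y _ => ?_
    simp only [hx, if_true]
  have h4 : ∑ x, ∑ y, (if y ∈ Gᶜ then |M x y| * |A x y| else 0)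
      = ∑ x, ∑ y, (if x ∈ Gᶜ then |M x y| * |A x y| else 0) := by
    rw [Finset.sum_comm]
    refine Finset.sum_congr rfl fun x _ => Finset.sum_congr rfl fun y _ => ?_
    rw [hA y x, hM y x]
  simp only [Finset.sum_add_distrib]
  rw [h4, h3]
  have h5 := hS M A
  linarith

lemma abs_sq_entry_le (hK : Kᵀ = K) {B : ℝ} (hB : 0 ≤ B) {x y : ι} (hx : (K ^ 2) x x ≤ B)
    (hy : (K ^ 2) y y ≤ B) : |(K ^ 2) x y| ≤ B := by
  have h1 := entry_sq_le hK 1 1 x y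
  simp only [mul_one, Nat.reduceAdd] at h1
  have h0 := diag_sq_nonneg hK y
  refine abs_le_of_sq_le_sq (h1.trans ?_) hB
  calc (K ^ 2) x x * (K ^ 2) y y ≤ B * B := mul_le_mul hx hy h0 hB
    _ = B ^ 2 := by ring

/-- the gain of the tilt in the `K`-direction -/
theorem gain_left (ha : |a| ≤ 1) (hb : |b| ≤ 1) (hK : Kᵀ = K) (hL : Lᵀ = L) (hτ : 0 < τ)
    {B Nb : ℝ} (hB : 0 ≤ B)
    (hG : ∀ x ∈ G, (K ^ 2) x x ≤ B ∧ (L ^ 2) x x ≤ B) (hbad : (Bad.card : ℝ) ≤ Nb) :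
    a * (K ^ 3).trace - b * ∑ x, ∑ y, L x y * (K ^ 2) x y
      - 2 * (Real.sqrt (2 * ∑ x ∈ Gᶜ, ((K ^ 2) x x + (L ^ 2) x x)) * Real.sqrt ((K ^ 4).trace))
      - B * (2 / τ * ((K ^ 2).trace + (L ^ 2).trace) + 2 * τ * Nb)
      ≤ ∑ x, ∑ y, phi a b K L G Bad τ x y * (K ^ 2) x y := by
  have hKc := apply_comm_of_symm hK
  have hLc := apply_comm_of_symm hL
  have e0 : ∑ x, ∑ y, phi a b K L G Bad τ x y * (K ^ 2) x y
      = ∑ x, ∑ y, res G (a • K - b • L) x y * (K ^ 2) x y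
        - ∑ x, ∑ y, cutp a b K L G Bad τ x y * (K ^ 2) x y := by
    rw [phi_eq]
    simp only [Matrix.sub_apply, sub_mul, Finset.sum_sub_distrib]
  have e1 := outside_le (G := G) (A := K ^ 2) (M := a • K - b • L) (pow_apply_comm hK 2)
    (fun x y => by
      simp only [Matrix.sub_apply, Matrix.smul_apply, smul_eq_mul]
      rw [hKc x y, hLc x y])
  have e2 : ∑ x, ∑ y, ((K ^ 2) x y) ^ 2 = (K ^ 4).trace := by
    simpa using frob_pow hK 2
  have e3 : ∑ x ∈ Gᶜ, ∑ y, ((a • K - b • L) x y) ^ 2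
      ≤ 2 * ∑ x ∈ Gᶜ, ((K ^ 2) x x + (L ^ 2) x x) := by
    rw [Finset.mul_sum]
    refine Finset.sum_le_sum fun x _ => ?_
    rw [← row_sq hK, ← row_sq hL, ← Finset.sum_add_distrib, Finset.mul_sum]
    refine Finset.sum_le_sum fun y _ => ?_
    simp only [Matrix.sub_apply, Matrix.smul_apply, smul_eq_mul]
    exact comb_sq_le ha hb _ _
  rw [e2] at e1
  have e4 := mul_le_mul_of_nonneg_right (Real.sqrt_le_sqrt e3) (Real.sqrt_nonneg ((K ^ 4).trace))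
  have e5 := (abs_le.mp e1).2
  have e6 : ∑ x, ∑ y, (a • K - b • L) x y * (K ^ 2) x y
      = a * (K ^ 3).trace - b * ∑ x, ∑ y, L x y * (K ^ 2) x y := by
    have h := trace_pow_add hK 1 2
    simp only [pow_one, Nat.reduceAdd] at h
    rw [← h]
    simp only [Matrix.sub_apply, Matrix.smul_apply, smul_eq_mul, sub_mul,
      Finset.sum_sub_distrib, Finset.mul_sum, mul_assoc]
  -- the cut part
  have e7 : ∑ x, ∑ y, cutp a b K L G Bad τ x y * (K ^ 2) x y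
      ≤ B * (2 / τ * ((K ^ 2).trace + (L ^ 2).trace) + 2 * τ * Nb) := by
    have h1 : ∀ x y, cutp a b K L G Bad τ x y * (K ^ 2) x y
        ≤ B * (2 / τ * ((K x y) ^ 2 + (L x y) ^ 2) + (if (x, y) ∈ Bad then 2 * τ else 0)) := by
      intro x y
      by_cases hxy : x ∈ G ∧ y ∈ G
      · have h2 := abs_sq_entry_le hK hB (hG x hxy.1).1 (hG y hxy.2).1
        have h3 := cutp_abs_le (a := a) (b := b) (K := K) (L := L) (G := G) (Bad := Bad)
          ha hb hτ x y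
        calc cutp a b K L G Bad τ x y * (K ^ 2) x y
            ≤ |cutp a b K L G Bad τ x y * (K ^ 2) x y| := le_abs_self _
          _ = |(K ^ 2) x y| * |cutp a b K L G Bad τ x y| := by rw [abs_mul, mul_comm]
          _ ≤ B * |cutp a b K L G Bad τ x y| := mul_le_mul_of_nonneg_right h2 (abs_nonneg _)
          _ ≤ _ := mul_le_mul_of_nonneg_left h3 hB
      · have h2 : cutp a b K L G Bad τ x y = 0 := by
          simp only [cutp]
          rw [if_neg (by tauto)]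
        rw [h2, zero_mul]
        have h3 : (0 : ℝ) ≤ if (x, y) ∈ Bad then 2 * τ else 0 := by split_ifs <;> linarith
        have h4 : 0 ≤ 2 / τ * ((K x y) ^ 2 + (L x y) ^ 2) := by positivity
        exact mul_nonneg hB (add_nonneg h4 h3)
    refine (Finset.sum_le_sum fun x _ => Finset.sum_le_sum fun y _ => h1 x y).trans ?_
    have h2 : ∑ x, ∑ y, (if (x, y) ∈ Bad then 2 * τ else 0) = (Bad.card : ℝ) * (2 * τ) := by
      have : ∑ p : ι × ι, (if p ∈ Bad then 2 * τ else 0) = (Bad.card : ℝ) * (2 * τ) := by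
        rw [Finset.sum_ite_mem, Finset.univ_inter, Finset.sum_const, nsmul_eq_mul]
      rw [← this, ← Finset.univ_product_univ, Finset.sum_product]
    have h3 : ∑ x, ∑ y, B * (2 / τ * ((K x y) ^ 2 + (L x y) ^ 2)
        + (if (x, y) ∈ Bad then 2 * τ else 0))
        = B * (2 / τ * ((K ^ 2).trace + (L ^ 2).trace) + (Bad.card : ℝ) * (2 * τ)) := by
      simp only [← Finset.mul_sum]
      congr 1
      simp only [Finset.sum_add_distrib, ← Finset.mul_sum]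
      rw [h2, frob_sq hK, frob_sq hL]
    rw [h3]
    refine mul_le_mul_of_nonneg_left ?_ hB
    have : (Bad.card : ℝ) * (2 * τ) ≤ Nb * (2 * τ) :=
      mul_le_mul_of_nonneg_right hbad (by positivity)
    linarith
  rw [e0]
  rw [e6] at e5
  linarith

lemma phi_swap (x y : ι) : phi a b K L G Bad τ x y = - phi b a L K G Bad τ x y := by
  simp only [phi]
  by_cases h : x ∈ G ∧ y ∈ G ∧ |K x y| ≤ τ ∧ |L x y| ≤ τ ∧ (x, y) ∉ Bad
  · rw [if_pos h, if_pos (by tauto)]; ring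
  · rw [if_neg h, if_neg (by tauto)]; ring

/-- the gain of the tilt in the `L`-direction -/
theorem gain_right (ha : |a| ≤ 1) (hb : |b| ≤ 1) (hK : Kᵀ = K) (hL : Lᵀ = L) (hτ : 0 < τ)
    {B Nb : ℝ} (hB : 0 ≤ B)
    (hG : ∀ x ∈ G, (K ^ 2) x x ≤ B ∧ (L ^ 2) x x ≤ B) (hbad : (Bad.card : ℝ) ≤ Nb) :
    b * (L ^ 3).trace - a * ∑ x, ∑ y, K x y * (L ^ 2) x y
      - 2 * (Real.sqrt (2 * ∑ x ∈ Gᶜ, ((K ^ 2) x x + (L ^ 2) x x)) * Real.sqrt ((L ^ 4).trace))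
      - B * (2 / τ * ((K ^ 2).trace + (L ^ 2).trace) + 2 * τ * Nb)
      ≤ - ∑ x, ∑ y, phi a b K L G Bad τ x y * (L ^ 2) x y := by
  have h := gain_left (a := b) (b := a) (K := L) (L := K) (G := G) (Bad := Bad) (τ := τ)
    hb ha hL hK hτ hB (fun x hx => (hG x hx).symm) hbad
  have h1 : ∑ x, ∑ y, phi b a L K G Bad τ x y * (L ^ 2) x y
      = - ∑ x, ∑ y, phi a b K L G Bad τ x y * (L ^ 2) x y := by
    simp only [phi_swap (a := b) (b := a) (K := L) (L := K), neg_mul, Finset.sum_neg_distrib]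
  rw [h1] at h
  have h2 : ∑ x ∈ Gᶜ, ((L ^ 2) x x + (K ^ 2) x x) = ∑ x ∈ Gᶜ, ((K ^ 2) x x + (L ^ 2) x x) :=
    Finset.sum_congr rfl fun x _ => add_comm _ _
  rw [h2, add_comm (L ^ 2).trace] at h
  exact h

/-- Frobenius norm of the tilt -/
theorem phi_frob_le (ha : |a| ≤ 1) (hb : |b| ≤ 1) (hK : Kᵀ = K) (hL : Lᵀ = L) :
    ∑ x, ∑ y, (phi a b K L G Bad τ x y) ^ 2 ≤ 2 * ((K ^ 2).trace + (L ^ 2).trace) := by
  rw [← frob_sq hK, ← frob_sq hL, ← Finset.sum_add_distrib, Finset.mul_sum]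
  refine Finset.sum_le_sum fun x _ => ?_
  rw [← Finset.sum_add_distrib, Finset.mul_sum]
  exact Finset.sum_le_sum fun y _ => phi_sq_le ha hb x y

open Classical in
/-- the set of stubs with both `(K²)_xx, (L²)_xx ≤ B` -/
noncomputable def Gset (K L : Matrix ι ι ℝ) (B : ℝ) : Finset ι :=
  Finset.univ.filter fun x => (K ^ 2) x x ≤ B ∧ (L ^ 2) x x ≤ B

lemma mem_Gset {B : ℝ} {x : ι} : x ∈ Gset K L B ↔ (K ^ 2) x x ≤ B ∧ (L ^ 2) x x ≤ B := by
  simp [Gset]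

/-- mass outside `G` from the second moments of the diagonals -/
lemma outside_mass_le (hK : Kᵀ = K) (hL : Lᵀ = L) {B : ℝ} (hB : 0 < B) :
    ∑ x ∈ (Gset K L B)ᶜ, ((K ^ 2) x x + (L ^ 2) x x)
      ≤ 2 / B * (∑ x, ((K ^ 2) x x) ^ 2 + ∑ x, ((L ^ 2) x x) ^ 2) := by
  rw [← Finset.sum_add_distrib, Finset.mul_sum]
  refine (Finset.sum_le_sum (g := fun x => 2 / B * (((K ^ 2) x x) ^ 2 + ((L ^ 2) x x) ^ 2))
    fun x hx => ?_).trans (Finset.sum_le_sum_of_subset_of_nonneg (Finset.subset_univ _)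
      fun x _ _ => by positivity)
  rw [Finset.mem_compl, mem_Gset] at hx
  have p1 := diag_sq_nonneg hK x
  have p2 := diag_sq_nonneg hL x
  rw [div_mul_eq_mul_div, le_div_iff₀ hB]
  rcases not_and_or.mp hx with h | h <;> push Not at h
  · nlinarith [sq_nonneg ((K ^ 2) x x - (L ^ 2) x x)]
  · nlinarith [sq_nonneg ((K ^ 2) x x - (L ^ 2) x x)]

/-- mass outside `G` from the centred second moments; `u` is the indicator of the live stubs,
or any function with `u = 1` outside `G` -/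
lemma outside_mass_le_centred (hK : Kᵀ = K) (hL : Lᵀ = L) {B : ℝ} (hB : 2 ≤ B) (u : ι → ℝ)
    (hu0 : ∀ x, 0 ≤ u x) (hu : ∀ x, u x = 1 ∨ ((K ^ 2) x x = 0 ∧ (L ^ 2) x x = 0)) :
    ∑ x ∈ (Gset K L B)ᶜ, ((K ^ 2) x x + (L ^ 2) x x)
      ≤ 8 / B * (∑ x, u x * ((K ^ 2) x x - 1) ^ 2 + ∑ x, u x * ((L ^ 2) x x - 1) ^ 2) := by
  have hB0 : 0 < B := by linarith
  rw [← Finset.sum_add_distrib, Finset.mul_sum]
  refine (Finset.sum_le_sum (g := fun x => 8 / B * (u x * ((K ^ 2) x x - 1) ^ 2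
    + u x * ((L ^ 2) x x - 1) ^ 2))
    fun x hx => ?_).trans (Finset.sum_le_sum_of_subset_of_nonneg (Finset.subset_univ _)
      fun x _ _ => by
        have := hu0 x
        positivity)
  rw [Finset.mem_compl, mem_Gset] at hx
  have p1 := diag_sq_nonneg hK x
  have p2 := diag_sq_nonneg hL x
  have hux : u x = 1 := by
    rcases hu x with h | h
    · exact h
    · exfalso; apply hx; rw [h.1, h.2]; constructor <;> linarith
  rw [hux, one_mul, one_mul, div_mul_eq_mul_div, le_div_iff₀ hB0]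
  set p := (K ^ 2) x x
  set q := (L ^ 2) x x
  rcases not_and_or.mp hx with h | h <;> push Not at h
  · rcases le_total q p with hqp | hqp
    · have h1 : (p + q) * B ≤ 2 * p * p := by nlinarith
      nlinarith [sq_nonneg (q - 1)]
    · have h1 : (p + q) * B ≤ 2 * q * q := by nlinarith
      nlinarith [sq_nonneg (p - 1)]
  · rcases le_total q p with hqp | hqp
    · have h1 : (p + q) * B ≤ 2 * p * p := by nlinarith
      nlinarith [sq_nonneg (q - 1)]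
    · have h1 : (p + q) * B ≤ 2 * q * q := by nlinarith
      nlinarith [sq_nonneg (p - 1)]

/-! ### Frobenius norm of `φ K` -/

/-- Frobenius norm bound -/
def Fr (A : Matrix ι ι ℝ) (a : ℝ) : Prop := 0 ≤ a ∧ ∑ x, ∑ y, (A x y) ^ 2 ≤ a ^ 2

lemma Fr_of_sqrt (A : Matrix ι ι ℝ) : Fr A (Real.sqrt (∑ x, ∑ y, (A x y) ^ 2)) := by
  refine ⟨Real.sqrt_nonneg _, ?_⟩
  rw [Real.sq_sqrt]
  exact Finset.sum_nonneg fun x _ => Finset.sum_nonneg fun y _ => sq_nonneg _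

lemma Fr.sqrt_le {A : Matrix ι ι ℝ} {a : ℝ} (h : Fr A a) :
    Real.sqrt (∑ x, ∑ y, (A x y) ^ 2) ≤ a := Real.sqrt_le_iff.mpr ⟨h.1, h.2⟩

/-- Cauchy–Schwarz for the Frobenius inner product -/
lemma abs_ip_le {A B : Matrix ι ι ℝ} {a b : ℝ} (hA : Fr A a) (hB : Fr B b) :
    |∑ x, ∑ y, A x y * B x y| ≤ a * b := by
  refine abs_le_of_sq_le_sq ?_ (mul_nonneg hA.1 hB.1)
  have h := Finset.sum_mul_sq_le_sq_mul_sq (Finset.univ : Finset (ι × ι))
    (fun p => A p.1 p.2) (fun p => B p.1 p.2)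
  simp only [← Finset.univ_product_univ, Finset.sum_product] at h
  calc _ ≤ _ := h
    _ ≤ a ^ 2 * b ^ 2 := mul_le_mul hA.2 hB.2
        (Finset.sum_nonneg fun x _ => Finset.sum_nonneg fun y _ => sq_nonneg _) (sq_nonneg _)
    _ = _ := by ring

lemma Fr_add {A B : Matrix ι ι ℝ} {a b : ℝ} (hA : Fr A a) (hB : Fr B b) : Fr (A + B) (a + b) := by
  refine ⟨add_nonneg hA.1 hB.1, ?_⟩
  have h1 : ∑ x, ∑ y, ((A + B) x y) ^ 2 = ∑ x, ∑ y, (A x y) ^ 2 + ∑ x, ∑ y, (B x y) ^ 2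
      + 2 * ∑ x, ∑ y, A x y * B x y := by
    simp only [Matrix.add_apply, Finset.mul_sum, ← Finset.sum_add_distrib]
    exact Finset.sum_congr rfl fun x _ => Finset.sum_congr rfl fun y _ => by ring
  rw [h1]
  have h2 := (abs_le.mp (abs_ip_le hA hB)).2
  nlinarith [hA.2, hB.2]

lemma Fr_neg {A : Matrix ι ι ℝ} {a : ℝ} (hA : Fr A a) : Fr (-A) a := by
  refine ⟨hA.1, ?_⟩
  simpa using hA.2

lemma Fr_sub {A B : Matrix ι ι ℝ} {a b : ℝ} (hA : Fr A a) (hB : Fr B b) : Fr (A - B) (a + b) := by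
  rw [sub_eq_add_neg]; exact Fr_add hA (Fr_neg hB)

lemma Fr_smul {A : Matrix ι ι ℝ} {a t : ℝ} (hA : Fr A a) (ht : |t| ≤ 1) : Fr (t • A) a := by
  refine ⟨hA.1, ?_⟩
  have h1 : ∑ x, ∑ y, ((t • A) x y) ^ 2 = t ^ 2 * ∑ x, ∑ y, (A x y) ^ 2 := by
    simp only [Matrix.smul_apply, smul_eq_mul, mul_pow, Finset.mul_sum]
  rw [h1]
  have h2 : t ^ 2 ≤ 1 := by rw [← sq_abs]; nlinarith [abs_nonneg t]
  have h3 : 0 ≤ ∑ x, ∑ y, (A x y) ^ 2 :=
    Finset.sum_nonneg fun x _ => Finset.sum_nonneg fun y _ => sq_nonneg _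
  nlinarith [hA.2]

lemma Fr.mono {A : Matrix ι ι ℝ} {a b : ℝ} (hA : Fr A a) (h : a ≤ b) : Fr A b :=
  ⟨hA.1.trans h, hA.2.trans (pow_le_pow_left₀ hA.1 h 2)⟩

/-- `‖φ A‖_F ≤ ‖φ‖ ‖A‖_F` -/
lemma Fr_opB_mul {φ A : Matrix ι ι ℝ} {N a : ℝ} (hφ : OpB φ N) (hA : Fr A a) :
    Fr (φ * A) (N * a) := by
  refine ⟨mul_nonneg hφ.1 hA.1, ?_⟩
  have h1 : ∀ z, ∑ x, ((φ * A) x z) ^ 2 ≤ N ^ 2 * ∑ x, (A x z) ^ 2 := by
    intro z
    have h := hφ.2 (fun x => A x z)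
    have e1 : ∀ x, (φ *ᵥ (fun x => A x z)) x = (φ * A) x z := fun x => rfl
    simp only [dotProduct, e1] at h
    simpa only [← pow_two] using h
  calc ∑ x, ∑ y, ((φ * A) x y) ^ 2 = ∑ z, ∑ x, ((φ * A) x z) ^ 2 := Finset.sum_comm
    _ ≤ ∑ z, N ^ 2 * ∑ x, (A x z) ^ 2 := Finset.sum_le_sum fun z _ => h1 z
    _ = N ^ 2 * ∑ x, ∑ z, (A x z) ^ 2 := by rw [← Finset.mul_sum, Finset.sum_comm]
    _ ≤ N ^ 2 * a ^ 2 := mul_le_mul_of_nonneg_left hA.2 (sq_nonneg _)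
    _ = _ := by ring

/-- `‖L Π K‖_F² = ∑_{z,w ∈ G} (L²)_zw (K²)_zw` -/
lemma frob_mid (hK : Kᵀ = K) (hL : Lᵀ = L) (G : Finset ι) :
    ∑ x, ∑ y, (∑ z ∈ G, L x z * K z y) ^ 2
      = ∑ z ∈ G, ∑ w ∈ G, (L ^ 2) z w * (K ^ 2) z w := by
  have hKc := apply_comm_of_symm hK
  have hLc := apply_comm_of_symm hL
  have e1 : ∀ z w, (L ^ 2) z w * (K ^ 2) z w
      = ∑ x, ∑ y, (L x z * K z y) * (L x w * K w y) := by
    intro z w
    rw [pow_two, pow_two, Matrix.mul_apply, Matrix.mul_apply, Finset.sum_mul_sum]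
    refine Finset.sum_congr rfl fun x _ => Finset.sum_congr rfl fun y _ => ?_
    rw [hLc z x, hKc y w]; ring
  simp_rw [e1]
  have e2 : ∀ x y, (∑ z ∈ G, L x z * K z y) ^ 2
      = ∑ z ∈ G, ∑ w ∈ G, (L x z * K z y) * (L x w * K w y) := by
    intro x y
    rw [pow_two, Finset.sum_mul_sum]
  simp_rw [e2]
  calc _ = ∑ x, ∑ z ∈ G, ∑ y, ∑ w ∈ G, (L x z * K z y) * (L x w * K w y) :=
        Finset.sum_congr rfl fun x _ => Finset.sum_comm
    _ = ∑ z ∈ G, ∑ x, ∑ y, ∑ w ∈ G, (L x z * K z y) * (L x w * K w y) := Finset.sum_comm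
    _ = ∑ z ∈ G, ∑ x, ∑ w ∈ G, ∑ y, (L x z * K z y) * (L x w * K w y) :=
        Finset.sum_congr rfl fun z _ => Finset.sum_congr rfl fun x _ => Finset.sum_comm
    _ = _ := Finset.sum_congr rfl fun z _ => Finset.sum_comm

lemma Fr_res_mul (hK : Kᵀ = K) (hL : Lᵀ = L) (G : Finset ι) :
    Fr (res G L * K) (Real.sqrt (Real.sqrt ((L ^ 4).trace) * Real.sqrt ((K ^ 4).trace))) := by
  refine ⟨Real.sqrt_nonneg _, ?_⟩
  rw [Real.sq_sqrt (mul_nonneg (Real.sqrt_nonneg _) (Real.sqrt_nonneg _))]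
  have h1 : ∑ x, ∑ y, ((res G L * K) x y) ^ 2 ≤ ∑ x, ∑ y, (∑ z ∈ G, L x z * K z y) ^ 2 := by
    refine Finset.sum_le_sum fun x _ => Finset.sum_le_sum fun y _ => ?_
    have e1 : (res G L * K) x y = if x ∈ G then ∑ z ∈ G, L x z * K z y else 0 := by
      rw [Matrix.mul_apply]
      by_cases hx : x ∈ G
      · rw [if_pos hx]
        rw [← Finset.sum_subset (Finset.subset_univ G)]
        · exact Finset.sum_congr rfl fun z hz => by simp [res, hx, hz]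
        · intro z _ hz
          simp [res, hz]
      · rw [if_neg hx]
        exact Finset.sum_eq_zero fun z _ => by simp [res, hx]
    rw [e1]
    split_ifs
    · exact le_refl _
    · simpa using sq_nonneg _
  refine h1.trans ?_
  rw [frob_mid hK hL]
  have hS := Finset.sum_mul_sq_le_sq_mul_sq (G ×ˢ G)
    (fun p => (L ^ 2) p.1 p.2) (fun p => (K ^ 2) p.1 p.2)
  simp only [Finset.sum_product] at hS
  have hb : ∀ {M : Matrix ι ι ℝ}, Mᵀ = M → ∑ x ∈ G, ∑ y ∈ G, ((M ^ 2) x y) ^ 2 ≤ (M ^ 4).trace := by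
    intro M hM
    have h := frob_pow hM 2
    simp only [Nat.reduceMul] at h
    rw [← h]
    refine (Finset.sum_le_sum fun x _ => Finset.sum_le_sum_of_subset_of_nonneg
      (Finset.subset_univ G) fun y _ _ => sq_nonneg _).trans
      (Finset.sum_le_sum_of_subset_of_nonneg (Finset.subset_univ G)
        fun x _ _ => Finset.sum_nonneg fun y _ => sq_nonneg _)
  have hK4 : 0 ≤ (K ^ 4).trace := by simpa using trace_even_nonneg hK 2
  have hL4 : 0 ≤ (L ^ 4).trace := by simpa using trace_even_nonneg hL 2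
  rw [← Real.sqrt_mul hL4]
  refine Real.le_sqrt_of_sq_le (hS.trans ?_)
  exact mul_le_mul (hb hL) (hb hK)
    (Finset.sum_nonneg fun x _ => Finset.sum_nonneg fun y _ => sq_nonneg _) hL4

/-- Frobenius norm of `φ K` -/
theorem Fr_phi_mul (ha : |a| ≤ 1) (hb : |b| ≤ 1) (hK : Kᵀ = K) (hL : Lᵀ = L)
    (hτ : 0 < τ) {B D : ℝ} (hB : 0 ≤ B) (hD : 0 ≤ D)
    (hG : ∀ x ∈ G, (K ^ 2) x x ≤ B ∧ (L ^ 2) x x ≤ B)
    (hBs : ∀ x y, (x, y) ∈ Bad → (y, x) ∈ Bad)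
    (hbad : ∀ x ∈ G, ((Finset.univ.filter (fun y => (x, y) ∈ Bad)).card : ℝ) ≤ D) :
    Fr (phi a b K L G Bad τ * K) (Real.sqrt ((K ^ 4).trace)
      + Real.sqrt (Real.sqrt ((L ^ 4).trace) * Real.sqrt ((K ^ 4).trace))
      + (4 * B / τ + 2 * τ * D) * Real.sqrt ((K ^ 2).trace)) := by
  have e1 : phi a b K L G Bad τ * K
      = (a • (res G K * K) - b • (res G L * K)) - cutp a b K L G Bad τ * K := by
    rw [phi_eq, Matrix.sub_mul]
    congr 1
    rw [← Matrix.smul_mul, ← Matrix.smul_mul, ← Matrix.sub_mul]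
    congr 1
    ext x y
    simp only [res, Matrix.sub_apply, Matrix.smul_apply, smul_eq_mul]
    split_ifs <;> simp
  rw [e1]
  have h1 := Fr_res_mul hK hK G
  have h2 := Fr_res_mul hK hL G
  have h3 : OpB (cutp a b K L G Bad τ) (4 * B / τ + 2 * τ * D) :=
    opB_of_rows (by positivity)
      (fun x y => by rw [cutp_symm (apply_comm_of_symm hK) (apply_comm_of_symm hL) hBs])
      (row_cutp_le ha hb hK hL hτ hB hD hG hbad)
  have h4 : Fr K (Real.sqrt ((K ^ 2).trace)) := by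
    rw [← frob_sq hK]; exact Fr_of_sqrt K
  have h5 : Real.sqrt (Real.sqrt ((K ^ 4).trace) * Real.sqrt ((K ^ 4).trace))
      = Real.sqrt ((K ^ 4).trace) := Real.sqrt_mul_self (Real.sqrt_nonneg _)
  rw [h5] at h1
  exact Fr_sub (Fr_sub (Fr_smul h1 ha) (Fr_smul h2 hb)) (Fr_opB_mul h3 h4)

/-- the same on the other side: Frobenius norm of `φ L` -/
theorem Fr_phi_mul' (ha : |a| ≤ 1) (hb : |b| ≤ 1) (hK : Kᵀ = K) (hL : Lᵀ = L)
    (hτ : 0 < τ) {B D : ℝ} (hB : 0 ≤ B) (hD : 0 ≤ D)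
    (hG : ∀ x ∈ G, (K ^ 2) x x ≤ B ∧ (L ^ 2) x x ≤ B)
    (hBs : ∀ x y, (x, y) ∈ Bad → (y, x) ∈ Bad)
    (hbad : ∀ x ∈ G, ((Finset.univ.filter (fun y => (x, y) ∈ Bad)).card : ℝ) ≤ D) :
    Fr (phi a b K L G Bad τ * L) (Real.sqrt ((L ^ 4).trace)
      + Real.sqrt (Real.sqrt ((K ^ 4).trace) * Real.sqrt ((L ^ 4).trace))
      + (4 * B / τ + 2 * τ * D) * Real.sqrt ((L ^ 2).trace)) := by
  have h := Fr_phi_mul (a := b) (b := a) (K := L) (L := K) (G := G) (Bad := Bad) (τ := τ)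
    hb ha hL hK hτ hB hD (fun x hx => (hG x hx).symm) hBs hbad
  have e1 : phi a b K L G Bad τ * L = - (phi b a L K G Bad τ * L) := by
    rw [← Matrix.neg_mul]
    congr 1
    ext x y
    rw [Matrix.neg_apply]
    exact phi_swap x y
  rw [e1]
  exact Fr_neg h

/-- side effects: `|∑ φ_xy (K M)_xy| ≤ ‖φ K‖_F ‖M‖_F` (`φ` symmetric) -/
theorem ip_phi_mul_le {φ K M : Matrix ι ι ℝ} {a m : ℝ} (hφ : ∀ x y, φ x y = φ y x)
    (h : Fr (φ * K) a) (hM : Fr M m) : |∑ x, ∑ y, φ x y * (K * M) x y| ≤ a * m := by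
  have e1 : ∑ x, ∑ y, φ x y * (K * M) x y = ∑ z, ∑ y, (φ * K) y z * M z y := by
    simp only [Matrix.mul_apply, Finset.mul_sum, Finset.sum_mul]
    calc _ = ∑ y, ∑ x, ∑ z, φ x y * (K x z * M z y) := Finset.sum_comm
      _ = ∑ y, ∑ z, ∑ x, φ x y * (K x z * M z y) :=
          Finset.sum_congr rfl fun y _ => Finset.sum_comm
      _ = ∑ z, ∑ y, ∑ x, φ x y * (K x z * M z y) := Finset.sum_comm
      _ = _ := by
          refine Finset.sum_congr rfl fun z _ => Finset.sum_congr rfl fun y _ =>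
            Finset.sum_congr rfl fun x _ => ?_
          rw [hφ x y]; ring
  have h' : Fr (φ * K)ᵀ a := by
    refine ⟨h.1, ?_⟩
    rw [Finset.sum_comm]
    exact h.2
  rw [e1]
  exact abs_ip_le h' hM

end Phi

end Crest.Agent.R62.TiltK
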