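import Mathlib
import Crest.Agent.R62.CrossG
import Crest.Agent.R62.TiltK

/-!
R62 (helper214): the cross functional — exact sums of the main terms.
-/

set_option autoImplicit false
set_option linter.unusedSectionVars false
set_option linter.unusedVariables false

open Matrix Finset

namespace Crest.Agent.R62.Cross

open Crest.Agent.R62.Upd Crest.Agent.R62.AvX1 Crest.Agent.R62.L2P Crest.Agent.R62.AvBase

variable {ι : Type*} [Fintype ι] [DecidableEq ι]

/-- dead rows and row sums -/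
structure Dr (F : Finset ι) (K : Matrix ι ι ℝ) (s : ℝ) : Prop where
  symm : K.IsSymm
  dead : ∀ i j, i ∉ F → K i j = 0
  row : K *ᵥ ind F = s • ind F
  sq : s ^ 2 = 1

lemma col_sum (A : Matrix ι ι ℝ) (F : Finset ι) (j : ι) :
    ∑ x ∈ F, A x j = (Aᵀ *ᵥ ind F) j := by
  simp [Matrix.mulVec, dotProduct, ind, Finset.sum_ite_mem]

lemma sum_ind (F : Finset ι) : ∑ j, ind F j = F.card := by
  simp [ind]

lemma sum_Yc {F : Finset ι} {K L : Matrix ι ι ℝ} {s t : ℝ} (hK : Dr F K s) (hL : Dr F L t) :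
    ∑ x ∈ F, ∑ y ∈ F, Yc K L y x = s * F.card := by
  have e1 : ∀ j, ∑ y ∈ F, (K * (K * L)) y j = t * ind F j := by
    intro j
    rw [col_sum]
    have : (K * (K * L))ᵀ *ᵥ ind F = t • ind F := by
      rw [Matrix.transpose_mul, Matrix.transpose_mul, hK.symm.eq, hL.symm.eq,
        ← Matrix.mulVec_mulVec, ← Matrix.mulVec_mulVec, hK.row, Matrix.mulVec_smul, hK.row,
        Matrix.mulVec_smul, Matrix.mulVec_smul, hL.row, smul_smul, ← sq, hK.sq, one_smul]
    rw [this]; rfl
  have e2 : ∀ j, ∑ x ∈ F, (K * L) x j = s * t * ind F j := by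
    intro j
    rw [col_sum]
    have : (K * L)ᵀ *ᵥ ind F = (s * t) • ind F := by
      rw [Matrix.transpose_mul, hK.symm.eq, hL.symm.eq, ← Matrix.mulVec_mulVec, hK.row,
        Matrix.mulVec_smul, hL.row, smul_smul]
    rw [this]; rfl
  have e3 : ∑ x ∈ F, ∑ y ∈ F, Yc K L y x
      = ∑ j, (∑ y ∈ F, (K * (K * L)) y j) * ∑ x ∈ F, (K * L) x j := by
    simp only [Yc]
    calc ∑ x ∈ F, ∑ y ∈ F, ∑ j, (K * (K * L)) y j * (K * L) x j
        = ∑ x ∈ F, ∑ j, ∑ y ∈ F, (K * (K * L)) y j * (K * L) x j :=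
          Finset.sum_congr rfl fun x _ => Finset.sum_comm
      _ = ∑ j, ∑ x ∈ F, ∑ y ∈ F, (K * (K * L)) y j * (K * L) x j := Finset.sum_comm
      _ = _ := by
          refine Finset.sum_congr rfl fun j _ => ?_
          rw [Finset.mul_sum]
          exact Finset.sum_congr rfl fun x _ => by rw [Finset.sum_mul]
  rw [e3]
  simp only [e1, e2]
  have e4 : ∀ j, t * ind F j * (s * t * ind F j) = s * ind F j := by
    intro j
    have : ind F j * ind F j = ind F j := by unfold ind; split_ifs <;> simp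
    calc t * ind F j * (s * t * ind F j) = s * t ^ 2 * (ind F j * ind F j) := by ring
      _ = _ := by rw [this, hL.sq]; ring
  simp only [e4, ← Finset.mul_sum, sum_ind]

lemma Zc_eq' {K L : Matrix ι ι ℝ} (hL : L.IsSymm) (u v : ι) :
    Zc K L u v = (K * (K * L) * L) u v := by
  rw [Zc, Matrix.mul_apply (M := K * (K * L))]
  exact Finset.sum_congr rfl fun j _ => by rw [hL.apply v j]

/-- `Tr (A Aᵀ)`-type identity -/
lemma fr_eq_trace (A : Matrix ι ι ℝ) : fr A = (A * Aᵀ).trace := by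
  unfold fr Matrix.trace
  refine Finset.sum_congr rfl fun i _ => ?_
  rw [Matrix.diag_apply, Matrix.mul_apply]
  exact Finset.sum_congr rfl fun j _ => by rw [Matrix.transpose_apply]; ring

lemma trace_KXL {K L : Matrix ι ι ℝ} (hK : K.IsSymm) (hL : L.IsSymm) :
    (K * (K * L) * L).trace = fr (K * L) := by
  rw [fr_eq_trace, Matrix.transpose_mul, hK.eq, hL.eq]
  rw [Matrix.mul_assoc K, Matrix.trace_mul_comm K]
  simp only [Matrix.mul_assoc]

lemma sum_Zc {F : Finset ι} {K L : Matrix ι ι ℝ} {s t : ℝ} (hK : Dr F K s) (hL : Dr F L t) :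
    ∑ y ∈ F, Zc K L y y = fr (K * L) := by
  rw [← trace_KXL hK.symm hL.symm, sum_F_eq_univ]
  · exact Finset.sum_congr rfl fun y _ => by rw [Zc_eq' hL.symm, Matrix.diag_apply]
  · intro y hy
    rw [Zc]
    refine Finset.sum_eq_zero fun j _ => ?_
    rw [Matrix.mul_apply]
    rw [Finset.sum_eq_zero fun k _ => by rw [hK.dead y k hy, zero_mul], zero_mul]

lemma sum_Xd {F : Finset ι} {K L : Matrix ι ι ℝ} {s : ℝ} (hK : Dr F K s) :
    ∑ y ∈ F, (K * L) y y = (K * L).trace := by
  rw [sum_F_eq_univ]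
  · rfl
  · intro y hy
    rw [Matrix.mul_apply]
    exact Finset.sum_eq_zero fun k _ => by rw [hK.dead y k hy, zero_mul]

/-! ### the Gaussian part -/

/-- dot product -/
def dp (f g : ι → ℝ) : ℝ := ∑ i, f i * g i

lemma dp_sum (f f' g g' : ι → ℝ) :
    ∑ i, ∑ j, (f i * g j) * (f' i * g' j) = dp f f' * dp g g' := by
  unfold dp
  rw [Finset.sum_mul_sum]
  exact Finset.sum_congr rfl fun i _ => Finset.sum_congr rfl fun j _ => by ring

lemma fr_four (s t : ℝ) (a a' c c' b b' e e' : ι → ℝ) :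
    ∑ i, ∑ j, (s * (a i * b j + a' i * b' j) + t * (c i * e j + c' i * e' j)) ^ 2
      = s ^ 2 * (dp a a * dp b b + dp a' a' * dp b' b' + 2 * (dp a a' * dp b b'))
        + t ^ 2 * (dp c c * dp e e + dp c' c' * dp e' e' + 2 * (dp c c' * dp e e'))
        + 2 * (s * t) * (dp a c * dp b e + dp a c' * dp b e' + dp a' c * dp b' e
          + dp a' c' * dp b' e') := by
  simp only [← dp_sum]
  simp only [Finset.mul_sum, ← Finset.sum_add_distrib]
  exact Finset.sum_congr rfl fun i _ => Finset.sum_congr rfl fun j _ => by ring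

lemma fr_G0 {s t : ℝ} (hs : s ^ 2 = 1) (ht : t ^ 2 = 1) {K L : Matrix ι ι ℝ} (hK : K.IsSymm)
    (hL : L.IsSymm) (x y : ι) :
    fr (G0 s t K L x y) = rn K y * rn (K * L) x + rn K x * rn (K * L) y
      + 2 * ((K * K) x y * ((K * L) * (K * L)ᵀ) x y)
      + (rn (L * K) x * rn L y + rn (L * K) y * rn L x
        + 2 * (((K * L)ᵀ * (K * L)) x y * (L * L) x y))
      + 2 * (s * t) * ((K * (K * L)) y x * ((K * L) * L) x y
        + (K * (K * L)) y y * ((K * L) * L) x x + (K * (K * L)) x x * ((K * L) * L) y y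
        + (K * (K * L)) x y * ((K * L) * L) y x) := by
  have h := fr_four s t (fun i => K i y) (fun i => K i x) (fun i => (K * L) i x)
    (fun i => (K * L) i y) (fun j => (K * L) x j) (fun j => (K * L) y j) (fun j => L j y)
    (fun j => L j x)
  have e0 : fr (G0 s t K L x y) = ∑ i, ∑ j, (s * (K i y * (K * L) x j + K i x * (K * L) y j)
      + t * ((K * L) i x * L j y + (K * L) i y * L j x)) ^ 2 := rfl
  rw [e0, h, hs, ht]
  have d1 : ∀ z, dp (fun i => K i z) (fun i => K i z) = rn K z := fun z => by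
    unfold dp rn
    exact Finset.sum_congr rfl fun i _ => by beta_reduce; rw [hK.apply z i]; ring
  have d2 : ∀ z, dp (fun i => L i z) (fun i => L i z) = rn L z := fun z => by
    unfold dp rn
    exact Finset.sum_congr rfl fun i _ => by beta_reduce; rw [hL.apply z i]; ring
  have d3 : ∀ z, dp (fun j => (K * L) z j) (fun j => (K * L) z j) = rn (K * L) z := fun z => by
    unfold dp rn
    exact Finset.sum_congr rfl fun i _ => by beta_reduce; ring
  have d4 : ∀ z, dp (fun j => (K * L) j z) (fun j => (K * L) j z) = rn (L * K) z := fun z => by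
    rw [← nv_colX hK hL z]
    unfold dp
    exact Finset.sum_congr rfl fun i _ => by beta_reduce; ring
  have d5 : dp (fun i => K i y) (fun i => K i x) = (K * K) x y := by
    unfold dp
    rw [Matrix.mul_apply]
    exact Finset.sum_congr rfl fun i _ => by beta_reduce; rw [hK.apply x i]; ring
  have d6 : dp (fun j => (K * L) x j) (fun j => (K * L) y j) = ((K * L) * (K * L)ᵀ) x y := by
    unfold dp
    rw [Matrix.mul_apply (M := K * L)]
    rfl
  have d7 : dp (fun j => (K * L) j x) (fun j => (K * L) j y) = ((K * L)ᵀ * (K * L)) x y := by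
    unfold dp
    rw [Matrix.mul_apply (M := (K * L)ᵀ)]
    rfl
  have d8 : dp (fun j => L j y) (fun j => L j x) = (L * L) x y := by
    unfold dp
    rw [Matrix.mul_apply]
    exact Finset.sum_congr rfl fun i _ => by beta_reduce; rw [hL.apply x i]; ring
  have d9 : ∀ u v, dp (fun i => K i u) (fun i => (K * L) i v) = (K * (K * L)) u v := fun u v => by
    unfold dp
    rw [Matrix.mul_apply (M := K) (N := K * L)]
    exact Finset.sum_congr rfl fun i _ => by beta_reduce; rw [hK.apply u i]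
  have d10 : ∀ u v, dp (fun j => (K * L) u j) (fun j => L j v) = ((K * L) * L) u v :=
    fun u v => by
    unfold dp
    rw [Matrix.mul_apply (M := K * L)]
  rw [d1, d1, d2, d2, d3, d3, d4, d4, d5, d6, d7, d8, d9, d9, d9, d9, d10, d10, d10, d10]
  ring

/-- `∑ A_xy B_xy ≤ ‖A‖ ‖B‖` -/
lemma ip_le {A B : Matrix ι ι ℝ} {a b : ℝ} (ha : 0 ≤ a) (hb : 0 ≤ b) (hA : fr A ≤ a ^ 2)
    (hB : fr B ≤ b ^ 2) : |∑ x, ∑ y, A x y * B x y| ≤ a * b := by
  have hA' : L2 (Finset.univ : Finset (ι × ι)) (fun p => A p.1 p.2) a := by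
    refine ⟨ha, le_trans (le_of_eq ?_) hA⟩
    rw [← Finset.univ_product_univ, Finset.sum_product]; rfl
  have hB' : L2 (Finset.univ : Finset (ι × ι)) (fun p => B p.1 p.2) b := by
    refine ⟨hb, le_trans (le_of_eq ?_) hB⟩
    rw [← Finset.univ_product_univ, Finset.sum_product]; rfl
  have h := hA'.abs_sum_mul hB'
  rwa [← Finset.univ_product_univ, Finset.sum_product] at h

lemma fr_transpose (A : Matrix ι ι ℝ) : fr Aᵀ = fr A := by
  unfold fr
  rw [Finset.sum_comm]
  rfl

lemma sum_fr_G0 {s t m lam : ℝ} (hs : s ^ 2 = 1) (ht : t ^ 2 = 1) {K L : Matrix ι ι ℝ}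
    (hK : K.IsSymm) (hL : L.IsSymm) (h0 : 0 ≤ lam * m)
    (zK : fr (K * (K * L)) ≤ (lam * m) ^ 2) (zL : fr (L * (L * K)) ≤ (lam * m) ^ 2) :
    ∑ x, ∑ y, fr (G0 s t K L x y) ≤ 2 * (fr K + fr L) * fr (K * L)
      + 4 * (s * t) * ((K * (K * L)).trace * ((K * L) * L).trace) + 8 * (lam * m) ^ 2 := by
  have hst : |s * t| = 1 := by rw [abs_mul, abs_s hs, abs_s ht, one_mul]
  have zL' : fr ((K * L) * L) ≤ (lam * m) ^ 2 := by
    rw [← fr_transpose]
    simpa only [Matrix.transpose_mul, hK.eq, hL.eq] using zL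
  have s1 : ∑ x, ∑ y, rn K y * rn (K * L) x = fr K * fr (K * L) := by
    rw [← sum_rn K, ← sum_rn (K * L), Finset.sum_mul_sum, Finset.sum_comm]
  have s2 : ∑ x, ∑ y, rn K x * rn (K * L) y = fr K * fr (K * L) := by
    rw [← sum_rn K, ← sum_rn (K * L), Finset.sum_mul_sum]
  have s3 : ∑ x, ∑ y, rn (L * K) x * rn L y = fr L * fr (K * L) := by
    rw [← sum_rn L, ← fr_comm hK hL, ← sum_rn (L * K), Finset.sum_mul_sum, Finset.sum_comm]
    exact Finset.sum_congr rfl fun x _ => Finset.sum_congr rfl fun y _ => by ring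
  have s4 : ∑ x, ∑ y, rn (L * K) y * rn L x = fr L * fr (K * L) := by
    rw [← sum_rn L, ← fr_comm hK hL, ← sum_rn (L * K), Finset.sum_mul_sum]
    exact Finset.sum_congr rfl fun x _ => Finset.sum_congr rfl fun y _ => by ring
  have trp : ∀ A B : Matrix ι ι ℝ, ∑ x, ∑ y, A x y * B x y = (A * Bᵀ).trace := by
    intro A B
    unfold Matrix.trace
    refine Finset.sum_congr rfl fun i _ => ?_
    rw [Matrix.diag_apply, Matrix.mul_apply]
    rfl
  have s5 : ∑ x, ∑ y, (K * K) x y * ((K * L) * (K * L)ᵀ) x y ≤ (lam * m) ^ 2 := by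
    rw [trp]
    refine le_trans (le_of_eq ?_) zK
    rw [fr_eq_trace, Matrix.transpose_mul, Matrix.transpose_transpose,
      Matrix.transpose_mul K (K * L), hK.eq]
    rw [Matrix.mul_assoc K K, Matrix.trace_mul_comm K]
    simp only [Matrix.mul_assoc]
  have s6 : ∑ x, ∑ y, ((K * L)ᵀ * (K * L)) x y * (L * L) x y ≤ (lam * m) ^ 2 := by
    rw [trp]
    refine le_trans (le_of_eq ?_) zL
    rw [fr_eq_trace, Matrix.transpose_mul L L, Matrix.transpose_mul K L,
      Matrix.transpose_mul L (L * K), Matrix.transpose_mul L K, hK.eq, hL.eq]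
    rw [← Matrix.mul_assoc (L * K * (K * L)) L L, Matrix.trace_mul_comm _ L]
    simp only [Matrix.mul_assoc]
  have s7 : |∑ x, ∑ y, (K * (K * L)) y x * ((K * L) * L) x y| ≤ (lam * m) * (lam * m) := by
    have h := ip_le (A := (K * (K * L))ᵀ) (B := (K * L) * L) h0 h0
      (by rw [fr_transpose]; exact zK) zL'
    simpa only [Matrix.transpose_apply] using h
  have s8 : |∑ x, ∑ y, (K * (K * L)) x y * ((K * L) * L) y x| ≤ (lam * m) * (lam * m) := by
    have h := ip_le (A := K * (K * L)) (B := ((K * L) * L)ᵀ) h0 h0 zK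
      (by rw [fr_transpose]; exact zL')
    simpa only [Matrix.transpose_apply] using h
  have s9 : ∑ x, ∑ y, (K * (K * L)) y y * ((K * L) * L) x x
      = (K * (K * L)).trace * ((K * L) * L).trace := by
    unfold Matrix.trace
    rw [Finset.sum_mul_sum, Finset.sum_comm]
    rfl
  have s10 : ∑ x, ∑ y, (K * (K * L)) x x * ((K * L) * L) y y
      = (K * (K * L)).trace * ((K * L) * L).trace := by
    unfold Matrix.trace
    rw [Finset.sum_mul_sum]
    rfl
  have e : ∑ x, ∑ y, fr (G0 s t K L x y)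
      = ∑ x, ∑ y, rn K y * rn (K * L) x + ∑ x, ∑ y, rn K x * rn (K * L) y
        + 2 * ∑ x, ∑ y, (K * K) x y * ((K * L) * (K * L)ᵀ) x y
        + (∑ x, ∑ y, rn (L * K) x * rn L y + ∑ x, ∑ y, rn (L * K) y * rn L x
          + 2 * ∑ x, ∑ y, ((K * L)ᵀ * (K * L)) x y * (L * L) x y)
        + 2 * (s * t) * (∑ x, ∑ y, (K * (K * L)) y x * ((K * L) * L) x y
          + ∑ x, ∑ y, (K * (K * L)) y y * ((K * L) * L) x x
          + ∑ x, ∑ y, (K * (K * L)) x x * ((K * L) * L) y y
          + ∑ x, ∑ y, (K * (K * L)) x y * ((K * L) * L) y x) := by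
    simp only [fr_G0 hs ht hK hL, Finset.sum_add_distrib, ← Finset.mul_sum]
  rw [e, s1, s2, s3, s4, s9, s10]
  have u1 : s * t * (∑ x, ∑ y, (K * (K * L)) y x * ((K * L) * L) x y) ≤ (lam * m) * (lam * m) := by
    refine (le_abs_self _).trans ?_
    rw [abs_mul, hst, one_mul]; exact s7
  have u2 : s * t * (∑ x, ∑ y, (K * (K * L)) x y * ((K * L) * L) y x) ≤ (lam * m) * (lam * m) := by
    refine (le_abs_self _).trans ?_
    rw [abs_mul, hst, one_mul]; exact s8
  linarith

end Crest.Agent.R62.Cross
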