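import Mathlib
import Crest.Agent.R62.CrossH

/-!
R62 (helper214): the cross functional — averages over allowed pairs with weights `1 - Θ`.
-/

set_option autoImplicit false
set_option linter.unusedSectionVars false
set_option linter.unusedVariables false

open Matrix Finset

namespace Crest.Agent.R62.Cross

open Crest.Agent.R62.Upd Crest.Agent.R62.AvX1 Crest.Agent.R62.L2P Crest.Agent.R62.AvBase

variable {ι : Type*} [Fintype ι] [DecidableEq ι]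

/-- the pairs and the weights -/
structure Av (F : Finset ι) (S : Finset (ι × ι)) (Θ : ι → ι → ℝ) (η N nb Db : ℝ) : Prop where
  sub : S ⊆ F ×ˢ F
  symS : ∀ x y, (x, y) ∈ S → (y, x) ∈ S
  symm : ∀ x y, Θ x y = Θ y x
  supp : ∀ x y, (x, y) ∉ S → Θ x y = 0
  η0 : 0 ≤ η
  η1 : η ≤ 1
  absΘ : ∀ x y, |Θ x y| ≤ η
  op : OpB (Matrix.of Θ) N
  nb0 : 0 ≤ nb
  bad : (((F ×ˢ F) \ S).card : ℝ) ≤ nb ^ 2
  row : ∀ x ∈ F, ((F.filter fun y => (x, y) ∉ S).card : ℝ) ≤ Db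

section av
variable {F : Finset ι} {S : Finset (ι × ι)} {Θ : ι → ι → ℝ} {η N nb Db : ℝ}
  (A : Av F S Θ η N nb Db)
include A

lemma Av.w_nonneg (x y : ι) : 0 ≤ 1 - Θ x y := by
  have := (abs_le.mp (A.absΘ x y)).2
  have := A.η1
  linarith

lemma Av.w_ge (x y : ι) : 1 - η ≤ 1 - Θ x y := by
  have := (abs_le.mp (A.absΘ x y)).2
  linarith

lemma Av.w_le (x y : ι) : 1 - Θ x y ≤ 1 + η := by
  have := (abs_le.mp (A.absΘ x y)).1
  linarith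

lemma Av.w_le2 (x y : ι) : 1 - Θ x y ≤ 2 := by
  have := A.w_le x y
  have := A.η1
  linarith

/-- symmetric weights, symmetric set -/
lemma Av.swap (f : ι → ι → ℝ) :
    ∑ p ∈ S, (1 - Θ p.1 p.2) * f p.2 p.1 = ∑ p ∈ S, (1 - Θ p.1 p.2) * f p.1 p.2 := by
  refine Finset.sum_bij' (fun p _ => (p.2, p.1)) (fun p _ => (p.2, p.1))
    (fun p hp => A.symS _ _ hp) (fun p hp => A.symS _ _ hp) (fun _ _ => rfl) (fun _ _ => rfl)
    fun p _ => ?_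
  simp only
  rw [A.symm p.1 p.2]

lemma Av.split (f : ι × ι → ℝ) :
    ∑ p ∈ S, f p = ∑ p ∈ F ×ˢ F, f p - ∑ p ∈ (F ×ˢ F) \ S, f p := by
  rw [← Finset.sum_sdiff A.sub]; ring

lemma Av.sum_bias {f : ι × ι → ℝ} {a : ℝ} (hf : L2 (F ×ˢ F) f a) :
    |∑ p ∈ (F ×ˢ F) \ S, f p| ≤ nb * a := by
  have h := (hf.subset Finset.sdiff_subset).abs_sum_le' A.bad
  rwa [Real.sqrt_sq A.nb0] at h

lemma Av.sum_theta (f : ι → ι → ℝ) :
    ∑ p ∈ S, Θ p.1 p.2 * f p.1 p.2 = ∑ x, ∑ y, Θ x y * f x y := by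
  rw [← Finset.sum_product', Finset.univ_product_univ]
  refine Finset.sum_subset (Finset.subset_univ _) fun p _ hp => ?_
  rw [A.supp p.1 p.2 hp, zero_mul]

/-- the tilted average of a function of pairs -/
lemma Av.avg {f : ι → ι → ℝ} {a b : ℝ} (hf : L2 (F ×ˢ F) (fun p => f p.1 p.2) a)
    (hΘ : |∑ x, ∑ y, Θ x y * f x y| ≤ b) :
    |∑ p ∈ S, (1 - Θ p.1 p.2) * f p.1 p.2 - ∑ x ∈ F, ∑ y ∈ F, f x y| ≤ nb * a + b := by
  have e : ∑ p ∈ S, (1 - Θ p.1 p.2) * f p.1 p.2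
      = ∑ p ∈ S, f p.1 p.2 - ∑ p ∈ S, Θ p.1 p.2 * f p.1 p.2 := by
    rw [← Finset.sum_sub_distrib]
    exact Finset.sum_congr rfl fun p _ => by ring
  have h1 := A.sum_bias hf
  rw [e, A.split (fun p => f p.1 p.2), A.sum_theta, Finset.sum_product]
  have h2 : ∑ x ∈ F, ∑ y ∈ F, f x y - ∑ p ∈ (F ×ˢ F) \ S, f p.1 p.2
      - ∑ x, ∑ y, Θ x y * f x y - ∑ x ∈ F, ∑ y ∈ F, f x y
      = -(∑ p ∈ (F ×ˢ F) \ S, f p.1 p.2 + ∑ x, ∑ y, Θ x y * f x y) := by ring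
  simp only
  rw [h2, abs_neg]
  exact (abs_add_le _ _).trans (add_le_add h1 hΘ)

lemma Av.sum_le {f : ι → ι → ℝ} (h0 : ∀ x y, 0 ≤ f x y) :
    ∑ p ∈ S, (1 - Θ p.1 p.2) * f p.1 p.2 ≤ (1 + η) * ∑ x ∈ F, ∑ y ∈ F, f x y := by
  have hη : 0 ≤ 1 + η := by linarith [A.η0]
  rw [← Finset.sum_product', Finset.mul_sum]
  refine (Finset.sum_le_sum fun p _ => mul_le_mul_of_nonneg_right (A.w_le p.1 p.2)
    (h0 p.1 p.2)).trans ?_
  exact Finset.sum_le_sum_of_subset_of_nonneg A.sub fun p _ _ => mul_nonneg hη (h0 p.1 p.2)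

/-- lower bound for the removal term -/
lemma Av.removal {r : ι → ℝ} (h0 : ∀ x, 0 ≤ r x) :
    (1 - η) * ((F.card : ℝ) * (∑ x ∈ F, r x) - Db * ∑ x ∈ F, r x)
      ≤ ∑ p ∈ S, (1 - Θ p.1 p.2) * r p.1 := by
  have h1 : ∑ p ∈ S, (1 - η) * r p.1 ≤ ∑ p ∈ S, (1 - Θ p.1 p.2) * r p.1 :=
    Finset.sum_le_sum fun p _ => mul_le_mul_of_nonneg_right (A.w_ge p.1 p.2) (h0 p.1)
  refine le_trans ?_ h1
  rw [← Finset.mul_sum]
  refine mul_le_mul_of_nonneg_left ?_ (by linarith [A.η1])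
  rw [A.split (fun p => r p.1)]
  have h2 : ∑ p ∈ F ×ˢ F, r p.1 = (F.card : ℝ) * ∑ x ∈ F, r x := by
    rw [Finset.sum_product, Finset.mul_sum]
    simp only [Finset.sum_const, nsmul_eq_mul]
  have h3 : ∑ p ∈ (F ×ˢ F) \ S, r p.1 ≤ Db * ∑ x ∈ F, r x := by
    have e : ∑ p ∈ (F ×ˢ F) \ S, r p.1
        = ∑ x ∈ F, ((F.filter fun y => (x, y) ∉ S).card : ℝ) * r x := by
      have e1 : (F ×ˢ F) \ S = (F ×ˢ F).filter (fun p => p ∉ S) := by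
        ext p; simp [Finset.mem_sdiff]
      rw [e1, Finset.sum_filter, Finset.sum_product]
      refine Finset.sum_congr rfl fun x _ => ?_
      rw [← Finset.sum_filter]
      simp only [Finset.sum_const, nsmul_eq_mul]
    rw [e, Finset.mul_sum]
    exact Finset.sum_le_sum fun x hx => mul_le_mul_of_nonneg_right (A.row x hx) (h0 x)
  rw [h2]
  linarith

lemma Av.removal' {r : ι → ℝ} (h0 : ∀ x, 0 ≤ r x) :
    (1 - η) * ((F.card : ℝ) * (∑ x ∈ F, r x) - Db * ∑ x ∈ F, r x)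
      ≤ ∑ p ∈ S, (1 - Θ p.1 p.2) * r p.2 := by
  have h := A.swap (fun x _ => r x)
  rw [h]
  exact A.removal h0

/-- errors: weights at most `2` -/
lemma Av.err {f : ι → ι → ℝ} {b : ℝ} (h0 : ∀ p ∈ S, 0 ≤ f p.1 p.2)
    (hb : ∑ p ∈ S, f p.1 p.2 ≤ b) : ∑ p ∈ S, (1 - Θ p.1 p.2) * f p.1 p.2 ≤ 2 * b := by
  refine le_trans ?_ (mul_le_mul_of_nonneg_left hb (by norm_num : (0 : ℝ) ≤ 2))
  rw [Finset.mul_sum]
  exact Finset.sum_le_sum fun p hp => mul_le_mul_of_nonneg_right (A.w_le2 p.1 p.2) (h0 p hp)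

/-- comparison with a main term -/
lemma Av.cmp {f h e : ι → ι → ℝ} {b c : ℝ} (c0 : 0 ≤ c)
    (hfh : ∀ p ∈ S, |f p.1 p.2 - h p.1 p.2| ≤ c * e p.1 p.2)
    (hb : ∑ p ∈ S, e p.1 p.2 ≤ b) :
    ∑ p ∈ S, (1 - Θ p.1 p.2) * f p.1 p.2
      ≤ ∑ p ∈ S, (1 - Θ p.1 p.2) * h p.1 p.2 + 2 * (c * b) := by
  have h1 : ∀ p ∈ S, (1 - Θ p.1 p.2) * f p.1 p.2
      ≤ (1 - Θ p.1 p.2) * h p.1 p.2 + 2 * (c * e p.1 p.2) := by
    intro p hp
    have a1 := hfh p hp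
    have a2 := (_root_.abs_le.mp a1).2
    have a3 : 0 ≤ c * e p.1 p.2 := (abs_nonneg _).trans a1
    have a4 := mul_le_mul_of_nonneg_left a2 (A.w_nonneg p.1 p.2)
    have a5 := mul_le_mul_of_nonneg_right (A.w_le2 p.1 p.2) a3
    linarith
  refine (Finset.sum_le_sum h1).trans ?_
  rw [Finset.sum_add_distrib, ← Finset.mul_sum, ← Finset.mul_sum]
  have := mul_le_mul_of_nonneg_left hb c0
  linarith

/-- bilinear form of the tilt -/
lemma Av.theta_bilin {f h : ι → ℝ} {a b : ℝ} (hf : L2 F f a) (hh : L2 F h b) :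
    |∑ x, ∑ y, Θ x y * (f x * h y)| ≤ N * (a * b) := by
  set f' : ι → ℝ := fun x => if x ∈ F then f x else 0 with hf'
  set h' : ι → ℝ := fun x => if x ∈ F then h x else 0 with hh'
  have e1 : ∑ x, ∑ y, Θ x y * (f x * h y) = f' ⬝ᵥ ((Matrix.of Θ) *ᵥ h') := by
    simp only [dotProduct, Matrix.mulVec, Finset.mul_sum, Matrix.of_apply]
    refine Finset.sum_congr rfl fun x _ => Finset.sum_congr rfl fun y _ => ?_
    by_cases hx : x ∈ F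
    · by_cases hy : y ∈ F
      · simp only [hf', hh', hx, hy, if_true]; ring
      · rw [A.supp x y fun hp => hy (Finset.mem_product.mp (A.sub hp)).2]; ring
    · rw [A.supp x y fun hp => hx (Finset.mem_product.mp (A.sub hp)).1]; ring
  have e2 : f' ⬝ᵥ f' ≤ a ^ 2 := by
    refine le_trans (le_of_eq ?_) hf.2
    simp only [dotProduct, hf', ← Finset.sum_filter, mul_ite, ite_mul, zero_mul, mul_zero]
    simp [sq]
  have e3 : h' ⬝ᵥ h' ≤ b ^ 2 := by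
    refine le_trans (le_of_eq ?_) hh.2
    simp only [dotProduct, hh', ← Finset.sum_filter, mul_ite, ite_mul, zero_mul, mul_zero]
    simp [sq]
  rw [e1]
  refine abs_le_of_sq_le_sq ?_ (mul_nonneg A.op.1 (mul_nonneg hf.1 hh.1))
  have c1 := dot_sq_le f' ((Matrix.of Θ) *ᵥ h')
  have c2 := A.op.2 h'
  calc (f' ⬝ᵥ ((Matrix.of Θ) *ᵥ h')) ^ 2 ≤ _ := c1
    _ ≤ a ^ 2 * (N ^ 2 * b ^ 2) := mul_le_mul e2 (c2.trans (mul_le_mul_of_nonneg_left e3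
        (sq_nonneg N))) (dot_self_nonneg _) (sq_nonneg a)
    _ = _ := by ring

/-- tilt against a product of matrices -/
lemma Av.theta_mul {X Y : Matrix ι ι ℝ} {a b : ℝ} (ha : 0 ≤ a) (hb : 0 ≤ b) (hX : fr X ≤ a ^ 2)
    (hY : fr Y ≤ b ^ 2) : |∑ x, ∑ y, Θ x y * (X * Y) x y| ≤ N * (a * b) := by
  have h := TiltK.ip_mul_le A.op X Y
  refine h.trans (mul_le_mul_of_nonneg_left ?_ A.op.1)
  refine mul_le_mul ?_ ?_ (Real.sqrt_nonneg _) ha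
  · rw [← Real.sqrt_sq ha]; exact Real.sqrt_le_sqrt hX
  · rw [← Real.sqrt_sq hb]; exact Real.sqrt_le_sqrt hY

end av

end Crest.Agent.R62.Cross
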