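import Mathlib
import Crest.Agent.R62.CrossI

/-!
R62 (helper214): the cross functional — the averaged inequality `cross_avg`.
-/

set_option autoImplicit false
set_option linter.unusedSectionVars false
set_option linter.unusedVariables false

open Matrix Finset

namespace Crest.Agent.R62.Cross

open Crest.Agent.R62.Upd Crest.Agent.R62.AvX1 Crest.Agent.R62.L2P Crest.Agent.R62.AvBase

variable {ι : Type*} [Fintype ι] [DecidableEq ι]

/-- bound for the sum of the errors of the second order term -/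
def b2 (g σ m lam v : ℝ) : ℝ :=
  8 * (g ^ 4 * v * (lam * m)) + 6 * (g ^ 2 * σ * v ^ 2 * (lam * m))
        + 2 * (g ^ 2 * v ^ 2 * (lam * m ^ 2)) + 2 * (σ * v * (lam * m ^ 2))
def b3 (g σ m v : ℝ) : ℝ :=
  64 * ((σ * m * v) ^ 2 + (σ * m) * (m * g ^ 2) + (m * v) * ((v * m) * g ^ 2))
def b4 (g σ m v : ℝ) : ℝ :=
  1024 * (((σ * (σ * (2 * g ^ 2))) * (v * v)) ^ 2 + ((σ * (2 * g ^ 2)) * (σ * v)) ^ 2
        + ((σ * (2 * g ^ 2)) * (σ * v)) ^ 2 + ((2 * g ^ 2) * g ^ 2) ^ 2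
        + m * ((σ * (σ * (σ * g ^ 2))) * (v * (σ * v)))
        + m * ((σ * g ^ 2) * (σ * g ^ 2))
        + m * ((σ * (σ * (σ * (v * v)))) * (σ * (σ * (σ * (v * v)))))
        + m * ((σ * (v * v)) * (σ * (σ * (σ * g ^ 2)))))
def b5 (g σ m v : ℝ) : ℝ :=
  6 * (32 * ((σ * m) ^ 2 + ((v * m) * v) ^ 2) + 16 * (v * m) ^ 2
        + 288 * (((σ * (2 * g ^ 2)) * v) ^ 2 + ((2 * g ^ 2) * g ^ 2) ^ 2)
        + 288 * ((σ * m) ^ 2 + (v * (σ * m)) ^ 2)
        + 1024 * ((v * (v * (σ * m))) ^ 2 + (v * (σ * m)) ^ 2)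
        + 1024 * (((σ * v) * (2 * g ^ 2)) ^ 2 + ((v * v) * (σ * (2 * g ^ 2))) ^ 2))

section
variable {F : Finset ι} {S : Finset (ι × ι)} {Θ : ι → ι → ℝ} {η N nb Db : ℝ}
  {K L : Matrix ι ι ℝ} {g σ m lam v s t : ℝ}

lemma dead_row {A : Matrix ι ι ℝ} (hA : ∀ i j, i ∉ F → A i j = 0) (B : Matrix ι ι ℝ) {x y : ι}
    (hx : x ∉ F) : (A * B) x y = 0 := by
  rw [Matrix.mul_apply]
  exact Finset.sum_eq_zero fun k _ => by rw [hA x k hx, zero_mul]

lemma sum_F_rn {A : Matrix ι ι ℝ} (hA : ∀ i j, i ∉ F → A i j = 0) :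
    ∑ x ∈ F, rn A x = fr A := by
  rw [← sum_rn, sum_F_eq_univ]
  intro x hx
  exact Finset.sum_eq_zero fun j _ => by rw [hA x j hx]; ring

/-- first order term, weighted -/
lemma wh1 (H : Hy F K L g σ m lam v) (A : Av F S Θ η N nb Db) (DK : Dr F K s) (DL : Dr F L t)
    (hg : GP2 K L S) :
    ∑ p ∈ S, (1 - Θ p.1 p.2) * h1 s K L p.1 p.2
      ≤ F.card + (nb + N) * (lam * m ^ 2) + 24 * (g ^ 2 * v ^ 2 * (lam * m ^ 2)) := by
  have c := A.cmp (f := h1 s K L) (h := fun x y => s * Yc K L y x) (e := h1err K L)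
    (by norm_num : (0 : ℝ) ≤ 4) (fun p hp => h1_sub DK.sq (hg p hp).1) (sum_h1err H A.sub)
  have hL2 : L2 (F ×ˢ F) (fun p : ι × ι => Yc K L p.2 p.1) (m * (lam * m)) := by
    refine (L2.tensor H.lsr H.lsz (subset_refl _)).of_abs_le fun p _ => ?_
    refine (Yc_le K L p.2 p.1).trans (le_of_eq ?_)
    rw [abs_mul, abs_of_nonneg (Real.sqrt_nonneg _), abs_of_nonneg (Real.sqrt_nonneg _)]
    ring
  have hth : |∑ x, ∑ y, Θ x y * Yc K L y x| ≤ N * (m * (lam * m)) := by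
    have h := A.theta_mul (X := K * L) (Y := (K * (K * L))ᵀ) H.m0 (mul_nonneg H.l0 H.m0) H.mX
      (by rw [fr_transpose]; exact H.zK)
    refine le_trans (le_of_eq ?_) h
    congr 1
    refine Finset.sum_congr rfl fun x _ => Finset.sum_congr rfl fun y _ => ?_
    rw [Matrix.mul_apply (M := K * L), Yc]
    congr 1
    exact Finset.sum_congr rfl fun j _ => by rw [Matrix.transpose_apply]; ring
  have a := A.avg (f := fun x y => Yc K L y x) hL2 hth
  rw [sum_Yc DK DL] at a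
  have e1 : ∑ p ∈ S, (1 - Θ p.1 p.2) * (s * Yc K L p.2 p.1)
      = s * ∑ p ∈ S, (1 - Θ p.1 p.2) * Yc K L p.2 p.1 := by
    rw [Finset.mul_sum]
    exact Finset.sum_congr rfl fun p _ => by ring
  rw [e1] at c
  have e2 : s * ∑ p ∈ S, (1 - Θ p.1 p.2) * Yc K L p.2 p.1
      ≤ F.card + (nb * (m * (lam * m)) + N * (m * (lam * m))) := by
    have e3 : s * ∑ p ∈ S, (1 - Θ p.1 p.2) * Yc K L p.2 p.1
        = F.card + s * (∑ p ∈ S, (1 - Θ p.1 p.2) * Yc K L p.2 p.1 - s * F.card) := by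
      have : s * (s * (F.card : ℝ)) = F.card := by rw [← mul_assoc, ← sq, DK.sq, one_mul]
      rw [mul_sub, this]; ring
    rw [e3]
    have e4 : s * (∑ p ∈ S, (1 - Θ p.1 p.2) * Yc K L p.2 p.1 - s * F.card)
        ≤ nb * (m * (lam * m)) + N * (m * (lam * m)) := by
      refine (le_abs_self _).trans ?_
      rw [abs_mul, abs_s DK.sq, one_mul]; exact a
    linarith
  refine c.trans ?_
  nlinarith [e2]

/-- second order term, weighted -/
lemma wh2 (H : Hy F K L g σ m lam v) (A : Av F S Θ η N nb Db) (DK : Dr F K s) (DL : Dr F L t)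
    (hg : GP2 K L S) :
    ∑ p ∈ S, (1 - Θ p.1 p.2) * h2 s t K L p.1 p.2
      ≤ (s * t) * (((K * L).trace - (s * t) * F.card) * fr (K * L))
        + (nb + N) * (2 * g ^ 2 * (σ * (lam * m))) + 32 * b2 g σ m lam v := by
  have hst : |s * t| = 1 := by rw [abs_mul, abs_s DK.sq, abs_s DL.sq, one_mul]
  have c := A.cmp (f := h2 s t K L)
    (h := fun x y => s * t * (((K * L) x x - s * t) * Zc K L y y)) (e := h2err K L)
    (by norm_num : (0 : ℝ) ≤ 16) (fun p hp => h2_sub DK.sq DL.sq (hg p hp).1 (hg p hp).2)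
    (sum_h2err H A.sub)
  have hf : L2 F (fun x => (K * L) x x - s * t) (2 * g ^ 2) := by
    refine H.lX1.of_abs_le fun x _ => ?_
    have := abs_sub ((K * L) x x) (s * t)
    rw [hst] at this
    exact this.trans (le_abs_self _)
  have hh : L2 F (fun y => Zc K L y y) (σ * (lam * m)) := by
    refine (H.swap.mul_sp H.lsz).of_abs_le fun y _ => ?_
    refine (Zc_le K L y y).trans (le_of_eq ?_)
    rw [abs_mul, abs_of_nonneg (Real.sqrt_nonneg _), abs_of_nonneg (Real.sqrt_nonneg _)]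
    ring
  have hL2 : L2 (F ×ˢ F) (fun p : ι × ι => ((K * L) p.1 p.1 - s * t) * Zc K L p.2 p.2)
      (2 * g ^ 2 * (σ * (lam * m))) := L2.tensor hf hh (subset_refl _)
  have hth := A.theta_bilin hf hh
  have a := A.avg (f := fun x y => ((K * L) x x - s * t) * Zc K L y y) hL2 hth
  have e0 : ∑ x ∈ F, ∑ y ∈ F, ((K * L) x x - s * t) * Zc K L y y
      = ((K * L).trace - (s * t) * F.card) * fr (K * L) := by
    rw [← Finset.sum_mul_sum, sum_Zc DK DL, Finset.sum_sub_distrib, sum_Xd DK]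
    simp only [Finset.sum_const, nsmul_eq_mul]
    ring
  rw [e0] at a
  have e1 : ∑ p ∈ S, (1 - Θ p.1 p.2) * (s * t * (((K * L) p.1 p.1 - s * t) * Zc K L p.2 p.2))
      = s * t * ∑ p ∈ S, (1 - Θ p.1 p.2) * (((K * L) p.1 p.1 - s * t) * Zc K L p.2 p.2) := by
    rw [Finset.mul_sum]
    exact Finset.sum_congr rfl fun p _ => by ring
  rw [e1] at c
  have e2 : s * t * (∑ p ∈ S, (1 - Θ p.1 p.2) * (((K * L) p.1 p.1 - s * t) * Zc K L p.2 p.2)
        - ((K * L).trace - (s * t) * F.card) * fr (K * L))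
      ≤ nb * (2 * g ^ 2 * (σ * (lam * m))) + N * (2 * g ^ 2 * (σ * (lam * m))) := by
    refine (le_abs_self _).trans ?_
    rw [abs_mul, hst, one_mul]; exact a
  rw [b2]
  rw [mul_sub] at e2
  linarith

/-- the Gaussian term, weighted -/
lemma wG (H : Hy F K L g σ m lam v) (A : Av F S Θ η N nb Db) (DK : Dr F K s) (DL : Dr F L t) :
    ∑ p ∈ S, (1 - Θ p.1 p.2) * fr (G0 s t K L p.1 p.2)
      ≤ (1 + η) * (2 * (fr K + fr L) * fr (K * L)
      + 4 * (s * t) * ((K * (K * L)).trace * ((K * L) * L).trace) + 8 * (lam * m) ^ 2) := by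
  have frn : ∀ B : Matrix ι ι ℝ, 0 ≤ fr B := fun B =>
    Finset.sum_nonneg fun _ _ => Finset.sum_nonneg fun _ _ => sq_nonneg _
  have h := A.sum_le (f := fun x y => fr (G0 s t K L x y)) (fun x y => frn _)
  refine h.trans (mul_le_mul_of_nonneg_left ?_ (by linarith [A.η0]))
  refine le_trans ?_ (sum_fr_G0 DK.sq DL.sq DK.symm DL.symm (mul_nonneg H.l0 H.m0) H.zK H.zL)
  refine (Finset.sum_le_sum fun x _ => Finset.sum_le_sum_of_subset_of_nonneg
    (Finset.subset_univ F) fun y _ _ => frn _).trans ?_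
  exact Finset.sum_le_sum_of_subset_of_nonneg (Finset.subset_univ F) fun x _ _ =>
    Finset.sum_nonneg fun y _ => frn _

/-- removal term, weighted -/
lemma wrem (A : Av F S Θ η N nb Db) (DK : Dr F K s) (DL : Dr F L t) :
    (1 - η) * (4 * F.card * fr (K * L) - 4 * Db * fr (K * L))
      ≤ ∑ p ∈ S, (1 - Θ p.1 p.2) * (rn (K * L) p.1 + rn (K * L) p.2 + rn (L * K) p.1
        + rn (L * K) p.2) := by
  have h1 := A.removal (r := rn (K * L)) (rn_nonneg _)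
  have h2 := A.removal' (r := rn (K * L)) (rn_nonneg _)
  have h3 := A.removal (r := rn (L * K)) (rn_nonneg _)
  have h4 := A.removal' (r := rn (L * K)) (rn_nonneg _)
  have e1 : ∑ x ∈ F, rn (K * L) x = fr (K * L) :=
    sum_F_rn fun i j hi => dead_row DK.dead L hi
  have e2 : ∑ x ∈ F, rn (L * K) x = fr (K * L) := by
    rw [sum_F_rn fun i j hi => dead_row DL.dead K hi, fr_comm DK.symm DL.symm]
  rw [e1] at h1 h2
  rw [e2] at h3 h4
  have e : ∑ p ∈ S, (1 - Θ p.1 p.2) * (rn (K * L) p.1 + rn (K * L) p.2 + rn (L * K) p.1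
        + rn (L * K) p.2)
      = ∑ p ∈ S, (1 - Θ p.1 p.2) * rn (K * L) p.1 + ∑ p ∈ S, (1 - Θ p.1 p.2) * rn (K * L) p.2
        + ∑ p ∈ S, (1 - Θ p.1 p.2) * rn (L * K) p.1
        + ∑ p ∈ S, (1 - Θ p.1 p.2) * rn (L * K) p.2 := by
    rw [← Finset.sum_add_distrib, ← Finset.sum_add_distrib, ← Finset.sum_add_distrib]
    exact Finset.sum_congr rfl fun p _ => by ring
  rw [e]
  linarith

/-- the corner term, weighted -/
lemma wX (H : Hy F K L g σ m lam v) (A : Av F S Θ η N nb Db) :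
    ∑ p ∈ S, (1 - Θ p.1 p.2) * ((K * L) p.1 p.1 ^ 2 + (K * L) p.1 p.2 ^ 2
        + (K * L) p.2 p.1 ^ 2 + (K * L) p.2 p.2 ^ 2) ≤ 4 * (g ^ 8 + m ^ 2) := by
  have h1 := (L2.tensor H.lX H.lone A.sub).2
  have h2 := (L2.tensor H.lone H.lX A.sub).2
  have h3 := (H.pX A.sub).2
  have h4 : ∑ p ∈ S, (K * L) p.2 p.1 ^ 2 ≤ m ^ 2 :=
    ((H.swap.pX A.sub).congr fun p _ => by rw [mulT H.hK H.hL]).2
  simp only [mul_one, one_mul] at h1 h2
  have h : ∑ p ∈ S, ((K * L) p.1 p.1 ^ 2 + (K * L) p.1 p.2 ^ 2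
        + (K * L) p.2 p.1 ^ 2 + (K * L) p.2 p.2 ^ 2) ≤ 2 * (g ^ 8 + m ^ 2) := by
    simp only [Finset.sum_add_distrib]
    have e : (g ^ 2 * g ^ 2) ^ 2 = g ^ 8 := by ring
    rw [e] at h1 h2
    linarith
  have := A.err (f := fun x y => (K * L) x x ^ 2 + (K * L) x y ^ 2
        + (K * L) y x ^ 2 + (K * L) y y ^ 2) (fun p _ => by positivity) h
  linarith

/-- **the averaged inequality** -/
theorem cross_avg {δ : ℝ} (hδ : 0 < δ) (hδ1 : δ ≤ 1) (H : Hy F K L g σ m lam v)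
    (A : Av F S Θ η N nb Db) (DK : Dr F K s) (DL : Dr F L t) (hg : GP2 K L S) :
    ∑ p ∈ S, (1 - Θ p.1 p.2) * (fr (upd s K p.1 p.2 * upd t L p.1 p.2) - fr (K * L))
      ≤ 8 * (F.card + (nb + N) * (lam * m ^ 2) + 24 * (g ^ 2 * v ^ 2 * (lam * m ^ 2)))
      + 4 * ((s * t) * (((K * L).trace - (s * t) * F.card) * fr (K * L))
        + (nb + N) * (2 * g ^ 2 * (σ * (lam * m))) + 32 * b2 g σ m lam v)
      + (1 + δ) * ((1 + η) * (2 * (fr K + fr L) * fr (K * L)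
      + 4 * (s * t) * ((K * (K * L)).trace * ((K * L) * L).trace) + 8 * (lam * m) ^ 2))
      + (1 + δ⁻¹) * (8 * (8 * b3 g σ m v + 4 * b4 g σ m v))
      - (1 - δ) * ((1 - η) * (4 * F.card * fr (K * L) - 4 * Db * fr (K * L)))
      + 4 * (g ^ 8 + m ^ 2) + δ⁻¹ * (8 * b5 g σ m v) := by
  have hδi : 0 ≤ δ⁻¹ := inv_nonneg.mpr hδ.le
  have hg' := hg.swap
  -- pointwise, weighted
  have hpt : ∀ p ∈ S, (1 - Θ p.1 p.2) * (fr (upd s K p.1 p.2 * upd t L p.1 p.2) - fr (K * L))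
      ≤ 2 * ((1 - Θ p.1 p.2) * h1 s K L p.1 p.2 + (1 - Θ p.1 p.2) * h1 s K L p.2 p.1
          + ((1 - Θ p.1 p.2) * h1 t L K p.1 p.2 + (1 - Θ p.1 p.2) * h1 t L K p.2 p.1))
        + 2 * ((1 - Θ p.1 p.2) * h2 s t K L p.1 p.2 + (1 - Θ p.1 p.2) * h2 s t K L p.2 p.1)
        + (1 + δ) * ((1 - Θ p.1 p.2) * fr (G0 s t K L p.1 p.2))
        + (1 + δ⁻¹) * (8 * ((1 - Θ p.1 p.2) * h3 s K L p.1 p.2
          + (1 - Θ p.1 p.2) * h3 s K L p.2 p.1 + ((1 - Θ p.1 p.2) * h3 t L K p.1 p.2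
          + (1 - Θ p.1 p.2) * h3 t L K p.2 p.1) + ((1 - Θ p.1 p.2) * h4 s t K L p.1 p.2
          + (1 - Θ p.1 p.2) * h4 s t K L p.2 p.1)))
        - (1 - δ) * ((1 - Θ p.1 p.2) * (rn (K * L) p.1 + rn (K * L) p.2 + rn (L * K) p.1
          + rn (L * K) p.2))
        + (1 - Θ p.1 p.2) * ((K * L) p.1 p.1 ^ 2 + (K * L) p.1 p.2 ^ 2
          + (K * L) p.2 p.1 ^ 2 + (K * L) p.2 p.2 ^ 2)
        + δ⁻¹ * ((1 - Θ p.1 p.2) * h5 s t K L p.1 p.2 + (1 - Θ p.1 p.2) * h5 s t K L p.2 p.1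
          + (1 - Θ p.1 p.2) * h5 t s L K p.1 p.2 + (1 - Θ p.1 p.2) * h5 t s L K p.2 p.1) := by
    intro p hp
    have h := pointwise DK.sq DL.sq hδ hδ1 DK.symm DL.symm (hg p hp).1 (hg p hp).2
    have h' := mul_le_mul_of_nonneg_left h (A.w_nonneg p.1 p.2)
    linarith
  refine (Finset.sum_le_sum hpt).trans ?_
  simp only [Finset.sum_add_distrib, Finset.sum_sub_distrib, ← Finset.mul_sum]
  rw [A.swap (h1 s K L), A.swap (h1 t L K), A.swap (h2 s t K L), A.swap (h3 s K L),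
    A.swap (h3 t L K), A.swap (h4 s t K L), A.swap (h5 s t K L), A.swap (h5 t s L K)]
  have n3 : ∀ (s : ℝ) (K L : Matrix ι ι ℝ) (x y : ι), 0 ≤ h3 s K L x y := fun s K L x y =>
    mul_nonneg (nv_nonneg _) (rn_nonneg _ _)
  have n4 : ∀ (s t : ℝ) (K L : Matrix ι ι ℝ) (x y : ι), 0 ≤ h4 s t K L x y :=
    fun s t K L x y => add_nonneg
      (mul_nonneg (sq_nonneg _) (mul_nonneg (nv_nonneg _) (nv_nonneg _)))
      (mul_nonneg (sq_nonneg _) (mul_nonneg (nv_nonneg _) (nv_nonneg _)))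
  have n5 : ∀ (s t : ℝ) (K L : Matrix ι ι ℝ) (x y : ι), 0 ≤ h5 s t K L x y := by
    intro s t K L x y
    have a1 := rn_nonneg (K * L) x
    have a2 := rn_nonneg (K * L) y
    have a3 := nv_nonneg (al t L x y)
    have a4 := nv_nonneg (be t L x y)
    unfold h5
    positivity
  have i1 := wh1 H A DK DL hg
  have i1' := wh1 H.swap A DL DK hg'
  have i2 := wh2 H A DK DL hg
  have iG := wG H A DK DL
  have i3 := A.err (f := h3 s K L) (fun p _ => n3 _ _ _ _ _) (sum_h3 H A.sub hg DK.sq)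
  have i3' := A.err (f := h3 t L K) (fun p _ => n3 _ _ _ _ _) (sum_h3 H.swap A.sub hg' DL.sq)
  have i4 := A.err (f := h4 s t K L) (fun p _ => n4 _ _ _ _ _ _)
    (sum_h4 H A.sub hg DK.sq DL.sq)
  have i5 := A.err (f := h5 s t K L) (fun p _ => n5 _ _ _ _ _ _)
    (sum_h5 H A.sub hg DK.sq DL.sq)
  have i5' := A.err (f := h5 t s L K) (fun p _ => n5 _ _ _ _ _ _)
    (sum_h5 H.swap A.sub hg' DL.sq DK.sq)
  have iR := wrem A DK DL
  have iX := wX H A
  have jG := mul_le_mul_of_nonneg_left iG (by linarith : (0 : ℝ) ≤ 1 + δ)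
  have j34 := mul_le_mul_of_nonneg_left (add_le_add (add_le_add i3 i3') i4)
    (by linarith : (0 : ℝ) ≤ 16 * (1 + δ⁻¹))
  have j5 := mul_le_mul_of_nonneg_left (add_le_add i5 i5')
    (by linarith : (0 : ℝ) ≤ 2 * δ⁻¹)
  have jR := mul_le_mul_of_nonneg_left iR (by linarith : (0 : ℝ) ≤ 1 - δ)
  simp only [Finset.sum_add_distrib, Finset.sum_sub_distrib, mul_add (1 - Θ _ _)] at *
  rw [b3, b4, b5]
  linarith

end

end Crest.Agent.R62.Cross
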