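import Mathlib
import Crest.Agent.R62.CrossJ

/-!
R62 (helper214): the cross functional — lower bounds of the mixed traces from `K, L ≥ -γ` on `u^⊥`.
-/

set_option autoImplicit false
set_option linter.unusedSectionVars false
set_option linter.unusedVariables false

open Matrix Finset

namespace Crest.Agent.R62.Cross

open Crest.Agent.R62.Upd Crest.Agent.R62.AvX1 Crest.Agent.R62.L2P Crest.Agent.R62.AvBase

variable {ι : Type*} [Fintype ι] [DecidableEq ι]

/-- `K ≥ -γ` on the vectors with sum zero on `F` -/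
def Low (F : Finset ι) (K : Matrix ι ι ℝ) (γ : ℝ) : Prop :=
  ∀ f : ι → ℝ, ∑ i ∈ F, f i = 0 → -γ * ∑ i ∈ F, f i ^ 2 ≤ f ⬝ᵥ (K *ᵥ f)

lemma dot_ind (F : Finset ι) (f : ι → ℝ) : f ⬝ᵥ ind F = ∑ i ∈ F, f i := by
  simp only [dotProduct, ind, mul_ite, mul_one, mul_zero]
  rw [Finset.sum_ite_mem, Finset.univ_inter]

lemma quad_low {F : Finset ι} {K : Matrix ι ι ℝ} {s γ : ℝ} (hK : Dr F K s) (hl : Low F K γ)
    (hF : F.Nonempty) (f : ι → ℝ) :
    -γ * ∑ i ∈ F, f i ^ 2 + (s + γ) / F.card * (∑ i ∈ F, f i) ^ 2 ≤ f ⬝ᵥ (K *ᵥ f) := by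
  have hρ : (0 : ℝ) < F.card := by exact_mod_cast Finset.card_pos.mpr hF
  set ρ : ℝ := (F.card : ℝ) with hρdef
  set T : ℝ := ∑ i ∈ F, f i with hT
  set g : ι → ℝ := fun i => f i - T / ρ * ind F i with hg
  have hu : ∀ i ∈ F, ind F i = 1 := fun i hi => by simp [ind, hi]
  have hsum : ∑ i ∈ F, g i = 0 := by
    simp only [hg, Finset.sum_sub_distrib, ← Finset.mul_sum]
    rw [Finset.sum_congr rfl hu]
    simp only [Finset.sum_const, nsmul_eq_mul, mul_one]
    rw [← hT, ← hρdef]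
    field_simp
    ring
  have hg2 : ∑ i ∈ F, g i ^ 2 = ∑ i ∈ F, f i ^ 2 - T ^ 2 / ρ := by
    have e : ∀ i ∈ F, g i ^ 2 = f i ^ 2 - 2 * (T / ρ) * f i + (T / ρ) ^ 2 := fun i hi => by
      simp only [hg, hu i hi]; ring
    rw [Finset.sum_congr rfl e, Finset.sum_add_distrib, Finset.sum_sub_distrib, ← Finset.mul_sum]
    rw [← hT, Finset.sum_const, nsmul_eq_mul, ← hρdef]
    field_simp
    ring
  have hkg : f = g + (T / ρ) • ind F := by
    funext i; simp [hg]
  have hgu : g ⬝ᵥ ind F = 0 := by rw [dot_ind, hsum]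
  have hukk : ind F ⬝ᵥ (K *ᵥ g) = 0 := by
    rw [Matrix.dotProduct_mulVec, ← Matrix.mulVec_transpose, hK.symm.eq, hK.row, smul_dotProduct,
      dotProduct_comm, hgu, smul_zero]
  have hguu : g ⬝ᵥ (K *ᵥ ind F) = 0 := by
    rw [hK.row, dotProduct_smul, hgu, smul_zero]
  have huu : ind F ⬝ᵥ (K *ᵥ ind F) = s * ρ := by
    rw [hK.row, dotProduct_smul, smul_eq_mul]
    congr 1
    simp [dotProduct, ind, hρdef]
  have e1 : f ⬝ᵥ (K *ᵥ f) = g ⬝ᵥ (K *ᵥ g) + T ^ 2 / ρ * s := by
    conv_lhs => rw [hkg]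
    rw [Matrix.mulVec_add, add_dotProduct, dotProduct_add, dotProduct_add, Matrix.mulVec_smul,
      dotProduct_smul, dotProduct_smul, smul_dotProduct, smul_dotProduct, hguu, hukk, huu]
    simp only [smul_eq_mul, mul_zero, add_zero, zero_add]
    field_simp
  have h := hl g hsum
  rw [e1]
  rw [hg2] at h
  have e2 : -γ * (∑ i ∈ F, f i ^ 2 - T ^ 2 / ρ) + T ^ 2 / ρ * s
      = -γ * ∑ i ∈ F, f i ^ 2 + (s + γ) / ρ * T ^ 2 := by
    field_simp
    ring
  rw [← e2]
  linarith

lemma trace_vec {K : Matrix ι ι ℝ} (v w : ι → ℝ) :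
    (K * vecMulVec v w).trace = w ⬝ᵥ (K *ᵥ v) := by
  simp only [Matrix.trace, Matrix.diag_apply, Matrix.mul_apply, Matrix.vecMulVec_apply,
    dotProduct, Matrix.mulVec, Finset.mul_sum]
  exact Finset.sum_congr rfl fun i _ => Finset.sum_congr rfl fun j _ => by ring

/-- `Tr K B ≥ -γ Tr_F B + (s+γ)/ρ uᵀBu` for PSD `B` -/
lemma trace_mul_low {F : Finset ι} {K : Matrix ι ι ℝ} {s γ : ℝ} (hK : Dr F K s)
    (hl : Low F K γ) (hF : F.Nonempty) {B : Matrix ι ι ℝ} (hB : B.PosSemidef) :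
    -γ * ∑ i ∈ F, B i i + (s + γ) / F.card * (ind F ⬝ᵥ (B *ᵥ ind F)) ≤ (K * B).trace := by
  obtain ⟨m, v, hv⟩ := Matrix.posSemidef_iff_eq_sum_vecMulVec.mp hB
  have e1 : (K * B).trace = ∑ i, (v i) ⬝ᵥ (K *ᵥ (v i)) := by
    rw [hv, Finset.mul_sum, Matrix.trace_sum]
    exact Finset.sum_congr rfl fun i _ => by rw [trace_vec]; simp
  have e2 : ∑ i ∈ F, B i i = ∑ k, ∑ i ∈ F, v k i ^ 2 := by
    rw [Finset.sum_comm]
    refine Finset.sum_congr rfl fun i _ => ?_
    rw [hv, Matrix.sum_apply]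
    exact Finset.sum_congr rfl fun k _ => by
      rw [Matrix.vecMulVec_apply]; simp [sq]
  have e3 : ind F ⬝ᵥ (B *ᵥ ind F) = ∑ k, (∑ i ∈ F, v k i) ^ 2 := by
    rw [hv, Matrix.sum_mulVec, dotProduct_sum]
    refine Finset.sum_congr rfl fun k _ => ?_
    have : vecMulVec (v k) (star (v k)) *ᵥ ind F = (∑ i ∈ F, v k i) • v k := by
      funext i
      simp only [Matrix.mulVec, dotProduct, Matrix.vecMulVec_apply, Pi.smul_apply, smul_eq_mul,
        Pi.star_apply, star_trivial, ind, mul_ite, mul_one, mul_zero]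
      rw [Finset.sum_ite_mem, Finset.univ_inter, ← Finset.mul_sum, mul_comm]
    rw [this, dotProduct_smul, dotProduct_comm, dot_ind, smul_eq_mul, sq]
  rw [e1, e2, e3, Finset.mul_sum, Finset.mul_sum, ← Finset.sum_add_distrib]
  exact Finset.sum_le_sum fun k _ => quad_low hK hl hF (v k)

/-- the PSD matrix `L - (t+γ)/ρ uuᵀ + γ 1_F` -/
lemma psd_shift {F : Finset ι} {L : Matrix ι ι ℝ} {t γ : ℝ} (hL : Dr F L t)
    (hl : Low F L γ) (hF : F.Nonempty) :
    (L - ((t + γ) / F.card) • vecMulVec (ind F) (ind F)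
      + γ • Matrix.diagonal (ind F)).PosSemidef := by
  refine Matrix.PosSemidef.of_dotProduct_mulVec_nonneg ?_ fun f => ?_
  · rw [Matrix.IsHermitian]
    ext i j
    simp only [Matrix.conjTranspose_apply, Matrix.add_apply, Matrix.sub_apply, Matrix.smul_apply,
      Matrix.vecMulVec_apply, star_trivial, smul_eq_mul, hL.symm.apply j i]
    have : Matrix.diagonal (ind F) j i = Matrix.diagonal (ind F) i j := by
      by_cases h : i = j
      · subst h; rfl
      · rw [Matrix.diagonal_apply_ne _ h, Matrix.diagonal_apply_ne _ (Ne.symm h)]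
    rw [this]
    have h2 := hL.symm.apply i j
    rw [h2]
    ring
  · have h := quad_low hL hl hF f
    have e1 : star f ⬝ᵥ ((L - ((t + γ) / F.card) • vecMulVec (ind F) (ind F)
        + γ • Matrix.diagonal (ind F)) *ᵥ f)
        = f ⬝ᵥ (L *ᵥ f) - (t + γ) / F.card * (∑ i ∈ F, f i) ^ 2 + γ * ∑ i ∈ F, f i ^ 2 := by
      rw [star_trivial, Matrix.add_mulVec, Matrix.sub_mulVec, Matrix.smul_mulVec,
        Matrix.smul_mulVec, dotProduct_add, dotProduct_sub, dotProduct_smul, dotProduct_smul]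
      have a1 : f ⬝ᵥ (vecMulVec (ind F) (ind F) *ᵥ f) = (∑ i ∈ F, f i) ^ 2 := by
        have : vecMulVec (ind F) (ind F) *ᵥ f = (∑ i ∈ F, f i) • ind F := by
          funext i
          rw [Pi.smul_apply, smul_eq_mul, ← dot_ind, dotProduct_comm]
          simp only [Matrix.mulVec, dotProduct, Matrix.vecMulVec_apply, Finset.sum_mul]
          exact Finset.sum_congr rfl fun j _ => by ring
        rw [this, dotProduct_smul, dot_ind, smul_eq_mul, sq]
      have a2 : f ⬝ᵥ (Matrix.diagonal (ind F) *ᵥ f) = ∑ i ∈ F, f i ^ 2 := by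
        rw [← dot_ind F (fun i => f i ^ 2)]
        simp only [dotProduct, Matrix.mulVec_diagonal]
        exact Finset.sum_congr rfl fun j _ => by ring
      rw [a1, a2]
      simp only [smul_eq_mul]
    rw [e1]
    linarith

lemma trace_KL_ge {F : Finset ι} {K L : Matrix ι ι ℝ} {s t γ : ℝ} (hK : Dr F K s)
    (hL : Dr F L t) (lK : Low F K γ) (lL : Low F L γ) (hF : F.Nonempty) :
    s * t + γ * (s + t) + γ ^ 2 - γ * (K.trace + L.trace) - γ ^ 2 * F.card ≤ (K * L).trace := by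
  have hρ : (0 : ℝ) < F.card := by exact_mod_cast Finset.card_pos.mpr hF
  have h := trace_mul_low hK lK hF (psd_shift hL lL hF)
  set B := L - ((t + γ) / F.card) • vecMulVec (ind F) (ind F)
      + γ • Matrix.diagonal (ind F) with hB
  have i2 : ∀ i ∈ F, ind F i = 1 := fun i hi => by simp [ind, hi]
  have trF : ∀ {A : Matrix ι ι ℝ}, (∀ i j, i ∉ F → A i j = 0) → ∑ i ∈ F, A i i = A.trace := by
    intro A hA
    rw [sum_F_eq_univ _ _ fun x hx => hA x x hx]; rfl
  have e1 : ∑ i ∈ F, B i i = L.trace - (t + γ) + γ * F.card := by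
    have : ∀ i ∈ F, B i i = L i i - (t + γ) / F.card + γ := fun i hi => by
      simp only [hB, Matrix.add_apply, Matrix.sub_apply, Matrix.smul_apply,
        Matrix.vecMulVec_apply, Matrix.diagonal_apply_eq, i2 i hi, smul_eq_mul, mul_one]
    rw [Finset.sum_congr rfl this, Finset.sum_add_distrib, Finset.sum_sub_distrib,
      trF hL.dead]
    simp only [Finset.sum_const, nsmul_eq_mul]
    field_simp
  have uu : ind F ⬝ᵥ ind F = (F.card : ℝ) := by
    rw [dot_ind, Finset.sum_congr rfl i2]; simp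
  have vu : vecMulVec (ind F) (ind F) *ᵥ ind F = (F.card : ℝ) • ind F := by
    funext i
    rw [Pi.smul_apply, smul_eq_mul, ← uu]
    simp only [Matrix.mulVec, dotProduct, Matrix.vecMulVec_apply, Finset.sum_mul]
    exact Finset.sum_congr rfl fun j _ => by ring
  have du : Matrix.diagonal (ind F) *ᵥ ind F = ind F := by
    funext i
    rw [Matrix.mulVec_diagonal]
    unfold ind; split_ifs <;> simp
  have e2 : ind F ⬝ᵥ (B *ᵥ ind F) = 0 := by
    rw [hB, Matrix.add_mulVec, Matrix.sub_mulVec, Matrix.smul_mulVec, Matrix.smul_mulVec, vu, du,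
      hL.row, dotProduct_add, dotProduct_sub, dotProduct_smul, dotProduct_smul, dotProduct_smul,
      dotProduct_smul, uu]
    simp only [smul_eq_mul]
    field_simp
    ring
  have e3 : (K * B).trace = (K * L).trace - (t + γ) * s + γ * K.trace := by
    rw [hB, Matrix.mul_add, Matrix.mul_sub, Matrix.mul_smul, Matrix.mul_smul, Matrix.trace_add,
      Matrix.trace_sub, Matrix.trace_smul, Matrix.trace_smul, trace_vec, hK.row, dotProduct_smul,
      uu]
    have : (K * Matrix.diagonal (ind F)).trace = K.trace := by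
      rw [← trF hK.dead, ← dot_ind F (fun i => K i i)]
      simp only [Matrix.trace, Matrix.diag_apply, Matrix.mul_diagonal, dotProduct]
    rw [this]
    simp only [smul_eq_mul]
    field_simp
  rw [e1, e2, e3] at h
  linarith

/-- `Tr K L² ≥ -1 - γ Tr L²` -/
lemma trace_KLL_ge {F : Finset ι} {K L : Matrix ι ι ℝ} {s t γ : ℝ} (hK : Dr F K s)
    (hL : Dr F L t) (lK : Low F K γ) (hγ : 0 ≤ γ) (hF : F.Nonempty) :
    -1 - γ * fr L ≤ (K * (L * L)).trace := by
  have hρ : (0 : ℝ) < F.card := by exact_mod_cast Finset.card_pos.mpr hF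
  have hB : (L * L).PosSemidef := by
    have := Matrix.posSemidef_conjTranspose_mul_self L
    rwa [Matrix.conjTranspose_eq_transpose_of_trivial, hL.symm.eq] at this
  have h := trace_mul_low hK lK hF hB
  have e1 : ∑ i ∈ F, (L * L) i i = fr L := by
    rw [← sum_F_rn hL.dead]
    refine Finset.sum_congr rfl fun i _ => ?_
    rw [Matrix.mul_apply]
    unfold rn
    exact Finset.sum_congr rfl fun j _ => by rw [hL.symm.apply i j]; ring
  have e2 : ind F ⬝ᵥ ((L * L) *ᵥ ind F) = F.card := by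
    have i2 : ∀ i ∈ F, ind F i = 1 := fun i hi => by simp [ind, hi]
    rw [← Matrix.mulVec_mulVec, hL.row, Matrix.mulVec_smul, hL.row, smul_smul, ← sq, hL.sq,
      one_smul, dot_ind, Finset.sum_congr rfl i2]
    simp
  rw [e1, e2] at h
  have e3 : (s + γ) / (F.card : ℝ) * F.card = s + γ := by field_simp
  rw [e3] at h
  have : -1 ≤ s := by nlinarith [hK.sq]
  linarith

end Crest.Agent.R62.Cross
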