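import Mathlib
import Crest.Agent.R62.CrossK

/-!
R62 (helper214): the cross functional — opposite signs, the drift absorbs the relative errors.
-/

set_option autoImplicit false
set_option linter.unusedSectionVars false
set_option linter.unusedVariables false

open Matrix Finset

namespace Crest.Agent.R62.Cross

open Crest.Agent.R62.Upd Crest.Agent.R62.AvX1 Crest.Agent.R62.L2P Crest.Agent.R62.AvBase

variable {ι : Type*} [Fintype ι] [DecidableEq ι]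

section
variable {F : Finset ι} {S : Finset (ι × ι)} {Θ : ι → ι → ℝ} {η N nb Db : ℝ}
  {K L : Matrix ι ι ℝ} {g σ m lam v s t : ℝ}

lemma trace_mul_le {A B : Matrix ι ι ℝ} {a b : ℝ} (ha : 0 ≤ a) (hb : 0 ≤ b) (hA : fr A ≤ a ^ 2)
    (hB : fr B ≤ b ^ 2) : |(A * B).trace| ≤ a * b := by
  have h := ip_le ha hb hA (B := Bᵀ) (by rw [fr_transpose]; exact hB)
  have e : (A * B).trace = ∑ x, ∑ y, A x y * Bᵀ x y := by
    unfold Matrix.trace
    refine Finset.sum_congr rfl fun i _ => ?_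
    rw [Matrix.diag_apply, Matrix.mul_apply]
    rfl
  rw [e]; exact h

lemma neg_mul_le {x y r q : ℝ} (hx : -r ≤ x) (hy : -r ≤ y) (hx' : |x| ≤ q) (hy' : |y| ≤ q)
    (hr : 0 ≤ r) : -(x * y) ≤ r * q := by
  have h1 := (abs_le.mp hx').2
  have h2 := (abs_le.mp hy').2
  have hq : 0 ≤ q := (abs_nonneg _).trans hx'
  by_cases h : 0 ≤ x
  · have := mul_le_mul_of_nonneg_left hy h
    have := mul_le_mul_of_nonneg_right h1 hr
    nlinarith
  · push Not at h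
    by_cases h' : 0 ≤ y
    · have := mul_le_mul_of_nonneg_right hx h'
      have := mul_le_mul_of_nonneg_right h2 hr
      nlinarith
    · push Not at h'
      nlinarith [mul_nonneg hr hq, mul_pos_of_neg_of_neg h h']

lemma amgm (g m : ℝ) : 9 * (g ^ 2 * m) ≤ 1 / 2 * m ^ 2 + 41 * g ^ 4 := by
  nlinarith [sq_nonneg (m - 9 * g ^ 2), sq_nonneg (g ^ 2)]

theorem cross_fin {γ τ : ℝ} (H : Hy F K L g σ m lam v) (A : Av F S Θ η N nb Db) (DK : Dr F K s)
    (DL : Dr F L t) (hg : GP2 K L S) (hst : s * t = -1) (hsum : s + t = 0) (lK : Low F K γ)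
    (lL : Low F L γ) (γ0 : 0 ≤ γ) (γ1 : γ ^ 2 ≤ 1 / 2) (hη : η ≤ 1 / 64)
    (hP : fr K ≤ F.card) (hQ : fr L ≤ F.card) (hm : fr (K * L) = m ^ 2)
    (hτ : γ * (K.trace + L.trace) ≤ τ) (hD : 8 * (1 + τ + Db) ≤ F.card) (hF : F.Nonempty) :
    ∑ p ∈ S, (1 - Θ p.1 p.2) * (fr (upd s K p.1 p.2 * upd t L p.1 p.2) - fr (K * L))
      ≤ 8 * F.card + 41 * (F.card * g ^ 4) + 9 * (lam * m) ^ 2
      + 8 * ((nb + N) * (lam * m ^ 2) + 24 * (g ^ 2 * v ^ 2 * (lam * m ^ 2)))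
      + 4 * ((nb + N) * (2 * g ^ 2 * (σ * (lam * m))) + 32 * b2 g σ m lam v)
      + 264 * (8 * b3 g σ m v + 4 * b4 g σ m v)
      + 4 * (g ^ 8 + m ^ 2) + 256 * b5 g σ m v := by
  have h := cross_avg (δ := 1 / 32) (by norm_num) (by norm_num) H A DK DL hg
  have hρ1 : (1 : ℝ) ≤ F.card := by exact_mod_cast Finset.card_pos.mpr hF
  set ρ : ℝ := (F.card : ℝ) with hρ
  have hγ : γ ≤ 1 := by nlinarith
  have frn : ∀ B : Matrix ι ι ℝ, 0 ≤ fr B := fun B =>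
    Finset.sum_nonneg fun _ _ => Finset.sum_nonneg fun _ _ => sq_nonneg _
  have g0 := H.g0
  -- the mixed traces
  have t11 := trace_KL_ge DK DL lK lL hF
  rw [hst, hsum] at t11
  have t11' : -(1 + τ + ρ / 2) ≤ (K * L).trace := by
    have : γ ^ 2 * ρ ≤ 1 / 2 * ρ := mul_le_mul_of_nonneg_right γ1 (by linarith)
    have := sq_nonneg γ
    linarith
  have e12 : ((K * L) * L).trace = (K * (L * L)).trace := by rw [Matrix.mul_assoc]
  have e21 : (K * (K * L)).trace = (L * (K * K)).trace := by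
    rw [← Matrix.mul_assoc, Matrix.trace_mul_comm]
  have t12 : -(2 * ρ) ≤ ((K * L) * L).trace := by
    rw [e12]
    have := trace_KLL_ge DK DL lK γ0 hF
    have h2 : γ * fr L ≤ 1 * ρ := mul_le_mul hγ hQ (frn _) (by norm_num)
    linarith
  have t21 : -(2 * ρ) ≤ (K * (K * L)).trace := by
    rw [e21]
    have := trace_KLL_ge DL DK lL γ0 hF
    have h2 : γ * fr K ≤ 1 * ρ := mul_le_mul hγ hP (frn _) (by norm_num)
    linarith
  have gK : fr K ≤ (g ^ 2) ^ 2 := by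
    rw [← pow_mul]; exact hP.trans H.card
  have gL : fr L ≤ (g ^ 2) ^ 2 := by
    rw [← pow_mul]; exact hQ.trans H.card
  have a21 : |(K * (K * L)).trace| ≤ g ^ 2 * m :=
    trace_mul_le (by positivity) H.m0 gK hm.le
  have a12 : |((K * L) * L).trace| ≤ g ^ 2 * m := by
    rw [mul_comm]
    exact trace_mul_le H.m0 (by positivity) hm.le gL
  have hprod := neg_mul_le t21 t12 a21 a12 (by linarith)
  rw [hst, hm] at h
  rw [hm]
  -- the three parts
  have hm2 : 0 ≤ m ^ 2 := sq_nonneg m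
  have p1 : (-1 : ℝ) * (((K * L).trace - -1 * ρ) * m ^ 2) ≤ (1 + τ - ρ / 2) * m ^ 2 := by
    have := mul_le_mul_of_nonneg_right t11' hm2
    linarith
  have p2 : 2 * (fr K + fr L) * m ^ 2
      + 4 * -1 * ((K * (K * L)).trace * ((K * L) * L).trace) + 8 * (lam * m) ^ 2
      ≤ 4 * ρ * m ^ 2 + 8 * (ρ * (g ^ 2 * m)) + 8 * (lam * m) ^ 2 := by
    have : (fr K + fr L) * m ^ 2 ≤ (ρ + ρ) * m ^ 2 :=
      mul_le_mul_of_nonneg_right (add_le_add hP hQ) hm2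
    linarith
  have q0 : 0 ≤ ρ * m ^ 2 := mul_nonneg (by linarith) hm2
  have q1 : 0 ≤ ρ * (g ^ 2 * m) := mul_nonneg (by linarith) (mul_nonneg (sq_nonneg _) H.m0)
  have q2 : 0 ≤ (lam * m) ^ 2 := sq_nonneg _
  have p3 : (1 + 1 / 32) * ((1 + η) * (2 * (fr K + fr L) * m ^ 2
      + 4 * -1 * ((K * (K * L)).trace * ((K * L) * L).trace) + 8 * (lam * m) ^ 2))
      ≤ (2145 / 2048) * (4 * ρ * m ^ 2 + 8 * (ρ * (g ^ 2 * m)) + 8 * (lam * m) ^ 2) := by
    have h1 := mul_le_mul_of_nonneg_left p2 (by linarith [A.η0] : (0 : ℝ) ≤ 1 + η)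
    have h2 : (1 + η) * (4 * ρ * m ^ 2 + 8 * (ρ * (g ^ 2 * m)) + 8 * (lam * m) ^ 2)
        ≤ (65 / 64) * (4 * ρ * m ^ 2 + 8 * (ρ * (g ^ 2 * m)) + 8 * (lam * m) ^ 2) :=
      mul_le_mul_of_nonneg_right (by linarith) (by linarith)
    linarith
  have hDb : 0 ≤ Db := by
    obtain ⟨x, hx⟩ := hF
    exact le_trans (Nat.cast_nonneg _) (A.row x hx)
  have p4 : 1953 / 2048 * (4 * ρ * m ^ 2) - 4 * Db * m ^ 2
      ≤ (1 - 1 / 32) * ((1 - η) * (4 * ρ * m ^ 2 - 4 * Db * m ^ 2)) := by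
    have h1 : 63 / 64 * (4 * ρ * m ^ 2) ≤ (1 - η) * (4 * ρ * m ^ 2) :=
      mul_le_mul_of_nonneg_right (by linarith) (by linarith)
    have h2 : (1 - η) * (4 * Db * m ^ 2) ≤ 1 * (4 * Db * m ^ 2) :=
      mul_le_mul_of_nonneg_right (by linarith [A.η0]) (by positivity)
    have h3 : 0 ≤ 4 * Db * m ^ 2 := by positivity
    linarith
  have p5 : 4 * (1 + τ) * m ^ 2 + 4 * Db * m ^ 2 ≤ 1 / 2 * (ρ * m ^ 2) := by
    have := mul_le_mul_of_nonneg_right hD hm2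
    linarith
  have p6 : 9 * (ρ * (g ^ 2 * m)) ≤ 1 / 2 * (ρ * m ^ 2) + 41 * (ρ * g ^ 4) := by
    have := mul_le_mul_of_nonneg_left (amgm g m) (by linarith : (0 : ℝ) ≤ ρ)
    linarith
  have e32 : (1 / 32 : ℝ)⁻¹ = 32 := by norm_num
  rw [e32] at h
  have r1 := mul_le_mul_of_nonneg_left p1 (by norm_num : (0 : ℝ) ≤ 4)
  generalize hG : (1 + 1 / 32) * ((1 + η) * (2 * (fr K + fr L) * m ^ 2
      + 4 * -1 * ((K * (K * L)).trace * ((K * L) * L).trace) + 8 * (lam * m) ^ 2)) = GG at h p3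
  generalize hR : (1 - 1 / 32) * ((1 - η) * (4 * ρ * m ^ 2 - 4 * Db * m ^ 2)) = RR at h p4
  generalize b3 g σ m v = B3 at *
  generalize b4 g σ m v = B4 at *
  generalize b5 g σ m v = B5 at *
  generalize b2 g σ m lam v = B2 at *
  clear hG hR t11 t11' t12 t21 a12 a21 hprod p2 p1 e12 e21 gK gL
  linarith

end

end Crest.Agent.R62.Cross
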