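import Crest.Agent.R62.StepDefs

/-!
R62 (helper486): `X₃ ≥ -γ X₂ - 1` from `K ≥ -γ` on `1^⊥`, and small consequences.
-/

set_option autoImplicit false
set_option linter.unusedSectionVars false
set_option linter.unusedVariables false

open Matrix Finset

namespace Crest.Agent.R62.X3Low

open Crest.Agent.R62.AvX1 Crest.Agent.R62.Step Crest.Agent.R062

variable {ι : Type*} [Fintype ι] [DecidableEq ι]

section gen
variable {K : Matrix ι ι ℝ} {F : Finset ι} {s γ : ℝ}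

lemma dead' (hK : K.IsSymm) (hF : ∀ i j, i ∉ F → K i j = 0) (i j : ι) (hj : j ∉ F) :
    K i j = 0 := by
  rw [← hK.apply i j]; exact hF j i hj

lemma row_sum (hK : K.IsSymm) (hF : ∀ i j, i ∉ F → K i j = 0) (hrow : K *ᵥ ind F = s • ind F)
    {x : ι} (hx : x ∈ F) : ∑ i ∈ F, K i x = s := by
  have h := congrFun hrow x
  simp only [mulVec, dotProduct, ind, Pi.smul_apply, smul_eq_mul, mul_ite, mul_one, mul_zero,
    if_pos hx] at h
  rw [← h, Finset.sum_ite_mem, Finset.univ_inter]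
  exact Finset.sum_congr rfl fun i _ => hK.apply x i

/-- column `x` of `K` is `g + s/ρ` on `F` with `∑ g = 0`. -/
lemma col_low (hK : K.IsSymm) (hF : ∀ i j, i ∉ F → K i j = 0) (hs : s ^ 2 = 1)
    (hrow : K *ᵥ ind F = s • ind F)
    (hlow : ∀ f : ι → ℝ, ∑ i ∈ F, f i = 0 → -γ * ∑ i ∈ F, f i ^ 2 ≤ f ⬝ᵥ (K *ᵥ f))
    {x : ι} (hx : x ∈ F) :
    -γ * ∑ i ∈ F, K i x ^ 2 + (s + γ) / F.card
      ≤ (fun i => K i x) ⬝ᵥ (K *ᵥ fun i => K i x) := by
  have hρ : (0 : ℝ) < F.card := by exact_mod_cast Finset.card_pos.mpr ⟨x, hx⟩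
  set ρ : ℝ := (F.card : ℝ) with hρdef
  set k : ι → ℝ := fun i => K i x with hk
  set g : ι → ℝ := fun i => k i - s / ρ * ind F i with hg
  have hu : ∀ i ∈ F, ind F i = 1 := fun i hi => by simp [ind, hi]
  have hsum : ∑ i ∈ F, g i = 0 := by
    simp only [hg, Finset.sum_sub_distrib, ← Finset.mul_sum]
    rw [Finset.sum_congr rfl hu]
    simp only [Finset.sum_const, nsmul_eq_mul, mul_one]
    have : ∑ i ∈ F, k i = s := row_sum hK hF hrow hx
    rw [this, ← hρdef]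
    field_simp
    ring
  have hg2 : ∑ i ∈ F, g i ^ 2 = ∑ i ∈ F, k i ^ 2 - s ^ 2 / ρ := by
    have e : ∀ i ∈ F, g i ^ 2 = k i ^ 2 - 2 * (s / ρ) * k i + (s / ρ) ^ 2 := fun i hi => by
      simp only [hg, hu i hi]; ring
    rw [Finset.sum_congr rfl e, Finset.sum_add_distrib, Finset.sum_sub_distrib, ← Finset.mul_sum]
    have : ∑ i ∈ F, k i = s := row_sum hK hF hrow hx
    rw [this, Finset.sum_const, nsmul_eq_mul, ← hρdef]
    field_simp
    ring
  have hkg : k = g + (s / ρ) • ind F := by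
    funext i; simp [hg]
  have hukk : ind F ⬝ᵥ (K *ᵥ g) = 0 := by
    rw [Matrix.dotProduct_mulVec, ← Matrix.mulVec_transpose, hK.eq, hrow, smul_dotProduct]
    have : ind F ⬝ᵥ g = ∑ i ∈ F, g i := by
      simp only [dotProduct, ind, ite_mul, one_mul, zero_mul]
      rw [Finset.sum_ite_mem, Finset.univ_inter]
    rw [this, hsum, smul_zero]
  have hguu : g ⬝ᵥ (K *ᵥ ind F) = 0 := by
    rw [hrow, dotProduct_smul]
    have : g ⬝ᵥ ind F = ∑ i ∈ F, g i := by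
      simp only [dotProduct, ind, mul_ite, mul_one, mul_zero]
      rw [Finset.sum_ite_mem, Finset.univ_inter]
    rw [this, hsum, smul_zero]
  have huu : ind F ⬝ᵥ (K *ᵥ ind F) = s * ρ := by
    rw [hrow, dotProduct_smul, smul_eq_mul]
    congr 1
    simp [dotProduct, ind, hρdef]
  have e1 : k ⬝ᵥ (K *ᵥ k) = g ⬝ᵥ (K *ᵥ g) + s ^ 2 / ρ * s := by
    conv_lhs => rw [hkg]
    rw [Matrix.mulVec_add, Matrix.mulVec_smul, add_dotProduct, dotProduct_add, dotProduct_add,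
      dotProduct_smul, smul_dotProduct, smul_dotProduct, dotProduct_smul, hukk, hguu, huu]
    simp only [smul_eq_mul]
    field_simp
    ring
  have h1 := hlow g hsum
  rw [hg2] at h1
  rw [e1]
  have e2 : (s + γ) / ρ = s ^ 2 / ρ * s + γ * (s ^ 2 / ρ) := by rw [hs]; ring
  rw [e2]
  have e3 : ∑ i ∈ F, K i x ^ 2 = ∑ i ∈ F, k i ^ 2 := rfl
  rw [e3]
  nlinarith

lemma diag_cube_eq (hK : K.IsSymm) (x : ι) :
    (K ^ 3) x x = (fun i => K i x) ⬝ᵥ (K *ᵥ fun i => K i x) := by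
  rw [show (3 : ℕ) = 1 + 2 from rfl, pow_add, pow_one, pow_two, Matrix.mul_apply]
  simp only [dotProduct]
  refine Finset.sum_congr rfl fun i _ => ?_
  rw [hK.apply i x, Matrix.mul_apply]
  rfl

lemma diag_sq_F (hK : K.IsSymm) (hF : ∀ i j, i ∉ F → K i j = 0) (x : ι) :
    (K ^ 2) x x = ∑ i ∈ F, K i x ^ 2 := by
  rw [pow_two, Matrix.mul_apply]
  rw [← Finset.sum_subset (Finset.subset_univ F) fun i _ hi => by rw [hF i x hi, mul_zero]]
  exact Finset.sum_congr rfl fun i _ => by rw [hK.apply i x]; ring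

/-- `(K³)_xx ≥ -γ (K²)_xx - 1/ρ` -/
lemma diag_cube_ge (hK : K.IsSymm) (hF : ∀ i j, i ∉ F → K i j = 0) (hs : s ^ 2 = 1)
    (hγ : 0 ≤ γ) (hrow : K *ᵥ ind F = s • ind F)
    (hlow : ∀ f : ι → ℝ, ∑ i ∈ F, f i = 0 → -γ * ∑ i ∈ F, f i ^ 2 ≤ f ⬝ᵥ (K *ᵥ f))
    {x : ι} (hx : x ∈ F) :
    -γ * (K ^ 2) x x - 1 / F.card ≤ (K ^ 3) x x := by
  have hρ : (0 : ℝ) < F.card := by exact_mod_cast Finset.card_pos.mpr ⟨x, hx⟩
  rw [diag_sq_F hK hF, diag_cube_eq hK]
  refine le_trans ?_ (col_low hK hF hs hrow hlow hx)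
  have h1 : -1 ≤ s := by nlinarith
  have h2 : -(1 / (F.card : ℝ)) ≤ (s + γ) / F.card := by
    rw [← neg_div]; exact div_le_div_of_nonneg_right (by linarith) hρ.le
  linarith

lemma cube_dead (hF : ∀ i j, i ∉ F → K i j = 0) (n : ℕ) {x : ι} (hx : x ∉ F) (y : ι) :
    (K ^ (n + 1)) x y = 0 := by
  rw [pow_succ', Matrix.mul_apply]
  exact Finset.sum_eq_zero fun k _ => by rw [hF x k hx, zero_mul]

/-- **`X₃ ≥ -γ X₂ - 1`** -/
theorem trace_cube_ge (hK : K.IsSymm) (hF : ∀ i j, i ∉ F → K i j = 0) (hs : s ^ 2 = 1)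
    (hγ : 0 ≤ γ) (hrow : K *ᵥ ind F = s • ind F)
    (hlow : ∀ f : ι → ℝ, ∑ i ∈ F, f i = 0 → -γ * ∑ i ∈ F, f i ^ 2 ≤ f ⬝ᵥ (K *ᵥ f)) :
    -γ * (K ^ 2).trace - 1 ≤ (K ^ 3).trace := by
  have e3 : (K ^ 3).trace = ∑ x ∈ F, (K ^ 3) x x := by
    rw [Matrix.trace]
    exact (Finset.sum_subset (Finset.subset_univ F) fun x _ hx => cube_dead hF 2 hx x).symm
  have e2 : (K ^ 2).trace = ∑ x ∈ F, (K ^ 2) x x := by
    rw [Matrix.trace]
    exact (Finset.sum_subset (Finset.subset_univ F) fun x _ hx => cube_dead hF 1 hx x).symm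
  rw [e3, e2]
  calc -γ * ∑ x ∈ F, (K ^ 2) x x - 1
      ≤ ∑ x ∈ F, (-γ * (K ^ 2) x x - 1 / F.card) := by
        rw [Finset.sum_sub_distrib, ← Finset.mul_sum, Finset.sum_const, nsmul_eq_mul]
        rcases Finset.eq_empty_or_nonempty F with h | h
        · simp [h]
        · have hρ : (0 : ℝ) < F.card := by exact_mod_cast Finset.card_pos.mpr h
          rw [mul_one_div_cancel hρ.ne']
    _ ≤ _ := Finset.sum_le_sum fun x hx => diag_cube_ge hK hF hs hγ hrow hlow hx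

/-- `∑_F |(K³)_xx| ≤ X₃ + 2 γ X₂ + 2` -/
theorem sum_abs_cube_le (hK : K.IsSymm) (hF : ∀ i j, i ∉ F → K i j = 0) (hs : s ^ 2 = 1)
    (hγ : 0 ≤ γ) (hrow : K *ᵥ ind F = s • ind F)
    (hlow : ∀ f : ι → ℝ, ∑ i ∈ F, f i = 0 → -γ * ∑ i ∈ F, f i ^ 2 ≤ f ⬝ᵥ (K *ᵥ f)) :
    ∑ x ∈ F, |(K ^ 3) x x| ≤ (K ^ 3).trace + 2 * γ * (K ^ 2).trace + 2 := by
  have e3 : (K ^ 3).trace = ∑ x ∈ F, (K ^ 3) x x := by
    rw [Matrix.trace]
    exact (Finset.sum_subset (Finset.subset_univ F) fun x _ hx => cube_dead hF 2 hx x).symm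
  have e2 : (K ^ 2).trace = ∑ x ∈ F, (K ^ 2) x x := by
    rw [Matrix.trace]
    exact (Finset.sum_subset (Finset.subset_univ F) fun x _ hx => cube_dead hF 1 hx x).symm
  rw [e3, e2]
  calc ∑ x ∈ F, |(K ^ 3) x x|
      ≤ ∑ x ∈ F, ((K ^ 3) x x + 2 * γ * (K ^ 2) x x + 2 * (1 / F.card)) :=
        Finset.sum_le_sum fun x hx => by
          have h := diag_cube_ge hK hF hs hγ hrow hlow hx
          have h2 : 0 ≤ (K ^ 2) x x := by
            rw [diag_sq_F hK hF]; exact Finset.sum_nonneg fun _ _ => sq_nonneg _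
          have h3 : (0 : ℝ) ≤ 1 / F.card := by positivity
          have h4 := mul_nonneg hγ h2
          rw [abs_le]; constructor <;> linarith
    _ ≤ _ := by
        rw [Finset.sum_add_distrib, Finset.sum_add_distrib, ← Finset.mul_sum, Finset.sum_const,
          nsmul_eq_mul]
        rcases Finset.eq_empty_or_nonempty F with h | h
        · simp [h]
        · have hρ : (0 : ℝ) < F.card := by exact_mod_cast Finset.card_pos.mpr h
          have : (F.card : ℝ) * (2 * (1 / F.card)) = 2 := by field_simp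
          rw [this]

/-- `R₂ = W + 2 X₂ - ρ` -/
theorem R2_eq (hF : ∀ i j, i ∉ F → K i j = 0) :
    ∑ x, ((K ^ 2) x x) ^ 2 = Wf F K + 2 * (K ^ 2).trace - F.card := by
  have e2 : (K ^ 2).trace = ∑ x ∈ F, (K ^ 2) x x := by
    rw [Matrix.trace]
    exact (Finset.sum_subset (Finset.subset_univ F) fun x _ hx => cube_dead hF 1 hx x).symm
  rw [e2, ← Finset.sum_subset (Finset.subset_univ F) fun x _ hx => by
    rw [cube_dead hF 1 hx x]; norm_num]
  unfold Wf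
  have e : (F.card : ℝ) = ∑ x ∈ F, (1 : ℝ) := by simp
  rw [e, Finset.mul_sum, ← Finset.sum_add_distrib, ← Finset.sum_sub_distrib]
  exact Finset.sum_congr rfl fun x _ => by ring

end gen

section ctx
variable {ι' : Type} [Fintype ι'] [DecidableEq ι']

lemma sg_sq (b : Bool) : (Mach.sg b : ℝ) ^ 2 = 1 := by cases b <;> norm_num [Mach.sg]

theorem ctx_X3_ge {d m : ℕ} {γ : ℝ} {F : Finset ι'} {K : Bool → Matrix ι' ι' ℝ}
    {S : Finset (ι' × ι')} (h : Ctx d m γ F K S) (b : Bool) :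
    -γ * (K b ^ 2).trace - 1 ≤ (K b ^ 3).trace :=
  trace_cube_ge (h.symm b) (h.dead b) (sg_sq b) h.γ0.le (h.row b) (h.low b)

theorem ctx_X3_ge' {d m : ℕ} {γ : ℝ} {F : Finset ι'} {K : Bool → Matrix ι' ι' ℝ}
    {S : Finset (ι' × ι')} (h : Ctx d m γ F K S) (b : Bool) :
    -((K b ^ 2).trace) - 1 ≤ (K b ^ 3).trace := by
  have h1 := ctx_X3_ge h b
  have h2 : 0 ≤ (K b ^ 2).trace := by
    simpa using AvBase.trace_even_nonneg (h.symm b) 1
  have h3 : γ ≤ 1 := by nlinarith [h.γ1, h.γ0]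
  nlinarith

end ctx

end Crest.Agent.R62.X3Low
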