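import Crest.Agent.R62.StepDefs
import Crest.Agent.R62.CrossH
import Crest.Agent.R62.X3Low

/-!
R62 (helper486): lower bounds for the cross functionals `M₁₁ = Tr K⁺K⁻`, `M₂₁ = Tr K⁺K⁺K⁻`,
`M₁₂ = Tr K⁺K⁻K⁻` from `K ≥ -γ` on `1^⊥`.
-/

set_option autoImplicit false
set_option linter.unusedSectionVars false
set_option linter.unusedVariables false

open Matrix Finset

namespace Crest.Agent.R62.CrossLow

open Crest.Agent.R62.AvX1 Crest.Agent.R62.Step Crest.Agent.R062 Crest.Agent.R62.Cross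

variable {ι : Type*} [Fintype ι] [DecidableEq ι]

/-- `K ≥ -γ` on the vectors of `F` with sum zero, dead rows, row sums -/
structure Lw (F : Finset ι) (K : Matrix ι ι ℝ) (s γ : ℝ) : Prop where
  symm : K.IsSymm
  dead : ∀ i j, i ∉ F → K i j = 0
  row : K *ᵥ ind F = s • ind F
  low : ∀ f : ι → ℝ, ∑ i ∈ F, f i = 0 → -γ * ∑ i ∈ F, f i ^ 2 ≤ f ⬝ᵥ (K *ᵥ f)

section gen
variable {K L : Matrix ι ι ℝ} {F : Finset ι} {s t γ : ℝ}

lemma ind_dot (F : Finset ι) (g : ι → ℝ) : ind F ⬝ᵥ g = ∑ i ∈ F, g i := by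
  simp only [dotProduct, ind, ite_mul, one_mul, zero_mul]
  rw [Finset.sum_ite_mem, Finset.univ_inter]

/-- quadratic form of a vector with sum `a` -/
lemma Lw.quad (h : Lw F K s γ) (hF : F.Nonempty) {k : ι → ℝ} {a : ℝ} (hs : ∑ i ∈ F, k i = a) :
    -γ * ∑ i ∈ F, k i ^ 2 + (s + γ) / F.card * a ^ 2 ≤ k ⬝ᵥ (K *ᵥ k) := by
  have hρ : (0 : ℝ) < F.card := by exact_mod_cast Finset.card_pos.mpr hF
  set ρ : ℝ := (F.card : ℝ) with hρdef
  set g : ι → ℝ := fun i => k i - a / ρ * ind F i with hg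
  have hu : ∀ i ∈ F, ind F i = 1 := fun i hi => by simp [ind, hi]
  have hsum : ∑ i ∈ F, g i = 0 := by
    simp only [hg, Finset.sum_sub_distrib, ← Finset.mul_sum]
    rw [Finset.sum_congr rfl hu, hs]
    simp only [Finset.sum_const, nsmul_eq_mul, mul_one]
    rw [← hρdef]
    field_simp
    ring
  have hg2 : ∑ i ∈ F, g i ^ 2 = ∑ i ∈ F, k i ^ 2 - a ^ 2 / ρ := by
    have e : ∀ i ∈ F, g i ^ 2 = k i ^ 2 - 2 * (a / ρ) * k i + (a / ρ) ^ 2 := fun i hi => by
      simp only [hg, hu i hi]; ring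
    rw [Finset.sum_congr rfl e, Finset.sum_add_distrib, Finset.sum_sub_distrib, ← Finset.mul_sum,
      hs, Finset.sum_const, nsmul_eq_mul, ← hρdef]
    field_simp
    ring
  have hkg : k = g + (a / ρ) • ind F := by
    funext i; simp [hg]
  have hukk : ind F ⬝ᵥ (K *ᵥ g) = 0 := by
    rw [Matrix.dotProduct_mulVec, ← Matrix.mulVec_transpose, h.symm.eq, h.row, smul_dotProduct,
      ind_dot, hsum, smul_zero]
  have hguu : g ⬝ᵥ (K *ᵥ ind F) = 0 := by
    rw [h.row, dotProduct_smul, dotProduct_comm, ind_dot, hsum, smul_zero]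
  have huu : ind F ⬝ᵥ (K *ᵥ ind F) = s * ρ := by
    rw [h.row, dotProduct_smul, smul_eq_mul, ind_dot, Finset.sum_congr rfl hu]
    simp [hρdef]
  have e1 : k ⬝ᵥ (K *ᵥ k) = g ⬝ᵥ (K *ᵥ g) + a ^ 2 / ρ * s := by
    conv_lhs => rw [hkg]
    rw [Matrix.mulVec_add, Matrix.mulVec_smul, add_dotProduct, dotProduct_add, dotProduct_add,
      dotProduct_smul, smul_dotProduct, smul_dotProduct, dotProduct_smul, hukk, hguu, huu]
    simp only [smul_eq_mul]
    field_simp
    ring
  have h1 := h.low g hsum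
  rw [hg2] at h1
  rw [e1]
  have e2 : (s + γ) / ρ * a ^ 2 = a ^ 2 / ρ * s + γ * (a ^ 2 / ρ) := by ring
  rw [e2]
  nlinarith

lemma Lw.row_sum (h : Lw F K s γ) {x : ι} (hx : x ∈ F) : ∑ i ∈ F, K i x = s :=
  X3Low.row_sum h.symm h.dead h.row hx

/-- `K + γ P - (s + γ)/ρ J` -/
noncomputable def shift (F : Finset ι) (K : Matrix ι ι ℝ) (s γ : ℝ) : Matrix ι ι ℝ :=
  K + γ • Matrix.diagonal (ind F) - ((s + γ) / F.card) • Matrix.vecMulVec (ind F) (ind F)

lemma Lw.posSemidef (h : Lw F K s γ) (hF : F.Nonempty) : (shift F K s γ).PosSemidef := by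
  refine Matrix.PosSemidef.of_dotProduct_mulVec_nonneg ?_ ?_
  · have h1 : (shift F K s γ)ᵀ = shift F K s γ := by
      unfold shift
      rw [Matrix.transpose_sub, Matrix.transpose_add, Matrix.transpose_smul, Matrix.transpose_smul,
        Matrix.diagonal_transpose, Matrix.transpose_vecMulVec, h.symm.eq]
    rw [Matrix.IsHermitian, Matrix.conjTranspose_eq_transpose_of_trivial, h1]
  · intro f
    have e : star f ⬝ᵥ (shift F K s γ *ᵥ f)
        = f ⬝ᵥ (K *ᵥ f) + γ * ∑ i ∈ F, f i ^ 2 - (s + γ) / F.card * (∑ i ∈ F, f i) ^ 2 := by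
      rw [star_trivial]
      unfold shift
      rw [Matrix.sub_mulVec, Matrix.add_mulVec, Matrix.smul_mulVec, Matrix.smul_mulVec,
        dotProduct_sub, dotProduct_add, dotProduct_smul, dotProduct_smul]
      have e1 : f ⬝ᵥ (Matrix.diagonal (ind F) *ᵥ f) = ∑ i ∈ F, f i ^ 2 := by
        rw [← ind_dot F (fun i => f i ^ 2)]
        simp only [dotProduct, Matrix.mulVec_diagonal]
        exact Finset.sum_congr rfl fun i _ => by ring
      have e2 : f ⬝ᵥ (Matrix.vecMulVec (ind F) (ind F) *ᵥ f) = (∑ i ∈ F, f i) ^ 2 := by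
        rw [Matrix.vecMulVec_mulVec, ind_dot, dotProduct_smul, dotProduct_comm, ind_dot]
        simp [sq]
      rw [e1, e2]
      simp only [smul_eq_mul]
    rw [e]
    have := h.quad hF (k := f) rfl
    linarith

lemma trace_mul_nonneg {A B : Matrix ι ι ℝ} (hA : A.PosSemidef) (hB : B.PosSemidef) :
    0 ≤ (A * B).trace := by
  have h := (hA.hadamard hB).dotProduct_mulVec_nonneg (fun _ => (1 : ℝ))
  have hBs : ∀ i j, B i j = B j i := fun i j => by
    have := congrFun (congrFun hB.1 j) i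
    simpa [Matrix.conjTranspose_apply] using this
  refine h.trans (le_of_eq ?_)
  rw [star_trivial]
  unfold Matrix.trace
  simp only [dotProduct, Matrix.mulVec, Matrix.hadamard_apply, mul_one, one_mul, Matrix.diag_apply,
    Matrix.mul_apply]
  exact Finset.sum_congr rfl fun i _ => Finset.sum_congr rfl fun j _ => by rw [hBs i j]

/-- **`M₁₁` from below** -/
theorem M11_ge (h : Lw F K s γ) (h' : Lw F L t γ) (hF : F.Nonempty) :
    (s + γ) * (t + γ) - γ * (K.trace + L.trace) - γ ^ 2 * F.card ≤ (K * L).trace := by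
  have hρ : (0 : ℝ) < F.card := by exact_mod_cast Finset.card_pos.mpr hF
  have hp := trace_mul_nonneg (h.posSemidef hF) (h'.posSemidef hF)
  set P : Matrix ι ι ℝ := Matrix.diagonal (ind F) with hP
  set J : Matrix ι ι ℝ := Matrix.vecMulVec (ind F) (ind F) with hJ
  set c : ℝ := (s + γ) / F.card with hc
  set c' : ℝ := (t + γ) / F.card with hc'
  have uu : ∀ i, ind F i * ind F i = ind F i := fun i => by unfold ind; split_ifs <;> simp
  have kP : K * P = K := by
    ext i j
    rw [hP, Matrix.mul_diagonal]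
    by_cases hj : j ∈ F
    · simp [ind, hj]
    · rw [X3Low.dead' h.symm h.dead i j hj, zero_mul]
  have pL : P * L = L := by
    ext i j
    rw [hP, Matrix.diagonal_mul]
    by_cases hj : i ∈ F
    · simp [ind, hj]
    · rw [h'.dead i j hj, mul_zero]
  have pP : P * P = P := by
    rw [hP, Matrix.diagonal_mul_diagonal]
    congr 1
    funext i; exact uu i
  have kJ : K * J = s • J := by
    rw [hJ, Matrix.mul_vecMulVec, h.row, Matrix.smul_vecMulVec]
  have jL : J * L = t • J := by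
    rw [hJ, Matrix.vecMulVec_mul, ← Matrix.mulVec_transpose, h'.symm.eq, h'.row,
      Matrix.vecMulVec_smul]
  have dI : Matrix.diagonal (ind F) *ᵥ ind F = ind F := by
    funext i; rw [Matrix.mulVec_diagonal]; exact uu i
  have pJ : P * J = J := by
    rw [hJ, hP, Matrix.mul_vecMulVec, dI]
  have jP : J * P = J := by
    rw [hJ, hP, Matrix.vecMulVec_mul, ← Matrix.mulVec_transpose, Matrix.diagonal_transpose, dI]
  have jJ : J * J = (F.card : ℝ) • J := by
    have : ind F ⬝ᵥ ind F = F.card := by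
      rw [ind_dot, Finset.sum_congr rfl (fun i hi => by simp [ind, hi] : ∀ i ∈ F, ind F i = 1)]
      simp
    rw [hJ, Matrix.mul_vecMulVec, Matrix.vecMulVec_mulVec, this]
    ext i j
    simp [Matrix.vecMulVec_apply, mul_comm, mul_assoc, mul_left_comm]
  have tJ : J.trace = F.card := by
    rw [hJ, Matrix.trace_vecMulVec, ind_dot,
      Finset.sum_congr rfl (fun i hi => by simp [ind, hi] : ∀ i ∈ F, ind F i = 1)]
    simp
  have tP : P.trace = F.card := by
    rw [hP, Matrix.trace_diagonal]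
    exact sum_ind F
  have e : (K + γ • P - c • J) * (L + γ • P - c' • J)
      = K * L + γ • K + γ • L + (γ * γ) • P
        + (-c' * s - γ * c' - c * t - c * γ + c * c' * F.card) • J := by
    rw [Matrix.sub_mul, Matrix.add_mul, Matrix.mul_sub, Matrix.mul_sub, Matrix.mul_sub,
      Matrix.mul_add, Matrix.mul_add, Matrix.mul_add]
    simp only [Matrix.smul_mul, Matrix.mul_smul, kP, pL, pP, kJ, jL, pJ, jP, jJ, smul_smul]
    ext i j
    simp only [Matrix.add_apply, Matrix.sub_apply, Matrix.smul_apply, smul_eq_mul]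
    ring
  have e2 : (shift F K s γ * shift F L t γ).trace
      = (K * L).trace + γ * K.trace + γ * L.trace + γ * γ * F.card
        + (-c' * s - γ * c' - c * t - c * γ + c * c' * F.card) * F.card := by
    unfold shift
    rw [← hP, ← hJ, ← hc, ← hc', e]
    simp only [Matrix.trace_add, Matrix.trace_smul, smul_eq_mul, tJ, tP]
  rw [e2] at hp
  have e3 : (-c' * s - γ * c' - c * t - c * γ + c * c' * F.card) * F.card
      = -((s + γ) * (t + γ)) := by
    rw [hc, hc']; field_simp; ring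
  rw [e3] at hp
  nlinarith

lemma tr_eq (hK : K.IsSymm) :
    (K * (K * L)).trace = ∑ x, (fun i => K i x) ⬝ᵥ (L *ᵥ fun i => K i x) := by
  rw [Matrix.trace_mul_comm]
  unfold Matrix.trace
  refine Finset.sum_congr rfl fun x _ => ?_
  rw [Matrix.diag_apply, Matrix.mul_assoc, Matrix.mul_apply]
  simp only [dotProduct, Matrix.mulVec]
  refine Finset.sum_congr rfl fun i _ => ?_
  rw [hK.apply i x, Matrix.mul_apply]

/-- **`M₂₁` from below** -/
theorem M21_ge (h : Lw F K s γ) (h' : Lw F L t γ) (hs : s ^ 2 = 1) (ht : t ^ 2 = 1) (hγ : 0 ≤ γ) :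
    -γ * fr K - 1 ≤ (K * (K * L)).trace := by
  rcases Finset.eq_empty_or_nonempty F with h0 | hF
  · have hK0 : K = 0 := by
      ext i j; exact h.dead i j (by simp [h0])
    subst hK0
    simp only [Matrix.zero_mul, Matrix.trace_zero]
    have : fr (0 : Matrix ι ι ℝ) = 0 := by simp [fr]
    rw [this]; norm_num
  have hρ : (0 : ℝ) < F.card := by exact_mod_cast Finset.card_pos.mpr hF
  rw [tr_eq h.symm]
  have e0 : ∑ x, (fun i => K i x) ⬝ᵥ (L *ᵥ fun i => K i x)
      = ∑ x ∈ F, (fun i => K i x) ⬝ᵥ (L *ᵥ fun i => K i x) := by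
    refine (Finset.sum_subset (Finset.subset_univ F) fun x _ hx => ?_).symm
    have : (fun i => K i x) = 0 := by
      funext i; exact X3Low.dead' h.symm h.dead i x hx
    rw [this]; simp
  have e1 : fr K = ∑ x ∈ F, ∑ i ∈ F, K i x ^ 2 := by
    unfold fr
    rw [Finset.sum_comm]
    rw [← Finset.sum_subset (Finset.subset_univ F) fun x _ hx =>
      Finset.sum_eq_zero fun i _ => by rw [X3Low.dead' h.symm h.dead i x hx]; ring]
    refine Finset.sum_congr rfl fun x _ => ?_
    exact (Finset.sum_subset (Finset.subset_univ F) fun i _ hi => by rw [h.dead i x hi]; ring).symm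
  rw [e0, e1, Finset.mul_sum]
  have e2 : (1 : ℝ) = ∑ x ∈ F, 1 / (F.card : ℝ) := by
    rw [Finset.sum_const, nsmul_eq_mul, mul_one_div_cancel hρ.ne']
  rw [e2, ← Finset.sum_sub_distrib]
  refine Finset.sum_le_sum fun x hx => ?_
  have h1 := h'.quad hF (k := fun i => K i x) (h.row_sum hx)
  refine le_trans ?_ h1
  rw [hs, mul_one]
  have h3 : -1 ≤ t := by nlinarith
  have h2 : -(1 / (F.card : ℝ)) ≤ (t + γ) / F.card := by
    rw [← neg_div]; exact div_le_div_of_nonneg_right (by linarith) hρ.le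
  linarith

/-- `M₁₂` from below -/
theorem M12_ge (h : Lw F K s γ) (h' : Lw F L t γ) (hs : s ^ 2 = 1) (ht : t ^ 2 = 1) (hγ : 0 ≤ γ) :
    -γ * fr L - 1 ≤ ((K * L) * L).trace := by
  have e : ((K * L) * L).trace = (L * (L * K)).trace := by
    rw [← Matrix.trace_transpose]
    simp only [Matrix.transpose_mul, h.symm.eq, h'.symm.eq]
  rw [e]
  exact M21_ge h' h ht hs hγ

lemma abs_M21_le (hK : K.IsSymm) :
    |(K * (K * L)).trace| ≤ Real.sqrt (fr K) * Real.sqrt (fr (K * L)) := by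
  have h := ip_le (A := K) (B := K * L) (Real.sqrt_nonneg (fr K)) (Real.sqrt_nonneg (fr (K * L)))
    (by rw [Real.sq_sqrt (fr_nonneg _)]) (by rw [Real.sq_sqrt (fr_nonneg _)])
  refine le_trans (le_of_eq ?_) h
  congr 1
  unfold Matrix.trace
  rw [Finset.sum_comm]
  refine Finset.sum_congr rfl fun x _ => ?_
  rw [Matrix.diag_apply, Matrix.mul_apply]
  exact Finset.sum_congr rfl fun i _ => by rw [hK.apply i x]

lemma abs_M12_le (hK : K.IsSymm) (hL : L.IsSymm) :
    |((K * L) * L).trace| ≤ Real.sqrt (fr L) * Real.sqrt (fr (K * L)) := by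
  have e : ((K * L) * L).trace = (L * (L * K)).trace := by
    rw [← Matrix.trace_transpose]
    simp only [Matrix.transpose_mul, hK.eq, hL.eq]
  rw [e, ← fr_comm hK hL]
  exact abs_M21_le hL

/-- **the cross product `-M₂₁ M₁₂`** -/
theorem neg_M21_M12_le (h : Lw F K s γ) (h' : Lw F L t γ) (hs : s ^ 2 = 1) (ht : t ^ 2 = 1)
    (hγ : 0 ≤ γ) (hγ1 : γ ≤ 1) {ρ : ℝ} (hK : fr K ≤ ρ) (hL : fr L ≤ ρ) (hρ : 0 ≤ ρ) :
    -((K * (K * L)).trace * ((K * L) * L).trace)
      ≤ (ρ + 1) * (Real.sqrt ρ * Real.sqrt (fr (K * L))) := by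
  set a := (K * (K * L)).trace with ha
  set b := ((K * L) * L).trace with hb
  have a1 : -(ρ + 1) ≤ a := by
    have := M21_ge h h' hs ht hγ
    have h1 : γ * fr K ≤ 1 * ρ := mul_le_mul hγ1 hK (fr_nonneg _) zero_le_one
    linarith
  have b1 : -(ρ + 1) ≤ b := by
    have := M12_ge h h' hs ht hγ
    have h1 : γ * fr L ≤ 1 * ρ := mul_le_mul hγ1 hL (fr_nonneg _) zero_le_one
    linarith
  have a2 : |a| ≤ Real.sqrt ρ * Real.sqrt (fr (K * L)) :=
    (abs_M21_le h.symm).trans (mul_le_mul_of_nonneg_right (Real.sqrt_le_sqrt hK)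
      (Real.sqrt_nonneg _))
  have b2 : |b| ≤ Real.sqrt ρ * Real.sqrt (fr (K * L)) :=
    (abs_M12_le h.symm h'.symm).trans (mul_le_mul_of_nonneg_right (Real.sqrt_le_sqrt hL)
      (Real.sqrt_nonneg _))
  set r := Real.sqrt ρ * Real.sqrt (fr (K * L)) with hr
  have hr0 : 0 ≤ r := mul_nonneg (Real.sqrt_nonneg _) (Real.sqrt_nonneg _)
  have hρ1 : 0 ≤ ρ + 1 := by linarith
  rcases le_total 0 a with ha0 | ha0
  · rcases le_total 0 b with hb0 | hb0
    · have : 0 ≤ a * b := mul_nonneg ha0 hb0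
      have : 0 ≤ (ρ + 1) * r := mul_nonneg hρ1 hr0
      linarith
    · have h1 : a ≤ r := (le_abs_self a).trans a2
      have h2 : -b ≤ ρ + 1 := by linarith
      have h3 : a * (-b) ≤ r * (ρ + 1) := mul_le_mul h1 h2 (by linarith) hr0
      nlinarith
  · rcases le_total 0 b with hb0 | hb0
    · have h1 : b ≤ r := (le_abs_self b).trans b2
      have h2 : -a ≤ ρ + 1 := by linarith
      have h3 : b * (-a) ≤ r * (ρ + 1) := mul_le_mul h1 h2 (by linarith) hr0
      nlinarith
    · have : 0 ≤ a * b := mul_nonneg_of_nonpos_of_nonpos ha0 hb0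
      have : 0 ≤ (ρ + 1) * r := mul_nonneg hρ1 hr0
      linarith

end gen

section ctx
variable {ι : Type} [Fintype ι] [DecidableEq ι]

lemma lw_of_ctx {d m : ℕ} {γ : ℝ} {F : Finset ι} {K : Bool → Matrix ι ι ℝ} {S : Finset (ι × ι)}
    (c : Ctx d m γ F K S) (b : Bool) : Lw F (K b) (Mach.sg b : ℝ) γ :=
  ⟨c.symm b, c.dead b, c.row b, c.low b⟩

/-- `s t = -1` form: `-4 M₁₁ M ≤ 4 γ² ρ M + ...` -/
theorem ctx_M11_ge {d m : ℕ} {γ : ℝ} {F : Finset ι} {K : Bool → Matrix ι ι ℝ}
    {S : Finset (ι × ι)} (c : Ctx d m γ F K S) (hF : F.Nonempty) :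
    -1 - |(K true).trace| - |(K false).trace| - (F.card : ℝ) / 2
      ≤ (K true * K false).trace := by
  have h := M11_ge (lw_of_ctx c true) (lw_of_ctx c false) hF
  have hγ := c.γ0
  have hγ1 := c.γ1
  have hγ2 : γ ≤ 1 := by nlinarith
  have hρ : (0 : ℝ) ≤ F.card := Nat.cast_nonneg _
  have e1 : (Mach.sg true : ℝ) = 1 := by norm_num [Mach.sg]
  have e2 : (Mach.sg false : ℝ) = -1 := by norm_num [Mach.sg]
  rw [e1, e2] at h
  have h1 : γ * ((K true).trace + (K false).trace) ≤ |(K true).trace| + |(K false).trace| := by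
    have a1 := abs_nonneg (K true).trace
    have a2 := abs_nonneg (K false).trace
    have a3 : γ * (K true).trace ≤ |(K true).trace| := by
      refine (mul_le_mul_of_nonneg_left (le_abs_self _) hγ.le).trans ?_
      nlinarith
    have a4 : γ * (K false).trace ≤ |(K false).trace| := by
      refine (mul_le_mul_of_nonneg_left (le_abs_self _) hγ.le).trans ?_
      nlinarith
    linarith
  have h2 : γ ^ 2 * F.card ≤ 1 / 2 * F.card := mul_le_mul_of_nonneg_right hγ1 hρ
  have h3 : -1 ≤ (1 + γ) * (-1 + γ) := by nlinarith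
  linarith

theorem ctx_neg_M21_M12_le {d m : ℕ} {γ : ℝ} {F : Finset ι} {K : Bool → Matrix ι ι ℝ}
    {S : Finset (ι × ι)} (c : Ctx d m γ F K S) {ρ : ℝ} (hK : ∀ b, fr (K b) ≤ ρ) (hρ : 0 ≤ ρ) :
    -((K true * (K true * K false)).trace * ((K true * K false) * K false).trace)
      ≤ (ρ + 1) * (Real.sqrt ρ * Real.sqrt (fr (K true * K false))) := by
  have hγ := c.γ0
  have hγ1 := c.γ1
  have e1 : (Mach.sg true : ℝ) ^ 2 = 1 := by norm_num [Mach.sg]
  have e2 : (Mach.sg false : ℝ) ^ 2 = 1 := by norm_num [Mach.sg]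
  exact neg_M21_M12_le (lw_of_ctx c true) (lw_of_ctx c false) e1 e2 hγ.le (by nlinarith)
    (hK true) (hK false) hρ

end ctx

end Crest.Agent.R62.CrossLow
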