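import Mathlib
import Crest.Agent.R62.CrossL

/-!
R62 (helper214): the cross functional — numbers.
-/

set_option autoImplicit false
set_option linter.unusedSectionVars false
set_option linter.unusedVariables false

open Matrix Finset

namespace Crest.Agent.R62.Cross

section
variable {a G μ : ℝ}

lemma mon_aux (ha : 1 ≤ a) (μ0 : 0 ≤ μ) (hμ : μ ≤ a ^ 505) (k i n : ℕ)
    (h : k + 505 * i ≤ n) : a ^ k * μ ^ i ≤ a ^ n := by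
  have a0 : 0 ≤ a := by linarith
  calc a ^ k * μ ^ i ≤ a ^ k * (a ^ 505) ^ i :=
        mul_le_mul_of_nonneg_left (pow_le_pow_left₀ μ0 hμ i) (pow_nonneg a0 k)
    _ = a ^ (k + 505 * i) := by rw [← pow_mul, ← pow_add]
    _ ≤ a ^ n := pow_le_pow_right₀ ha h

lemma mon0 (ha : 1 ≤ a) (hG : a ^ 400 ≤ G) (μ0 : 0 ≤ μ) (hμ : μ ≤ a ^ 505) (k i : ℕ)
    (h : k + 505 * i ≤ 1801) : a ^ k * μ ^ i ≤ a ^ 1001 * G ^ 2 := by
  have a0 : 0 ≤ a := by linarith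
  refine (mon_aux ha μ0 hμ k i 1801 h).trans ?_
  calc a ^ 1801 = a ^ 1001 * (a ^ 400) ^ 2 := by rw [← pow_mul, ← pow_add]
    _ ≤ _ := mul_le_mul_of_nonneg_left (pow_le_pow_left₀ (pow_nonneg a0 _) hG 2)
        (pow_nonneg a0 _)

lemma mon1 (ha : 1 ≤ a) (hG : a ^ 400 ≤ G) (μ0 : 0 ≤ μ) (hμ : μ ≤ a ^ 505) (k i : ℕ)
    (h : k + 505 * i ≤ 1401) : a ^ k * μ ^ i * G ≤ a ^ 1001 * G ^ 2 := by
  have a0 : 0 ≤ a := by linarith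
  have G0 : 0 ≤ G := (pow_nonneg a0 _).trans hG
  calc a ^ k * μ ^ i * G ≤ a ^ 1401 * G :=
        mul_le_mul_of_nonneg_right (mon_aux ha μ0 hμ k i 1401 h) G0
    _ = a ^ 1001 * a ^ 400 * G := by rw [← pow_add]
    _ ≤ a ^ 1001 * G * G := mul_le_mul_of_nonneg_right
        (mul_le_mul_of_nonneg_left hG (pow_nonneg a0 _)) G0
    _ = _ := by ring

lemma mon2 (ha : 1 ≤ a) (μ0 : 0 ≤ μ) (hμ : μ ≤ a ^ 505) (k i : ℕ)
    (h : k + 505 * i ≤ 1001) : a ^ k * μ ^ i * G ^ 2 ≤ a ^ 1001 * G ^ 2 :=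
  mul_le_mul_of_nonneg_right (mon_aux ha μ0 hμ k i 1001 h) (sq_nonneg _)

theorem num {g ρ : ℝ} (ha : 10 ^ 10 ≤ a) (hG : a ^ 400 ≤ G) (hG2 : G ^ 2 = 2 * ρ)
    (hG3 : G ^ 2 ≤ a ^ 1001) (μ0 : 0 ≤ μ) (hμ : μ ≤ a ^ 505) (hg : g ^ 2 = G) :
    8 * ρ + 41 * (ρ * g ^ 4) + 9 * (a ^ 301 * μ) ^ 2
      + 8 * ((a * G + a ^ 371) * (a ^ 301 * μ ^ 2)
        + 24 * (g ^ 2 * (a ^ 3) ^ 2 * (a ^ 301 * μ ^ 2)))
      + 4 * ((a * G + a ^ 371) * (2 * g ^ 2 * (a ^ 153 * (a ^ 301 * μ)))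
        + 32 * b2 g (a ^ 153) μ (a ^ 301) (a ^ 3))
      + 264 * (8 * b3 g (a ^ 153) μ (a ^ 3) + 4 * b4 g (a ^ 153) μ (a ^ 3))
      + 4 * (g ^ 8 + μ ^ 2) + 256 * b5 g (a ^ 153) μ (a ^ 3)
      ≤ a ^ 1008 * ρ := by
  have a1 : 1 ≤ a := by linarith
  have a0 : 0 ≤ a := by linarith
  have hg4 : g ^ 4 = G ^ 2 := by rw [← hg]; ring
  have hg8 : g ^ 8 = G ^ 4 := by rw [← hg]; ring
  have hρ : ρ = G ^ 2 / 2 := by linarith
  set E : ℝ := a ^ 1001 * G ^ 2 with hE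
  have E0 : 0 ≤ E := mul_nonneg (pow_nonneg a0 _) (sq_nonneg _)
  have m0 := fun k i h => mon0 (G := G) a1 hG μ0 hμ k i h
  have m1 := fun k i h => mon1 (G := G) a1 hG μ0 hμ k i h
  have m2 := fun k i h => mon2 (G := G) a1 μ0 hμ k i h
  rw [← hE] at m0 m1 m2
  have m4 : G ^ 4 ≤ E := by
    calc G ^ 4 = G ^ 2 * G ^ 2 := by ring
      _ ≤ a ^ 1001 * G ^ 2 := mul_le_mul_of_nonneg_right hG3 (sq_nonneg _)
  have T0 : 8 * ρ ≤ 4 * E := by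
    have := m2 0 0 (by norm_num)
    simp only [pow_zero, one_mul] at this
    rw [hρ]; linarith
  have T1 : 41 * (ρ * g ^ 4) ≤ 41 * E := by
    rw [hg4, hρ]
    have : G ^ 2 / 2 * G ^ 2 = G ^ 4 / 2 := by ring
    rw [this]; linarith
  have T2 : 9 * (a ^ 301 * μ) ^ 2 ≤ 9 * E := by
    have := m0 602 2 (by norm_num)
    calc 9 * (a ^ 301 * μ) ^ 2 = 9 * (a ^ 602 * μ ^ 2) := by ring
      _ ≤ _ := by linarith
  have T3 : 8 * ((a * G + a ^ 371) * (a ^ 301 * μ ^ 2)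
        + 24 * (g ^ 2 * (a ^ 3) ^ 2 * (a ^ 301 * μ ^ 2))) ≤ 208 * E := by
    have c1 := m1 302 2 (by norm_num)
    have c2 := m0 672 2 (by norm_num)
    have c3 := m1 307 2 (by norm_num)
    rw [hg]
    calc 8 * ((a * G + a ^ 371) * (a ^ 301 * μ ^ 2)
        + 24 * (G * (a ^ 3) ^ 2 * (a ^ 301 * μ ^ 2)))
        = 8 * (a ^ 302 * μ ^ 2 * G) + 8 * (a ^ 672 * μ ^ 2) + 192 * (a ^ 307 * μ ^ 2 * G) := by
          ring
      _ ≤ _ := by linarith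
  have T5 : 4 * ((a * G + a ^ 371) * (2 * g ^ 2 * (a ^ 153 * (a ^ 301 * μ)))
        + 32 * b2 g (a ^ 153) μ (a ^ 301) (a ^ 3)) ≤ 2320 * E := by
    have c1 := m2 455 1 (by norm_num)
    have c2 := m1 825 1 (by norm_num)
    have c3 := m2 304 1 (by norm_num)
    have c4 := m1 460 1 (by norm_num)
    have c5 := m1 307 2 (by norm_num)
    have c6 := m0 457 2 (by norm_num)
    rw [b2, hg4, hg]
    calc 4 * ((a * G + a ^ 371) * (2 * G * (a ^ 153 * (a ^ 301 * μ)))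
        + 32 * (8 * (G ^ 2 * a ^ 3 * (a ^ 301 * μ)) + 6 * (G * a ^ 153 * (a ^ 3) ^ 2
          * (a ^ 301 * μ)) + 2 * (G * (a ^ 3) ^ 2 * (a ^ 301 * μ ^ 2))
          + 2 * (a ^ 153 * a ^ 3 * (a ^ 301 * μ ^ 2))))
        = 8 * (a ^ 455 * μ ^ 1 * G ^ 2) + 8 * (a ^ 825 * μ ^ 1 * G)
          + 1024 * (a ^ 304 * μ ^ 1 * G ^ 2) + 768 * (a ^ 460 * μ ^ 1 * G)
          + 256 * (a ^ 307 * μ ^ 2 * G) + 256 * (a ^ 457 * μ ^ 2) := by ring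
      _ ≤ _ := by linarith
  have T7 : b3 g (a ^ 153) μ (a ^ 3) ≤ 192 * E := by
    have c1 := m0 312 2 (by norm_num)
    have c2 := m1 153 2 (by norm_num)
    have c3 := m1 6 2 (by norm_num)
    rw [b3, hg]
    calc 64 * ((a ^ 153 * μ * a ^ 3) ^ 2 + a ^ 153 * μ * (μ * G)
          + μ * a ^ 3 * (a ^ 3 * μ * G))
        = 64 * (a ^ 312 * μ ^ 2 + a ^ 153 * μ ^ 2 * G + a ^ 6 * μ ^ 2 * G) := by ring
      _ ≤ _ := by linarith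
  have T8 : b4 g (a ^ 153) μ (a ^ 3) ≤ 20480 * E := by
    have c1 := m2 624 0 (by norm_num)
    have c2 := m2 618 0 (by norm_num)
    have c3 := m1 618 1 (by norm_num)
    have c4 := m2 306 1 (by norm_num)
    have c5 := m0 930 1 (by norm_num)
    rw [b4, hg]
    calc 1024 * ((a ^ 153 * (a ^ 153 * (2 * G)) * (a ^ 3 * a ^ 3)) ^ 2
          + (a ^ 153 * (2 * G) * (a ^ 153 * a ^ 3)) ^ 2
          + (a ^ 153 * (2 * G) * (a ^ 153 * a ^ 3)) ^ 2 + (2 * G * G) ^ 2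
          + μ * (a ^ 153 * (a ^ 153 * (a ^ 153 * G)) * (a ^ 3 * (a ^ 153 * a ^ 3)))
          + μ * (a ^ 153 * G * (a ^ 153 * G))
          + μ * (a ^ 153 * (a ^ 153 * (a ^ 153 * (a ^ 3 * a ^ 3)))
            * (a ^ 153 * (a ^ 153 * (a ^ 153 * (a ^ 3 * a ^ 3)))))
          + μ * (a ^ 153 * (a ^ 3 * a ^ 3) * (a ^ 153 * (a ^ 153 * (a ^ 153 * G)))))
        = 1024 * (4 * (a ^ 624 * μ ^ 0 * G ^ 2) + 8 * (a ^ 618 * μ ^ 0 * G ^ 2) + 4 * G ^ 4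
          + 2 * (a ^ 618 * μ ^ 1 * G) + a ^ 306 * μ ^ 1 * G ^ 2 + a ^ 930 * μ ^ 1) := by ring
      _ ≤ _ := by linarith
  have T9 : 4 * (g ^ 8 + μ ^ 2) ≤ 8 * E := by
    have c1 := m0 0 2 (by norm_num)
    rw [pow_zero, one_mul] at c1
    rw [hg8]; linarith
  have T10 : b5 g (a ^ 153) μ (a ^ 3) ≤ 80000 * E := by
    have c1 := m0 306 2 (by norm_num)
    have c2 := m0 12 2 (by norm_num)
    have c3 := m0 6 2 (by norm_num)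
    have c4 := m2 312 0 (by norm_num)
    have c5 := m0 312 2 (by norm_num)
    have c6 := m0 318 2 (by norm_num)
    have c7 := m2 318 0 (by norm_num)
    rw [b5, hg]
    calc 6 * (32 * ((a ^ 153 * μ) ^ 2 + ((a ^ 3 * μ) * a ^ 3) ^ 2) + 16 * (a ^ 3 * μ) ^ 2
        + 288 * (((a ^ 153 * (2 * G)) * a ^ 3) ^ 2 + ((2 * G) * G) ^ 2)
        + 288 * ((a ^ 153 * μ) ^ 2 + (a ^ 3 * (a ^ 153 * μ)) ^ 2)
        + 1024 * ((a ^ 3 * (a ^ 3 * (a ^ 153 * μ))) ^ 2 + (a ^ 3 * (a ^ 153 * μ)) ^ 2)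
        + 1024 * (((a ^ 153 * a ^ 3) * (2 * G)) ^ 2
          + ((a ^ 3 * a ^ 3) * (a ^ 153 * (2 * G))) ^ 2))
        = 6 * (320 * (a ^ 306 * μ ^ 2) + 32 * (a ^ 12 * μ ^ 2) + 16 * (a ^ 6 * μ ^ 2)
          + 5248 * (a ^ 312 * μ ^ 0 * G ^ 2) + 1152 * G ^ 4 + 1312 * (a ^ 312 * μ ^ 2)
          + 1024 * (a ^ 318 * μ ^ 2) + 4096 * (a ^ 318 * μ ^ 0 * G ^ 2)) := by ring
      _ ≤ _ := by linarith
  have hfin : 10 ^ 9 * E ≤ a ^ 1008 * ρ := by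
    have h1 : (2 * 10 ^ 9 : ℝ) ≤ a ^ 7 := by
      have := pow_le_pow_right₀ a1 (by norm_num : 1 ≤ 7)
      rw [pow_one] at this
      linarith
    have h2 := mul_le_mul_of_nonneg_left h1 (mul_nonneg (pow_nonneg a0 1001)
      (sq_nonneg G))
    rw [hρ, hE]
    calc 10 ^ 9 * (a ^ 1001 * G ^ 2) = (a ^ 1001 * G ^ 2 * (2 * 10 ^ 9)) / 2 := by ring
      _ ≤ (a ^ 1001 * G ^ 2 * a ^ 7) / 2 := by linarith
      _ = _ := by ring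
  linarith

end

end Crest.Agent.R62.Cross
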