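import Crest.Agent.R62.Bridge
import Crest.Agent.R062.Out

/-!
R62: `Out.Spec` of every full completion, from the stub recursion.
-/

set_option autoImplicit false
set_option linter.unusedSectionVars false
set_option linter.unusedSimpArgs false
set_option linter.unusedVariables false
open scoped Matrix BigOperators

namespace Crest.Agent.R62.SpecBridge

open Crest.Agent.R62.Stub Crest.Agent.R62.Bridge
open Crest.Agent.R062.Pairs Crest.Agent.R062.Out

lemma mat_of_valid {d n : ℕ} {P : List (ℕ × ℕ)} (h : Valid d n P) : Mat n d P := by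
  induction P with
  | nil => trivial
  | cons p P ih =>
    rw [valid_cons] at h
    obtain ⟨⟨hg, hc⟩, hP⟩ := h
    refine ⟨ih hP, hg.1, hg.2.1, ?_, ?_, hg.2.2⟩
    · rintro ⟨q, hq, h1 | h1⟩
      · exact (hc q hq).1.1 h1
      · exact (hc q hq).1.2.1 h1
    · rintro ⟨q, hq, h1 | h1⟩
      · exact (hc q hq).1.2.2.1 h1
      · exact (hc q hq).1.2.2.2 h1

lemma adjN_cons {d : ℕ} {p : ℕ × ℕ} {P : List (ℕ × ℕ)} {v w : ℕ} :
    AdjN d (p :: P) v w ↔
      ((p.1 / d = v ∧ p.2 / d = w) ∨ (p.1 / d = w ∧ p.2 / d = v)) ∨ AdjN d P v w := by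
  simp [AdjN]

lemma vtx_val {n d : ℕ} [NeZero n] {x : ℕ} (hx : x < n * d) : (vtx n d x).val = x / d := by
  have h1 : x / d < n := Nat.div_lt_of_lt_mul (by rwa [mul_comm] at hx)
  simp only [vtx, Fin.val_ofNat, Nat.mod_eq_of_lt h1]

lemma adjMatrix_eq {d n : ℕ} [NeZero n] {P : List (ℕ × ℕ)} (h : Valid d n P)
    [DecidableRel (G d n P).Adj] :
    (G d n P).adjMatrix ℝ = runA (mapL n d P) := by
  classical
  have key : ∀ i j : Fin n, (if (i ≠ j ∧ AdjN d P i j) then (1 : ℝ) else 0)
      = runA (mapL n d P) i j := by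
    induction P with
    | nil =>
      intro i j
      simp [AdjN, mapL, runA]
    | cons p P ih =>
      intro i j
      rw [valid_cons] at h
      obtain ⟨⟨hg, hc⟩, hP⟩ := h
      have h0 := ih hP i j
      obtain ⟨x, y⟩ := p
      obtain ⟨hx, hy, hxy⟩ := hg
      simp only at hx hy hxy hc
      have ex : ∀ i : Fin n, (i = vtx n d x) ↔ x / d = i.val := fun i => by
        rw [Fin.ext_iff, vtx_val hx, eq_comm]
      have ey : ∀ i : Fin n, (i = vtx n d y) ↔ y / d = i.val := fun i => by
        rw [Fin.ext_iff, vtx_val hy, eq_comm]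
      simp only [mapL, List.map_cons, runA, Matrix.add_apply, edgeM, Matrix.vecMulVec_apply,
        Pi.single_apply, ex, ey]
      simp only [mapL] at h0
      rw [← h0]
      simp only [adjN_cons]
      have hno1 : ∀ v w : ℕ, x / d = v → y / d = w → ¬ AdjN d P v w := by
        rintro v w h1 h2 ⟨q, hq, h3 | h3⟩
        · exact (hc q hq).2.1 ⟨by rw [h1, h3.1], by rw [h2, h3.2]⟩
        · exact (hc q hq).2.2 ⟨by simp only [h1, h3.2], by simp only [h2, h3.1]⟩
      by_cases hij : i = j
      · subst hij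
        by_cases h1 : x / d = i.val
        · have h2 : ¬ (y / d = i.val) := fun h2 => hxy (by rw [h1, h2])
          simp [h1, h2]
        · simp [h1]
      · have hij' : i.val ≠ j.val := fun h => hij (Fin.ext h)
        by_cases h1 : x / d = i.val
        · by_cases h2 : y / d = j.val
          · have h3 : ¬ (x / d = j.val) := fun h => hij' (by rw [← h1, h])
            have h4 := hno1 _ _ h1 h2
            rw [h1] at h3
            simp [h1, h2, h3, h4, hij, hij']
          · simp [h1, h2, hij, hij']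
        · by_cases h2 : y / d = i.val
          · by_cases h3 : x / d = j.val
            · have h4 : ¬ AdjN d P i j := fun hh => hno1 _ _ h3 h2 (AdjN.symm hh)
              have h5 : ¬ (y / d = j.val) := fun h => hij' (by rw [← h2, h])
              simp [h1, h2, h3, h4, h5, hij, hij', Ne.symm hij']
            · simp [h1, h2, h3, hij, hij']
          · simp [h1, h2, hij, hij']
  ext i j
  rw [SimpleGraph.adjMatrix_apply, ← key i j]
  congr 1

/-- the spectral property of all full completions -/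
theorem spec_of {d n : ℕ} (hd : 3 ≤ d) (hn : 0 < n) {γ : ℝ} (hγ0 : 0 < γ) (hγ1 : γ < 1)
    (hb : 0 < 2 * Real.sqrt ((d : ℝ) - 1) - γ * d) (P : List (ℕ × ℕ))
    (hlen : 2 * P.length < n * d)
    (hD : ∀ s : ℝ, s = 1 ∨ s = -1 →
      DelPos γ s ((1 - γ ^ 2) / (2 * Real.sqrt ((d : ℝ) - 1) - γ * d)) n d P)
    (hX : ∀ s : ℝ, s = 1 ∨ s = -1 → ∑ i ∈ Finset.range (n * d), ∑ j ∈ Finset.range (n * d),
      Kof γ s ((1 - γ ^ 2) / (2 * Real.sqrt ((d : ℝ) - 1) - γ * d)) n d P i j ^ 2 < 2)
    (Q : List (ℕ × ℕ)) (hPQ : P <:+ Q) (hQ : Valid d n Q) (hfull : 2 * Q.length = n * d) :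
    Spec d n Q := by
  classical
  have : NeZero n := ⟨hn.ne'⟩
  obtain ⟨R, rfl⟩ := hPQ
  intro x hx0 hx
  have h1 := spectral (by omega : 0 < d) hγ0 hγ1 hb R P (mat_of_valid hQ) hfull hlen hD hX x hx hx0
  rw [← adjMatrix_eq hQ] at h1
  exact h1

end Crest.Agent.R62.SpecBridge
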