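import Crest.Agent.R62.StepDefs

/-!
R62: one step of stage 1 and of stage 2, from the pieces (helper800).
-/

set_option autoImplicit false
set_option linter.unusedSectionVars false
set_option linter.unusedVariables false

open Matrix Finset

namespace Crest.Agent.R62.Step

open Crest.Agent.R62.Upd Crest.Agent.R62.AvBase Crest.Agent.R62.AvX1
open Crest.Agent.R062

variable {ι : Type} [Fintype ι] [DecidableEq ι]

/-- all pieces of stage 1 -/
structure Pieces1 (ι : Type) [Fintype ι] [DecidableEq ι] : Prop where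
  x1u : S1X1u ι
  x1l : S1X1l ι
  x2u : S1X2u ι
  x2l : S1X2l ι
  x3l : S1X3l ι
  x3u : S1X3u ι
  x4 : S1X4 ι
  v : S1V ι
  w : S1W ι
  mm : S1M ι
  tilt : ExTilt ι

/-- all pieces of stage 2 -/
structure Pieces2 (ι : Type) [Fintype ι] [DecidableEq ι] : Prop where
  x1 : S2X1 ι
  x2 : S2X2 ι
  x2l : S2X2l ι
  x3 : S2X3 ι
  x4 : S2X4 ι
  v : S2V ι
  w : S2W ι

lemma card_erase2 {F : Finset ι} {x y : ι} (hx : x ∈ F) (hy : y ∈ F) (hxy : x ≠ y) :
    (((F.erase x).erase y).card : ℝ) = (F.card : ℝ) - 2 := by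
  have h1 : y ∈ F.erase x := Finset.mem_erase.mpr ⟨hxy.symm, hy⟩
  rw [Finset.card_erase_of_mem h1, Finset.card_erase_of_mem hx]
  have h2 : 1 < F.card := Finset.one_lt_card.mpr ⟨x, hx, y, hy, hxy⟩
  have h3 : F.card - 1 - 1 = F.card - 2 := by omega
  rw [h3, Nat.cast_sub (by omega)]
  norm_num

lemma inc_add (S : Finset (ι × ι)) (Θ : ι → ι → ℝ) (f g : ι → ι → ℝ) (a b : ℝ) :
    inc S Θ (fun x y => f x y + g x y) (a + b) = inc S Θ f a + inc S Θ g b := by
  unfold inc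
  rw [← Finset.sum_add_distrib]
  exact Finset.sum_congr rfl fun p _ => by ring

lemma inc_congr (S : Finset (ι × ι)) (Θ : ι → ι → ℝ) {f g : ι → ι → ℝ} (a : ℝ)
    (h : ∀ p ∈ S, f p.1 p.2 = g p.1 p.2) : inc S Θ f a = inc S Θ g a := by
  unfold inc
  exact Finset.sum_congr rfl fun p hp => by rw [h p hp]

/-- averaging -/
lemma exists_of_inc {S : Finset (ι × ι)} {Θ : ι → ι → ℝ} {f : ι → ι → ℝ} {a c : ℝ}
    (hne : S.Nonempty) (hw : ∀ p ∈ S, 0 < 1 - Θ p.1 p.2)
    (h : inc S Θ f a ≤ c * ∑ p ∈ S, (1 - Θ p.1 p.2)) :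
    ∃ p ∈ S, f p.1 p.2 ≤ a + c := by
  by_contra hcon
  push Not at hcon
  have h1 : ∑ p ∈ S, (1 - Θ p.1 p.2) * c < inc S Θ f a := by
    unfold inc
    refine Finset.sum_lt_sum_of_nonempty hne fun p hp => ?_
    exact mul_lt_mul_of_pos_left (by linarith [hcon p hp]) (hw p hp)
  rw [← Finset.sum_mul] at h1
  linarith [mul_comm c (∑ p ∈ S, (1 - Θ p.1 p.2))]

lemma Prm.m_pos {d n m : ℕ} (h : Prm d n m) : (0 : ℝ) < m := by
  have h3 : (3 : ℝ) ≤ d := by exact_mod_cast h.hd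
  have : (0 : ℝ) < (10 : ℝ) ^ 10 * (d : ℝ) ^ 10 := by positivity
  linarith [h.hm]

/-- `10^10 ≤ m` and `10^10 d^2 ≤ m` -/
lemma Prm.m_ge {d n m : ℕ} (h : Prm d n m) (k : ℕ) (hk : k ≤ 10) :
    (10 : ℝ) ^ 10 * (d : ℝ) ^ k ≤ m := by
  have h3 : (1 : ℝ) ≤ d := by
    have : (3 : ℝ) ≤ d := by exact_mod_cast h.hd
    linarith
  refine le_trans ?_ h.hm
  exact mul_le_mul_of_nonneg_left (pow_le_pow_right₀ h3 hk) (by positivity)

/-- the sum of the weights -/
lemma sum_w {d m : ℕ} {γ : ℝ} {F : Finset ι} {K : Bool → Matrix ι ι ℝ} {S : Finset (ι × ι)}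
    (hC : Ctx d m γ F K S) {Θ : ι → ι → ℝ} {η : ℝ} (hη : η ≤ 1 / 4)
    (hΘ : ∀ x y, |Θ x y| ≤ η) (hρ : 1000 * (d : ℝ) ^ 2 ≤ F.card) (hρ0 : 0 < F.card) :
    (F.card : ℝ) ^ 2 / 2 ≤ ∑ p ∈ S, (1 - Θ p.1 p.2) := by
  have h1 : (S.card : ℝ) = (F.card : ℝ) ^ 2 - (((F ×ˢ F) \ S).card : ℝ) := by
    have := Finset.card_sdiff_add_card_eq_card hC.sub
    rw [Finset.card_product] at this
    have h2 : (((F ×ˢ F) \ S).card : ℝ) + S.card = (F.card : ℝ) * F.card := by exact_mod_cast this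
    linarith [sq (F.card : ℝ)]
  have hbad := hC.bad
  have hS : (9 / 10 : ℝ) * (F.card : ℝ) ^ 2 ≤ S.card := by
    have h0 : (0 : ℝ) ≤ F.card := Nat.cast_nonneg _
    have : 100 * (d : ℝ) ^ 2 * F.card ≤ 1 / 10 * (F.card : ℝ) ^ 2 := by nlinarith
    linarith
  have h2 : ∑ p ∈ S, (3 / 4 : ℝ) ≤ ∑ p ∈ S, (1 - Θ p.1 p.2) :=
    Finset.sum_le_sum fun p _ => by linarith [(abs_le.mp (hΘ p.1 p.2)).2]
  rw [Finset.sum_const, nsmul_eq_mul] at h2
  have h0 : (0 : ℝ) ≤ (F.card : ℝ) ^ 2 := sq_nonneg _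
  linarith

/-- stage 1 step -/
theorem step1 (P : Pieces1 ι) {d n m : ℕ} {γ : ℝ} {F : Finset ι} {K : Bool → Matrix ι ι ℝ}
    {S : Finset (ι × ι)} (hP : Prm d n m) (hC : Ctx d m γ F K S) (hB : Box1 d n m F K) :
    ∃ p ∈ S, Phi1 d n m ((F.erase p.1).erase p.2) (fun b => nx b K p.1 p.2)
      ≤ Phi1 d n m F K + 38 / ((m : ℝ) ^ 2 * F.card) := by
  obtain ⟨Θ, hΘ⟩ := P.tilt d n m γ F K S hP hC hB
  have hm0 := hP.m_pos
  have hm1 : (10 : ℝ) ^ 10 ≤ m := by simpa using hP.m_ge 0 (by norm_num)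
  have hm2 := hP.m_ge 2 (by norm_num)
  have hρm : (m : ℝ) ≤ F.card := by
    have h1 := hB.rho_ge
    have h2 : (m : ℝ) ^ 1 ≤ (m : ℝ) ^ 800 := pow_le_pow_right₀ (by linarith) (by norm_num)
    rw [pow_one] at h2
    linarith
  have hρ0 : (0 : ℝ) < F.card := by linarith
  have hρ0' : 0 < F.card := by exact_mod_cast hρ0
  have hd2 : 1000 * (d : ℝ) ^ 2 ≤ F.card := by
    have : (0 : ℝ) ≤ (d : ℝ) ^ 2 := sq_nonneg _
    nlinarith
  have hη : 1 / (m : ℝ) ≤ 1 / 4 := by
    apply one_div_le_one_div_of_le <;> linarith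
  have hW := sum_w hC hη hΘ.abs_le hd2 hρ0'
  have hW0 : 0 < ∑ p ∈ S, (1 - Θ p.1 p.2) := lt_of_lt_of_le (by positivity) hW
  have hne : S.Nonempty := by
    rw [Finset.nonempty_iff_ne_empty]
    rintro rfl
    simp at hW0
  have hpos : ∀ p ∈ S, 0 < 1 - Θ p.1 p.2 := fun p _ => by
    have := (abs_le.mp (hΘ.abs_le p.1 p.2)).2
    linarith
  -- sum of the pieces
  have key : inc S Θ (fun x y => Phi1 d n m ((F.erase x).erase y) (fun b => nx b K x y))
      (Phi1 d n m F K) ≤ 19 * (F.card / (m : ℝ) ^ 2) := by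
    have e1 : inc S Θ (fun x y => Phi1 d n m ((F.erase x).erase y) (fun b => nx b K x y))
        (Phi1 d n m F K)
      = inc S Θ (fun x y =>
          (∑ b : Bool, (p1X1u m ((F.card : ℝ) - 2) (nx b K x y).trace
            + p1X1l m (nx b K x y).trace
            + p1X2u (r1 d n m) ((F.card : ℝ) - 2) (nx b K x y ^ 2).trace
            + p1X2l (r1 d n m) ((F.card : ℝ) - 2) (nx b K x y ^ 2).trace
            + p1X3l n (nx b K x y ^ 3).trace + p1X3u d n (nx b K x y ^ 3).trace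
            + p1X4 m ((F.card : ℝ) - 2) (nx b K x y ^ 4).trace + p1V m (Vf (nx b K x y))
            + p1W m (Wf ((F.erase x).erase y) (nx b K x y))))
            + p1M m (Mf (fun b => nx b K x y))) (Phi1 d n m F K) := by
      refine inc_congr S Θ _ fun p hp => ?_
      have hp' := Finset.mem_product.mp (hC.sub hp)
      have hc := card_erase2 hp'.1 hp'.2 (hC.ne p hp)
      simp only [Phi1, hc]
    rw [e1]
    have h1 := P.x1u d n m γ F K S Θ hP hC hB hΘ
    have h2 := P.x1l d n m γ F K S Θ hP hC hB hΘ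
    have h3 := P.x2u d n m γ F K S Θ hP hC hB hΘ
    have h4 := P.x2l d n m γ F K S Θ hP hC hB hΘ
    have h5 := P.x3l d n m γ F K S Θ hP hC hB hΘ
    have h6 := P.x3u d n m γ F K S Θ hP hC hB hΘ
    have h7 := P.x4 d n m γ F K S Θ hP hC hB hΘ
    have h8 := P.v d n m γ F K S Θ hP hC hB hΘ
    have h9 := P.w d n m γ F K S Θ hP hC hB hΘ
    have h10 := P.mm d n m γ F K S Θ hP hC hB hΘ
    simp only [Fintype.sum_bool, Phi1, inc_add]
    have a1 := h1 true; have b1 := h1 false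
    have a2 := h2 true; have b2 := h2 false
    have a3 := h3 true; have b3 := h3 false
    have a4 := h4 true; have b4 := h4 false
    have a5 := h5 true; have b5 := h5 false
    have a6 := h6 true; have b6 := h6 false
    have a7 := h7 true; have b7 := h7 false
    have a8 := h8 true; have b8 := h8 false
    have a9 := h9 true; have b9 := h9 false
    linarith
  have h2 : inc S Θ (fun x y => Phi1 d n m ((F.erase x).erase y) (fun b => nx b K x y))
      (Phi1 d n m F K) ≤ 38 / ((m : ℝ) ^ 2 * F.card) * ∑ p ∈ S, (1 - Θ p.1 p.2) := by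
    refine key.trans ?_
    calc 19 * ((F.card : ℝ) / (m : ℝ) ^ 2)
        = 38 / ((m : ℝ) ^ 2 * F.card) * ((F.card : ℝ) ^ 2 / 2) := by
          field_simp; norm_num
      _ ≤ _ := mul_le_mul_of_nonneg_left hW (by positivity)
  exact exists_of_inc hne hpos h2

/-- stage 2 step -/
theorem step2 (P : Pieces2 ι) {d n m : ℕ} {γ x0 : ℝ} {F : Finset ι} {K : Bool → Matrix ι ι ℝ}
    {S : Finset (ι × ι)} (hP : Prm d n m) (hC : Ctx d m γ F K S) (hB : Box2 d n m x0 F K) :
    ∃ p ∈ S, Phi2 d n m ((F.erase p.1).erase p.2) (fun b => nx b K p.1 p.2)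
      ≤ Phi2 d n m F K + 38 / ((m : ℝ) ^ 2 * F.card) := by
  have hm0 := hP.m_pos
  have hm1 : (10 : ℝ) ^ 10 ≤ m := by simpa using hP.m_ge 0 (by norm_num)
  have hm2 := hP.m_ge 2 (by norm_num)
  have hd3 : (3 : ℝ) ≤ d := by exact_mod_cast hP.hd
  have hn0 : (0 : ℝ) < n := lt_of_lt_of_le (by positivity) hP.hn1
  have hρm : (m : ℝ) ≤ F.card := by
    have h1 := hB.rho_ge
    have hr : (m : ℝ) ^ 680 * 3 ≤ r1 d n m := by
      unfold r1
      rw [le_div_iff₀ (by positivity)]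
      have e1 : (m : ℝ) ^ 680 * 3 * (m : ℝ) ^ 320 = (m : ℝ) ^ 1000 * 3 := by ring
      rw [e1]
      exact mul_le_mul hP.hn1 hd3 (by norm_num) hn0.le
    have hx : 1 ≤ m * x0 := by
      have h2 := hB.x0_m
      have h3 : x0 ^ 4 ≤ x0 := by
        have := pow_le_of_le_one hB.x0_pos.le hB.x0_le (n := 4) (by norm_num)
        exact this
      nlinarith
    have h3 : (m : ℝ) ≤ x0 * r1 d n m := by
      calc (m : ℝ) ≤ (m * x0) * (m : ℝ) ^ 679 := by
            have h4 : (m : ℝ) ^ 1 ≤ (m : ℝ) ^ 679 := pow_le_pow_right₀ (by linarith) (by norm_num)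
            rw [pow_one] at h4
            nlinarith [pow_pos hm0 679]
        _ = x0 * ((m : ℝ) ^ 680) := by ring
        _ ≤ x0 * r1 d n m := by
            apply mul_le_mul_of_nonneg_left _ hB.x0_pos.le
            nlinarith [pow_pos hm0 680]
    linarith
  have hρ0 : (0 : ℝ) < F.card := by linarith
  have hρ0' : 0 < F.card := by exact_mod_cast hρ0
  have hd2 : 1000 * (d : ℝ) ^ 2 ≤ F.card := by
    have : (0 : ℝ) ≤ (d : ℝ) ^ 2 := sq_nonneg _
    nlinarith
  have hW := sum_w hC (Θ := fun _ _ => 0) (η := 0) (by norm_num) (by simp) hd2 hρ0'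
  have hW0 : 0 < ∑ p ∈ S, (1 - (fun _ _ => 0 : ι → ι → ℝ) p.1 p.2) :=
    lt_of_lt_of_le (by positivity) hW
  have hne : S.Nonempty := by
    rw [Finset.nonempty_iff_ne_empty]
    rintro rfl
    simp at hW0
  have key : inc S (fun _ _ => 0) (fun x y => Phi2 d n m ((F.erase x).erase y)
      (fun b => nx b K x y)) (Phi2 d n m F K) ≤ 19 * (F.card / (m : ℝ) ^ 2) := by
    have e1 : inc S (fun _ _ => 0) (fun x y => Phi2 d n m ((F.erase x).erase y)
        (fun b => nx b K x y)) (Phi2 d n m F K)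
      = inc S (fun _ _ => 0) (fun x y =>
          (∑ b : Bool, (p2X1 m (nx b K x y).trace
            + p2X2 m (r1 d n m) ((F.card : ℝ) - 2) (nx b K x y ^ 2).trace
            + p2X2l (r1 d n m) ((F.card : ℝ) - 2) (nx b K x y ^ 2).trace
            + p2X3 d n (nx b K x y ^ 3).trace
            + p2X4 m ((F.card : ℝ) - 2) (nx b K x y ^ 4).trace + p2V m (Vf (nx b K x y))
            + p2W m (Wf ((F.erase x).erase y) (nx b K x y))))) (Phi2 d n m F K) := by
      refine inc_congr S _ _ fun p hp => ?_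
      have hp' := Finset.mem_product.mp (hC.sub hp)
      have hc := card_erase2 hp'.1 hp'.2 (hC.ne p hp)
      simp only [Phi2, hc]
    rw [e1]
    have h1 := P.x1 d n m γ x0 F K S hP hC hB
    have h2 := P.x2 d n m γ x0 F K S hP hC hB
    have h3 := P.x2l d n m γ x0 F K S hP hC hB
    have h4 := P.x3 d n m γ x0 F K S hP hC hB
    have h5 := P.x4 d n m γ x0 F K S hP hC hB
    have h6 := P.v d n m γ x0 F K S hP hC hB
    have h7 := P.w d n m γ x0 F K S hP hC hB
    simp only [Fintype.sum_bool, Phi2, inc_add]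
    have a1 := h1 true; have b1 := h1 false
    have a2 := h2 true; have b2 := h2 false
    have a3 := h3 true; have b3 := h3 false
    have a4 := h4 true; have b4 := h4 false
    have a5 := h5 true; have b5 := h5 false
    have a6 := h6 true; have b6 := h6 false
    have a7 := h7 true; have b7 := h7 false
    have hp : 0 ≤ (F.card : ℝ) / (m : ℝ) ^ 2 := by positivity
    linarith
  have h2 : inc S (fun _ _ => 0) (fun x y => Phi2 d n m ((F.erase x).erase y)
      (fun b => nx b K x y)) (Phi2 d n m F K) ≤ 38 / ((m : ℝ) ^ 2 * F.card) *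
        ∑ p ∈ S, (1 - (fun _ _ => 0 : ι → ι → ℝ) p.1 p.2) := by
    refine key.trans ?_
    calc 19 * ((F.card : ℝ) / (m : ℝ) ^ 2)
        = 38 / ((m : ℝ) ^ 2 * F.card) * ((F.card : ℝ) ^ 2 / 2) := by
          field_simp; norm_num
      _ ≤ _ := mul_le_mul_of_nonneg_left hW (by positivity)
  exact exists_of_inc hne (fun _ _ => by norm_num) h2

end Crest.Agent.R62.Step
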