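import Crest.Agent.R62.GoodPairs
import Crest.Agent.R62.AvBase

/-!
R62 (helper114): the averaging set `Sp ⊆ Sg` (good pairs with bounded `(K²)_xy` and
`K_xx ((K²)_yy - 1)`), its size, and the sum of the weights.
-/

set_option autoImplicit false
set_option linter.unusedSectionVars false
set_option linter.unusedVariables false
open scoped Matrix BigOperators

namespace Crest.Agent.R62.Weights

open Crest.Agent.R62.State Crest.Agent.R62.EvalKit Crest.Agent.R062 Crest.Agent.R062.Mach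
open Crest.Agent.R62.SpecOf Crest.Agent.R62.GoodPairs Crest.Agent.R62.AvBase

variable {P : Par} {d n : ℕ} {l : List (ℕ × ℕ)}

lemma KR_symm (b : Bool) : (KR P d n b l)ᵀ = KR P d n b l :=
  Kmat_symm (P.gam.v n) (sg b) (P.mu.v n) n d l

lemma KR_sq_symm (b : Bool) (x y : Fin (n * d)) :
    (KR P d n b l ^ 2) x y = (KR P d n b l ^ 2) y x := by
  have h : (KR P d n b l ^ 2)ᵀ = KR P d n b l ^ 2 := by
    rw [Matrix.transpose_pow, KR_symm]
  exact congrFun (congrFun h y) x |>.symm ▸ rfl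

/-- the extra conditions on a pair -/
def Ex (P : Par) (d n : ℕ) (l : List (ℕ × ℕ)) (a c : ℝ) (x y : Fin (n * d)) : Prop :=
  ∀ b, |(KR P d n b l ^ 2) x y| ≤ a ∧
    |KR P d n b l x x * ((KR P d n b l ^ 2) y y - 1)| ≤ c ∧
    |KR P d n b l y y * ((KR P d n b l ^ 2) x x - 1)| ≤ c

lemma Ex.symm {a c : ℝ} {x y : Fin (n * d)} (h : Ex P d n l a c x y) : Ex P d n l a c y x := by
  intro b
  obtain ⟨h1, h2, h3⟩ := h b
  exact ⟨by rw [KR_sq_symm]; exact h1, h3, h2⟩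

open Classical in
/-- the averaging set -/
noncomputable def Sp (P : Par) (d n : ℕ) (l : List (ℕ × ℕ)) (a c : ℝ) :
    Finset (Fin (n * d) × Fin (n * d)) :=
  (Sg P d n l).filter fun p => Ex P d n l a c p.1 p.2

lemma mem_Sp {a c : ℝ} {p : Fin (n * d) × Fin (n * d)} :
    p ∈ Sp P d n l a c ↔ Gp P d n l p.1 p.2 ∧ Ex P d n l a c p.1 p.2 := by
  classical
  unfold Sp
  rw [Finset.mem_filter, mem_Sg]

lemma Sp_subset_Sg (a c : ℝ) : Sp P d n l a c ⊆ Sg P d n l := by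
  classical
  exact Finset.filter_subset _ _

lemma Sp_subset (a c : ℝ) : Sp P d n l a c ⊆ Fs n d l ×ˢ Fs n d l :=
  (Sp_subset_Sg a c).trans (Sg_subset P d n l)

lemma Sp_symm {a c : ℝ} {x y : Fin (n * d)} (h : (x, y) ∈ Sp P d n l a c) :
    (y, x) ∈ Sp P d n l a c := by
  rw [mem_Sp] at h ⊢
  exact ⟨h.1.symm, h.2.symm⟩

/-- `(K²)_xy² ≤ (K²)_xx (K²)_yy` -/
lemma sq_entry_sq_le (b : Bool) (x y : Fin (n * d)) :
    (KR P d n b l ^ 2) x y ^ 2 ≤ (KR P d n b l ^ 2) x x * (KR P d n b l ^ 2) y y := by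
  have h := entry_sq_le (KR_symm (P := P) (d := d) (n := n) (l := l) b) 1 1 x y
  simpa using h

lemma diag_nonneg (b : Bool) (x : Fin (n * d)) : 0 ≤ (KR P d n b l ^ 2) x x := by
  rw [diag_sq]
  exact Finset.sum_nonneg fun j _ => sq_nonneg _

lemma sum_prod_sq (F : Finset (Fin (n * d))) (f g : Fin (n * d) → ℝ) :
    ∑ p ∈ F ×ˢ F, (f p.1 * g p.2) ^ 2 = (∑ x ∈ F, f x ^ 2) * ∑ y ∈ F, g y ^ 2 := by
  rw [Finset.sum_product, Finset.sum_mul_sum]
  exact Finset.sum_congr rfl fun x _ => Finset.sum_congr rfl fun y _ => mul_pow _ _ _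

open Classical in
/-- size of the complement of the averaging set -/
theorem card_compl {a c : ℝ} (ha : 0 < a) (hc : 0 < c) :
    (((Fs n d l ×ˢ Fs n d l) \ Sp P d n l a c).card : ℝ)
      ≤ (((Fs n d l ×ˢ Fs n d l) \ Sg P d n l).card : ℝ)
        + ((a ^ 4)⁻¹ * (∑ z ∈ Fs n d l, ((KR P d n true l ^ 2) z z) ^ 2) ^ 2
          + 2 * (c ^ 2)⁻¹ * ((∑ z ∈ Fs n d l, KR P d n true l z z ^ 2)
            * ∑ z ∈ Fs n d l, ((KR P d n true l ^ 2) z z - 1) ^ 2))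
        + ((a ^ 4)⁻¹ * (∑ z ∈ Fs n d l, ((KR P d n false l ^ 2) z z) ^ 2) ^ 2
          + 2 * (c ^ 2)⁻¹ * ((∑ z ∈ Fs n d l, KR P d n false l z z ^ 2)
            * ∑ z ∈ Fs n d l, ((KR P d n false l ^ 2) z z - 1) ^ 2)) := by
  set F := Fs n d l with hF
  have hsub : (F ×ˢ F) \ Sp P d n l a c ⊆ ((F ×ˢ F) \ Sg P d n l) ∪
      (((F ×ˢ F).filter (fun p => ¬ |(KR P d n true l ^ 2) p.1 p.2| ≤ a) ∪
        ((F ×ˢ F).filter (fun p =>
          ¬ |KR P d n true l p.1 p.1 * ((KR P d n true l ^ 2) p.2 p.2 - 1)| ≤ c) ∪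
        (F ×ˢ F).filter (fun p =>
          ¬ |KR P d n true l p.2 p.2 * ((KR P d n true l ^ 2) p.1 p.1 - 1)| ≤ c))) ∪
      ((F ×ˢ F).filter (fun p => ¬ |(KR P d n false l ^ 2) p.1 p.2| ≤ a) ∪
        ((F ×ˢ F).filter (fun p =>
          ¬ |KR P d n false l p.1 p.1 * ((KR P d n false l ^ 2) p.2 p.2 - 1)| ≤ c) ∪
        (F ×ˢ F).filter (fun p =>
          ¬ |KR P d n false l p.2 p.2 * ((KR P d n false l ^ 2) p.1 p.1 - 1)| ≤ c)))) := by
    intro p hp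
    rw [Finset.mem_sdiff, mem_Sp] at hp
    obtain ⟨hp1, hp2⟩ := hp
    simp only [Finset.mem_union, Finset.mem_filter, Finset.mem_sdiff, mem_Sg]
    by_cases hg : Gp P d n l p.1 p.2
    · right
      by_contra hcon
      push Not at hcon
      obtain ⟨⟨h1, h2, h3⟩, h4, h5, h6⟩ := hcon
      apply hp2
      refine ⟨hg, fun b => ?_⟩
      cases b
      · exact ⟨h4 hp1, h5 hp1, h6 hp1⟩
      · exact ⟨h1 hp1, h2 hp1, h3 hp1⟩
    · exact Or.inl ⟨hp1, hg⟩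
  have hcard := (Finset.card_le_card hsub).trans ((Finset.card_union_le _ _).trans
    (Nat.add_le_add le_rfl ((Finset.card_union_le _ _).trans
      (Nat.add_le_add ((Finset.card_union_le _ _).trans (Nat.add_le_add le_rfl
        (Finset.card_union_le _ _))) ((Finset.card_union_le _ _).trans (Nat.add_le_add le_rfl
        (Finset.card_union_le _ _)))))))
  have hcard' := (Nat.cast_le (α := ℝ)).2 hcard
  push_cast at hcard'
  have hA : ∀ b, (((F ×ˢ F).filter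
      (fun p => ¬ |(KR P d n b l ^ 2) p.1 p.2| ≤ a)).card : ℝ)
      ≤ (a ^ 4)⁻¹ * (∑ z ∈ F, ((KR P d n b l ^ 2) z z) ^ 2) ^ 2 := fun b => by
    have h1 := card_filter_le (F ×ˢ F) (fun p : Fin (n * d) × Fin (n * d) =>
        (KR P d n b l ^ 2) p.1 p.1 * (KR P d n b l ^ 2) p.2 p.2) (a ^ 2) (by positivity)
      (fun p => ¬ |(KR P d n b l ^ 2) p.1 p.2| ≤ a) (fun p _ hp => by
        have h2 := sq_entry_sq_le (P := P) (l := l) b p.1 p.2
        have h3 : a < |(KR P d n b l ^ 2) p.1 p.2| := not_le.1 hp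
        have h4 : a ^ 2 < (KR P d n b l ^ 2) p.1 p.2 ^ 2 := by
          rw [← sq_abs ((KR P d n b l ^ 2) p.1 p.2)]
          exact pow_lt_pow_left₀ h3 ha.le two_ne_zero
        exact (h4.trans_le h2).trans_le (le_abs_self _))
    refine h1.trans (le_of_eq ?_)
    rw [sum_prod_sq F (fun z => (KR P d n b l ^ 2) z z) (fun z => (KR P d n b l ^ 2) z z),
      ← pow_two, ← pow_mul]
  have hB : ∀ b, (((F ×ˢ F).filter
      (fun p => ¬ |KR P d n b l p.1 p.1 * ((KR P d n b l ^ 2) p.2 p.2 - 1)| ≤ c)).card : ℝ)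
      ≤ (c ^ 2)⁻¹ * ((∑ z ∈ F, KR P d n b l z z ^ 2) *
        ∑ z ∈ F, ((KR P d n b l ^ 2) z z - 1) ^ 2) := fun b => by
    have h1 := card_filter_le (F ×ˢ F) (fun p : Fin (n * d) × Fin (n * d) =>
        KR P d n b l p.1 p.1 * ((KR P d n b l ^ 2) p.2 p.2 - 1)) c hc
      (fun p => ¬ |KR P d n b l p.1 p.1 * ((KR P d n b l ^ 2) p.2 p.2 - 1)| ≤ c)
      (fun p _ hp => not_le.1 hp)
    refine h1.trans (le_of_eq ?_)
    rw [sum_prod_sq F (fun z => KR P d n b l z z) (fun z => (KR P d n b l ^ 2) z z - 1)]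
  have hC : ∀ b, (((F ×ˢ F).filter
      (fun p => ¬ |KR P d n b l p.2 p.2 * ((KR P d n b l ^ 2) p.1 p.1 - 1)| ≤ c)).card : ℝ)
      ≤ (c ^ 2)⁻¹ * ((∑ z ∈ F, KR P d n b l z z ^ 2) *
        ∑ z ∈ F, ((KR P d n b l ^ 2) z z - 1) ^ 2) := fun b => by
    have h1 := card_filter_le (F ×ˢ F) (fun p : Fin (n * d) × Fin (n * d) =>
        ((KR P d n b l ^ 2) p.1 p.1 - 1) * KR P d n b l p.2 p.2) c hc
      (fun p => ¬ |KR P d n b l p.2 p.2 * ((KR P d n b l ^ 2) p.1 p.1 - 1)| ≤ c)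
      (fun p _ hp => by rw [mul_comm]; exact not_le.1 hp)
    refine h1.trans (le_of_eq ?_)
    rw [sum_prod_sq F (fun z => (KR P d n b l ^ 2) z z - 1) (fun z => KR P d n b l z z)]
    ring
  linarith [hcard', hA true, hA false, hB true, hB false, hC true, hC false]

/-- the count with all bounds inserted -/
theorem card_compl_le (hd : 0 < d) (hv : Pairs.Valid d n l) {a c : ℝ} (ha : 0 < a) (hc : 0 < c)
    {ρ x v w r : ℝ} (hρ : ((Fs n d l).card : ℝ) = ρ)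
    (hx : ∀ b, Matrix.trace (KR P d n b l ^ 2) ≤ x)
    (hv' : ∀ b, ∑ z, KR P d n b l z z ^ 2 ≤ v)
    (hw : ∀ b, ∑ z ∈ Fs n d l, ((KR P d n b l ^ 2) z z - 1) ^ 2 ≤ w)
    (hr : ∀ b, ∑ z, ((KR P d n b l ^ 2) z z) ^ 2 ≤ r) :
    (((Fs n d l ×ˢ Fs n d l) \ Sp P d n l a c).card : ℝ)
      ≤ (d + 1) * d * ρ + 50 * x + 200 * v ^ 2 + 2 * r ^ 2 / a ^ 4 + 4 * (v * w) / c ^ 2 := by
  classical
  have h1 := card_compl (P := P) (l := l) (n := n) (d := d) ha hc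
  have h2 := card_bad (P := P) hd hv
  have hv0 : ∀ b, 0 ≤ ∑ z, KR P d n b l z z ^ 2 := fun b =>
    Finset.sum_nonneg fun z _ => sq_nonneg _
  have hr0 : ∀ b, 0 ≤ ∑ z ∈ Fs n d l, ((KR P d n b l ^ 2) z z) ^ 2 := fun b =>
    Finset.sum_nonneg fun z _ => sq_nonneg _
  have hw0 : ∀ b, 0 ≤ ∑ z ∈ Fs n d l, ((KR P d n b l ^ 2) z z - 1) ^ 2 := fun b =>
    Finset.sum_nonneg fun z _ => sq_nonneg _
  have hvF : ∀ b, ∑ z ∈ Fs n d l, KR P d n b l z z ^ 2 = ∑ z, KR P d n b l z z ^ 2 :=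
    fun b => sum_Fs_diag
  have hrF : ∀ b, ∑ z ∈ Fs n d l, ((KR P d n b l ^ 2) z z) ^ 2 ≤ r := fun b =>
    (Finset.sum_le_sum_of_subset_of_nonneg (Finset.subset_univ _)
      fun z _ _ => sq_nonneg _).trans (hr b)
  have hv2 : ∀ b, (∑ z, KR P d n b l z z ^ 2) ^ 2 ≤ v ^ 2 := fun b =>
    pow_le_pow_left₀ (hv0 b) (hv' b) 2
  have hr2 : ∀ b, (a ^ 4)⁻¹ * (∑ z ∈ Fs n d l, ((KR P d n b l ^ 2) z z) ^ 2) ^ 2
      ≤ r ^ 2 / a ^ 4 := fun b => by
    rw [inv_mul_eq_div]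
    exact div_le_div_of_nonneg_right (pow_le_pow_left₀ (hr0 b) (hrF b) 2) (by positivity)
  have hvw : ∀ b, 2 * (c ^ 2)⁻¹ * ((∑ z ∈ Fs n d l, KR P d n b l z z ^ 2)
      * ∑ z ∈ Fs n d l, ((KR P d n b l ^ 2) z z - 1) ^ 2) ≤ 2 * (v * w) / c ^ 2 := fun b => by
    have h3 : (∑ z ∈ Fs n d l, KR P d n b l z z ^ 2)
      * ∑ z ∈ Fs n d l, ((KR P d n b l ^ 2) z z - 1) ^ 2 ≤ v * w := by
      rw [hvF]
      exact mul_le_mul (hv' b) (hw b) (hw0 b) ((hv0 b).trans (hv' b))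
    have h4 : 0 ≤ (c ^ 2)⁻¹ := by positivity
    calc 2 * (c ^ 2)⁻¹ * ((∑ z ∈ Fs n d l, KR P d n b l z z ^ 2)
      * ∑ z ∈ Fs n d l, ((KR P d n b l ^ 2) z z - 1) ^ 2) ≤ 2 * (c ^ 2)⁻¹ * (v * w) :=
          mul_le_mul_of_nonneg_left h3 (by positivity)
      _ = 2 * (v * w) / c ^ 2 := by rw [div_eq_mul_inv]; ring
  rw [hρ] at h2
  have e : 2 * r ^ 2 / a ^ 4 + 4 * (v * w) / c ^ 2 =
      (r ^ 2 / a ^ 4 + 2 * (v * w) / c ^ 2) + (r ^ 2 / a ^ 4 + 2 * (v * w) / c ^ 2) := by ring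
  linarith [hr2 true, hr2 false, hvw true, hvw false, hv2 true, hv2 false, hx true, hx false]

/-- sum of the weights `1 - Θ` over a subset of `F ×ˢ F` -/
theorem sum_weights {ι : Type*} [DecidableEq ι] {F : Finset ι} {S : Finset (ι × ι)}
    (hS : S ⊆ F ×ˢ F) {ρ β η : ℝ} (hρ : (F.card : ℝ) = ρ)
    (hβ : (((F ×ˢ F) \ S).card : ℝ) ≤ β) (hη : 0 ≤ η) {Θ : ι × ι → ℝ}
    (hΘ : ∀ p ∈ S, |Θ p| ≤ η) :
    |∑ p ∈ S, (1 - Θ p) - ρ ^ 2| ≤ β + η * ρ ^ 2 := by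
  have h1 : (S.card : ℝ) + (((F ×ˢ F) \ S).card : ℝ) = ρ ^ 2 := by
    have h2 := Finset.card_sdiff_add_card_eq_card hS
    have h3 : ((((F ×ˢ F) \ S).card + S.card : ℕ) : ℝ) = ((F ×ˢ F).card : ℝ) := by
      exact_mod_cast h2
    rw [Finset.card_product] at h3
    push_cast at h3
    rw [hρ] at h3
    linarith [h3, pow_two ρ]
  have h4 : |∑ p ∈ S, Θ p| ≤ η * S.card := by
    refine (Finset.abs_sum_le_sum_abs _ _).trans ?_
    have := Finset.sum_le_card_nsmul S (fun p => |Θ p|) η hΘ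
    rw [nsmul_eq_mul] at this
    linarith
  have h5 : (S.card : ℝ) ≤ ρ ^ 2 := by
    have : (0 : ℝ) ≤ (((F ×ˢ F) \ S).card : ℝ) := Nat.cast_nonneg _
    linarith
  have h6 : η * (S.card : ℝ) ≤ η * ρ ^ 2 := mul_le_mul_of_nonneg_left h5 hη
  rw [Finset.sum_sub_distrib, Finset.sum_const, nsmul_eq_mul, mul_one]
  rw [abs_le] at h4 ⊢
  constructor <;> linarith

/-- on pairs of stubs with `(K²)_xx ≤ B` for both signs the extra conditions hold -/
theorem ex_of_le {a c B : ℝ} (hB : 1 ≤ B) (ha : B ≤ a) (hc : B * B ≤ c) {x y : Fin (n * d)}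
    (hx : ∀ b, (KR P d n b l ^ 2) x x ≤ B) (hy : ∀ b, (KR P d n b l ^ 2) y y ≤ B) :
    Ex P d n l a c x y := by
  have key : ∀ b (z w : Fin (n * d)), (KR P d n b l ^ 2) z z ≤ B → (KR P d n b l ^ 2) w w ≤ B →
      |KR P d n b l z z * ((KR P d n b l ^ 2) w w - 1)| ≤ c := by
    intro b z w hz hw
    have h1 : |KR P d n b l z z| ≤ B := by
      have h2 : KR P d n b l z z ^ 2 ≤ (KR P d n b l ^ 2) z z := by
        rw [diag_sq]
        exact Finset.single_le_sum (f := fun j => KR P d n b l z j ^ 2)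
          (fun j _ => sq_nonneg _) (Finset.mem_univ z)
      refine abs_le_of_sq_le_sq (h2.trans (hz.trans ?_)) (by linarith)
      nlinarith
    have h3 : |(KR P d n b l ^ 2) w w - 1| ≤ B := by
      have h4 := diag_nonneg (P := P) (l := l) b w
      rw [abs_le]
      constructor <;> linarith
    rw [abs_mul]
    exact (mul_le_mul h1 h3 (abs_nonneg _) (by linarith)).trans hc
  intro b
  refine ⟨?_, key b x y (hx b) (hy b), key b y x (hy b) (hx b)⟩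
  have h1 := sq_entry_sq_le (P := P) (l := l) b x y
  have h2 := diag_nonneg (P := P) (l := l) b x
  have h3 := diag_nonneg (P := P) (l := l) b y
  refine (abs_le_of_sq_le_sq (h1.trans ?_) (by linarith)).trans ha
  calc (KR P d n b l ^ 2) x x * (KR P d n b l ^ 2) y y ≤ B * B :=
        mul_le_mul (hx b) (hy b) h3 (by linarith)
    _ = B ^ 2 := by ring

open Classical in
/-- for `x ∈ G` (`(K²)_xx ≤ B`, both signs): the number of `y ∈ G` with `(x, y) ∉ Sp` -/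
theorem card_row_G (hd : 0 < d) (hv : Pairs.Valid d n l) {a c B v : ℝ} (hB : 1 ≤ B)
    (ha : B ≤ a) (hc : B * B ≤ c) (hv' : ∀ b, ∑ z, KR P d n b l z z ^ 2 ≤ v)
    (G : Finset (Fin (n * d))) (hG : ∀ x ∈ G, ∀ b, (KR P d n b l ^ 2) x x ≤ B)
    (hGF : G ⊆ Fs n d l) {x : Fin (n * d)} (hx : x ∈ G) :
    ((G.filter fun y => (x, y) ∉ Sp P d n l a c).card : ℝ)
      ≤ (d + 1) * d + 50 * B + 200 * (B * v) := by
  have h1 : G.filter (fun y => (x, y) ∉ Sp P d n l a c) ⊆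
      (Fs n d l).filter fun y => ¬ Gp P d n l x y := by
    intro y hy
    rw [Finset.mem_filter] at hy ⊢
    refine ⟨hGF hy.1, fun hg => hy.2 ?_⟩
    rw [mem_Sp]
    exact ⟨hg, ex_of_le hB ha hc (hG x hx) (hG y hy.1)⟩
  have h2 : ((G.filter fun y => (x, y) ∉ Sp P d n l a c).card : ℝ) ≤
      (((Fs n d l).filter fun y => ¬ Gp P d n l x y).card : ℝ) := by
    exact_mod_cast Finset.card_le_card h1
  have h3 := card_bad_row (P := P) hd hv x (hGF hx)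
  have h4 : ∀ b, KR P d n b l x x ^ 2 * ∑ z, KR P d n b l z z ^ 2 ≤ B * v := fun b => by
    have h5 : KR P d n b l x x ^ 2 ≤ B := by
      refine le_trans ?_ (hG x hx b)
      rw [diag_sq]
      exact Finset.single_le_sum (f := fun j => KR P d n b l x j ^ 2)
        (fun j _ => sq_nonneg _) (Finset.mem_univ x)
    exact mul_le_mul h5 (hv' b) (Finset.sum_nonneg fun z _ => sq_nonneg _) (by linarith)
  linarith [hG x hx true, hG x hx false, h4 true, h4 false]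

end Crest.Agent.R62.Weights
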