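import Crest.Agent.R62.StepDefs
import Crest.Agent.R62.Weights
import Crest.Agent.R62.SpecBridge
import Crest.Agent.R62.Box
import Crest.Agent.R62.StepAbs

/-!
R62 (helper114): the real state satisfies `Step.Ctx`.
-/

set_option autoImplicit false
set_option linter.unusedSectionVars false
set_option linter.unusedVariables false
open scoped Matrix BigOperators

namespace Crest.Agent.R62.CtxReal

open Crest.Agent.R62.State Crest.Agent.R62.EvalKit Crest.Agent.R062 Crest.Agent.R062.Mach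
open Crest.Agent.R62.SpecOf Crest.Agent.R62.GoodPairs Crest.Agent.R62.AvBase
open Crest.Agent.R62.Weights Crest.Agent.R62.Step Crest.Agent.R62.AvX1

variable {P : Par} {d n : ℕ} {l : List (ℕ × ℕ)}

/-- the structural facts about the list `l` -/
structure Lst (P : Par) (d n : ℕ) (l : List (ℕ × ℕ)) : Prop where
  hd : 3 ≤ d
  hn : 0 < n
  ev : Even n
  valid : Pairs.Valid d n l
  del : ∀ b p L', (p :: L') <:+ l → 1 / 4 ≤ Del (sg b) (P.K d n b L') p.1 p.2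
  γ0 : 0 < P.gam.v n
  γ1 : P.gam.v n ^ 2 ≤ 1 / 2
  hb : 0 < 2 * Real.sqrt ((d : ℝ) - 1) - P.gam.v n * d
  hμ : P.mu.v n = Glue.muOf d (P.gam.v n)
  len : 2 * l.length < n * d

lemma uv_ind : uv n d l = ind (Fs n d l) := by
  funext i
  rw [uv_eq_ind]
  rfl

lemma Lst.row (h : Lst P d n l) (b : Bool) :
    KR P d n b l *ᵥ ind (Fs n d l) = (sg b : ℝ) • ind (Fs n d l) := by
  rw [← uv_ind]
  refine Kmat_row (sg_eq b) h.hn (by have := h.hd; omega) l
    (SpecBridge.mat_of_valid h.valid) ?_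
  intro p L' hp
  have h1 := h.del b p L' hp
  unfold Par.K at h1
  linarith

lemma Lst.low (h : Lst P d n l) (b : Bool) (f : Fin (n * d) → ℝ)
    (hf : ∑ i ∈ Fs n d l, f i = 0) :
    -(P.gam.v n) * ∑ i ∈ Fs n d l, f i ^ 2 ≤ f ⬝ᵥ (KR P d n b l *ᵥ f) := by
  have hγ1 : P.gam.v n < 1 := by
    have h1 := h.γ1
    have h0 := h.γ0
    nlinarith
  have h1 := Kmat_ge (s := sg b) (γ := P.gam.v n) (b := 2 * Real.sqrt ((d : ℝ) - 1))
    (sg_eq b) h.γ0 hγ1 h.hb h.hn (by have := h.hd; omega) l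
    (SpecBridge.mat_of_valid h.valid) h.len ?_ f ?_
  · rw [sum_uv] at h1
    have h2 : KR P d n b l = Kmat (P.gam.v n) (sg b)
        ((1 - P.gam.v n ^ 2) / (2 * Real.sqrt ((d : ℝ) - 1) - P.gam.v n * d)) n d l := by
      unfold KR
      rw [h.hμ]
      rfl
    rw [h2]
    exact h1
  · intro p L' hp
    have h1 := h.del b p L' hp
    unfold Par.K at h1
    rw [h.hμ] at h1
    have h2 : (0 : ℝ) < 1 / 4 := by norm_num
    exact lt_of_lt_of_le h2 h1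
  · rw [sum_uv]
    exact hf

lemma Lst.card (h : Lst P d n l) : (Fs n d l).card + 2 * l.length = n * d := by
  have h1 := card_Fs (SpecBridge.mat_of_valid h.valid)
  have h2 : (((Fs n d l).card + 2 * l.length : ℕ) : ℝ) = ((n * d : ℕ) : ℝ) := by
    push_cast
    linarith
  exact_mod_cast h2

lemma Lst.even (h : Lst P d n l) : Even (Fs n d l).card := by
  have h1 := h.card
  have h2 : Even (n * d) := h.ev.mul_right d
  have h3 : Even ((Fs n d l).card + 2 * l.length) := by rw [h1]; exact h2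
  exact (Nat.even_add.1 h3).2 (even_two_mul _)

lemma Vf_KR (b : Bool) : Vf (KR P d n b l) = ∑ z, KR P d n b l z z ^ 2 := rfl

lemma Wf_KR (b : Bool) : Wf (Fs n d l) (KR P d n b l) =
    ∑ z ∈ Fs n d l, ((KR P d n b l ^ 2) z z - 1) ^ 2 := rfl

lemma diag_dead (b : Bool) {z : Fin (n * d)} (hz : z ∉ Fs n d l) :
    (KR P d n b l ^ 2) z z = 0 := by
  rw [diag_sq]
  exact Finset.sum_eq_zero fun j _ => by rw [KR_dead (Or.inl hz)]; simp

/-- `∑ (K²)_zz² = W + 2 X₂ - ρ` -/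
lemma R_eq (b : Bool) : ∑ z, ((KR P d n b l ^ 2) z z) ^ 2 =
    Wf (Fs n d l) (KR P d n b l) + 2 * (KR P d n b l ^ 2).trace - (Fs n d l).card := by
  have h1 : ∑ z, ((KR P d n b l ^ 2) z z) ^ 2 =
      ∑ z ∈ Fs n d l, ((KR P d n b l ^ 2) z z) ^ 2 := by
    symm
    refine Finset.sum_subset (Finset.subset_univ _) fun z _ hz => ?_
    rw [diag_dead b hz]; simp
  have h2 : (KR P d n b l ^ 2).trace = ∑ z ∈ Fs n d l, (KR P d n b l ^ 2) z z := by
    symm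
    rw [Matrix.trace]
    refine Finset.sum_subset (Finset.subset_univ _) fun z _ hz => ?_
    rw [diag_dead b hz]
  rw [h1, h2, Wf_KR, Finset.mul_sum, ← Finset.sum_add_distrib]
  have h3 : ((Fs n d l).card : ℝ) = ∑ z ∈ Fs n d l, (1 : ℝ) := by simp
  rw [h3, ← Finset.sum_sub_distrib]
  exact Finset.sum_congr rfl fun z _ => by ring

open Classical in
/-- removed pairs per row -/
lemma card_row (hd : 0 < d) (hv : Pairs.Valid d n l) {m : ℕ} (hm : 1 ≤ m)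
    (x : Fin (n * d)) (hx : x ∈ Fs n d l) :
    (((Fs n d l).filter fun y => (x, y) ∉ Sp P d n l ((m : ℝ) ^ 250) ((m : ℝ) ^ 200)).card : ℝ)
      ≤ (d + 1) * d
    + ∑ b : Bool, (25 * (KR P d n b l ^ 2) x x
      + 100 * (KR P d n b l x x ^ 2 * Vf (KR P d n b l))
      + (KR P d n b l ^ 4) x x / (m : ℝ) ^ 500
      + KR P d n b l x x ^ 2 * Wf (Fs n d l) (KR P d n b l) / (m : ℝ) ^ 400
      + ((KR P d n b l ^ 2) x x - 1) ^ 2 * Vf (KR P d n b l) / (m : ℝ) ^ 400) := by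
  set F := Fs n d l with hF
  have hm0 : (0 : ℝ) < m := by exact_mod_cast hm
  have hsub : F.filter (fun y => (x, y) ∉ Sp P d n l ((m : ℝ) ^ 250) ((m : ℝ) ^ 200)) ⊆
      F.filter (fun y => ¬ Gp P d n l x y) ∪
      ((F.filter (fun y => ¬ |(KR P d n true l ^ 2) x y| ≤ (m : ℝ) ^ 250) ∪
        (F.filter (fun y => ¬ |KR P d n true l x x * ((KR P d n true l ^ 2) y y - 1)|
          ≤ (m : ℝ) ^ 200) ∪
        F.filter (fun y => ¬ |KR P d n true l y y * ((KR P d n true l ^ 2) x x - 1)|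
          ≤ (m : ℝ) ^ 200))) ∪
       (F.filter (fun y => ¬ |(KR P d n false l ^ 2) x y| ≤ (m : ℝ) ^ 250) ∪
        (F.filter (fun y => ¬ |KR P d n false l x x * ((KR P d n false l ^ 2) y y - 1)|
          ≤ (m : ℝ) ^ 200) ∪
        F.filter (fun y => ¬ |KR P d n false l y y * ((KR P d n false l ^ 2) x x - 1)|
          ≤ (m : ℝ) ^ 200)))) := by
    intro y hy
    rw [Finset.mem_filter, mem_Sp] at hy
    obtain ⟨hy1, hy2⟩ := hy
    simp only [Finset.mem_union, Finset.mem_filter]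
    by_cases hg : Gp P d n l x y
    · right
      by_contra hcon
      push Not at hcon
      obtain ⟨⟨h1, h2, h3⟩, h4, h5, h6⟩ := hcon
      apply hy2
      refine ⟨hg, fun b => ?_⟩
      cases b
      · exact ⟨h4 hy1, h5 hy1, h6 hy1⟩
      · exact ⟨h1 hy1, h2 hy1, h3 hy1⟩
    · exact Or.inl ⟨hy1, hg⟩
  have hcard := (Finset.card_le_card hsub).trans ((Finset.card_union_le _ _).trans
    (Nat.add_le_add le_rfl ((Finset.card_union_le _ _).trans
      (Nat.add_le_add ((Finset.card_union_le _ _).trans (Nat.add_le_add le_rfl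
        (Finset.card_union_le _ _))) ((Finset.card_union_le _ _).trans (Nat.add_le_add le_rfl
        (Finset.card_union_le _ _)))))))
  have hcard' := (Nat.cast_le (α := ℝ)).2 hcard
  push_cast at hcard'
  have h0 := card_bad_row (P := P) hd hv x hx
  have hA : ∀ b, ((F.filter (fun y => ¬ |(KR P d n b l ^ 2) x y| ≤ (m : ℝ) ^ 250)).card : ℝ)
      ≤ (KR P d n b l ^ 4) x x / (m : ℝ) ^ 500 := fun b => by
    have h1 := card_filter_le F (fun y => (KR P d n b l ^ 2) x y) ((m : ℝ) ^ 250)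
      (by positivity) (fun y => ¬ |(KR P d n b l ^ 2) x y| ≤ (m : ℝ) ^ 250)
      (fun y _ hy => not_le.1 hy)
    refine h1.trans ?_
    rw [← pow_mul, inv_mul_eq_div]
    refine div_le_div_of_nonneg_right ?_ (by positivity)
    have h2 : (KR P d n b l ^ 4) x x = ∑ y, (KR P d n b l ^ 2) x y ^ 2 := by
      rw [show (4 : ℕ) = 2 + 2 from rfl, pow_add, Matrix.mul_apply]
      exact Finset.sum_congr rfl fun y _ => by
        rw [KR_sq_symm b y x]; exact (pow_two _).symm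
    rw [h2]
    exact Finset.sum_le_sum_of_subset_of_nonneg (Finset.subset_univ _)
      fun y _ _ => sq_nonneg _
  have hB : ∀ b, ((F.filter (fun y => ¬ |KR P d n b l x x * ((KR P d n b l ^ 2) y y - 1)|
      ≤ (m : ℝ) ^ 200)).card : ℝ)
      ≤ KR P d n b l x x ^ 2 * Wf F (KR P d n b l) / (m : ℝ) ^ 400 := fun b => by
    have h1 := card_filter_le F (fun y => KR P d n b l x x * ((KR P d n b l ^ 2) y y - 1))
      ((m : ℝ) ^ 200) (by positivity)
      (fun y => ¬ |KR P d n b l x x * ((KR P d n b l ^ 2) y y - 1)| ≤ (m : ℝ) ^ 200)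
      (fun y _ hy => not_le.1 hy)
    refine h1.trans (le_of_eq ?_)
    rw [← pow_mul, inv_mul_eq_div]
    simp only [mul_pow]
    rw [← Finset.mul_sum]
    rfl
  have hC : ∀ b, ((F.filter (fun y => ¬ |KR P d n b l y y * ((KR P d n b l ^ 2) x x - 1)|
      ≤ (m : ℝ) ^ 200)).card : ℝ)
      ≤ ((KR P d n b l ^ 2) x x - 1) ^ 2 * Vf (KR P d n b l) / (m : ℝ) ^ 400 := fun b => by
    have h1 := card_filter_le F (fun y => KR P d n b l y y * ((KR P d n b l ^ 2) x x - 1))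
      ((m : ℝ) ^ 200) (by positivity)
      (fun y => ¬ |KR P d n b l y y * ((KR P d n b l ^ 2) x x - 1)| ≤ (m : ℝ) ^ 200)
      (fun y _ hy => not_le.1 hy)
    refine h1.trans (le_of_eq ?_)
    rw [← pow_mul, inv_mul_eq_div]
    simp only [mul_pow]
    rw [← Finset.sum_mul, sum_Fs_diag, mul_comm]
    rfl
  rw [Fintype.sum_bool]
  have hVt : Vf (KR P d n true l) = ∑ z, KR P d n true l z z ^ 2 := rfl
  have hVf : Vf (KR P d n false l) = ∑ z, KR P d n false l z z ^ 2 := rfl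
  rw [hVt, hVf]
  have hCt := hC true
  have hCf := hC false
  rw [hVt] at hCt
  rw [hVf] at hCf
  linarith [hcard', h0, hA true, hA false, hB true, hB false]

/-- all fields except the count -/
theorem Lst.ctx (h : Lst P d n l) {m : ℕ} (hm : 1 ≤ m)
    (hbad : (((Fs n d l ×ˢ Fs n d l) \ Sp P d n l ((m : ℝ) ^ 250) ((m : ℝ) ^ 200)).card : ℝ)
      ≤ 100 * (d : ℝ) ^ 2 * (Fs n d l).card) :
    Ctx d m (P.gam.v n) (Fs n d l) (fun b => KR P d n b l)
      (Sp P d n l ((m : ℝ) ^ 250) ((m : ℝ) ^ 200)) where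
  even := h.even
  symm b := Kmat_symm (P.gam.v n) (sg b) (P.mu.v n) n d l
  dead b i j hi := KR_dead (Or.inl hi)
  row b := h.row b
  γ0 := h.γ0
  γ1 := h.γ1
  low b f hf := h.low b f hf
  sub := Sp_subset _ _
  symS x y hxy := Sp_symm hxy
  ne p hp e := (adm_ne (mem_Sp.1 hp).1.1) (congrArg Fin.val e)
  good1 p hp b := (mem_Sp.1 hp).1.2.1 b
  good2 p hp b := (mem_Sp.1 hp).1.2.2 b
  good3 p hp b := ((mem_Sp.1 hp).2 b).1
  good4 p hp b := ((mem_Sp.1 hp).2 b).2.1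
  bad := hbad
  badrow x hx := by
    classical
    have := card_row (P := P) (by have := h.hd; omega) h.valid hm x hx
    convert this

/-! ### the count in the boxes -/

lemma m_ge {d n m : ℕ} (hP : Prm d n m) : (10 : ℝ) ^ 10 ≤ m := by
  have h1 := hP.hm
  have hd : (3 : ℝ) ≤ d := by exact_mod_cast hP.hd
  have h2 : (1 : ℝ) ≤ (d : ℝ) ^ 10 := one_le_pow₀ (by linarith)
  nlinarith

lemma nat_one_le_m {d n m : ℕ} (hP : Prm d n m) : 1 ≤ m := by
  have h1 := m_ge hP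
  have : (1 : ℝ) ≤ m := by linarith [show (1 : ℝ) ≤ 10 ^ 10 by norm_num]
  exact_mod_cast this

lemma bad_num {d ρ : ℝ} (hd : 3 ≤ d) (hρ : 0 ≤ ρ) {x A B C : ℝ} (hx : x ≤ 2 * ρ)
    (hA : A ≤ ρ) (hB : B ≤ 16 * d * ρ) (hC : C ≤ ρ) :
    (d + 1) * d * ρ + 50 * x + A + B + C ≤ 100 * d ^ 2 * ρ := by
  have h1 : (d + 1) * d ≤ 2 * d ^ 2 := by nlinarith
  have h2 : (d + 1) * d * ρ ≤ 2 * d ^ 2 * ρ := mul_le_mul_of_nonneg_right h1 hρ
  have h3 : 9 * ρ ≤ d ^ 2 * ρ := by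
    apply mul_le_mul_of_nonneg_right _ hρ
    nlinarith
  have h4 : 3 * (d * ρ) ≤ d ^ 2 * ρ := by
    have : d ^ 2 * ρ = d * (d * ρ) := by ring
    rw [this]
    exact mul_le_mul_of_nonneg_right hd (by positivity)
  nlinarith

/-- number of removed pairs in the box of stage 1 -/
theorem bad1 {m : ℕ} (hP : Prm d n m) (hv : Pairs.Valid d n l)
    (hB : Box1 d n m (Fs n d l) (fun b => KR P d n b l)) :
    (((Fs n d l ×ˢ Fs n d l) \ Sp P d n l ((m : ℝ) ^ 250) ((m : ℝ) ^ 200)).card : ℝ)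
      ≤ 100 * (d : ℝ) ^ 2 * (Fs n d l).card := by
  have hm := m_ge hP
  have hm1 : (1 : ℝ) ≤ m := by linarith [show (1 : ℝ) ≤ 10 ^ 10 by norm_num]
  have hm0 : (0 : ℝ) < m := by linarith
  have hd3 : (3 : ℝ) ≤ d := by exact_mod_cast hP.hd
  set ρ : ℝ := ((Fs n d l).card : ℝ) with hρ
  have hρ1 := hB.rho_ge
  have hρ2 := hB.rho_le
  rw [← hρ] at hρ1 hρ2
  have h680 : (0 : ℝ) < (m : ℝ) ^ 680 := by positivity
  have hr1 := Box.r1_ge' hP
  have hpow : ∀ {a b : ℕ}, a ≤ b → (m : ℝ) ^ a ≤ (m : ℝ) ^ b := fun h => pow_le_pow_right₀ hm1 h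
  have h800 : (m : ℝ) ^ 799 * 10 ^ 10 ≤ ρ := by
    have : (m : ℝ) ^ 800 = (m : ℝ) ^ 799 * m := by ring
    have h1 : (m : ℝ) ^ 799 * 10 ^ 10 ≤ (m : ℝ) ^ 799 * m :=
      mul_le_mul_of_nonneg_left hm (by positivity)
    linarith
  have h799 : (1 : ℝ) ≤ (m : ℝ) ^ 799 := one_le_pow₀ hm1
  have hρ0 : 0 < ρ := by nlinarith
  have hx : ∀ b, Matrix.trace (KR P d n b l ^ 2) ≤ ρ := fun b => by
    have := hB.X2u b
    rw [← hρ] at this
    have h2 : 0 < r1 d n m := lt_of_lt_of_le h680 hr1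
    linarith
  have hw : ∀ b, Wf (Fs n d l) (KR P d n b l) ≤ (m : ℝ) ^ 630 := fun b =>
    (hB.Wu b).trans (hpow (by norm_num))
  have hv' : ∀ b, Vf (KR P d n b l) ≤ (m : ℝ) ^ 10 := fun b =>
    (hB.Vu b).trans (hpow (by norm_num))
  have hr : ∀ b, ∑ z, ((KR P d n b l ^ 2) z z) ^ 2 ≤ 2 * ρ := fun b => by
    rw [R_eq]
    have h1 := hw b
    have h2 := hx b
    have h3 := hpow (show 630 ≤ 799 by norm_num)
    nlinarith
  have h := card_compl_le (P := P) (l := l) (n := n) (d := d) (a := (m : ℝ) ^ 250)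
    (c := (m : ℝ) ^ 200) (by have := hP.hd; omega) hv (by positivity) (by positivity)
    (ρ := ρ) (x := ρ) (v := (m : ℝ) ^ 10) (w := (m : ℝ) ^ 630) (r := 2 * ρ) rfl hx hv' hw hr
  refine h.trans (bad_num hd3 hρ0.le ?_ ?_ ?_ ?_)
  · linarith
  · have h1 := hpow (show 20 ≤ 799 by norm_num)
    have h2 : ((m : ℝ) ^ 10) ^ 2 = (m : ℝ) ^ 20 := by ring
    rw [h2]
    nlinarith
  · rw [div_le_iff₀ (by positivity)]
    have h1 : ((m : ℝ) ^ 250) ^ 4 = (m : ℝ) ^ 1000 := by ring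
    rw [h1]
    have h2 : ρ ≤ 2 * (m : ℝ) ^ 1000 * d := hρ2.trans (mul_le_mul_of_nonneg_right hP.hn2 (by positivity))
    nlinarith
  · rw [div_le_iff₀ (by positivity)]
    have h1 : ((m : ℝ) ^ 200) ^ 2 = (m : ℝ) ^ 400 := by ring
    have h2 : (m : ℝ) ^ 10 * (m : ℝ) ^ 630 = (m : ℝ) ^ 240 * (m : ℝ) ^ 400 := by ring
    rw [h1, h2, ← mul_assoc]
    apply mul_le_mul_of_nonneg_right _ (by positivity)
    have h3 := hpow (show 240 ≤ 799 by norm_num)
    nlinarith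

/-- number of removed pairs in the box of stage 2 -/
theorem bad2 {m : ℕ} {x0 : ℝ} (hP : Prm d n m) (hv : Pairs.Valid d n l)
    (hB : Box2 d n m x0 (Fs n d l) (fun b => KR P d n b l)) :
    (((Fs n d l ×ˢ Fs n d l) \ Sp P d n l ((m : ℝ) ^ 250) ((m : ℝ) ^ 200)).card : ℝ)
      ≤ 100 * (d : ℝ) ^ 2 * (Fs n d l).card := by
  have hm := m_ge hP
  have hm1 : (1 : ℝ) ≤ m := by linarith [show (1 : ℝ) ≤ 10 ^ 10 by norm_num]
  have hm0 : (0 : ℝ) < m := by linarith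
  have hd3 : (3 : ℝ) ≤ d := by exact_mod_cast hP.hd
  set ρ : ℝ := ((Fs n d l).card : ℝ) with hρ
  have hρ1 := hB.rho_ge
  have hρ2 := hB.rho_le
  rw [← hρ] at hρ1 hρ2
  have h680 : (0 : ℝ) < (m : ℝ) ^ 680 := by positivity
  have hr1 := Box.r1_ge' hP
  have hpow : ∀ {a b : ℕ}, a ≤ b → (m : ℝ) ^ a ≤ (m : ℝ) ^ b := fun h => pow_le_pow_right₀ hm1 h
  have h679 : (m : ℝ) ^ 679 * 10 ^ 10 ≤ ρ := by
    have h1 : (10 : ℝ) ^ 10 ≤ m * x0 := by
      have h2 := hB.x0_m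
      have h3 : x0 ^ 4 ≤ x0 := by
        have h4 : x0 ^ 3 ≤ 1 := pow_le_one₀ hB.x0_pos.le hB.x0_le
        have : x0 ^ 4 = x0 * x0 ^ 3 := by ring
        rw [this]
        nlinarith [hB.x0_pos]
      nlinarith
    have h2 : x0 * (m : ℝ) ^ 680 ≤ x0 * r1 d n m := mul_le_mul_of_nonneg_left hr1 hB.x0_pos.le
    have h3 : x0 * (m : ℝ) ^ 680 = (m : ℝ) ^ 679 * (m * x0) := by ring
    have h4 : (m : ℝ) ^ 679 * 10 ^ 10 ≤ (m : ℝ) ^ 679 * (m * x0) :=
      mul_le_mul_of_nonneg_left h1 (by positivity)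
    linarith
  have h1679 : (1 : ℝ) ≤ (m : ℝ) ^ 679 := one_le_pow₀ hm1
  have hρ0 : 0 < ρ := by nlinarith
  have hphi : phi2 (r1 d n m) ρ ≤ ρ := by
    unfold phi2
    have : 0 < r1 d n m := lt_of_lt_of_le h680 hr1
    rw [div_le_iff₀ (by positivity)]
    nlinarith
  have hx : ∀ b, Matrix.trace (KR P d n b l ^ 2) ≤ 2 * ρ := fun b => by
    have h1 := hB.X2u b
    have h2 := hpow (show 670 ≤ 679 by norm_num)
    rw [← hρ] at h1
    nlinarith
  have hw : ∀ b, Wf (Fs n d l) (KR P d n b l) ≤ (m : ℝ) ^ 683 := hB.Wu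
  have hv' : ∀ b, Vf (KR P d n b l) ≤ (m : ℝ) ^ 10 := fun b =>
    (hB.Vu b).trans (hpow (by norm_num))
  have hr : ∀ b, ∑ z, ((KR P d n b l ^ 2) z z) ^ 2 ≤ (m : ℝ) ^ 5 * ρ := fun b => by
    rw [R_eq]
    have h1 := hw b
    have h2 := hx b
    have h3 : (m : ℝ) ^ 683 ≤ (m : ℝ) ^ 4 * ρ := by
      have h4 : (m : ℝ) ^ 683 = (m : ℝ) ^ 4 * (m : ℝ) ^ 679 := by ring
      rw [h4]
      apply mul_le_mul_of_nonneg_left _ (by positivity)
      nlinarith
    have h5 : (m : ℝ) ^ 5 * ρ = m * ((m : ℝ) ^ 4 * ρ) := by ring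
    have h6 : ρ ≤ (m : ℝ) ^ 4 * ρ := by
      have : (1 : ℝ) ≤ (m : ℝ) ^ 4 := one_le_pow₀ hm1
      nlinarith
    have h7 : (10 : ℝ) ^ 10 * ((m : ℝ) ^ 4 * ρ) ≤ m * ((m : ℝ) ^ 4 * ρ) :=
      mul_le_mul_of_nonneg_right hm (by positivity)
    rw [h5]
    linarith
  have h := card_compl_le (P := P) (l := l) (n := n) (d := d) (a := (m : ℝ) ^ 250)
    (c := (m : ℝ) ^ 200) (by have := hP.hd; omega) hv (by positivity) (by positivity)
    (ρ := ρ) (x := 2 * ρ) (v := (m : ℝ) ^ 10) (w := (m : ℝ) ^ 683) (r := (m : ℝ) ^ 5 * ρ)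
    rfl hx hv' hw hr
  refine h.trans (bad_num hd3 hρ0.le le_rfl ?_ ?_ ?_)
  · have h1 := hpow (show 20 ≤ 679 by norm_num)
    have h2 : ((m : ℝ) ^ 10) ^ 2 = (m : ℝ) ^ 20 := by ring
    rw [h2]
    nlinarith
  · rw [div_le_iff₀ (by positivity)]
    have h1 : ((m : ℝ) ^ 250) ^ 4 = (m : ℝ) ^ 1000 := by ring
    have h2 : 2 * ((m : ℝ) ^ 5 * ρ) ^ 2 = 2 * (m : ℝ) ^ 10 * ρ * ρ := by ring
    rw [h1, h2]
    have h3 : ρ ≤ 2 * (m : ℝ) ^ 800 := by
      have := hpow (show 0 ≤ 800 by norm_num)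
      rw [pow_zero] at this
      linarith
    have h4 : 2 * (m : ℝ) ^ 10 * ρ ≤ 4 * (m : ℝ) ^ 1000 := by
      have h5 : 2 * (m : ℝ) ^ 10 * ρ ≤ 2 * (m : ℝ) ^ 10 * (2 * (m : ℝ) ^ 800) :=
        mul_le_mul_of_nonneg_left h3 (by positivity)
      have h6 : 2 * (m : ℝ) ^ 10 * (2 * (m : ℝ) ^ 800) = 4 * (m : ℝ) ^ 810 := by ring
      have h7 := hpow (show 810 ≤ 1000 by norm_num)
      linarith
    have h5 : 2 * (m : ℝ) ^ 10 * ρ * ρ ≤ 4 * (m : ℝ) ^ 1000 * ρ :=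
      mul_le_mul_of_nonneg_right h4 hρ0.le
    have h6 : 0 ≤ ρ * (m : ℝ) ^ 1000 := by positivity
    nlinarith
  · rw [div_le_iff₀ (by positivity)]
    have h1 : ((m : ℝ) ^ 200) ^ 2 = (m : ℝ) ^ 400 := by ring
    have h2 : (m : ℝ) ^ 10 * (m : ℝ) ^ 683 = (m : ℝ) ^ 293 * (m : ℝ) ^ 400 := by ring
    rw [h1, h2, ← mul_assoc]
    apply mul_le_mul_of_nonneg_right _ (by positivity)
    have h3 := hpow (show 293 ≤ 679 by norm_num)
    nlinarith

/-- the context of stage 1 -/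
theorem ctx_box1 {m : ℕ} (hP : Prm d n m) (h : Lst P d n l)
    (hB : Box1 d n m (Fs n d l) (fun b => KR P d n b l)) :
    Ctx d m (P.gam.v n) (Fs n d l) (fun b => KR P d n b l)
      (Sp P d n l ((m : ℝ) ^ 250) ((m : ℝ) ^ 200)) :=
  h.ctx (nat_one_le_m hP) (bad1 hP h.valid hB)

/-- the context of stage 2 -/
theorem ctx_box2 {m : ℕ} {x0 : ℝ} (hP : Prm d n m) (h : Lst P d n l)
    (hB : Box2 d n m x0 (Fs n d l) (fun b => KR P d n b l)) :
    Ctx d m (P.gam.v n) (Fs n d l) (fun b => KR P d n b l)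
      (Sp P d n l ((m : ℝ) ^ 250) ((m : ℝ) ^ 200)) :=
  h.ctx (nat_one_le_m hP) (bad2 hP h.valid hB)

/-! ### the step of the real state -/

lemma KR_cons (b : Bool) (x y : Fin (n * d)) :
    KR P d n b (((x : ℕ), (y : ℕ)) :: l) = nx b (fun b => KR P d n b l) x y :=
  Kmat_cons _ _ _ n d l x y

lemma Fs_cons (x y : Fin (n * d)) :
    Fs n d (((x : ℕ), (y : ℕ)) :: l) = ((Fs n d l).erase x).erase y := by
  ext i
  rw [Finset.mem_erase, Finset.mem_erase, mem_Fs, mem_Fs, unused_cons]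
  constructor
  · rintro ⟨⟨h1, h2⟩, h3⟩
    exact ⟨fun e => h2 (by rw [e]), fun e => h1 (by rw [e]), h3⟩
  · rintro ⟨h2, h1, h3⟩
    exact ⟨⟨fun e => h1 (Fin.ext e.symm), fun e => h2 (Fin.ext e.symm)⟩, h3⟩

lemma mem_of_Sg {x y : Fin (n * d)} (h : (x, y) ∈ Sg P d n l) :
    x ∈ Fs n d l ∧ y ∈ Fs n d l ∧ x ≠ y := by
  have h1 := Finset.mem_product.1 (Sg_subset P d n l h)
  refine ⟨h1.1, h1.2, fun e => ?_⟩
  exact (adm_ne (mem_Sg.1 h).1) (congrArg Fin.val e)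

lemma card_Fs_cons {x y : Fin (n * d)} (h : (x, y) ∈ Sg P d n l) :
    (Fs n d (((x : ℕ), (y : ℕ)) :: l)).card + 2 = (Fs n d l).card := by
  obtain ⟨hx, hy, hne⟩ := mem_of_Sg h
  rw [Fs_cons, Finset.card_erase_of_mem (Finset.mem_erase.2 ⟨hne.symm, hy⟩),
    Finset.card_erase_of_mem hx]
  have h2 : 1 < (Fs n d l).card := Finset.one_lt_card.2 ⟨x, hx, y, hy, hne⟩
  omega

lemma card_Fs_cons' {x y : Fin (n * d)} (h : (x, y) ∈ Sg P d n l) :
    ((Fs n d (((x : ℕ), (y : ℕ)) :: l)).card : ℝ) = (Fs n d l).card - 2 := by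
  have h1 := card_Fs_cons h
  have h2 : (((Fs n d (((x : ℕ), (y : ℕ)) :: l)).card + 2 : ℕ) : ℝ) = ((Fs n d l).card : ℝ) := by
    rw [h1]
  push_cast at h2
  linarith

/-- a bound of the count gives a nonempty averaging set -/
lemma nonempty_of_card {a c : ℝ} {D : ℝ}
    (h : (((Fs n d l ×ˢ Fs n d l) \ Sp P d n l a c).card : ℝ) ≤ D * (Fs n d l).card)
    (h0 : 0 < (Fs n d l).card) (hD : D < (Fs n d l).card) : (Sp P d n l a c).Nonempty := by
  classical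
  by_contra hcon
  rw [Finset.not_nonempty_iff_eq_empty] at hcon
  rw [hcon, Finset.sdiff_empty, Finset.card_product] at h
  push_cast at h
  have h1 : (0 : ℝ) < (Fs n d l).card := by exact_mod_cast h0
  nlinarith

/-- the list facts from the invariant of the process -/
lemma lst_of_St {F : List (Pot P d)} (hd : 3 ≤ d) (hn : 0 < n) (hev : Even n)
    (h : St P d F n l) (γ0 : 0 < P.gam.v n) (γ1 : P.gam.v n ^ 2 ≤ 1 / 2)
    (hb : 0 < 2 * Real.sqrt ((d : ℝ) - 1) - P.gam.v n * d)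
    (hμ : P.mu.v n = Glue.muOf d (P.gam.v n)) (hlen : 2 * l.length < n * d) : Lst P d n l :=
  ⟨hd, hn, hev, h.valid, h.del, γ0, γ1, hb, hμ, hlen⟩

/-- the stage 1 potential of the real state -/
noncomputable def Phi1R (P : Par) (d n m : ℕ) (l : List (ℕ × ℕ)) : ℝ :=
  Phi1 d n m (Fs n d l) (fun b => KR P d n b l)

/-- the stage 2 potential of the real state -/
noncomputable def Phi2R (P : Par) (d n m : ℕ) (l : List (ℕ × ℕ)) : ℝ :=
  Phi2 d n m (Fs n d l) (fun b => KR P d n b l)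

lemma Phi1R_cons (m : ℕ) (x y : Fin (n * d)) :
    Phi1R P d n m (((x : ℕ), (y : ℕ)) :: l) =
      Phi1 d n m (((Fs n d l).erase x).erase y) (fun b => nx b (fun b => KR P d n b l) x y) := by
  unfold Phi1R
  rw [Fs_cons]
  simp only [KR_cons]

lemma Phi2R_cons (m : ℕ) (x y : Fin (n * d)) :
    Phi2R P d n m (((x : ℕ), (y : ℕ)) :: l) =
      Phi2 d n m (((Fs n d l).erase x).erase y) (fun b => nx b (fun b => KR P d n b l) x y) := by
  unfold Phi2R
  rw [Fs_cons]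
  simp only [KR_cons]

/-- one real step of stage 1 -/
theorem step1_real {m : ℕ} (Pc : Pieces1 (Fin (n * d))) (hP : Prm d n m) (h : Lst P d n l)
    (hΦ : Phi1R P d n m l ≤ 1) (hρ : (m : ℝ) ^ 800 + 2 ≤ (Fs n d l).card) :
    ∃ x y : Fin (n * d), Gp P d n l x y ∧
      Phi1R P d n m (((x : ℕ), (y : ℕ)) :: l) ≤
        Phi1R P d n m l + 38 / ((m : ℝ) ^ 2 * (Fs n d l).card) := by
  have hρ2 : ((Fs n d l).card : ℝ) ≤ n * d := by
    have h1 := h.card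
    have h2 : (Fs n d l).card ≤ n * d := by omega
    exact_mod_cast h2
  have hB : Box1 d n m (Fs n d l) (fun b => KR P d n b l) :=
    Box.box1_of_Phi1 hP (fun b => KR_symm b) hΦ hρ hρ2
  obtain ⟨p, hp, h1⟩ := step1 Pc hP (ctx_box1 hP h hB) hB
  refine ⟨p.1, p.2, (mem_Sp.1 hp).1, ?_⟩
  rw [Phi1R_cons]
  exact h1

/-- one real step of stage 2 -/
theorem step2_real {m : ℕ} {x0 : ℝ} (Pc : Pieces2 (Fin (n * d))) (hP : Prm d n m)
    (h : Lst P d n l) (hΦ : Phi2R P d n m l ≤ 1) (hx0 : 0 < x0) (hx1 : x0 ≤ 1)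
    (hx2 : 10 ^ 10 ≤ m * x0 ^ 4) (hρ1 : x0 * r1 d n m + 2 ≤ (Fs n d l).card)
    (hρ2 : ((Fs n d l).card : ℝ) ≤ (m : ℝ) ^ 800 + 1) :
    ∃ x y : Fin (n * d), Gp P d n l x y ∧
      Phi2R P d n m (((x : ℕ), (y : ℕ)) :: l) ≤
        Phi2R P d n m l + 38 / ((m : ℝ) ^ 2 * (Fs n d l).card) := by
  have hB : Box2 d n m x0 (Fs n d l) (fun b => KR P d n b l) :=
    Box.box2_of_Phi2 hP (fun b => KR_symm b) hΦ hx0 hx1 hx2 hρ1 hρ2
  obtain ⟨p, hp, h1⟩ := step2 Pc hP (ctx_box2 hP h hB) hB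
  refine ⟨p.1, p.2, (mem_Sp.1 hp).1, ?_⟩
  rw [Phi2R_cons]
  exact h1

end Crest.Agent.R62.CtxReal
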