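import Crest.Agent.R62.State

/-!
R62: evaluation of the constraint language `Mach.E` in matrix form, and ready-made expressions for
the functionals.
-/

set_option autoImplicit false
set_option linter.unusedSectionVars false
set_option linter.unusedSimpArgs false
set_option linter.unusedVariables false
open scoped Matrix BigOperators

namespace Crest.Agent.R62.EvalKit

open Crest.Agent.R62.State Crest.Agent.R062 Crest.Agent.R062.Mach
open Crest.Agent.Lib.PT

section
variable {P : Par} {d n : ℕ} {l : List (ℕ × ℕ)} {p : ℕ × ℕ}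

/-- evaluation as a matrix on `Fin (n*d)` -/
noncomputable def ev (P : Par) (d n : ℕ) (l : List (ℕ × ℕ)) (p : ℕ × ℕ) (a : E) :
    Matrix (Fin (n * d)) (Fin (n * d)) ℝ :=
  Matrix.of fun i j => eval (envR P d n l p) a i j

lemma ev_apply (a : E) (i j : Fin (n * d)) :
    ev P d n l p a i j = eval (envR P d n l p) a i j := rfl

lemma ev_add (a b : E) : ev P d n l p (.add a b) = ev P d n l p a + ev P d n l p b := by
  ext i j; rfl

lemma ev_mul (a b : E) : ev P d n l p (.mul a b) = ev P d n l p a * ev P d n l p b := by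
  ext i j
  rw [ev_apply, Matrix.mul_apply]
  have : (envR P d n l p).M = n * d := rfl
  simp only [eval, this, Finset.sum_range, ev_apply]

lemma ev_had (a b : E) (i j : Fin (n * d)) :
    ev P d n l p (.had a b) i j = ev P d n l p a i j * ev P d n l p b i j := rfl

lemma ev_one : ev P d n l p .one = 1 := by
  ext i j
  rw [ev_apply, Matrix.one_apply]
  simp only [eval, Fin.ext_iff]

/-- power -/
def powE (a : E) : ℕ → E
  | 0 => .one
  | k + 1 => .mul (powE a k) a

lemma ev_powE (a : E) (k : ℕ) : ev P d n l p (powE a k) = ev P d n l p a ^ k := by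
  induction k with
  | zero => rw [powE, ev_one, pow_zero]
  | succ k ih => rw [powE, ev_mul, ih, pow_succ]

/-- `a` is a scalar (a constant matrix) with value `v` -/
def Sc (e : Env ℝ) (a : E) (v : ℝ) : Prop := ∀ i j, eval e a i j = v

lemma sc_rc (e : Env ℝ) (c : RC) : Sc e (.rc c) (e.r c) := fun _ _ => rfl
lemma sc_cst (e : Env ℝ) (c : Cst) : Sc e (.cst c) (e.c c) := fun _ _ => rfl
lemma Sc.add {e : Env ℝ} {a b : E} {v w : ℝ} (ha : Sc e a v) (hb : Sc e b w) :
    Sc e (.add a b) (v + w) := fun i j => by simp only [eval, ha i j, hb i j]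
lemma Sc.had {e : Env ℝ} {a b : E} {v w : ℝ} (ha : Sc e a v) (hb : Sc e b w) :
    Sc e (.had a b) (v * w) := fun i j => by simp only [eval, ha i j, hb i j]
lemma Sc.pos {e : Env ℝ} {a : E} {v : ℝ} (ha : Sc e a v) : Sc e (.pos a) (max v 0) :=
  fun i j => by simp only [eval, ha i j]
lemma sc_tr (a : E) : Sc (envR P d n l p) (.tr a) (Matrix.trace (ev P d n l p a)) :=
  fun i j => by
    have : (envR P d n l p).M = n * d := rfl
    simp only [eval, Matrix.trace, Matrix.diag_apply, ev_apply, Finset.sum_range, this]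
lemma sc_pick (e : Env ℝ) (p q : Bool) (a : E) :
    Sc e (.pick p q a) (eval e a (if p then e.y else e.x) (if q then e.y else e.x)) :=
  fun i j => rfl
lemma Sc.congr {e : Env ℝ} {a : E} {v w : ℝ} (ha : Sc e a v) (h : v = w) : Sc e a w := h ▸ ha

/-- the square of a scalar -/
def sqE (a : E) : E := .had a a
lemma Sc.sqE {e : Env ℝ} {a : E} {v : ℝ} (ha : Sc e a v) : Sc e (sqE a) (v ^ 2) := by
  rw [pow_two]; exact ha.had ha

/-- natural number and integer constants -/
def cstInt (k : ℤ) : Cst where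
  f := fun _ _ => (k : ℚ)
  ptf := PTF.const (k : ℚ)
  deg := k.natAbs
  bd := fun n t => by
    have h1 : |(k : ℚ)| = (k.natAbs : ℚ) := by
      rw [← Int.cast_abs, Int.abs_eq_natAbs]; simp
    rw [h1]
    have h2 : (k.natAbs : ℚ) ≤ 2 ^ k.natAbs := by exact_mod_cast Nat.lt_two_pow_self.le
    have h3 : (2 : ℚ) ^ k.natAbs ≤ ((n : ℚ) + t + 2) ^ k.natAbs := by
      apply pow_le_pow_left₀ (by norm_num)
      have : (0 : ℚ) ≤ n := Nat.cast_nonneg n
      have : (0 : ℚ) ≤ t := Nat.cast_nonneg t
      linarith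
    exact h2.trans h3

/-- integer scalar -/
def intE (k : ℤ) : E := .cst (cstInt k)

/-- negation and subtraction -/
def negE (a : E) : E := .had (intE (-1)) a
def subE (a b : E) : E := .add a (negE b)

/-- the environments of the real process -/
lemma sc_intE (k : ℤ) : Sc (envR P d n l p) (intE k) (k : ℝ) := fun i j => by
  simp [intE, eval, envR, cstInt]

lemma Sc.neg {a : E} {v : ℝ} (ha : Sc (envR P d n l p) a v) :
    Sc (envR P d n l p) (negE a) (-v) := fun i j => by
  have h1 := sc_intE (P := P) (d := d) (n := n) (l := l) (p := p) (-1) i j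
  simp only [negE, eval, ha i j, h1]
  push_cast; ring

lemma Sc.sub {a b : E} {v w : ℝ}
    (ha : Sc (envR P d n l p) a v) (hb : Sc (envR P d n l p) b w) :
    Sc (envR P d n l p) (subE a b) (v - w) := fun i j => by
  simp only [subE, eval, ha i j, hb.neg i j]; ring

/-- the real stub matrix of the process -/
noncomputable def KR (P : Par) (d n : ℕ) (b : Bool) (l : List (ℕ × ℕ)) :
    Matrix (Fin (n * d)) (Fin (n * d)) ℝ :=
  Kmat (P.gam.v n) (sg b) (P.mu.v n) n d l

/-- the list before/after the step -/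
def lst (l : List (ℕ × ℕ)) (p : ℕ × ℕ) (nw : Bool) : List (ℕ × ℕ) := if nw then p :: l else l

lemma ev_K (nw b : Bool) : ev P d n l p (.K nw b) = KR P d n b (lst l p nw) := by
  ext i j
  cases nw <;> rfl

/-- the identity on live stubs -/
noncomputable def IdW (n d : ℕ) (l : List (ℕ × ℕ)) : Matrix (Fin (n * d)) (Fin (n * d)) ℝ :=
  Matrix.diagonal (uv n d l)

lemma ev_idW (nw : Bool) : ev P d n l p (.idW nw) = IdW n d (lst l p nw) := by
  ext i j
  rw [ev_apply, IdW, Matrix.diagonal_apply]
  by_cases h : i = j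
  · subst h
    cases nw <;> simp [eval, envR, lst, uv]
  · have h' : ¬ ((i : ℕ) = (j : ℕ)) := fun e => h (Fin.ext e)
    simp [eval, h, h']

/-! ### functionals -/

/-- `X_k = Tr K^k` -/
def xE (k : ℕ) (nw b : Bool) : E := .tr (powE (.K nw b) k)

lemma sc_xE (k : ℕ) (nw b : Bool) :
    Sc (envR P d n l p) (xE k nw b) (Matrix.trace (KR P d n b (lst l p nw) ^ k)) := by
  have := sc_tr (P := P) (d := d) (n := n) (l := l) (p := p) (powE (.K nw b) k)
  rw [ev_powE, ev_K] at this
  exact this

/-- `Tr (K₊^j K₋^k)` -/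
def crossE (j k : ℕ) (nw : Bool) : E :=
  .tr (.mul (powE (.K nw true) j) (powE (.K nw false) k))

lemma sc_crossE (j k : ℕ) (nw : Bool) :
    Sc (envR P d n l p) (crossE j k nw)
      (Matrix.trace (KR P d n true (lst l p nw) ^ j * KR P d n false (lst l p nw) ^ k)) := by
  have := sc_tr (P := P) (d := d) (n := n) (l := l) (p := p)
    (.mul (powE (.K nw true) j) (powE (.K nw false) k))
  rw [ev_mul, ev_powE, ev_powE, ev_K, ev_K] at this
  exact this

/-- `∑ ((K^k)_zz)²` -/
def dE (k : ℕ) (nw b : Bool) : E := .tr (.had (powE (.K nw b) k) (powE (.K nw b) k))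

lemma sc_dE (k : ℕ) (nw b : Bool) :
    Sc (envR P d n l p) (dE k nw b) (∑ z, ((KR P d n b (lst l p nw) ^ k) z z) ^ 2) := by
  refine (sc_tr (.had (powE (.K nw b) k) (powE (.K nw b) k))).congr ?_
  simp only [Matrix.trace, Matrix.diag_apply, ev_had, ev_powE, ev_K, pow_two]

/-- `V = ∑ K_zz²` -/
def vE (nw b : Bool) : E := dE 1 nw b

lemma sc_vE (nw b : Bool) :
    Sc (envR P d n l p) (vE nw b) (∑ z, (KR P d n b (lst l p nw) z z) ^ 2) := by
  refine (sc_dE 1 nw b).congr ?_
  simp only [pow_one]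

/-- `W = ∑_live ((K²)_zz - 1)²` -/
def wE (nw b : Bool) : E :=
  .tr (.had (subE (powE (.K nw b) 2) (.idW nw)) (subE (powE (.K nw b) 2) (.idW nw)))

lemma ev_subE (a b : E) :
    ev P d n l p (subE a b) = ev P d n l p a - ev P d n l p b := by
  ext i j
  have h1 := sc_intE (P := P) (d := d) (n := n) (l := l) (p := p) (-1) i j
  rw [Matrix.sub_apply, ev_apply, ev_apply, ev_apply]
  simp only [subE, negE, eval, h1]
  push_cast; ring

lemma sc_wE (nw b : Bool) :
    Sc (envR P d n l p) (wE nw b)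
      (∑ z, ((KR P d n b (lst l p nw) ^ 2) z z - uv n d (lst l p nw) z) ^ 2) := by
  refine (sc_tr (.had (subE (powE (.K nw b) 2) (.idW nw))
    (subE (powE (.K nw b) 2) (.idW nw)))).congr ?_
  simp only [Matrix.trace, Matrix.diag_apply, ev_had, ev_subE, ev_powE, ev_K, ev_idW,
    Matrix.sub_apply]
  refine Finset.sum_congr rfl fun z _ => ?_
  have : IdW n d (lst l p nw) z z = uv n d (lst l p nw) z := by
    unfold IdW; rw [Matrix.diagonal_apply_eq]
  rw [this]
  ring

/-- entries of `K^k` at the chosen pair: `false` selects `x`, `true` selects `y` -/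
def entE (k : ℕ) (nw b : Bool) (p q : Bool) : E := .pick p q (powE (.K nw b) k)

/-- the selected stub -/
def sel2 {M : ℕ} (x y : Fin M) (p : Bool) : Fin M := if p then y else x

lemma sc_entE {x y : Fin (n * d)} (k : ℕ) (nw b : Bool) (p q : Bool) :
    Sc (envR P d n l (x, y)) (entE k nw b p q)
      ((KR P d n b (lst l (x, y) nw) ^ k) (sel2 x y p) (sel2 x y q)) := by
  have h := sc_pick (envR P d n l (x, y)) p q (powE (.K nw b) k)
  have e1 := ev_powE (P := P) (d := d) (n := n) (l := l) (p := (x, y)) (.K nw b) k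
  rw [ev_K] at e1
  rw [← e1]
  intro i j
  rw [ev_apply]
  have h2 := h i j
  rw [entE, h2]
  cases p <;> cases q <;> rfl

/-! ### constraints -/

/-- scalar constraints hold with margin `η` -/
lemma holds_of_sc {cs : List E} {η : ℝ}
    (h : ∀ a ∈ cs, ∃ v, Sc (envR P d n l p) a v ∧ v ≤ -η) : Holds P d n cs η l p := by
  intro a ha i _ j _
  obtain ⟨v, h1, h2⟩ := h a ha
  rw [h1 i j]; exact h2

lemma sc_of_holds {cs : List E} {η : ℝ}
    (hnd : 0 < n * d) (h : Holds P d n cs η l p) {a : E} (ha : a ∈ cs) {v : ℝ}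
    (hv : Sc (envR P d n l p) a v) : v ≤ -η := by
  have := h a ha 0 hnd 0 hnd
  rw [hv 0 0] at this
  exact this

/-- rational constants from polynomial-time functions -/
lemma sc_cst' (c : Cst) : Sc (envR P d n l p) (.cst c) (c.f n l.length : ℝ) := fun _ _ => rfl

lemma sc_rc' (c : RC) : Sc (envR P d n l p) (.rc c) (c.v n) := fun _ _ => rfl

end

/-- general rational constants -/
def mkCst (f : ℕ → ℕ → ℚ) (h : PTF (fun p : Un × Un => f p.1.val p.2.val)) (k : ℕ)
    (hb : ∀ n t, |f n t| ≤ ((n : ℚ) + t + 2) ^ k) : Cst := ⟨f, h, k, hb⟩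

end Crest.Agent.R62.EvalKit
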