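import Crest.Agent.R62.TiltF

/-!
R62 (helper110): numbers for the tilt of the step design (#4644).

`Kb : Bool → Matrix ι ι ℝ` (`Kb true = K⁺`, `Kb false = K⁻`), live set `F`, good pairs `S ⊆ F × F`.
`Theta = m^{-38} (e₊ φ₊ - e₋ φ₋)`, `φ_b = Π f(K_b) Π` off the bad pairs, `ν = m^204`, `B = m^36`.
-/

set_option autoImplicit false
set_option linter.unusedSectionVars false
set_option linter.unusedVariables false

open scoped Matrix BigOperators

namespace Crest.Agent.R62.TiltSt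

open Crest.Agent.R62.AvBase
open Crest.Agent.R62.TiltF (tphi)

variable {ι : Type*} [Fintype ι] [DecidableEq ι]

/-- sign of a boolean -/
def sb (b : Bool) : ℝ := if b then 1 else -1

/-- the numeric hypotheses on the state inside the tilt window -/
structure TB (Kb : Bool → Matrix ι ι ℝ) (F : Finset ι) (S : Finset (ι × ι)) (m ρ : ℝ) : Prop where
  m_large : 10000 ≤ m
  rho_lo : m ^ 800 ≤ ρ
  rho_hi : ρ ≤ 2 * m ^ 800
  symm : ∀ b, (Kb b)ᵀ = Kb b
  dead : ∀ b, ∀ i, i ∉ F → (Kb b ^ 2) i i = 0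
  S_symm : ∀ x y, (x, y) ∈ S → (y, x) ∈ S
  X2 : ∀ b, (Kb b ^ 2).trace ≤ ρ
  X3 : ∀ b, m ^ 1000 / 2 ≤ (Kb b ^ 3).trace
  X4 : ∀ b, (Kb b ^ 4).trace ≤ m ^ 2003 / ρ
  W : ∀ b, ∑ x ∈ F, ((Kb b ^ 2) x x - 1) ^ 2 ≤ m ^ 610
  M22 : ∑ x, ∑ y, (Kb true ^ 2) x y * (Kb false ^ 2) x y ≤ m ^ 1010
  nbad : (((F ×ˢ F) \ S).card : ℝ) ≤ m * ρ
  row : ∀ x, (∀ b, (Kb b ^ 2) x x ≤ m ^ 36) →
    ((Finset.univ.filter (fun y => (x, y) ∈ (F ×ˢ F) \ S)).card : ℝ) ≤ m ^ 300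

section Def

variable (Kb : Bool → Matrix ι ι ℝ) (F : Finset ι) (S : Finset (ι × ι)) (m : ℝ) (e : Bool → ℝ)

/-- the stubs where both diagonals are at most `m^36` -/
noncomputable def GG : Finset ι := TiltK.Gset (Kb true) (Kb false) (m ^ 36)

open Classical in
/-- the tilt matrix `φ_b` -/
noncomputable def ph (b : Bool) : Matrix ι ι ℝ :=
  if h : (Kb b)ᵀ = Kb b then tphi (Tilt.eigOf h) (m ^ 204) (GG Kb m) ((F ×ˢ F) \ S) else 0

/-- the tilt: the weights are `1 - Theta` -/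
noncomputable def Theta : Matrix ι ι ℝ := fun x y =>
  1 / m ^ 38 * (e true * ph Kb F S m true x y - e false * ph Kb F S m false x y)

end Def

/-- absorbing a constant into a power -/
lemma cpow {m c : ℝ} {a b : ℕ} (hm : 1 ≤ m) (hc : c ≤ m) (hab : a + 1 ≤ b) :
    c * m ^ a ≤ m ^ b := by
  have h0 : 0 ≤ m := by linarith
  calc c * m ^ a ≤ m * m ^ a := mul_le_mul_of_nonneg_right hc (pow_nonneg h0 a)
    _ = m ^ (a + 1) := by ring
    _ ≤ m ^ b := pow_le_pow_right₀ hm hab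

section Facts

variable {Kb : Bool → Matrix ι ι ℝ} {F : Finset ι} {S : Finset (ι × ι)} {m ρ : ℝ}
  {e : Bool → ℝ}

lemma TB.m1 (h : TB Kb F S m ρ) : 1 ≤ m := by linarith [h.m_large]
lemma TB.m0 (h : TB Kb F S m ρ) : 0 < m := by linarith [h.m_large]
lemma TB.rho_pos (h : TB Kb F S m ρ) : 0 < ρ := lt_of_lt_of_le (pow_pos h.m0 800) h.rho_lo

lemma TB.X4' (h : TB Kb F S m ρ) (b : Bool) : (Kb b ^ 4).trace ≤ m ^ 1203 := by
  refine (h.X4 b).trans ?_
  rw [div_le_iff₀ h.rho_pos]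
  calc m ^ 2003 = m ^ 1203 * m ^ 800 := by rw [← pow_add]
    _ ≤ m ^ 1203 * ρ := mul_le_mul_of_nonneg_left h.rho_lo (pow_nonneg h.m0.le _)

lemma TB.X2' (h : TB Kb F S m ρ) (b : Bool) : (Kb b ^ 2).trace ≤ 2 * m ^ 800 :=
  (h.X2 b).trans h.rho_hi

lemma TB.bad_symm (h : TB Kb F S m ρ) (x y : ι) (hxy : (x, y) ∈ (F ×ˢ F) \ S) :
    (y, x) ∈ (F ×ˢ F) \ S := by
  rw [Finset.mem_sdiff, Finset.mem_product] at hxy ⊢
  exact ⟨⟨hxy.1.2, hxy.1.1⟩, fun hc => hxy.2 (h.S_symm _ _ hc)⟩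

lemma TB.nbad' (h : TB Kb F S m ρ) : (((F ×ˢ F) \ S).card : ℝ) ≤ 2 * m ^ 801 := by
  refine h.nbad.trans ?_
  calc m * ρ ≤ m * (2 * m ^ 800) := mul_le_mul_of_nonneg_left h.rho_hi h.m0.le
    _ = 2 * m ^ 801 := by ring

lemma ph_eq (h : TB Kb F S m ρ) (b : Bool) :
    ph Kb F S m b = tphi (Tilt.eigOf (h.symm b)) (m ^ 204) (GG Kb m) ((F ×ˢ F) \ S) := by
  simp only [ph, h.symm b, dif_pos]

lemma GG_le (h : TB Kb F S m ρ) (b : Bool) : ∀ x ∈ GG Kb m, (Kb b ^ 2) x x ≤ m ^ 36 := by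
  intro x hx
  rw [GG, TiltK.mem_Gset] at hx
  cases b
  · exact hx.2
  · exact hx.1

lemma ph_symm (h : TB Kb F S m ρ) (b : Bool) (x y : ι) :
    ph Kb F S m b x y = ph Kb F S m b y x := by
  rw [ph_eq h]
  exact TiltF.tphi_symm _ h.bad_symm x y

lemma abs_ph_le (h : TB Kb F S m ρ) (b : Bool) (x y : ι) : |ph Kb F S m b x y| ≤ m ^ 36 := by
  rw [ph_eq h]
  exact TiltF.abs_tphi_le _ (pow_pos h.m0 _) (pow_nonneg h.m0.le _) (GG_le h b) x y

lemma ph_eq_zero (h : TB Kb F S m ρ) (b : Bool) {x y : ι} (hxy : (x, y) ∉ S) :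
    ph Kb F S m b x y = 0 := by
  by_cases hb : (x, y) ∈ (F ×ˢ F) \ S
  · rw [ph_eq h]; exact TiltF.tphi_eq_zero_of_bad _ hb
  · have hF : (x, y) ∉ F ×ˢ F := fun hc => hb (Finset.mem_sdiff.mpr ⟨hc, hxy⟩)
    rw [Finset.mem_product, not_and_or] at hF
    rcases hF with hx | hy
    · rw [ph_eq h]
      exact TiltF.tphi_dead _ (pow_pos h.m0 _) (h.dead b x hx) y
    · rw [ph_symm h, ph_eq h]
      exact TiltF.tphi_dead _ (pow_pos h.m0 _) (h.dead b y hy) x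

lemma ph_opB (h : TB Kb F S m ρ) (b : Bool) :
    OpB (ph Kb F S m b) ((m ^ 204) ^ 2 + m ^ 300 * m ^ 36) := by
  rw [ph_eq h]
  refine TiltF.tphi_opB _ (pow_pos h.m0 _) (pow_nonneg h.m0.le _) (pow_nonneg h.m0.le _)
    (GG_le h b) h.bad_symm ?_
  intro x hx
  exact h.row x fun b => GG_le h b x hx

/-! ### the tilt -/

lemma Theta_symm (h : TB Kb F S m ρ) (x y : ι) :
    Theta Kb F S m e x y = Theta Kb F S m e y x := by
  simp only [Theta]
  rw [ph_symm h true x y, ph_symm h false x y]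

lemma Theta_eq_zero (h : TB Kb F S m ρ) {x y : ι} (hxy : (x, y) ∉ S) :
    Theta Kb F S m e x y = 0 := by
  simp only [Theta]
  rw [ph_eq_zero h true hxy, ph_eq_zero h false hxy]
  ring

/-- the coefficients are 0 or 1 -/
def E01 (e : Bool → ℝ) : Prop := ∀ b, e b = 0 ∨ e b = 1

lemma E01.abs_le (he : E01 e) (b : Bool) : |e b| ≤ 1 := by
  rcases he b with h | h <;> rw [h] <;> simp

lemma abs_Theta_le (h : TB Kb F S m ρ) (he : E01 e) (x y : ι) :
    |Theta Kb F S m e x y| ≤ 2 / m ^ 2 := by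
  have hm := h.m0
  have h1 := TiltK.abs_comb_le (he.abs_le true) (he.abs_le false) (ph Kb F S m true x y)
    (ph Kb F S m false x y)
  have h2 := abs_ph_le h true x y
  have h3 := abs_ph_le h false x y
  have h4 : (0 : ℝ) ≤ 1 / m ^ 38 := by positivity
  simp only [Theta]
  rw [abs_mul, abs_of_nonneg h4]
  calc 1 / m ^ 38 * |e true * ph Kb F S m true x y - e false * ph Kb F S m false x y|
      ≤ 1 / m ^ 38 * (2 * m ^ 36) :=
        mul_le_mul_of_nonneg_left (by linarith) h4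
    _ = 2 / m ^ 2 := by
        have : m ^ 38 = m ^ 36 * m ^ 2 := by rw [← pow_add]
        rw [this]
        field_simp

lemma Theta_opB (h : TB Kb F S m ρ) (he : E01 e) : OpB (Theta Kb F S m e) (m ^ 371) := by
  have hm := h.m0
  have h1 : Theta Kb F S m e
      = (1 / m ^ 38) • (e true • ph Kb F S m true - e false • ph Kb F S m false) := by
    ext x y
    simp only [Theta, Matrix.smul_apply, Matrix.sub_apply, smul_eq_mul]
  have h2 := TiltK.OpB_sub (TiltK.OpB_smul (ph_opB h true) (e true))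
    (TiltK.OpB_smul (ph_opB h false) (e false))
  have h3 := TiltK.OpB_smul h2 (1 / m ^ 38)
  rw [h1]
  refine h3.mono ?_
  have h4 : (0 : ℝ) ≤ 1 / m ^ 38 := by positivity
  rw [abs_of_nonneg h4]
  have hA : 0 ≤ (m ^ 204) ^ 2 + m ^ 300 * m ^ 36 := by positivity
  have h5 : |e true| * ((m ^ 204) ^ 2 + m ^ 300 * m ^ 36)
      + |e false| * ((m ^ 204) ^ 2 + m ^ 300 * m ^ 36)
      ≤ 2 * ((m ^ 204) ^ 2 + m ^ 300 * m ^ 36) := by
    have := he.abs_le true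
    have := he.abs_le false
    nlinarith
  refine (mul_le_mul_of_nonneg_left h5 h4).trans ?_
  have h6 : (m ^ 204) ^ 2 + m ^ 300 * m ^ 36 = m ^ 408 + m ^ 336 := by ring
  rw [h6]
  have h7 : m ^ 336 ≤ m ^ 408 := pow_le_pow_right₀ h.m1 (by norm_num)
  have h8 : 2 * (m ^ 408 + m ^ 336) ≤ 4 * m ^ 408 := by linarith
  have h9 : 4 * m ^ 408 ≤ m ^ 409 := cpow h.m1 (by linarith [h.m_large]) (by norm_num)
  rw [div_mul_eq_mul_div, one_mul, div_le_iff₀ (by positivity)]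
  calc 2 * (m ^ 408 + m ^ 336) ≤ m ^ 409 := h8.trans h9
    _ = m ^ 371 * m ^ 38 := by rw [← pow_add]

lemma ph_frob_le (h : TB Kb F S m ρ) (b : Bool) :
    ∑ x, ∑ y, (ph Kb F S m b x y) ^ 2 ≤ (Kb b ^ 4).trace := by
  rw [ph_eq h]
  exact TiltF.tphi_frob_le _ (h.symm b) (pow_pos h.m0 _)

lemma Theta_frob (h : TB Kb F S m ρ) (he : E01 e) :
    ∑ x, ∑ y, (Theta Kb F S m e x y) ^ 2 ≤ 4 * m ^ 1927 / ρ := by
  have hm := h.m0
  have h1 : ∀ x y, (Theta Kb F S m e x y) ^ 2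
      ≤ (1 / m ^ 38) ^ 2 * (2 * ((ph Kb F S m true x y) ^ 2 + (ph Kb F S m false x y) ^ 2)) := by
    intro x y
    simp only [Theta]
    rw [mul_pow]
    exact mul_le_mul_of_nonneg_left
      (TiltK.comb_sq_le (he.abs_le true) (he.abs_le false) _ _) (sq_nonneg _)
  have h2 : ∑ x, ∑ y, (Theta Kb F S m e x y) ^ 2
      ≤ (1 / m ^ 38) ^ 2 * (2 * (∑ x, ∑ y, (ph Kb F S m true x y) ^ 2
        + ∑ x, ∑ y, (ph Kb F S m false x y) ^ 2)) := by
    refine (Finset.sum_le_sum fun x _ => Finset.sum_le_sum fun y _ => h1 x y).trans ?_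
    rw [← Finset.sum_add_distrib]
    simp only [← Finset.sum_add_distrib, ← Finset.mul_sum]
    exact le_refl _
  refine h2.trans ?_
  have h3 := (ph_frob_le h true).trans (h.X4 true)
  have h4 := (ph_frob_le h false).trans (h.X4 false)
  have h5 : (1 / m ^ 38) ^ 2 * (2 * (∑ x, ∑ y, (ph Kb F S m true x y) ^ 2
        + ∑ x, ∑ y, (ph Kb F S m false x y) ^ 2))
      ≤ (1 / m ^ 38) ^ 2 * (2 * (m ^ 2003 / ρ + m ^ 2003 / ρ)) :=
    mul_le_mul_of_nonneg_left (by linarith) (sq_nonneg _)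
  refine h5.trans (le_of_eq ?_)
  have hρ := h.rho_pos
  have h6 : m ^ 2003 = m ^ 1927 * (m ^ 38) ^ 2 := by rw [← pow_mul, ← pow_add]
  rw [h6]
  field_simp
  ring

lemma outside (h : TB Kb F S m ρ) :
    ∑ x ∈ (GG Kb m)ᶜ, ((Kb true ^ 2) x x + (Kb false ^ 2) x x) ≤ 16 * m ^ 574 := by
  have hm := h.m0
  have hB : (2 : ℝ) ≤ m ^ 36 := by
    calc (2 : ℝ) ≤ m := by linarith [h.m_large]
      _ = m ^ 1 := (pow_one m).symm
      _ ≤ m ^ 36 := pow_le_pow_right₀ h.m1 (by norm_num)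
  have h1 := TiltK.outside_mass_le_centred (K := Kb true) (L := Kb false) (h.symm true)
    (h.symm false) hB (fun x => if x ∈ F then 1 else 0)
    (fun x => by positivity) (fun x => by
      by_cases hx : x ∈ F
      · left; simp [hx]
      · right; exact ⟨h.dead true x hx, h.dead false x hx⟩)
  have h2 : ∀ b, ∑ x, (if x ∈ F then (1 : ℝ) else 0) * ((Kb b ^ 2) x x - 1) ^ 2
      = ∑ x ∈ F, ((Kb b ^ 2) x x - 1) ^ 2 := by
    intro b
    simp only [ite_mul, one_mul, zero_mul]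
    rw [Finset.sum_ite_mem, Finset.univ_inter]
  rw [h2 true, h2 false] at h1
  refine h1.trans ?_
  have h3 := h.W true
  have h4 := h.W false
  calc 8 / m ^ 36 * (∑ x ∈ F, ((Kb true ^ 2) x x - 1) ^ 2
        + ∑ x ∈ F, ((Kb false ^ 2) x x - 1) ^ 2)
      ≤ 8 / m ^ 36 * (m ^ 610 + m ^ 610) :=
        mul_le_mul_of_nonneg_left (by linarith) (by positivity)
    _ = 16 * m ^ 574 := by
        have : m ^ 610 = m ^ 574 * m ^ 36 := by rw [← pow_add]
        rw [this]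
        field_simp
        ring

lemma outside_b (h : TB Kb F S m ρ) (b : Bool) :
    ∑ x ∈ (GG Kb m)ᶜ, (Kb b ^ 2) x x ≤ 16 * m ^ 574 := by
  refine le_trans ?_ (outside h)
  refine Finset.sum_le_sum fun x _ => ?_
  have h1 := diag_sq_nonneg (h.symm true) x
  have h2 := diag_sq_nonneg (h.symm false) x
  cases b <;> linarith

/-- own gain of one sign -/
lemma own_ge (h : TB Kb F S m ρ) (b : Bool) :
    m ^ 1200 / 40 ≤ ∑ x, ∑ y, ph Kb F S m b x y * (Kb b ^ 2) x y := by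
  have hm := h.m0
  have hm1 := h.m1
  have hX4 := h.X4' b
  have hX4n : 0 ≤ (Kb b ^ 4).trace := by simpa using trace_even_nonneg (h.symm b) 2
  have hout := outside_b h b
  have hsq : Real.sqrt (∑ x ∈ (GG Kb m)ᶜ, (Kb b ^ 2) x x) * Real.sqrt ((Kb b ^ 4).trace)
      ≤ 4 * m ^ 889 := by
    rw [← Real.sqrt_mul (Finset.sum_nonneg fun x _ => diag_sq_nonneg (h.symm b) x)]
    rw [Real.sqrt_le_iff]
    refine ⟨by positivity, ?_⟩
    calc (∑ x ∈ (GG Kb m)ᶜ, (Kb b ^ 2) x x) * (Kb b ^ 4).trace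
        ≤ (16 * m ^ 574) * m ^ 1203 := mul_le_mul hout hX4 hX4n (by positivity)
      _ = 16 * m ^ 1777 := by ring
      _ ≤ 16 * m ^ 1778 := mul_le_mul_of_nonneg_left
        (pow_le_pow_right₀ hm1 (by norm_num)) (by norm_num)
      _ = (4 * m ^ 889) ^ 2 := by ring
  have hg : m ^ 1000 / 4 ≤ (Kb b ^ 3).trace - (Kb b ^ 4).trace / (2 * m ^ 204)
      - 2 * (Real.sqrt (∑ x ∈ (GG Kb m)ᶜ, (Kb b ^ 2) x x) * Real.sqrt ((Kb b ^ 4).trace)) := by
    have h3 := h.X3 b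
    have h4 : (Kb b ^ 4).trace / (2 * m ^ 204) ≤ m ^ 999 / 2 := by
      rw [div_le_div_iff₀ (by positivity) (by positivity)]
      calc (Kb b ^ 4).trace * 2 ≤ m ^ 1203 * 2 := by linarith
        _ = m ^ 999 * (2 * m ^ 204) := by ring
    have h5 : 16 * m ^ 999 ≤ m ^ 1000 := cpow hm1 (by linarith [h.m_large]) (by norm_num)
    have h6 : 80 * m ^ 889 ≤ m ^ 1000 := cpow hm1 (by linarith [h.m_large]) (by norm_num)
    have h7 : 0 ≤ m ^ 1000 := by positivity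
    linarith
  have h1 := TiltF.tphi_gain (Tilt.eigOf (h.symm b)) (G := GG Kb m) (Bad := (F ×ˢ F) \ S)
    (h.symm b) (pow_pos hm 204) (B := m ^ 36) (Nb := 2 * m ^ 801) (g := m ^ 1000 / 4)
    (X2 := 2 * m ^ 800) (by positivity) (GG_le h b) h.nbad' (by positivity) (by positivity)
    (h.X2' b) hg
  rw [← ph_eq h b] at h1
  refine le_trans ?_ h1
  have h7 : (m ^ 1000 / 4) ^ 2 / (2 * m ^ 800) = m ^ 1200 / 32 := by
    have : (m ^ 1000) ^ 2 = m ^ 1200 * m ^ 800 := by rw [← pow_mul, ← pow_add]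
    rw [div_pow, this]
    field_simp
    norm_num
  have h8 : 2 * m ^ 801 * (m ^ 36) ^ 2 = 2 * m ^ 873 := by ring
  rw [h7, h8]
  have h9 : 1000 * m ^ 873 ≤ m ^ 1200 := cpow hm1 (by linarith [h.m_large]) (by norm_num)
  have h10 : 0 ≤ m ^ 1200 := by positivity
  linarith

/-- cross term, upper bound -/
lemma cross_le (h : TB Kb F S m ρ) (b : Bool) :
    ∑ x, ∑ y, ph Kb F S m (!b) x y * (Kb b ^ 2) x y ≤ m ^ 1149 := by
  have hm := h.m0
  have hm1 := h.m1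
  have h1 := TiltF.tphi_cross_le (Tilt.eigOf (h.symm (!b))) (ν := m ^ 204) (G := GG Kb m)
    (Bad := (F ×ˢ F) \ S) (h.symm (!b)) (h.symm b) (pow_pos hm 204) (B := m ^ 36)
    (Nb := 2 * m ^ 801) (by positivity) (GG_le h (!b)) (GG_le h b) h.nbad'
  rw [← ph_eq h (!b)] at h1
  refine h1.trans ?_
  have hM : ∑ x, ∑ y, (Kb b ^ 2) x y * (Kb (!b) ^ 2) x y ≤ m ^ 1010 := by
    cases b
    · refine le_trans (le_of_eq ?_) h.M22
      exact Finset.sum_congr rfl fun x _ => Finset.sum_congr rfl fun y _ => mul_comm _ _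
    · exact h.M22
  have hp : (∑ z ∈ (GG Kb m)ᶜ, (Kb b ^ 2) z z) * ∑ z ∈ (GG Kb m)ᶜ, (Kb (!b) ^ 2) z z
      ≤ (16 * m ^ 574) * (16 * m ^ 574) :=
    mul_le_mul (outside_b h b) (outside_b h (!b))
      (Finset.sum_nonneg fun x _ => diag_sq_nonneg (h.symm (!b)) x) (by positivity)
  have e1 : (16 * m ^ 574) * (16 * m ^ 574) = 256 * m ^ 1148 := by ring
  have e2 : 2 * m ^ 801 * (m ^ 36) ^ 2 = 2 * m ^ 873 := by ring
  rw [e1] at hp
  rw [e2]
  have h2 : 1000 * m ^ 1148 ≤ m ^ 1149 := cpow hm1 (by linarith [h.m_large]) (by norm_num)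
  have h3 : 100 * m ^ 1010 ≤ m ^ 1149 := cpow hm1 (by linarith [h.m_large]) (by norm_num)
  have h4 : 100 * m ^ 873 ≤ m ^ 1149 := cpow hm1 (by linarith [h.m_large]) (by norm_num)
  have h5 : 0 ≤ m ^ 1149 := by positivity
  linarith

/-- cross term, lower bound -/
lemma cross_ge (h : TB Kb F S m ρ) (b : Bool) :
    - (2 * m ^ 873) ≤ ∑ x, ∑ y, ph Kb F S m (!b) x y * (Kb b ^ 2) x y := by
  have hm := h.m0
  have h1 := TiltF.tphi_cross_ge (Tilt.eigOf (h.symm (!b))) (ν := m ^ 204) (G := GG Kb m)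
    (Bad := (F ×ˢ F) \ S) (h.symm b) (pow_pos hm 204) (B := m ^ 36)
    (Nb := 2 * m ^ 801) (by positivity) (GG_le h (!b)) (GG_le h b) h.nbad'
  rw [← ph_eq h (!b)] at h1
  have e2 : 2 * m ^ 801 * (m ^ 36) ^ 2 = 2 * m ^ 873 := by ring
  rw [e2] at h1
  exact h1

lemma sum_Theta (b : Bool) :
    sb b * ∑ x, ∑ y, Theta Kb F S m e x y * (Kb b ^ 2) x y
      = 1 / m ^ 38 * (e b * ∑ x, ∑ y, ph Kb F S m b x y * (Kb b ^ 2) x y
        - e (!b) * ∑ x, ∑ y, ph Kb F S m (!b) x y * (Kb b ^ 2) x y) := by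
  have h1 : ∑ x, ∑ y, Theta Kb F S m e x y * (Kb b ^ 2) x y
      = 1 / m ^ 38 * (e true * ∑ x, ∑ y, ph Kb F S m true x y * (Kb b ^ 2) x y
        - e false * ∑ x, ∑ y, ph Kb F S m false x y * (Kb b ^ 2) x y) := by
    simp only [Theta, Finset.mul_sum, mul_sub, ← Finset.sum_sub_distrib]
    exact Finset.sum_congr rfl fun x _ => Finset.sum_congr rfl fun y _ => by ring
  rw [h1]
  cases b
  · simp only [sb, Bool.not_false]
    norm_num
    ring
  · simp only [sb, Bool.not_true]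
    norm_num

/-- GAIN: if the tilt of sign `b` is on -/
theorem gain (h : TB Kb F S m ρ) (he : E01 e) (b : Bool) (hb : e b = 1) :
    m ^ 1162 / 32 ≤ 2 * (sb b * ∑ x, ∑ y, Theta Kb F S m e x y * (Kb b ^ 2) x y) := by
  have hm := h.m0
  rw [sum_Theta, hb]
  have h1 := own_ge h b
  have h2 := cross_le h b
  have h3 : e (!b) * ∑ x, ∑ y, ph Kb F S m (!b) x y * (Kb b ^ 2) x y ≤ m ^ 1149 := by
    rcases he (!b) with h0 | h0 <;> rw [h0]
    · rw [zero_mul]; positivity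
    · rw [one_mul]; exact h2
  have h4 : 1000 * m ^ 1149 ≤ m ^ 1200 := cpow h.m1 (by linarith [h.m_large]) (by norm_num)
  have h5 : m ^ 1200 / 64 ≤ 1 * ∑ x, ∑ y, ph Kb F S m b x y * (Kb b ^ 2) x y
      - e (!b) * ∑ x, ∑ y, ph Kb F S m (!b) x y * (Kb b ^ 2) x y := by
    have : (0 : ℝ) ≤ m ^ 1200 := by positivity
    linarith
  have h6 : 2 * (1 / m ^ 38 * (m ^ 1200 / 64)) = m ^ 1162 / 32 := by
    have : m ^ 1200 = m ^ 1162 * m ^ 38 := by rw [← pow_add]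
    rw [this]
    field_simp
    norm_num
  rw [← h6]
  have h7 : (0 : ℝ) ≤ 1 / m ^ 38 := by positivity
  have := mul_le_mul_of_nonneg_left h5 h7
  linarith

/-- CROSS, upper: if the tilt of sign `b` is off -/
theorem off_le (h : TB Kb F S m ρ) (he : E01 e) (b : Bool) (hb : e b = 0) :
    2 * (sb b * ∑ x, ∑ y, Theta Kb F S m e x y * (Kb b ^ 2) x y) ≤ m ^ 836 := by
  have hm := h.m0
  rw [sum_Theta, hb]
  have h2 := cross_ge h b
  have h3 : 0 * ∑ x, ∑ y, ph Kb F S m b x y * (Kb b ^ 2) x y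
      - e (!b) * ∑ x, ∑ y, ph Kb F S m (!b) x y * (Kb b ^ 2) x y ≤ 2 * m ^ 873 := by
    rcases he (!b) with h0 | h0 <;> rw [h0]
    · have : (0 : ℝ) ≤ 2 * m ^ 873 := by positivity
      linarith
    · linarith
  have h7 : (0 : ℝ) ≤ 1 / m ^ 38 := by positivity
  have h8 := mul_le_mul_of_nonneg_left h3 h7
  have h6 : 2 * (1 / m ^ 38 * (2 * m ^ 873)) = 4 * m ^ 835 := by
    have : m ^ 873 = m ^ 835 * m ^ 38 := by rw [← pow_add]
    rw [this]
    field_simp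
    norm_num
  have h9 : 4 * m ^ 835 ≤ m ^ 836 := cpow h.m1 (by linarith [h.m_large]) (by norm_num)
  linarith

/-- CROSS, lower: if the tilt of sign `b` is off -/
theorem off_ge (h : TB Kb F S m ρ) (he : E01 e) (b : Bool) (hb : e b = 0) :
    - m ^ 1112 ≤ 2 * (sb b * ∑ x, ∑ y, Theta Kb F S m e x y * (Kb b ^ 2) x y) := by
  have hm := h.m0
  rw [sum_Theta, hb]
  have h2 := cross_le h b
  have h3 : - m ^ 1149 ≤ 0 * ∑ x, ∑ y, ph Kb F S m b x y * (Kb b ^ 2) x y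
      - e (!b) * ∑ x, ∑ y, ph Kb F S m (!b) x y * (Kb b ^ 2) x y := by
    rcases he (!b) with h0 | h0 <;> rw [h0]
    · have : (0 : ℝ) ≤ m ^ 1149 := by positivity
      linarith
    · linarith
  have h7 : (0 : ℝ) ≤ 1 / m ^ 38 := by positivity
  have h8 := mul_le_mul_of_nonneg_left h3 h7
  have h6 : 2 * (1 / m ^ 38 * (- m ^ 1149)) = - (2 * m ^ 1111) := by
    have : m ^ 1149 = m ^ 1111 * m ^ 38 := by rw [← pow_add]
    rw [this]
    field_simp
  have h9 : 2 * m ^ 1111 ≤ m ^ 1112 := cpow h.m1 (by linarith [h.m_large]) (by norm_num)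
  linarith

end Facts

end Crest.Agent.R62.TiltSt
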