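import Crest.Agent.R62.StepDefs
import Crest.Agent.R62.TiltSt

/-!
R62 (helper110): existence of the tilt of stage 1, `Step.ExTilt`.
-/

set_option autoImplicit false
set_option linter.unusedSectionVars false
set_option linter.unusedVariables false

open scoped Matrix BigOperators

namespace Crest.Agent.R62.ExTilt

open Crest.Agent.R62 Crest.Agent.R62.Step Crest.Agent.R62.AvBase Crest.Agent.R62.AvX1
open Crest.Agent.R062

variable {ι : Type} [Fintype ι] [DecidableEq ι]

lemma prm_m {d n m : ℕ} (h : Prm d n m) : (10 : ℝ) ^ 10 ≤ m ∧ 100 * (d : ℝ) ^ 2 ≤ m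
    ∧ ((d : ℝ) + 1) * d ≤ m := by
  have hd : (3 : ℝ) ≤ d := by exact_mod_cast h.hd
  have h1 : (1 : ℝ) ≤ d := by linarith
  have hm := h.hm
  have h2 : (d : ℝ) ^ 2 ≤ (d : ℝ) ^ 10 := pow_le_pow_right₀ h1 (by norm_num)
  have h3 : (1 : ℝ) ≤ (d : ℝ) ^ 10 := one_le_pow₀ h1
  have h4 : (d : ℝ) ≤ (d : ℝ) ^ 2 := by nlinarith
  refine ⟨by nlinarith, by nlinarith, by nlinarith⟩

lemma sg_eq (b : Bool) : (Mach.sg b : ℝ) = TiltSt.sb b := rfl

lemma diag_sq_le {K : Matrix ι ι ℝ} (hK : Kᵀ = K) (x : ι) : K x x ^ 2 ≤ (K ^ 2) x x := by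
  rw [← TiltK.row_sq hK]
  exact Finset.single_le_sum (f := fun y => K x y ^ 2) (fun y _ => sq_nonneg _)
    (Finset.mem_univ x)

lemma dead_sq {K : Matrix ι ι ℝ} {i : ι} (h : ∀ j, K i j = 0) : (K ^ 2) i i = 0 := by
  rw [pow_two, Matrix.mul_apply]
  exact Finset.sum_eq_zero fun j _ => by rw [h j, zero_mul]

lemma sum_S {S : Finset (ι × ι)} {Θ : ι → ι → ℝ} (h : ∀ x y, (x, y) ∉ S → Θ x y = 0)
    (M : Matrix ι ι ℝ) :
    ∑ p ∈ S, Θ p.1 p.2 * M p.1 p.2 = ∑ x, ∑ y, Θ x y * M x y := by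
  rw [← Finset.sum_product', Finset.univ_product_univ]
  refine Finset.sum_subset (Finset.subset_univ _) fun p _ hp => ?_
  rw [h p.1 p.2 hp, zero_mul]

/-- the numeric hypotheses hold inside the window -/
theorem tb {d n m : ℕ} {γ : ℝ} {F : Finset ι} {K : Bool → Matrix ι ι ℝ} {S : Finset (ι × ι)}
    (hP : Prm d n m) (hC : Ctx d m γ F K S) (hB : Box1 d n m F K)
    (hρ : (F.card : ℝ) ≤ 2 * (m : ℝ) ^ 800) : TiltSt.TB K F S m F.card := by
  obtain ⟨hm1, hm2, hm3⟩ := prm_m hP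
  have hm : (1 : ℝ) ≤ m := by linarith
  have hm0 : (0 : ℝ) < m := by linarith
  have hρ0 : (0 : ℝ) < F.card := lt_of_lt_of_le (by positivity) hB.rho_ge
  have hsym : ∀ b, (K b)ᵀ = K b := fun b => hC.symm b
  have hX4 : ∀ b, (K b ^ 4).trace ≤ (m : ℝ) ^ 2003 / F.card := fun b => by
    rw [le_div_iff₀ hρ0]; exact hB.X4u b
  have hX4' : ∀ b, (K b ^ 4).trace ≤ (m : ℝ) ^ 1203 := fun b => by
    refine (hX4 b).trans ?_
    rw [div_le_iff₀ hρ0]
    calc (m : ℝ) ^ 2003 = (m : ℝ) ^ 1203 * (m : ℝ) ^ 800 := by rw [← pow_add]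
      _ ≤ (m : ℝ) ^ 1203 * F.card :=
        mul_le_mul_of_nonneg_left (by linarith [hB.rho_ge]) (by positivity)
  refine ⟨by linarith, by linarith [hB.rho_ge], hρ, hsym, ?_, hC.symS, ?_, ?_, hX4, hB.Wu,
    ?_, ?_, ?_⟩
  · intro b i hi
    exact dead_sq fun j => hC.dead b i j hi
  · intro b
    have h1 := hB.X2u b
    have h2 : 0 ≤ r1 d n m := by unfold r1; positivity
    linarith
  · intro b
    have h1 := hB.X3l b
    have h2 := hP.hn1
    have h3 : (0 : ℝ) ≤ (m : ℝ) ^ 1000 := by positivity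
    linarith
  · refine le_trans (le_of_eq ?_) hB.Mu
    simp only [Mf, Matrix.trace, Matrix.diag_apply, Matrix.mul_apply]
    refine Finset.sum_congr rfl fun x _ => Finset.sum_congr rfl fun y _ => ?_
    rw [pow_apply_comm (hsym false) 2 x y]
  · refine hC.bad.trans ?_
    exact mul_le_mul_of_nonneg_right hm2 hρ0.le
  · intro x hx
    by_cases hxF : x ∈ F
    · have h1 : (Finset.univ.filter (fun y => (x, y) ∈ (F ×ˢ F) \ S))
          = F.filter fun y => (x, y) ∉ S := by
        ext y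
        simp [hxF]
      rw [h1]
      refine (hC.badrow x hxF).trans ?_
      have hb : ∀ b : Bool, (25 * (K b ^ 2) x x + 100 * (K b x x ^ 2 * Vf (K b))
          + (K b ^ 4) x x / (m : ℝ) ^ 500 + K b x x ^ 2 * Wf F (K b) / (m : ℝ) ^ 400
          + ((K b ^ 2) x x - 1) ^ 2 * Vf (K b) / (m : ℝ) ^ 400)
          ≤ (m : ℝ) ^ 299 := by
        intro b
        have q0 := diag_sq_nonneg (hsym b) x
        have q1 := hx b
        have k1 := (diag_sq_le (hsym b) x).trans q1
        have v0 := Vf_nonneg (K b)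
        have v1 : Vf (K b) ≤ (m : ℝ) ^ 10 :=
          (hB.Vu b).trans (pow_le_pow_right₀ hm (by norm_num))
        have w0 := Wf_nonneg F (K b)
        have w1 := hB.Wu b
        have hop : OpB (K b) ((m : ℝ) ^ 301) := by
          refine opB_of_trace_four (hsym b) (by positivity) ((hX4' b).trans ?_)
          rw [← pow_mul]
          exact pow_le_pow_right₀ hm (by norm_num)
        have h4 := diag_even_le (hsym b) hop 1 1 x
        simp only [mul_one, Nat.reduceAdd, Nat.reduceMul] at h4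
        have h4' : (K b ^ 4) x x ≤ (m : ℝ) ^ 638 := by
          calc (K b ^ 4) x x ≤ ((m : ℝ) ^ 301) ^ 2 * (K b ^ 2) x x := h4
            _ ≤ ((m : ℝ) ^ 301) ^ 2 * (m : ℝ) ^ 36 :=
              mul_le_mul_of_nonneg_left q1 (by positivity)
            _ = (m : ℝ) ^ 638 := by rw [← pow_mul, ← pow_add]
        have t1 : 25 * (K b ^ 2) x x ≤ 25 * (m : ℝ) ^ 36 := by linarith
        have t2 : 100 * (K b x x ^ 2 * Vf (K b)) ≤ 100 * (m : ℝ) ^ 46 := by
          have : K b x x ^ 2 * Vf (K b) ≤ (m : ℝ) ^ 36 * (m : ℝ) ^ 10 :=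
            mul_le_mul k1 v1 v0 (by positivity)
          have e46 : (m : ℝ) ^ 36 * (m : ℝ) ^ 10 = (m : ℝ) ^ 46 := by rw [← pow_add]
          rw [e46] at this
          linarith
        have t3 : (K b ^ 4) x x / (m : ℝ) ^ 500 ≤ (m : ℝ) ^ 138 := by
          rw [div_le_iff₀ (by positivity), ← pow_add]
          exact h4'
        have t4 : K b x x ^ 2 * Wf F (K b) / (m : ℝ) ^ 400 ≤ (m : ℝ) ^ 246 := by
          rw [div_le_iff₀ (by positivity), ← pow_add]
          calc K b x x ^ 2 * Wf F (K b) ≤ (m : ℝ) ^ 36 * (m : ℝ) ^ 610 :=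
                mul_le_mul k1 w1 w0 (by positivity)
            _ = (m : ℝ) ^ 646 := by rw [← pow_add]
        have t5 : ((K b ^ 2) x x - 1) ^ 2 * Vf (K b) / (m : ℝ) ^ 400 ≤ 1 := by
          rw [div_le_iff₀ (by positivity), one_mul]
          have hq : ((K b ^ 2) x x - 1) ^ 2 ≤ ((m : ℝ) ^ 36) ^ 2 := by
            have h36 : (1 : ℝ) ≤ (m : ℝ) ^ 36 := one_le_pow₀ hm
            apply sq_le_sq'
            · linarith
            · linarith
          calc ((K b ^ 2) x x - 1) ^ 2 * Vf (K b) ≤ ((m : ℝ) ^ 36) ^ 2 * (m : ℝ) ^ 10 :=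
                mul_le_mul hq v1 v0 (by positivity)
            _ = (m : ℝ) ^ 82 := by rw [← pow_mul, ← pow_add]
            _ ≤ (m : ℝ) ^ 400 := pow_le_pow_right₀ hm (by norm_num)
        have c1 : 100 * (m : ℝ) ^ 36 ≤ (m : ℝ) ^ 298 :=
          TiltSt.cpow hm (by linarith) (by norm_num)
        have c2 : 100 * (m : ℝ) ^ 46 ≤ (m : ℝ) ^ 298 :=
          TiltSt.cpow hm (by linarith) (by norm_num)
        have c3 : (m : ℝ) ^ 138 ≤ (m : ℝ) ^ 298 := pow_le_pow_right₀ hm (by norm_num)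
        have c4 : (m : ℝ) ^ 246 ≤ (m : ℝ) ^ 298 := pow_le_pow_right₀ hm (by norm_num)
        have c5 : (1 : ℝ) ≤ (m : ℝ) ^ 298 := one_le_pow₀ hm
        have c6 : 100 * (m : ℝ) ^ 298 ≤ (m : ℝ) ^ 299 :=
          TiltSt.cpow hm (by linarith) (by norm_num)
        have c7 : (0 : ℝ) ≤ (m : ℝ) ^ 36 := by positivity
        linarith
      have h2 := Finset.sum_le_sum (fun b (_ : b ∈ (Finset.univ : Finset Bool)) => hb b)
      have h3 : ∑ b : Bool, (m : ℝ) ^ 299 = 2 * (m : ℝ) ^ 299 := by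
        rw [Finset.sum_const, Finset.card_univ, Fintype.card_bool, nsmul_eq_mul]
        norm_num
      rw [h3] at h2
      have h4 : (m : ℝ) ≤ (m : ℝ) ^ 299 := by
        calc (m : ℝ) = (m : ℝ) ^ 1 := (pow_one _).symm
          _ ≤ (m : ℝ) ^ 299 := pow_le_pow_right₀ hm (by norm_num)
      have h5 : 10 * (m : ℝ) ^ 299 ≤ (m : ℝ) ^ 300 :=
        TiltSt.cpow hm (by linarith) (by norm_num)
      have h6 : (0 : ℝ) ≤ (m : ℝ) ^ 299 := by positivity
      linarith
    · have h1 : (Finset.univ.filter (fun y => (x, y) ∈ (F ×ˢ F) \ S)) = ∅ := by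
        ext y
        simp [hxF]
      rw [h1, Finset.card_empty, Nat.cast_zero]
      positivity

open Classical in
/-- which signs are tilted -/
noncomputable def onoff (m : ℕ) (F : Finset ι) (K : Bool → Matrix ι ι ℝ) (b : Bool) : ℝ :=
  if U m F.card < (K b).trace then 1 else 0

theorem exTilt : ExTilt ι := by
  intro d n m γ F K S hP hC hB
  obtain ⟨hm1, hm2, hm3⟩ := prm_m hP
  have hm : (1 : ℝ) ≤ m := by linarith
  have hm0 : (0 : ℝ) < m := by linarith
  by_cases hρ : (F.card : ℝ) ≤ 2 * (m : ℝ) ^ 800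
  · have hT := tb hP hC hB hρ
    have he : TiltSt.E01 (onoff m F K) := by
      intro b
      unfold onoff
      split_ifs
      · right; rfl
      · left; rfl
    refine ⟨TiltSt.Theta K F S m (onoff m F K), ?_, ?_, ?_, ?_, ?_, ?_, ?_, ?_⟩
    · exact TiltSt.Theta_symm hT
    · intro x y hxy
      exact TiltSt.Theta_eq_zero hT hxy
    · intro x y
      refine (TiltSt.abs_Theta_le hT he x y).trans ?_
      rw [div_le_div_iff₀ (by positivity) hm0]
      nlinarith
    · exact TiltSt.Theta_opB hT he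
    · have h1 := TiltSt.Theta_frob hT he
      have hρ0 := hT.rho_pos
      have h2 : (∑ x, ∑ y, TiltSt.Theta K F S m (onoff m F K) x y ^ 2) * F.card
          ≤ 4 * (m : ℝ) ^ 1927 := by
        rw [le_div_iff₀ hρ0] at h1
        exact h1
      exact h2.trans (TiltSt.cpow hm (by linarith) (by norm_num))
    · intro h; exact absurd hρ (not_le.mpr h)
    · intro b _ hb
      have hon : onoff m F K b = 1 := by unfold onoff; rw [if_pos hb]
      have h1 := TiltSt.gain hT he b hon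
      rw [sum_S (fun x y hxy => TiltSt.Theta_eq_zero hT hxy), sg_eq, mul_assoc]
      refine le_trans ?_ h1
      have h2 : (512 : ℝ) * (m : ℝ) ^ 1161 ≤ (m : ℝ) ^ 1162 :=
        TiltSt.cpow hm (by linarith) (by norm_num)
      linarith
    · intro b hb
      have hoff : onoff m F K b = 0 := by unfold onoff; rw [if_neg (not_lt.mpr hb)]
      have h1 := TiltSt.off_le hT he b hoff
      rw [sum_S (fun x y hxy => TiltSt.Theta_eq_zero hT hxy), sg_eq, mul_assoc]
      exact h1.trans (pow_le_pow_right₀ hm (by norm_num))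
  · refine ⟨fun _ _ => 0, ?_, ?_, ?_, ?_, ?_, ?_, ?_, ?_⟩
    · intro x y; rfl
    · intro x y _; rfl
    · intro x y; rw [abs_zero]; positivity
    · refine ⟨by positivity, fun v => ?_⟩
      have h0 : (Matrix.of fun (_ _ : ι) => (0 : ℝ)) = 0 := by ext; rfl
      rw [h0, Matrix.zero_mulVec, zero_dotProduct]
      exact mul_nonneg (by positivity) (dot_self_nonneg v)
    · simp
    · intro _ x y; rfl
    · intro b h; exact absurd h hρ
    · intro b _
      simp

end Crest.Agent.R62.ExTilt
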