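import Mathlib

/-!
R62: calculus of powers of `m` (helper704).

* `E m a = m ^ a` (real exponent), algebra lemmas;
* `O m C a z : 0 ≤ z ∧ z ≤ C * E m a`, closed under `+`, `*`, `^ k`, `√`, `/`;
* macro `expo` : proves `z ≤ E m b` from O-bounds.
-/

set_option autoImplicit false

namespace Crest.Agent.R62.Expo

/-- real power of `m`. -/
noncomputable def E (m a : ℝ) : ℝ := m ^ a

variable {m : ℝ}

lemma E_pos (hm : 0 < m) (a : ℝ) : 0 < E m a := Real.rpow_pos_of_pos hm a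
lemma E_nonneg (hm : 0 < m) (a : ℝ) : 0 ≤ E m a := (E_pos hm a).le
lemma E_zero (m : ℝ) : E m 0 = 1 := Real.rpow_zero m
lemma E_one (m : ℝ) : E m 1 = m := Real.rpow_one m
lemma E_natCast (m : ℝ) (k : ℕ) : E m (k : ℝ) = m ^ k := Real.rpow_natCast m k
lemma natPow_eq (m : ℝ) (k : ℕ) : m ^ k = E m (k : ℝ) := (Real.rpow_natCast m k).symm
lemma E_ofNat (m : ℝ) (k : ℕ) [k.AtLeastTwo] : E m (OfNat.ofNat k) = m ^ (OfNat.ofNat k : ℕ) := by
  have := E_natCast m (OfNat.ofNat k)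
  simpa using this
lemma E_mul (hm : 0 < m) (a b : ℝ) : E m a * E m b = E m (a + b) := (Real.rpow_add hm a b).symm
lemma E_add (hm : 0 < m) (a b : ℝ) : E m (a + b) = E m a * E m b := Real.rpow_add hm a b
lemma E_neg (hm : 0 < m) (a : ℝ) : E m (-a) = (E m a)⁻¹ := Real.rpow_neg hm.le a
lemma E_inv (hm : 0 < m) (a : ℝ) : (E m a)⁻¹ = E m (-a) := (E_neg hm a).symm
lemma E_div (hm : 0 < m) (a b : ℝ) : E m a / E m b = E m (a - b) := (Real.rpow_sub hm a b).symm
lemma E_sub (hm : 0 < m) (a b : ℝ) : E m (a - b) = E m a / E m b := Real.rpow_sub hm a b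
lemma E_pow (hm : 0 < m) (a : ℝ) (k : ℕ) : (E m a) ^ k = E m (a * k) := by
  unfold E; rw [Real.rpow_mul hm.le, Real.rpow_natCast]
lemma E_sq (hm : 0 < m) (a : ℝ) : (E m a) ^ 2 = E m (2 * a) := by
  rw [E_pow hm]; congr 1; push_cast; ring
lemma E_sqrt (hm : 0 < m) (a : ℝ) : √(E m a) = E m (a / 2) := by
  rw [Real.sqrt_eq_rpow]; unfold E; rw [← Real.rpow_mul hm.le]; congr 1; ring
lemma E_rpow (hm : 0 < m) (a b : ℝ) : (E m a) ^ b = E m (a * b) := by
  unfold E; rw [Real.rpow_mul hm.le]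
lemma E_mono (hm : 1 ≤ m) {a b : ℝ} (h : a ≤ b) : E m a ≤ E m b :=
  Real.rpow_le_rpow_of_exponent_le hm h
lemma E_le_one (hm : 1 ≤ m) {a : ℝ} (h : a ≤ 0) : E m a ≤ 1 := by
  rw [← E_zero m]; exact E_mono hm h
lemma one_le_E (hm : 1 ≤ m) {a : ℝ} (h : 0 ≤ a) : 1 ≤ E m a := by
  rw [← E_zero m]; exact E_mono hm h
lemma E_mono_base {m' : ℝ} (hm : 0 < m) (h : m ≤ m') {a : ℝ} (ha : 0 ≤ a) : E m a ≤ E m' a :=
  Real.rpow_le_rpow hm.le h ha

/-- The exponent of a positive number in base `m`. -/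
noncomputable def ex (m ρ : ℝ) : ℝ := Real.log ρ / Real.log m

lemma E_ex (hm : 1 < m) {ρ : ℝ} (hρ : 0 < ρ) : E m (ex m ρ) = ρ := by
  have h0 : 0 < m := lt_trans one_pos hm
  have hl : Real.log m ≠ 0 := (Real.log_pos hm).ne'
  unfold E ex
  rw [Real.rpow_def_of_pos h0, mul_div_cancel₀ _ hl, Real.exp_log hρ]

lemma E_le_iff (hm : 1 < m) {a b : ℝ} : E m a ≤ E m b ↔ a ≤ b := Real.rpow_le_rpow_left_iff hm

lemma le_ex (hm : 1 < m) {ρ a : ℝ} (hρ : 0 < ρ) (h : E m a ≤ ρ) : a ≤ ex m ρ := by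
  rw [← E_ex hm hρ] at h; exact (E_le_iff hm).1 h
lemma ex_le (hm : 1 < m) {ρ a : ℝ} (hρ : 0 < ρ) (h : ρ ≤ E m a) : ex m ρ ≤ a := by
  rw [← E_ex hm hρ] at h; exact (E_le_iff hm).1 h

/-- `c ≤ m^ε` for large `m`. -/
lemma ev_const (c ε : ℝ) (hε : 0 < ε) : ∃ m0 : ℝ, 1 ≤ m0 ∧ ∀ m, m0 ≤ m → c ≤ E m ε := by
  refine ⟨(max c 1) ^ (1 / ε), Real.one_le_rpow (le_max_right _ _) (by positivity), fun m hm => ?_⟩
  have h1 : (0 : ℝ) < max c 1 := lt_of_lt_of_le one_pos (le_max_right _ _)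
  have h2 : ((max c 1) ^ (1 / ε)) ^ ε ≤ m ^ ε :=
    Real.rpow_le_rpow (by positivity) hm hε.le
  rw [← Real.rpow_mul h1.le, one_div_mul_cancel hε.ne', Real.rpow_one] at h2
  exact le_trans (le_max_left _ _) h2

/-- `ρ = m^x` with `x` in a slightly larger window. -/
lemma ev_window (c0 C0 A B ε : ℝ) (hc0 : 0 < c0) (hε : 0 < ε) :
    ∃ m0 : ℝ, 1 < m0 ∧ ∀ m, m0 ≤ m → ∀ ρ : ℝ, c0 * E m A ≤ ρ → ρ ≤ C0 * E m B →
      ∃ x, ρ = E m x ∧ A - ε ≤ x ∧ x ≤ B + ε := by
  obtain ⟨m1, h1, H1⟩ := ev_const c0⁻¹ ε hε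
  obtain ⟨m2, h2, H2⟩ := ev_const C0 ε hε
  refine ⟨max (max m1 m2) 2, lt_of_lt_of_le one_lt_two (le_max_right _ _), ?_⟩
  intro m hm ρ hl hu
  have hm2 : (2 : ℝ) ≤ m := le_trans (le_max_right _ _) hm
  have hm1 : 1 < m := by linarith
  have h0 : 0 < m := by linarith
  have hρ : 0 < ρ := lt_of_lt_of_le (mul_pos hc0 (E_pos h0 A)) hl
  refine ⟨ex m ρ, (E_ex hm1 hρ).symm, ?_, ?_⟩
  · apply le_ex hm1 hρ
    refine le_trans ?_ hl
    rw [E_sub h0, div_le_iff₀ (E_pos h0 ε)]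
    have := H1 m (le_trans (le_trans (le_max_left _ _) (le_max_left _ _)) hm)
    have hA := (E_pos h0 A).le
    have h3 : 1 ≤ c0 * E m ε := by
      rw [inv_le_iff_one_le_mul₀ hc0] at this
      linarith
    nlinarith
  · apply ex_le hm1 hρ
    refine le_trans hu ?_
    rw [E_add h0, mul_comm]
    have := H2 m (le_trans (le_trans (le_max_right _ _) (le_max_left _ _)) hm)
    exact mul_le_mul_of_nonneg_left this (E_pos h0 B).le

/-! ### O-calculus with explicit constants -/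

/-- `0 ≤ z ≤ C m^a`. -/
def O (m C a z : ℝ) : Prop := 0 ≤ z ∧ z ≤ C * E m a

lemma O.nonneg {C a z : ℝ} (h : O m C a z) : 0 ≤ z := h.1
lemma O.le {C a z : ℝ} (h : O m C a z) : z ≤ C * E m a := h.2

lemma O.of_le {a z : ℝ} (h0 : 0 ≤ z) (h : z ≤ E m a) : O m 1 a z := ⟨h0, by simpa using h⟩
lemma O.of_abs_le {a z : ℝ} (h : |z| ≤ E m a) : O m 1 a |z| := ⟨abs_nonneg _, by simpa using h⟩

lemma O.E (hm : 0 < m) (a : ℝ) : O m 1 a (E m a) := ⟨(E_pos hm a).le, by simp⟩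

lemma O.const {c : ℝ} (hc : 0 ≤ c) : O m c 0 c := ⟨hc, by simp [E_zero]⟩
lemma O.self (hm : 0 < m) : O m 1 1 m := ⟨hm.le, by simp [E_one]⟩
lemma O.zero : O m 0 0 0 := ⟨le_refl _, by simp⟩
lemma O.one : O m 1 0 1 := ⟨zero_le_one, by simp [E_zero]⟩

lemma O.ofNat (k : ℕ) [k.AtLeastTwo] : O m (OfNat.ofNat k) 0 (OfNat.ofNat k) :=
  O.const (Nat.ofNat_nonneg k)

lemma O.mono_z {C a z z' : ℝ} (h : O m C a z') (h0 : 0 ≤ z) (hz : z ≤ z') : O m C a z :=
  ⟨h0, hz.trans h.2⟩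

lemma O.C_nonneg {C a z : ℝ} (hm : 0 < m) (h : O m C a z) : 0 ≤ C := by
  have := h.1.trans h.2
  by_contra hC
  push Not at hC
  have := mul_neg_of_neg_of_pos hC (E_pos hm a)
  linarith

lemma O.mono {C a C' a' z : ℝ} (hm : 1 ≤ m) (h : O m C a z) (hC : C ≤ C') (ha : a ≤ a') :
    O m C' a' z := by
  have h0 : 0 < m := lt_of_lt_of_le one_pos hm
  have hC0 := h.C_nonneg h0
  exact ⟨h.1, h.2.trans (mul_le_mul hC (E_mono hm ha) (E_pos h0 a).le (hC0.trans hC))⟩

lemma O.add {C C' a a' z z' : ℝ} (hm : 1 ≤ m) (h : O m C a z) (h' : O m C' a' z') :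
    O m (C + C') (max a a') (z + z') := by
  have h1 := h.mono hm le_rfl (le_max_left a a')
  have h2 := h'.mono hm le_rfl (le_max_right a a')
  exact ⟨add_nonneg h1.1 h2.1, by rw [add_mul]; exact add_le_add h1.2 h2.2⟩

lemma O.mul {C C' a a' z z' : ℝ} (hm : 1 ≤ m) (h : O m C a z) (h' : O m C' a' z') :
    O m (C * C') (a + a') (z * z') := by
  have h0 : 0 < m := lt_of_lt_of_le one_pos hm
  refine ⟨mul_nonneg h.1 h'.1, ?_⟩
  rw [E_add h0]
  calc z * z' ≤ (C * Expo.E m a) * (C' * Expo.E m a') :=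
        mul_le_mul h.2 h'.2 h'.1 (h.1.trans h.2)
    _ = C * C' * (Expo.E m a * Expo.E m a') := by ring

lemma O.sq {C a z : ℝ} (hm : 1 ≤ m) (h : O m C a z) : O m (C ^ 2) (a + a) (z ^ 2) := by
  rw [pow_two, pow_two]; exact h.mul hm h

lemma O.cube {C a z : ℝ} (hm : 1 ≤ m) (h : O m C a z) : O m (C ^ 3) (a + a + a) (z ^ 3) := by
  have := (h.sq hm).mul hm h
  rwa [← pow_succ, ← pow_succ] at this

lemma O.fourth {C a z : ℝ} (hm : 1 ≤ m) (h : O m C a z) : O m (C ^ 4) (a + a + a + a) (z ^ 4) := by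
  have := (h.cube hm).mul hm h
  rwa [← pow_succ, ← pow_succ] at this

lemma O.sqrt {C a z : ℝ} (hm : 1 ≤ m) (h : O m C a z) : O m (√C) (a / 2) (√z) := by
  have h0 : 0 < m := lt_of_lt_of_le one_pos hm
  refine ⟨Real.sqrt_nonneg _, ?_⟩
  rw [← E_sqrt h0, ← Real.sqrt_mul (h.C_nonneg h0)]
  exact Real.sqrt_le_sqrt h.2

/-- square root with a constant at least one kept (no nested roots). -/
lemma O.sqrt' {C a z : ℝ} (hm : 1 ≤ m) (h : O m C a z) : O m (C + 1) (a / 2) (√z) := by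
  have h0 : 0 < m := lt_of_lt_of_le one_pos hm
  have hC := h.C_nonneg h0
  refine (h.sqrt hm).mono hm ?_ le_rfl
  rw [Real.sqrt_le_left (by linarith)]
  nlinarith

/-- division by an exact power. -/
lemma O.div_E {C a b z : ℝ} (hm : 1 ≤ m) (h : O m C a z) : O m C (a - b) (z / Expo.E m b) := by
  have h0 : 0 < m := lt_of_lt_of_le one_pos hm
  refine ⟨div_nonneg h.1 (E_pos h0 b).le, ?_⟩
  rw [E_sub h0, ← mul_div_assoc]
  exact div_le_div_of_nonneg_right h.2 (E_pos h0 b).le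

/-- division by something at least `c m^b`. -/
lemma O.div {C a b c z w : ℝ} (hm : 1 ≤ m) (h : O m C a z) (hc : 0 < c) (hw : c * Expo.E m b ≤ w) :
    O m (C / c) (a - b) (z / w) := by
  have h0 : 0 < m := lt_of_lt_of_le one_pos hm
  have hw0 : 0 < w := lt_of_lt_of_le (mul_pos hc (E_pos h0 b)) hw
  refine ⟨div_nonneg h.1 hw0.le, ?_⟩
  rw [E_sub h0, div_mul_div_comm]
  exact div_le_div₀ (h.1.trans h.2) h.2 (mul_pos hc (E_pos h0 b)) hw

lemma O.abs {C a z : ℝ} (h : O m C a z) : O m C a |z| := by rwa [abs_of_nonneg h.1]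

lemma O.maxz {C C' a a' z z' : ℝ} (hm : 1 ≤ m) (h : O m C a z) (h' : O m C' a' z') :
    O m (C + C') (max a a') (max z z') :=
  (h.add hm h').mono_z (le_max_of_le_left h.1)
    (max_le (le_add_of_nonneg_right h'.1) (le_add_of_nonneg_left h.1))

lemma O.natPow (hm : 0 < m) (k : ℕ) : O m 1 (k : ℝ) (m ^ k) := by
  rw [natPow_eq]; exact O.E hm _

lemma O.inv_E (hm : 0 < m) (b : ℝ) : O m 1 (-b) (Expo.E m b)⁻¹ := by
  rw [E_inv hm]; exact O.E hm _

/-- conclusion: an `O` with one spare power of `m`. -/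
lemma O.final {C a b z : ℝ} (hm : 1 ≤ m) (h : O m C a z) (hC : C ≤ m) (hab : a + 1 ≤ b) :
    z ≤ Expo.E m b := by
  have h0 : 0 < m := lt_of_lt_of_le one_pos hm
  refine h.2.trans ?_
  calc C * Expo.E m a ≤ m * Expo.E m a := mul_le_mul_of_nonneg_right hC (E_pos h0 a).le
    _ = Expo.E m (a + 1) := by rw [E_add h0, E_one, mul_comm]
    _ ≤ Expo.E m b := E_mono hm hab

/-- conclusion with a general spare exponent. -/
lemma O.final' {C a b e z : ℝ} (hm : 1 ≤ m) (h : O m C a z) (hC : C ≤ Expo.E m e)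
    (hab : a + e ≤ b) : z ≤ Expo.E m b := by
  have h0 : 0 < m := lt_of_lt_of_le one_pos hm
  refine h.2.trans ?_
  calc C * Expo.E m a ≤ Expo.E m e * Expo.E m a := mul_le_mul_of_nonneg_right hC (E_pos h0 a).le
    _ = Expo.E m (a + e) := by rw [E_add h0, mul_comm]
    _ ≤ Expo.E m b := E_mono hm hab


/-- conclusion with division by a constant. -/
lemma O.final_div {C a b K z : ℝ} (hm : 1 ≤ m) (hK : 0 < K) (h : O m C a z) (hC : C * K ≤ m)
    (hab : a + 1 ≤ b) : z ≤ Expo.E m b / K := by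
  rw [le_div_iff₀ hK]
  have h0 : 0 < m := lt_of_lt_of_le one_pos hm
  calc z * K ≤ (C * Expo.E m a) * K := mul_le_mul_of_nonneg_right h.2 hK.le
    _ = (C * K) * Expo.E m a := by ring
    _ ≤ m * Expo.E m a := mul_le_mul_of_nonneg_right hC (E_pos h0 a).le
    _ = Expo.E m (a + 1) := by rw [E_add h0, E_one, mul_comm]
    _ ≤ Expo.E m b := E_mono hm hab

lemma max_add' (a b c : ℝ) : max a b + c = max (a + c) (b + c) := (max_add_add_right a b c).symm
lemma add_max' (a b c : ℝ) : c + max a b = max (c + a) (c + b) := (max_add_add_left c a b).symm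
lemma max_half (a b : ℝ) : max a b / 2 = max (a / 2) (b / 2) :=
  (max_div_div_right (by norm_num) a b).symm
lemma max_sub' (a b c : ℝ) : max a b - c = max (a - c) (b - c) := (max_sub_sub_right a b c).symm

/-- build an `O` bound for an expression from its atoms (hypotheses in context). -/
macro "expoO" : tactic => `(tactic| repeat' (first
    | assumption
    | exact O.one
    | exact O.zero
    | exact O.ofNat _
    | exact O.self (by linarith)
    | exact O.natPow (by linarith) _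
    | exact O.inv_E (by linarith) _
    | apply O.div_E (by assumption)
    | apply O.sq (by assumption)
    | apply O.cube (by assumption)
    | apply O.fourth (by assumption)
    | apply O.sqrt' (by assumption)
    | apply O.add (by assumption)
    | apply O.mul (by assumption)
    | exact O.E (by linarith) _
    | exact O.const (by norm_num)))

/-- solve linear inequalities between exponents involving `max`. -/
macro "expoMax" : tactic => `(tactic| (
    try simp only [max_add', add_max', max_half, max_sub', max_le_iff, Nat.cast_ofNat]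
    repeat' (first | (refine ⟨?_, ?_⟩) | linarith)))

/-- prove `z ≤ E m b`, using `O`-hypotheses for the atoms, `1 ≤ m` and a numerical lower bound
for `m` in the context. -/
macro "expo" : tactic => `(tactic| (
    apply O.final (by assumption)
    · expoO
    · norm_num
      try linarith
    · expoMax))

/-- variant of `expo` for goals `z ≤ E m b / K` (`K` a numeral). -/
macro "expo_div" : tactic => `(tactic| (
    apply O.final_div (by assumption) (by norm_num)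
    · expoO
    · norm_num
      try linarith
    · expoMax))

section test
example (hm : 1 ≤ m) (hb : (10 : ℝ) ^ 9 ≤ m) (x : ℝ) (hx : 688 ≤ x)
    (v w L x2 : ℝ) (hv : O m 1 80 v) (hw : O m 1 385 w) (hL : O m 1 ((2002 - x) / 4) L)
    (hx2 : O m 1 ((2002 - x) / 2) x2) :
    24 * (v + w ^ 2) * (2 * v * L + x2) + 144 * v * (w * L) + √(w * 3) ≤ E m 1500 := by
  expo
example (hm : 1 ≤ m) (hb : (10 : ℝ) ^ 9 ≤ m) (x : ℝ) (hx : 688 ≤ x)
    (v L : ℝ) (hv : O m 1 80 v) (hL : O m 1 ((2002 - x) / 4) L) :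
    5 * (v * L * m ^ 165) * E m x / E m (2 * x) ≤ E m 700 / 100 := by
  expo_div
end test

end Crest.Agent.R62.Expo
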