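import Crest.Agent.R62.AvX1
import Crest.Agent.R062.MachDefs

/-!
R62: the two main stages: potentials, boxes, and the target inequality for each functional
(helper800, STEP DESIGN v1 = post #4644, decision #4789).

`m ^ 1000 ≤ n ≤ 2 m ^ 1000`, `r1 = n d / m ^ 320`, `ρ = #F` (live stubs).
Stage 1: `ρ` from `n d` down to `m ^ 800` (tilt active for `ρ ≤ 2 m ^ 800`).
Stage 2: `ρ` from `m ^ 800` down to `x0 * r1`.
-/

set_option autoImplicit false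
set_option linter.unusedSectionVars false
set_option linter.unusedVariables false

open Matrix Finset

namespace Crest.Agent.R62.Step

open Crest.Agent.R62.Upd Crest.Agent.R62.AvBase Crest.Agent.R62.AvX1
open Crest.Agent.R062

/-- the size parameters -/
structure Prm (d n m : ℕ) : Prop where
  hd : 3 ≤ d
  /-- `m` is large; every constant that occurs is at most `m` -/
  hm : (10 : ℝ) ^ 10 * (d : ℝ) ^ 10 ≤ m
  hn1 : (m : ℝ) ^ 1000 ≤ n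
  hn2 : (n : ℝ) ≤ 2 * (m : ℝ) ^ 1000

/-- `r1 = n d / m ^ 320 = δ n d` -/
noncomputable def r1 (d n m : ℕ) : ℝ := (n : ℝ) * d / (m : ℝ) ^ 320

/-! ### potentials of stage 1 -/

/-- barrier of `X_1` in stage 1 -/
noncomputable def U (m : ℕ) (ρ : ℝ) : ℝ :=
  (m : ℝ) ^ 361 * max 0 (min 1 ((ρ - (m : ℝ) ^ 800) / (m : ℝ) ^ 800))

noncomputable def p1X1u (m : ℕ) (ρ X : ℝ) : ℝ := (max (X - U m ρ) 0) ^ 2 / (m : ℝ) ^ 670
noncomputable def p1X1l (m : ℕ) (X : ℝ) : ℝ := (max (-X) 0) ^ 2 / (m : ℝ) ^ 670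
noncomputable def p1X2u (r ρ X : ℝ) : ℝ := (max (X - ρ + r) 0) ^ 2 / (r / 4) ^ 2
noncomputable def p1X2l (r ρ X : ℝ) : ℝ := (max (ρ - 3 * r - X) 0) ^ 2 / r ^ 2
noncomputable def p1X3l (n : ℕ) (X : ℝ) : ℝ := (max (3 / 2 * n - X) 0) ^ 2 / ((n : ℝ) / 4) ^ 2
noncomputable def p1X3u (d n : ℕ) (X : ℝ) : ℝ :=
  (max (X - 2 * ((d : ℝ) - 1) ^ 2 * n) 0) ^ 2 / (((d : ℝ) - 1) ^ 2 * n) ^ 2
noncomputable def p1X4 (m : ℕ) (ρ X : ℝ) : ℝ := X * ρ / (m : ℝ) ^ 2003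
noncomputable def p1V (m : ℕ) (V : ℝ) : ℝ := V / (m : ℝ) ^ 6
noncomputable def p1W (m : ℕ) (W : ℝ) : ℝ := W / (m : ℝ) ^ 610
noncomputable def p1M (m : ℕ) (M : ℝ) : ℝ := M / (m : ℝ) ^ 1010

/-! ### potentials of stage 2 -/

/-- barrier of `X_2` in stage 2: `ρ² / (ρ + r1/2)` -/
noncomputable def phi2 (r ρ : ℝ) : ℝ := ρ ^ 2 / (ρ + r / 2)

noncomputable def p2X1 (m : ℕ) (X : ℝ) : ℝ := X ^ 2 / (m : ℝ) ^ 672
noncomputable def p2X2 (m : ℕ) (r ρ X : ℝ) : ℝ := (max (X - phi2 r ρ) 0) ^ 2 / (m : ℝ) ^ 1340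
noncomputable def p2X2l (r ρ X : ℝ) : ℝ := (max (ρ - 5 * r - X) 0) ^ 2 / r ^ 2
noncomputable def p2X3 (d n : ℕ) (X : ℝ) : ℝ :=
  (max (X - 4 * ((d : ℝ) - 1) ^ 2 * n) 0) ^ 2 / (((d : ℝ) - 1) ^ 2 * n) ^ 2
noncomputable def p2X4 (m : ℕ) (ρ X : ℝ) : ℝ := X * ρ / (m : ℝ) ^ 2004
noncomputable def p2V (m : ℕ) (V : ℝ) : ℝ := V / (m : ℝ) ^ 8
noncomputable def p2W (m : ℕ) (W : ℝ) : ℝ := W / (m : ℝ) ^ 683

section
variable {ι : Type} [Fintype ι] [DecidableEq ι]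

/-- `Tr (K⁺)² (K⁻)²` -/
def Mf (K : Bool → Matrix ι ι ℝ) : ℝ := (K true ^ 2 * K false ^ 2).trace

/-- the stage 1 potential -/
noncomputable def Phi1 (d n m : ℕ) (F : Finset ι) (K : Bool → Matrix ι ι ℝ) : ℝ :=
  (∑ b : Bool, (p1X1u m F.card (K b).trace + p1X1l m (K b).trace
    + p1X2u (r1 d n m) F.card (K b ^ 2).trace + p1X2l (r1 d n m) F.card (K b ^ 2).trace
    + p1X3l n (K b ^ 3).trace + p1X3u d n (K b ^ 3).trace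
    + p1X4 m F.card (K b ^ 4).trace + p1V m (Vf (K b)) + p1W m (Wf F (K b)))) + p1M m (Mf K)

/-- the stage 2 potential -/
noncomputable def Phi2 (d n m : ℕ) (F : Finset ι) (K : Bool → Matrix ι ι ℝ) : ℝ :=
  ∑ b : Bool, (p2X1 m (K b).trace + p2X2 m (r1 d n m) F.card (K b ^ 2).trace
    + p2X2l (r1 d n m) F.card (K b ^ 2).trace
    + p2X3 d n (K b ^ 3).trace + p2X4 m F.card (K b ^ 4).trace + p2V m (Vf (K b))
    + p2W m (Wf F (K b)))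

/-- structural facts about the state and the set `S` of ordered pairs over which we average.
`S` is `GoodPairs.Sg` minus the pairs with `|(K²)_xy| > m^250` or `|K_xx ((K²)_yy - 1)| > m^200` or
`|K_yy ((K²)_xx - 1)| > m^200`. -/
structure Ctx (d m : ℕ) (γ : ℝ) (F : Finset ι) (K : Bool → Matrix ι ι ℝ) (S : Finset (ι × ι)) :
    Prop where
  /-- needed for `S1X1u`: `ρ > 2 m ^ 800` implies `ρ - 2 ≥ 2 m ^ 800` -/
  even : Even F.card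
  symm : ∀ b, (K b).IsSymm
  dead : ∀ b i j, i ∉ F → K b i j = 0
  row : ∀ b, K b *ᵥ ind F = (Mach.sg b : ℝ) • ind F
  γ0 : 0 < γ
  γ1 : γ ^ 2 ≤ 1 / 2
  low : ∀ b (f : ι → ℝ), ∑ i ∈ F, f i = 0 → -γ * ∑ i ∈ F, f i ^ 2 ≤ f ⬝ᵥ (K b *ᵥ f)
  sub : S ⊆ F ×ˢ F
  symS : ∀ x y, (x, y) ∈ S → (y, x) ∈ S
  ne : ∀ p ∈ S, p.1 ≠ p.2
  good1 : ∀ p ∈ S, ∀ b, |K b p.1 p.2| ≤ 1 / 5
  good2 : ∀ p ∈ S, ∀ b, |K b p.1 p.1 * K b p.2 p.2| ≤ 1 / 10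
  good3 : ∀ p ∈ S, ∀ b, |(K b ^ 2) p.1 p.2| ≤ (m : ℝ) ^ 250
  good4 : ∀ p ∈ S, ∀ b, |K b p.1 p.1 * ((K b ^ 2) p.2 p.2 - 1)| ≤ (m : ℝ) ^ 200
  /-- number of removed pairs (true in both boxes) -/
  bad : (((F ×ˢ F) \ S).card : ℝ) ≤ 100 * (d : ℝ) ^ 2 * F.card
  /-- removed pairs per row -/
  badrow : ∀ x ∈ F, ((F.filter fun y => (x, y) ∉ S).card : ℝ) ≤ (d + 1) * d
    + ∑ b : Bool, (25 * (K b ^ 2) x x + 100 * (K b x x ^ 2 * Vf (K b))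
      + (K b ^ 4) x x / (m : ℝ) ^ 500 + K b x x ^ 2 * Wf F (K b) / (m : ℝ) ^ 400
      + ((K b ^ 2) x x - 1) ^ 2 * Vf (K b) / (m : ℝ) ^ 400)

/-- the box of stage 1 (consequences of `Phi1 ≤ 1`), at the beginning of a step of stage 1 -/
structure Box1 (d n m : ℕ) (F : Finset ι) (K : Bool → Matrix ι ι ℝ) : Prop where
  rho_ge : (m : ℝ) ^ 800 + 2 ≤ F.card
  rho_le : (F.card : ℝ) ≤ n * d
  X1u : ∀ b, (K b).trace ≤ U m F.card + (m : ℝ) ^ 335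
  X1l : ∀ b, -(m : ℝ) ^ 335 ≤ (K b).trace
  X2u : ∀ b, (K b ^ 2).trace ≤ F.card - 3 / 4 * r1 d n m
  X2l : ∀ b, F.card - 4 * r1 d n m ≤ (K b ^ 2).trace
  X3l : ∀ b, 5 / 4 * (n : ℝ) ≤ (K b ^ 3).trace
  X3u : ∀ b, (K b ^ 3).trace ≤ 3 * ((d : ℝ) - 1) ^ 2 * n
  X4u : ∀ b, (K b ^ 4).trace * F.card ≤ (m : ℝ) ^ 2003
  Vu : ∀ b, Vf (K b) ≤ (m : ℝ) ^ 6
  Wu : ∀ b, Wf F (K b) ≤ (m : ℝ) ^ 610
  Mu : Mf K ≤ (m : ℝ) ^ 1010

/-- the tilt of stage 1: the weights are `1 - Θ` -/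
structure Tilt1 (d n m : ℕ) (F : Finset ι) (K : Bool → Matrix ι ι ℝ) (S : Finset (ι × ι))
    (Θ : ι → ι → ℝ) : Prop where
  symm : ∀ x y, Θ x y = Θ y x
  supp : ∀ x y, (x, y) ∉ S → Θ x y = 0
  abs_le : ∀ x y, |Θ x y| ≤ 1 / (m : ℝ)
  opB : OpB (Matrix.of Θ) ((m : ℝ) ^ 371)
  frob : (∑ x, ∑ y, Θ x y ^ 2) * F.card ≤ (m : ℝ) ^ 1928
  /-- no tilt before the window -/
  off : 2 * (m : ℝ) ^ 800 < F.card → ∀ x y, Θ x y = 0
  /-- gain for a sign which is above its barrier -/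
  gain : ∀ b, (F.card : ℝ) ≤ 2 * (m : ℝ) ^ 800 → U m F.card < (K b).trace →
    16 * (m : ℝ) ^ 1161 ≤ 2 * (Mach.sg b : ℝ) * ∑ p ∈ S, Θ p.1 p.2 * (K b ^ 2) p.1 p.2
  /-- (almost) no downward push of a sign which is not above its barrier -/
  cross : ∀ b, (K b).trace ≤ U m F.card →
    2 * (Mach.sg b : ℝ) * ∑ p ∈ S, Θ p.1 p.2 * (K b ^ 2) p.1 p.2 ≤ (m : ℝ) ^ 1010

/-- the box of stage 2 (consequences of `Phi2 ≤ 1`); `x0 > 0` is a constant (it only depends on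
`d`), `x0⁻¹ ≤ m` -/
structure Box2 (d n m : ℕ) (x0 : ℝ) (F : Finset ι) (K : Bool → Matrix ι ι ℝ) : Prop where
  x0_pos : 0 < x0
  x0_le : x0 ≤ 1
  x0_m : 10 ^ 10 ≤ m * x0 ^ 4
  rho_ge : x0 * r1 d n m + 2 ≤ F.card
  rho_le : (F.card : ℝ) ≤ (m : ℝ) ^ 800 + 1
  X1 : ∀ b, |(K b).trace| ≤ (m : ℝ) ^ 336
  X2u : ∀ b, (K b ^ 2).trace ≤ phi2 (r1 d n m) F.card + (m : ℝ) ^ 670
  X2l : ∀ b, F.card - 6 * r1 d n m ≤ (K b ^ 2).trace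
  X3u : ∀ b, (K b ^ 3).trace ≤ 5 * ((d : ℝ) - 1) ^ 2 * n
  X4u : ∀ b, (K b ^ 4).trace * F.card ≤ (m : ℝ) ^ 2004
  Vu : ∀ b, Vf (K b) ≤ (m : ℝ) ^ 8
  Wu : ∀ b, Wf F (K b) ≤ (m : ℝ) ^ 683

/-- weighted increment of a quantity which depends on the matrix of one sign -/
noncomputable def inc (S : Finset (ι × ι)) (Θ : ι → ι → ℝ) (f' : ι → ι → ℝ) (f : ℝ) : ℝ :=
  ∑ p ∈ S, (1 - Θ p.1 p.2) * (f' p.1 p.2 - f)

/-- the matrix after the step -/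
noncomputable def nx (b : Bool) (K : Bool → Matrix ι ι ℝ) (x y : ι) : Matrix ι ι ℝ :=
  upd (Mach.sg b : ℝ) (K b) x y

/-! ### the targets -/

variable (ι) in
/-- stage 1 target for a one-sign functional `G F K` with potential `ψ ρ (G F K)` -/
def Tgt1 (G : Finset ι → Matrix ι ι ℝ → ℝ) (ψ : ℕ → ℕ → ℕ → ℝ → ℝ → ℝ) : Prop :=
  ∀ (d n m : ℕ) (γ : ℝ) (F : Finset ι) (K : Bool → Matrix ι ι ℝ) (S : Finset (ι × ι))
    (Θ : ι → ι → ℝ), Prm d n m → Ctx d m γ F K S → Box1 d n m F K → Tilt1 d n m F K S Θ →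
    ∀ b, inc S Θ (fun x y => ψ d n m ((F.card : ℝ) - 2) (G ((F.erase x).erase y) (nx b K x y)))
      (ψ d n m F.card (G F (K b))) ≤ F.card / (m : ℝ) ^ 2

variable (ι) in
/-- stage 2 target for a one-sign functional (no tilt) -/
def Tgt2 (G : Finset ι → Matrix ι ι ℝ → ℝ) (ψ : ℕ → ℕ → ℕ → ℝ → ℝ → ℝ) : Prop :=
  ∀ (d n m : ℕ) (γ x0 : ℝ) (F : Finset ι) (K : Bool → Matrix ι ι ℝ) (S : Finset (ι × ι)),
    Prm d n m → Ctx d m γ F K S → Box2 d n m x0 F K →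
    ∀ b, inc S (fun _ _ => 0)
      (fun x y => ψ d n m ((F.card : ℝ) - 2) (G ((F.erase x).erase y) (nx b K x y)))
      (ψ d n m F.card (G F (K b))) ≤ F.card / (m : ℝ) ^ 2

variable (ι) in
def S1X1u : Prop := Tgt1 ι (fun _ K => K.trace) (fun _ _ m ρ X => p1X1u m ρ X)
variable (ι) in
def S1X1l : Prop := Tgt1 ι (fun _ K => K.trace) (fun _ _ m _ X => p1X1l m X)
variable (ι) in
def S1X2u : Prop := Tgt1 ι (fun _ K => (K ^ 2).trace) (fun d n m ρ X => p1X2u (r1 d n m) ρ X)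
variable (ι) in
def S1X2l : Prop := Tgt1 ι (fun _ K => (K ^ 2).trace) (fun d n m ρ X => p1X2l (r1 d n m) ρ X)
variable (ι) in
def S1X3l : Prop := Tgt1 ι (fun _ K => (K ^ 3).trace) (fun _ n _ _ X => p1X3l n X)
variable (ι) in
def S1X3u : Prop := Tgt1 ι (fun _ K => (K ^ 3).trace) (fun d n _ _ X => p1X3u d n X)
variable (ι) in
def S1X4 : Prop := Tgt1 ι (fun _ K => (K ^ 4).trace) (fun _ _ m ρ X => p1X4 m ρ X)
variable (ι) in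
def S1V : Prop := Tgt1 ι (fun _ K => Vf K) (fun _ _ m _ X => p1V m X)
variable (ι) in
def S1W : Prop := Tgt1 ι (fun F K => Wf F K) (fun _ _ m _ X => p1W m X)

variable (ι) in
/-- stage 1 target for the cross functional -/
def S1M : Prop :=
  ∀ (d n m : ℕ) (γ : ℝ) (F : Finset ι) (K : Bool → Matrix ι ι ℝ) (S : Finset (ι × ι))
    (Θ : ι → ι → ℝ), Prm d n m → Ctx d m γ F K S → Box1 d n m F K → Tilt1 d n m F K S Θ →
    inc S Θ (fun x y => p1M m (Mf (fun b => nx b K x y))) (p1M m (Mf K)) ≤ F.card / (m : ℝ) ^ 2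

variable (ι) in
def S2X1 : Prop := Tgt2 ι (fun _ K => K.trace) (fun _ _ m _ X => p2X1 m X)
variable (ι) in
def S2X2 : Prop := Tgt2 ι (fun _ K => (K ^ 2).trace) (fun d n m ρ X => p2X2 m (r1 d n m) ρ X)
variable (ι) in
def S2X3 : Prop := Tgt2 ι (fun _ K => (K ^ 3).trace) (fun d n _ _ X => p2X3 d n X)
variable (ι) in
def S2X4 : Prop := Tgt2 ι (fun _ K => (K ^ 4).trace) (fun _ _ m ρ X => p2X4 m ρ X)
variable (ι) in
def S2V : Prop := Tgt2 ι (fun _ K => Vf K) (fun _ _ m _ X => p2V m X)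
variable (ι) in
def S2X2l : Prop := Tgt2 ι (fun _ K => (K ^ 2).trace) (fun d n m ρ X => p2X2l (r1 d n m) ρ X)
variable (ι) in
def S2W : Prop := Tgt2 ι (fun F K => Wf F K) (fun _ _ m _ X => p2W m X)

variable (ι) in
/-- existence of the tilt in the box -/
def ExTilt : Prop :=
  ∀ (d n m : ℕ) (γ : ℝ) (F : Finset ι) (K : Bool → Matrix ι ι ℝ) (S : Finset (ι × ι)),
    Prm d n m → Ctx d m γ F K S → Box1 d n m F K → ∃ Θ, Tilt1 d n m F K S Θ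

end

end Crest.Agent.R62.Step
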