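import Crest.Agent.R62.CrossN
import Crest.Agent.R62.StepDefs

/-!
R62 (helper214): the cross functional: `theorem s1m : S1M ι`.
-/

set_option autoImplicit false
set_option linter.unusedSectionVars false
set_option linter.unusedVariables false

open Matrix Finset

namespace Crest.Agent.R62.MainM

open Crest.Agent.R62.Upd Crest.Agent.R62.AvX1 Crest.Agent.R62.L2P Crest.Agent.R62.AvBase
open Crest.Agent.R62.Cross Crest.Agent.R62.Step Crest.Agent.R062

section gen
variable {ι : Type*} [Fintype ι] [DecidableEq ι]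

lemma rn_eq {K : Matrix ι ι ℝ} (hK : K.IsSymm) (x : ι) : rn K x = (K ^ 2) x x := by
  rw [pow_two, Matrix.mul_apply]
  unfold rn
  exact Finset.sum_congr rfl fun j _ => by rw [hK.apply x j]; ring

lemma fr_eq {K : Matrix ι ι ℝ} (hK : K.IsSymm) : fr K = (K ^ 2).trace := by
  rw [← sum_rn]
  exact Finset.sum_congr rfl fun x _ => rn_eq hK x

lemma fr_opB {K : Matrix ι ι ℝ} {l : ℝ} (h : OpB K l) (A : Matrix ι ι ℝ) :
    fr (K * A) ≤ l ^ 2 * fr A := by
  have e : ∀ B : Matrix ι ι ℝ, fr B = ∑ j, (fun i => B i j) ⬝ᵥ (fun i => B i j) := by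
    intro B
    unfold fr
    rw [Finset.sum_comm]
    refine Finset.sum_congr rfl fun j _ => ?_
    simp only [dotProduct]
    exact Finset.sum_congr rfl fun i _ => by ring
  rw [e, e, Finset.mul_sum]
  refine Finset.sum_le_sum fun j _ => ?_
  have h2 : (fun i => (K * A) i j) = K *ᵥ (fun i => A i j) := by
    funext i
    rw [Matrix.mul_apply]; rfl
  rw [h2]
  exact h.2 _

lemma sum_q {F : Finset ι} {K : Matrix ι ι ℝ} (hK : K.IsSymm)
    (hd : ∀ i j, i ∉ F → K i j = 0) : ∑ x ∈ F, rn K x = (K ^ 2).trace := by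
  rw [sum_F_rn hd, fr_eq hK]

lemma sum_q2 {F : Finset ι} {K : Matrix ι ι ℝ} (hK : K.IsSymm)
    (hd : ∀ i j, i ∉ F → K i j = 0) :
    ∑ x ∈ F, rn K x ^ 2 = Wf F K + 2 * (K ^ 2).trace - F.card := by
  have e : ∀ x ∈ F, rn K x ^ 2 = ((K ^ 2) x x - 1) ^ 2 + 2 * rn K x - 1 := fun x _ => by
    rw [rn_eq hK]; ring
  rw [Finset.sum_congr rfl e, Finset.sum_sub_distrib, Finset.sum_add_distrib, ← Finset.mul_sum,
    sum_q hK hd]
  simp [Wf]

end gen

variable {ι : Type} [Fintype ι] [DecidableEq ι]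

lemma Mf_fr {K : Bool → Matrix ι ι ℝ} (hs : ∀ b, (K b).IsSymm) :
    Mf K = fr (K true * K false) := by
  unfold Mf
  rw [← trace_KXL (hs true) (hs false)]
  simp only [pow_two, Matrix.mul_assoc]

lemma a_ge {d n m : ℕ} (h : Prm d n m) : (10 : ℝ) ^ 10 * d ≤ m := by
  have hd : (1 : ℝ) ≤ d := by exact_mod_cast le_trans (by norm_num) h.hd
  refine le_trans ?_ h.hm
  refine mul_le_mul_of_nonneg_left ?_ (by norm_num)
  calc (d : ℝ) = (d : ℝ) ^ 1 := (pow_one _).symm
    _ ≤ (d : ℝ) ^ 10 := pow_le_pow_right₀ hd (by norm_num)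

lemma a_ge2 {d n m : ℕ} (h : Prm d n m) : (10 : ℝ) ^ 10 * (d : ℝ) ^ 2 ≤ m := by
  have hd : (1 : ℝ) ≤ d := by exact_mod_cast le_trans (by norm_num) h.hd
  refine le_trans ?_ h.hm
  exact mul_le_mul_of_nonneg_left (pow_le_pow_right₀ hd (by norm_num)) (by norm_num)

lemma a_big {d n m : ℕ} (h : Prm d n m) : (10 : ℝ) ^ 10 ≤ m := by
  have hd : (1 : ℝ) ≤ d := by exact_mod_cast le_trans (by norm_num) h.hd
  have := a_ge h
  linarith

lemma U_le {m : ℕ} (ρ : ℝ) : U m ρ ≤ (m : ℝ) ^ 361 := by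
  unfold U
  have h : max 0 (min 1 ((ρ - (m : ℝ) ^ 800) / (m : ℝ) ^ 800)) ≤ 1 :=
    max_le zero_le_one (min_le_left _ _)
  calc _ ≤ (m : ℝ) ^ 361 * 1 := mul_le_mul_of_nonneg_left h (by positivity)
    _ = _ := mul_one _

section box
variable {d n m : ℕ} {γ : ℝ} {F : Finset ι} {K : Bool → Matrix ι ι ℝ} {S : Finset (ι × ι)}
  {Θ : ι → ι → ℝ}

lemma X4_le (hp : Prm d n m) (hc : Ctx d m γ F K S) (hb : Box1 d n m F K) (b : Bool) :
    (K b ^ 4).trace ≤ (m : ℝ) ^ 1203 := by
  have ha := a_big hp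
  have h0 : 0 ≤ (K b ^ 4).trace := by simpa using trace_even_nonneg (hc.symm b).eq 2
  have h1 : (m : ℝ) ^ 800 ≤ F.card := by linarith [hb.rho_ge]
  have h2 := mul_le_mul_of_nonneg_left h1 h0
  have h3 : (K b ^ 4).trace * (m : ℝ) ^ 800 ≤ (m : ℝ) ^ 1203 * (m : ℝ) ^ 800 := by
    rw [← pow_add]; exact h2.trans (hb.X4u b)
  exact le_of_mul_le_mul_right h3 (by positivity)

lemma q_le (hp : Prm d n m) (hc : Ctx d m γ F K S) (hb : Box1 d n m F K) (b : Bool) {x : ι}
    (hx : x ∈ F) : (K b ^ 2) x x ≤ (m : ℝ) ^ 306 := by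
  have ha := a_big hp
  have ha1 : (1 : ℝ) ≤ m := by linarith
  have h1 : ((K b ^ 2) x x - 1) ^ 2 ≤ ((m : ℝ) ^ 305) ^ 2 := by
    rw [← pow_mul]
    exact (Finset.single_le_sum (f := fun x => ((K b ^ 2) x x - 1) ^ 2)
      (fun _ _ => sq_nonneg _) hx).trans (hb.Wu b)
  have h2 := (abs_le_of_sq_le_sq' h1 (by positivity)).2
  have h3 : (1 : ℝ) ≤ (m : ℝ) ^ 305 := one_le_pow₀ ha1
  have h4 : 2 * (m : ℝ) ^ 305 ≤ (m : ℝ) ^ 306 := by
    rw [pow_succ (m : ℝ) 305, mul_comm]
    exact mul_le_mul_of_nonneg_left (by linarith) (by positivity)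
  linarith

/-- the number of removed pairs in a row -/
lemma row_le (hp : Prm d n m) (hc : Ctx d m γ F K S) (hb : Box1 d n m F K) {x : ι}
    (hx : x ∈ F) : ((F.filter fun y => (x, y) ∉ S).card : ℝ) ≤ (m : ℝ) ^ 704 := by
  have ha := a_big hp
  have ha1 : (1 : ℝ) ≤ m := by linarith
  have ha0 : (0 : ℝ) < m := by linarith
  have h := hc.badrow x hx
  have pm : ∀ k, k ≤ 703 → (m : ℝ) ^ k ≤ (m : ℝ) ^ 703 := fun k hk => pow_le_pow_right₀ ha1 hk
  have hterm : ∀ b : Bool, 25 * (K b ^ 2) x x + 100 * (K b x x ^ 2 * Vf (K b))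
      + (K b ^ 4) x x / (m : ℝ) ^ 500 + K b x x ^ 2 * Wf F (K b) / (m : ℝ) ^ 400
      + ((K b ^ 2) x x - 1) ^ 2 * Vf (K b) / (m : ℝ) ^ 400 ≤ 128 * (m : ℝ) ^ 703 := by
    intro b
    have hV := hb.Vu b
    have hV0 := Vf_nonneg (K b)
    have hW := hb.Wu b
    have hW0 := Wf_nonneg F (K b)
    have c1 : 25 * (K b ^ 2) x x ≤ 25 * (m : ℝ) ^ 703 := by
      have := q_le hp hc hb b hx
      have := pm 306 (by norm_num)
      linarith
    have k2 : K b x x ^ 2 ≤ (m : ℝ) ^ 6 :=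
      (Finset.single_le_sum (f := fun x => K b x x ^ 2) (fun _ _ => sq_nonneg _)
        (Finset.mem_univ x)).trans hV
    have c2 : 100 * (K b x x ^ 2 * Vf (K b)) ≤ 100 * (m : ℝ) ^ 703 := by
      have h1 := mul_le_mul k2 hV hV0 (by positivity)
      rw [← pow_add] at h1
      have := pm 12 (by norm_num)
      norm_num at h1
      linarith
    have c3 : (K b ^ 4) x x / (m : ℝ) ^ 500 ≤ (m : ℝ) ^ 703 := by
      rw [div_le_iff₀ (by positivity), ← pow_add]
      refine le_trans ?_ (X4_le hp hc hb b)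
      exact Finset.single_le_sum (f := fun x => (K b ^ 4) x x)
        (fun z _ => diag_four_nonneg (hc.symm b).eq z) (Finset.mem_univ x)
    have c4 : K b x x ^ 2 * Wf F (K b) / (m : ℝ) ^ 400 ≤ (m : ℝ) ^ 703 := by
      rw [div_le_iff₀ (by positivity), ← pow_add]
      have h1 := mul_le_mul k2 hW hW0 (by positivity)
      rw [← pow_add] at h1
      exact h1.trans (pow_le_pow_right₀ ha1 (by norm_num))
    have c5 : ((K b ^ 2) x x - 1) ^ 2 * Vf (K b) / (m : ℝ) ^ 400 ≤ (m : ℝ) ^ 703 := by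
      rw [div_le_iff₀ (by positivity), ← pow_add]
      have w2 : ((K b ^ 2) x x - 1) ^ 2 ≤ (m : ℝ) ^ 610 :=
        (Finset.single_le_sum (f := fun x => ((K b ^ 2) x x - 1) ^ 2)
          (fun _ _ => sq_nonneg _) hx).trans hW
      have h1 := mul_le_mul w2 hV hV0 (by positivity)
      rw [← pow_add] at h1
      exact h1.trans (pow_le_pow_right₀ ha1 (by norm_num))
    linarith
  have ht := hterm true
  have hf := hterm false
  rw [Fintype.sum_bool] at h
  have hd : ((d : ℝ) + 1) * d ≤ (m : ℝ) ^ 703 := by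
    have h1 := a_ge2 hp
    have hd1 : (1 : ℝ) ≤ d := by exact_mod_cast le_trans (by norm_num) hp.hd
    have h2 := pm 1 (by norm_num)
    rw [pow_one] at h2
    nlinarith
  have h704 : 257 * (m : ℝ) ^ 703 ≤ (m : ℝ) ^ 704 := by
    rw [pow_succ (m : ℝ) 703, mul_comm]
    exact mul_le_mul_of_nonneg_left (by linarith) (by positivity)
  linarith

end box

theorem s1m : S1M ι := by
  intro d n m γ F K S Θ hp hc hb ht
  have ha := a_big hp
  have ha1 : (1 : ℝ) ≤ m := by linarith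
  have ha0 : (0 : ℝ) < m := by linarith
  set a : ℝ := (m : ℝ) with hadef
  have hρ800 : a ^ 800 ≤ F.card := by linarith [hb.rho_ge]
  have hρ1 : (1 : ℝ) ≤ F.card := le_trans (one_le_pow₀ ha1) hρ800
  have hF : F.Nonempty := by
    rw [← Finset.card_pos]
    have : (0 : ℝ) < F.card := by linarith
    exact_mod_cast this
  set G : ℝ := Real.sqrt (2 * F.card) with hG
  set g : ℝ := Real.sqrt G with hgdef
  set μ : ℝ := Real.sqrt (Mf K) with hμdef
  have hG2 : G ^ 2 = 2 * F.card := Real.sq_sqrt (by linarith)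
  have hg2 : g ^ 2 = G := Real.sq_sqrt (Real.sqrt_nonneg _)
  have hg4 : g ^ 4 = 2 * F.card := by rw [← hG2, ← hg2]; ring
  have hG400 : a ^ 400 ≤ G := by
    refine Real.le_sqrt_of_sq_le ?_
    have e : (a ^ 400) ^ 2 = a ^ 800 := by rw [← pow_mul]
    rw [e]; linarith
  have hG1 : 1 ≤ G := le_trans (one_le_pow₀ ha1) hG400
  have hg1 : 1 ≤ g := by
    rw [hgdef, ← Real.sqrt_one]; exact Real.sqrt_le_sqrt hG1
  have hdead := hc.dead
  have hM0 : 0 ≤ Mf K := by rw [Mf_fr hc.symm]; exact fr_nonneg _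
  have hμ2 : μ ^ 2 = Mf K := Real.sq_sqrt hM0
  have hμ0 : 0 ≤ μ := Real.sqrt_nonneg _
  have hμ : μ ≤ a ^ 505 := by
    refine Real.sqrt_le_iff.mpr ⟨by positivity, ?_⟩
    rw [← pow_mul]; exact hb.Mu
  have hMfr : fr (K true * K false) = μ ^ 2 := by rw [hμ2, Mf_fr hc.symm]
  have hG3 : G ^ 2 ≤ a ^ 1001 := by
    rw [hG2]
    have h1 := hb.rho_le
    have h2 := hp.hn2
    have h3 := a_ge hp
    have hd1 : (0 : ℝ) ≤ d := Nat.cast_nonneg d
    have h4 := mul_le_mul_of_nonneg_right h2 hd1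
    calc 2 * (F.card : ℝ) ≤ 2 * (2 * a ^ 1000 * d) := by linarith
      _ = a ^ 1000 * (4 * d) := by ring
      _ ≤ a ^ 1000 * a := mul_le_mul_of_nonneg_left (by linarith) (by positivity)
      _ = _ := by rw [← pow_succ]
  -- one-sided facts
  have hr1 : 0 ≤ r1 d n m := by unfold r1; positivity
  have hX2 : ∀ b, (K b ^ 2).trace ≤ F.card := fun b => by linarith [hb.X2u b]
  have hp2 : ∀ b, ∑ x ∈ F, rn (K b) x ^ 2 ≤ g ^ 4 := by
    intro b
    rw [sum_q2 (hc.symm b) (hdead b), hg4]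
    have h1 := hb.Wu b
    have h2 := hX2 b
    have h3 : a ^ 610 ≤ a ^ 800 := pow_le_pow_right₀ ha1 (by norm_num)
    linarith
  have hps : ∀ b, ∀ x ∈ F, rn (K b) x ≤ (a ^ 153) ^ 2 := by
    intro b x hx
    rw [rn_eq (hc.symm b), ← pow_mul]
    exact q_le hp hc hb b hx
  have hv : ∀ b, ∑ x ∈ F, K b x x ^ 2 ≤ (a ^ 3) ^ 2 := by
    intro b
    rw [← pow_mul]
    exact (Finset.sum_le_sum_of_subset_of_nonneg (Finset.subset_univ F)
      fun _ _ _ => sq_nonneg _).trans (hb.Vu b)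
  have hop : ∀ b, OpB (K b) (a ^ 301) := by
    intro b
    refine opB_of_trace_four (hc.symm b).eq (by positivity) ?_
    rw [← pow_mul]
    exact (X4_le hp hc hb b).trans (pow_le_pow_right₀ ha1 (by norm_num))
  have hMfr' : fr (K false * K true) = μ ^ 2 := by
    rw [fr_comm (hc.symm true) (hc.symm false), hMfr]
  have H : Hy F (K true) (K false) g (a ^ 153) μ (a ^ 301) (a ^ 3) :=
    { hK := hc.symm true
      hL := hc.symm false
      g1 := hg1
      σ1 := one_le_pow₀ ha1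
      v1 := one_le_pow₀ ha1
      m0 := hμ0
      l0 := by positivity
      card := by rw [hg4]; linarith
      p2 := hp2 true
      q2 := hp2 false
      ps := hps true
      qs := hps false
      vK := hv true
      vL := hv false
      mX := hMfr.le
      zK := by
        refine (fr_opB (hop true) _).trans ?_
        rw [hMfr, mul_pow]
      zL := by
        refine (fr_opB (hop false) _).trans ?_
        rw [hMfr', mul_pow] }
  have A : Av F S Θ (1 / a) (a ^ 371) (a * G) (a ^ 704) :=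
    { sub := hc.sub
      symS := hc.symS
      symm := ht.symm
      supp := ht.supp
      η0 := by positivity
      η1 := by rw [div_le_one ha0]; exact ha1
      absΘ := ht.abs_le
      op := ht.opB
      nb0 := by positivity
      bad := by
        refine hc.bad.trans ?_
        rw [mul_pow, hG2]
        have h1 := a_ge2 hp
        have h2 : 100 * (d : ℝ) ^ 2 ≤ a ^ 2 * 2 := by
          have : (0 : ℝ) ≤ (d : ℝ) ^ 2 := by positivity
          nlinarith
        calc 100 * (d : ℝ) ^ 2 * F.card ≤ a ^ 2 * 2 * F.card :=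
              mul_le_mul_of_nonneg_right h2 (by linarith)
          _ = _ := by ring
      row := fun x hx => row_le hp hc hb hx }
  have sgt : (Mach.sg true : ℝ) = 1 := by simp [Mach.sg]
  have sgf : (Mach.sg false : ℝ) = -1 := by simp [Mach.sg]
  have DK : Dr F (K true) (Mach.sg true : ℝ) :=
    ⟨hc.symm true, hdead true, hc.row true, by rw [sgt]; norm_num⟩
  have DL : Dr F (K false) (Mach.sg false : ℝ) :=
    ⟨hc.symm false, hdead false, hc.row false, by rw [sgf]; norm_num⟩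
  have hg : GP2 (K true) (K false) S := by
    intro p hp'
    have e1 := hc.good1 p hp'
    have e2 := hc.good2 p hp'
    exact ⟨⟨hc.ne p hp', (e1 true).trans (by norm_num), (e2 true).trans (by norm_num)⟩,
      ⟨hc.ne p hp', (e1 false).trans (by norm_num), (e2 false).trans (by norm_num)⟩⟩
  have hη : 1 / a ≤ 1 / 64 := one_div_le_one_div_of_le (by norm_num) (by linarith)
  have hγ1 : γ ≤ 1 := by nlinarith [hc.γ1]
  have hτ : γ * ((K true).trace + (K false).trace) ≤ 2 * (a ^ 361 + a ^ 335) := by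
    have h1 := hb.X1u true
    have h2 := hb.X1u false
    have h3 := U_le (m := m) (F.card : ℝ)
    have h4 : (K true).trace + (K false).trace ≤ 2 * (a ^ 361 + a ^ 335) := by linarith
    have h5 : (0 : ℝ) ≤ 2 * (a ^ 361 + a ^ 335) := by positivity
    calc _ ≤ γ * (2 * (a ^ 361 + a ^ 335)) := mul_le_mul_of_nonneg_left h4 hc.γ0.le
      _ ≤ 1 * (2 * (a ^ 361 + a ^ 335)) := mul_le_mul_of_nonneg_right hγ1 h5
      _ = _ := one_mul _
  have hD : 8 * (1 + 2 * (a ^ 361 + a ^ 335) + a ^ 704) ≤ (F.card : ℝ) := by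
    have h1 : a ^ 361 ≤ a ^ 704 := pow_le_pow_right₀ ha1 (by norm_num)
    have h2 : a ^ 335 ≤ a ^ 704 := pow_le_pow_right₀ ha1 (by norm_num)
    have h3 : 1 ≤ a ^ 704 := one_le_pow₀ ha1
    have h4 : 48 * a ^ 704 ≤ a ^ 705 := by
      rw [pow_succ a 704, mul_comm]
      exact mul_le_mul_of_nonneg_left (by linarith) (by positivity)
    have h5 : a ^ 705 ≤ a ^ 800 := pow_le_pow_right₀ ha1 (by norm_num)
    linarith
  have key := cross_fin H A DK DL hg (by rw [sgt, sgf]; norm_num) (by rw [sgt, sgf]; norm_num)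
    (hc.low true) (hc.low false) hc.γ0.le hc.γ1 hη
    (by rw [fr_eq (hc.symm true)]; exact hX2 true)
    (by rw [fr_eq (hc.symm false)]; exact hX2 false) hMfr hτ hD hF
  have hnum := num (a := a) (G := G) (μ := μ) (g := g) ha hG400 hG2 hG3 hμ0 hμ hg2
  have hfin := key.trans hnum
  -- conclusion
  have e1 : inc S Θ (fun x y => p1M m (Mf (fun b => nx b K x y))) (p1M m (Mf K))
      = (∑ p ∈ S, (1 - Θ p.1 p.2) * (fr (upd (Mach.sg true : ℝ) (K true) p.1 p.2
          * upd (Mach.sg false : ℝ) (K false) p.1 p.2) - fr (K true * K false))) / a ^ 1010 := by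
    unfold inc p1M
    rw [Finset.sum_div]
    refine Finset.sum_congr rfl fun p _ => ?_
    have hM1 := Mf_fr (K := fun b => nx b K p.1 p.2) (fun b => upd_symm _ (hc.symm b) _ _)
    beta_reduce
    rw [Mf_fr hc.symm, hM1]
    simp only [nx]
    ring
  rw [e1, div_le_div_iff₀ (by positivity) (by positivity)]
  have h5 := mul_le_mul_of_nonneg_right hfin (by positivity : (0 : ℝ) ≤ a ^ 2)
  refine h5.trans (le_of_eq ?_)
  ring

end Crest.Agent.R62.MainM
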