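import Crest.Agent.R62.Nums
import Crest.Agent.R62.DiagAv
import Crest.Agent.R62.TiltK

/-!
R62 (helper610): the weights `1_S (1 - Θ)` of the two stages in the form `DiagAv.Wt` used by
`AvV`, `AvR`.
-/

set_option autoImplicit false
set_option linter.unusedSectionVars false
set_option linter.unusedVariables false

open Matrix Finset

namespace Crest.Agent.R62.WtOf

open Crest.Agent.R62.Step Crest.Agent.R62.AvBase Crest.Agent.R62.DiagAv Crest.Agent.R62.Expo
open Crest.Agent.R62.Nums Crest.Agent.R62.AvX1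
open Crest.Agent.R062

variable {ι : Type} [Fintype ι] [DecidableEq ι]

/-- the weights -/
noncomputable def wt (S : Finset (ι × ι)) (Θ : ι → ι → ℝ) (x y : ι) : ℝ :=
  if (x, y) ∈ S then 1 - Θ x y else 0

/-- the deficit `1_{F×F} - w` -/
noncomputable def Ed (F : Finset ι) (S : Finset (ι × ι)) (Θ : ι → ι → ℝ) : Matrix ι ι ℝ :=
  Matrix.of fun x y => (if x ∈ F ∧ y ∈ F then 1 else 0) - wt S Θ x y

/-- indicator of the removed pairs -/
noncomputable def Bd (F : Finset ι) (S : Finset (ι × ι)) : Matrix ι ι ℝ :=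
  Matrix.of fun x y => if (x ∈ F ∧ y ∈ F) ∧ (x, y) ∉ S then 1 else 0

lemma inc_eq_SW (S : Finset (ι × ι)) (Θ f' : ι → ι → ℝ) (f : ℝ) :
    inc S Θ f' f = SW (wt S Θ) (fun x y => f' x y - f) := by
  unfold inc SW wt
  rw [← Finset.sum_product']
  simp only [ite_mul, zero_mul, Finset.univ_product_univ]
  rw [Finset.sum_ite_mem, Finset.univ_inter]

lemma Ed_eq {F : Finset ι} {S : Finset (ι × ι)} {Θ : ι → ι → ℝ} (hsub : S ⊆ F ×ˢ F)
    (hsupp : ∀ x y, (x, y) ∉ S → Θ x y = 0) : Ed F S Θ = Bd F S + Matrix.of Θ := by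
  ext x y
  simp only [Ed, Bd, wt, Matrix.of_apply, Matrix.add_apply]
  by_cases h : (x, y) ∈ S
  · have hF := Finset.mem_product.1 (hsub h)
    have h2 : x ∈ F ∧ y ∈ F := hF
    rw [if_pos h2, if_pos h, if_neg (fun h' => h'.2 h)]
    ring
  · rw [if_neg h, hsupp x y h]
    by_cases h2 : x ∈ F ∧ y ∈ F
    · rw [if_pos h2, if_pos ⟨h2, h⟩]; ring
    · rw [if_neg h2, if_neg (fun h' => h2 h'.1)]; ring

/-- operator norm by the Frobenius norm -/
lemma opB_of_fro {A : Matrix ι ι ℝ} {c : ℝ} (hc : 0 ≤ c) (h : ∑ x, ∑ y, A x y ^ 2 ≤ c ^ 2) :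
    OpB A c := by
  refine ⟨hc, fun v => ?_⟩
  calc (A *ᵥ v) ⬝ᵥ (A *ᵥ v) = ∑ x, (∑ y, A x y * v y) ^ 2 := by
        simp only [dotProduct, Matrix.mulVec]
        exact Finset.sum_congr rfl fun x _ => by ring
    _ ≤ ∑ x, (∑ y, A x y ^ 2) * ∑ y, v y ^ 2 :=
        Finset.sum_le_sum fun x _ => Finset.sum_mul_sq_le_sq_mul_sq _ _ _
    _ = (∑ x, ∑ y, A x y ^ 2) * ∑ y, v y ^ 2 := by rw [Finset.sum_mul]
    _ ≤ c ^ 2 * ∑ y, v y ^ 2 :=
        mul_le_mul_of_nonneg_right h (Finset.sum_nonneg fun _ _ => sq_nonneg _)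
    _ = _ := by
        simp only [dotProduct]
        congr 1
        exact Finset.sum_congr rfl fun x _ => by ring

lemma sum_Bd_sq (F : Finset ι) (S : Finset (ι × ι)) :
    ∑ x, ∑ y, Bd F S x y ^ 2 = (((F ×ˢ F) \ S).card : ℝ) := by
  rw [← Finset.sum_product', Finset.univ_product_univ]
  have h : ∀ p : ι × ι, Bd F S p.1 p.2 ^ 2 = if p ∈ (F ×ˢ F) \ S then 1 else 0 := by
    intro p
    simp only [Bd, Matrix.of_apply, Finset.mem_sdiff, Finset.mem_product]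
    split_ifs <;> norm_num
  rw [Finset.sum_congr rfl fun p _ => h p, Finset.sum_ite_mem, Finset.univ_inter,
    Finset.sum_const, nsmul_eq_mul, mul_one]

lemma opB_Ed {F : Finset ι} {S : Finset (ι × ι)} {Θ : ι → ι → ℝ} {β N : ℝ} (hsub : S ⊆ F ×ˢ F)
    (hsupp : ∀ x y, (x, y) ∉ S → Θ x y = 0) (hβ : 0 ≤ β)
    (hbad : (((F ×ˢ F) \ S).card : ℝ) ≤ β ^ 2) (hΘ : OpB (Matrix.of Θ) N) :
    OpB (Ed F S Θ) (β + N) := by
  rw [Ed_eq hsub hsupp]
  refine TiltK.OpB_add (opB_of_fro hβ ?_) hΘ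
  rw [sum_Bd_sq]; exact hbad

/-- row sums of the weights -/
lemma row_wt {F : Finset ι} {S : Finset (ι × ι)} {Θ : ι → ι → ℝ} {ω D : ℝ}
    (hsub : S ⊆ F ×ˢ F) (hΘ : ∀ x y, |Θ x y| ≤ ω) (hω : 0 ≤ ω) {x : ι}
    (hD : ((F.filter fun y => (x, y) ∉ S).card : ℝ) ≤ D) :
    (F.card : ℝ) - (D + ω * F.card) ≤ ∑ y, wt S Θ x y := by
  have h1 : ∑ y, wt S Θ x y = ∑ y ∈ F.filter (fun y => (x, y) ∈ S), (1 - Θ x y) := by
    unfold wt
    rw [← Finset.sum_filter]
    refine Finset.sum_congr ?_ fun _ _ => rfl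
    ext y
    simp only [Finset.mem_filter, Finset.mem_univ, true_and]
    exact ⟨fun h => ⟨(Finset.mem_product.1 (hsub h)).2, h⟩, fun h => h.2⟩
  have h2 : ((F.filter fun y => (x, y) ∈ S).card : ℝ) + ((F.filter fun y => (x, y) ∉ S).card : ℝ)
      = F.card := by
    exact_mod_cast Finset.card_filter_add_card_filter_not (s := F) (fun y => (x, y) ∈ S)
  have h3 : ∑ y ∈ F.filter (fun y => (x, y) ∈ S), ((1 : ℝ) - ω)
      ≤ ∑ y ∈ F.filter (fun y => (x, y) ∈ S), (1 - Θ x y) :=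
    Finset.sum_le_sum fun y _ => by have := (abs_le.1 (hΘ x y)).2; linarith
  rw [Finset.sum_const, nsmul_eq_mul] at h3
  have h4 : ((F.filter fun y => (x, y) ∈ S).card : ℝ) ≤ F.card := by
    exact_mod_cast Finset.card_filter_le _ _
  have h5 : ((F.filter fun y => (x, y) ∈ S).card : ℝ) * ω ≤ F.card * ω :=
    mul_le_mul_of_nonneg_right h4 hω
  rw [h1]
  nlinarith

/-- the structure `Wt` for the weights `1_S (1 - Θ)` -/
theorem wt_of {d m : ℕ} {γ : ℝ} {F : Finset ι} {K : Bool → Matrix ι ι ℝ} {S : Finset (ι × ι)}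
    {Θ : ι → ι → ℝ} {ω β N D : ℝ} (c : Ctx d m γ F K S)
    (hsym : ∀ x y, Θ x y = Θ y x) (hsupp : ∀ x y, (x, y) ∉ S → Θ x y = 0)
    (hΘ : ∀ x y, |Θ x y| ≤ ω) (hω : 0 ≤ ω) (hω1 : ω ≤ 1) (hβ : 0 ≤ β)
    (hbad : (((F ×ˢ F) \ S).card : ℝ) ≤ β ^ 2) (hN : OpB (Matrix.of Θ) N)
    (hD : ∀ x ∈ F, ((F.filter fun y => (x, y) ∉ S).card : ℝ) ≤ D) (b : Bool) :
    Wt (K b) F (wt S Θ) (Ed F S Θ) (β + N) (D + ω * F.card) ω where
  symm := fun x y => by
    unfold wt
    by_cases h : (x, y) ∈ S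
    · rw [if_pos h, if_pos (c.symS x y h), hsym]
    · rw [if_neg h, if_neg (fun h' => h (c.symS y x h'))]
  nonneg := fun x y => by
    unfold wt
    split_ifs
    · have := (abs_le.1 (hΘ x y)).2; linarith
    · exact le_rfl
  le := fun x y => by
    unfold wt
    split_ifs
    · have := (abs_le.1 (hΘ x y)).1; linarith
    · linarith
  om := hω1
  om0 := hω
  E_eq := fun x y => rfl
  opb := opB_Ed c.sub hsupp hβ hbad hN
  row := fun x hx => row_wt c.sub hΘ hω (hD x hx)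
  mem := fun x y h => by
    unfold wt at h
    by_cases h1 : (x, y) ∈ S
    · exact (Finset.mem_product.1 (c.sub h1)).1
    · rw [if_neg h1] at h; exact absurd rfl h
  ne := fun x y h => by
    unfold wt at h
    by_cases h1 : (x, y) ∈ S
    · exact c.ne _ h1
    · rw [if_neg h1] at h; exact absurd rfl h
  good := fun x y h => by
    unfold wt at h
    by_cases h1 : (x, y) ∈ S
    · have := c.good1 _ h1 b
      linarith
    · rw [if_neg h1] at h; exact absurd rfl h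
  good' := fun x y h => by
    unfold wt at h
    by_cases h1 : (x, y) ∈ S
    · have := c.good2 _ h1 b
      linarith
    · rw [if_neg h1] at h; exact absurd rfl h

/-- diagonal entries: `K_xx² ≤ V` -/
lemma diag_sq_le (K : Matrix ι ι ℝ) (x : ι) : K x x ^ 2 ≤ Vf K := by
  unfold Vf
  exact Finset.single_le_sum (f := fun z => K z z ^ 2) (fun _ _ => sq_nonneg _)
    (Finset.mem_univ x)

/-- `((K²)_xx - 1)² ≤ W` -/
lemma diag_W_le {F : Finset ι} (K : Matrix ι ι ℝ) {x : ι} (hx : x ∈ F) :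
    ((K ^ 2) x x - 1) ^ 2 ≤ Wf F K := by
  unfold Wf
  exact Finset.single_le_sum (f := fun z => ((K ^ 2) z z - 1) ^ 2) (fun _ _ => sq_nonneg _) hx

/-- bound of the number of removed pairs in one row, from `V ≤ v`, `W ≤ w²`, `OpB K L` -/
lemma badrow_le {d m : ℕ} {γ : ℝ} {F : Finset ι} {K : Bool → Matrix ι ι ℝ}
    {S : Finset (ι × ι)} {v w L : ℝ} (c : Ctx d m γ F K S) (hm : (1 : ℝ) ≤ m)
    (hw : 0 ≤ w) (hV : ∀ b, Vf (K b) ≤ v) (hW : ∀ b, Wf F (K b) ≤ w ^ 2)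
    (hL : ∀ b, OpB (K b) L) {x : ι} (hx : x ∈ F) :
    ((F.filter fun y => (x, y) ∉ S).card : ℝ) ≤ (d + 1) * d
      + 2 * (25 * (1 + w) + 100 * (v * v) + L ^ 2 * (1 + w) / (m : ℝ) ^ 500
        + v * w ^ 2 / (m : ℝ) ^ 400 + w ^ 2 * v / (m : ℝ) ^ 400) := by
  refine (c.badrow x hx).trans ?_
  have hm0 : (0 : ℝ) < m := by linarith
  have h : ∀ b ∈ (Finset.univ : Finset Bool), (25 * (K b ^ 2) x x + 100 * (K b x x ^ 2 * Vf (K b))
      + (K b ^ 4) x x / (m : ℝ) ^ 500 + K b x x ^ 2 * Wf F (K b) / (m : ℝ) ^ 400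
      + ((K b ^ 2) x x - 1) ^ 2 * Vf (K b) / (m : ℝ) ^ 400)
      ≤ 25 * (1 + w) + 100 * (v * v) + L ^ 2 * (1 + w) / (m : ℝ) ^ 500
        + v * w ^ 2 / (m : ℝ) ^ 400 + w ^ 2 * v / (m : ℝ) ^ 400 := by
    intro b _
    have hs : (K b)ᵀ = K b := c.symm b
    have hV0 := Vf_nonneg (K b)
    have hW0 := Wf_nonneg F (K b)
    have hv0 : 0 ≤ v := hV0.trans (hV b)
    have e1 : (K b ^ 2) x x ≤ 1 + w := by
      have h1 := (diag_W_le (K b) hx).trans (hW b)
      have h2 := abs_le_of_sq_le_sq' h1 hw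
      linarith [h2.2]
    have e2 : K b x x ^ 2 ≤ v := (diag_sq_le (K b) x).trans (hV b)
    have e3 : (K b ^ 4) x x ≤ L ^ 2 * (1 + w) := by
      have h1 := abs_diag_le hs (hL b) 2 x
      have h2 := le_abs_self ((K b ^ (2 + 2)) x x)
      have h3 : L ^ 2 * (K b ^ 2) x x ≤ L ^ 2 * (1 + w) :=
        mul_le_mul_of_nonneg_left e1 (sq_nonneg L)
      exact (h2.trans h1).trans h3
    have e4 : K b x x ^ 2 * Vf (K b) ≤ v * v :=
      mul_le_mul e2 (hV b) hV0 hv0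
    have e5 : K b x x ^ 2 * Wf F (K b) ≤ v * w ^ 2 :=
      mul_le_mul e2 (hW b) hW0 hv0
    have e6 : ((K b ^ 2) x x - 1) ^ 2 * Vf (K b) ≤ w ^ 2 * v :=
      mul_le_mul ((diag_W_le (K b) hx).trans (hW b)) (hV b) hV0 (sq_nonneg w)
    have p5 : (0 : ℝ) < (m : ℝ) ^ 500 := by positivity
    have p4 : (0 : ℝ) < (m : ℝ) ^ 400 := by positivity
    have f3 := div_le_div_of_nonneg_right e3 p5.le
    have f5 := div_le_div_of_nonneg_right e5 p4.le
    have f6 := div_le_div_of_nonneg_right e6 p4.le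
    linarith
  have h2 := Finset.sum_le_sum h
  rw [Finset.sum_const, Finset.card_univ, Fintype.card_bool, nsmul_eq_mul] at h2
  push_cast at h2
  linarith

/-- the weights of stage 1 -/
theorem wt1 {d n m : ℕ} {γ : ℝ} {F : Finset ι} {K : Bool → Matrix ι ι ℝ}
    {S : Finset (ι × ι)} {Θ : ι → ι → ℝ} (h : Prm d n m) (c : Ctx d m γ F K S)
    (B : Box1 d n m F K) (t : Tilt1 d n m F K S Θ) (b : Bool) :
    Wt (K b) F (wt S Θ) (Ed F S Θ) (E m ((ex m F.card + 1 / 5) / 2) + E m 371)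
      (E m (ex m F.card - 1) + 1 / (m : ℝ) * F.card) (1 / m) := by
  have P := par h
  have R := rho1 h B
  have hm1 := P.m1
  have hm0 := P.m0
  have hb := P.mbig
  have hbn : 5 * 10 ^ 14 ≤ m := by exact_mod_cast hb
  set x := ex m F.card with hx
  have hxl := R.lo
  have hxh := R.hi
  have hw1 : ∀ b, Wf F (K b) ≤ (E m 310) ^ 2 := fun b => by
    rw [E_pow hm0]
    have := B.Wu b
    rw [pow_eq] at this
    exact this.trans (E_mono hm1 (by norm_num))
  have hv1 : ∀ b, Vf (K b) ≤ E m 6 := fun b => by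
    have := B.Vu b
    rw [pow_eq] at this
    simpa using this
  have hL1 : ∀ b, OpB (K b) (E m ((2003 - x) / 4)) := fun b => (opB1 h c B b).2
  have hD : ∀ z ∈ F, ((F.filter fun y => (z, y) ∉ S).card : ℝ) ≤ E m (x - 1) := by
    intro z hz
    refine (badrow_le c hm1 (E_pos hm0 310).le hv1 hw1 hL1 hz).trans ?_
    rw [pow_eq, pow_eq]
    have hd := P.dO
    have hd1 := P.dp1O
    expo
  have hN := t.opB
  rw [pow_eq] at hN
  refine wt_of c t.symm t.supp t.abs_le (by positivity) ?_ (E_pos hm0 _).le ?_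
    (by simpa using hN) hD b
  · rw [div_le_one hm0]; exact hm1
  · rw [E_pow hm0]
    refine (bad1 h c B).trans (le_of_eq ?_)
    congr 1
    push_cast
    ring

/-- the weights of stage 2 -/
theorem wt2 {d n m : ℕ} {γ x0 : ℝ} {F : Finset ι} {K : Bool → Matrix ι ι ℝ}
    {S : Finset (ι × ι)} (h : Prm d n m) (c : Ctx d m γ F K S)
    (B : Box2 d n m x0 F K) (b : Bool) :
    Wt (K b) F (wt S (fun _ _ => 0)) (Ed F S (fun _ _ => 0)) (E m ((ex m F.card + 1 / 5) / 2) + 0)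
      (E m (ex m F.card - 1) + 0 * F.card) 0 := by
  have P := par h
  have R := rho2 h B
  have hm1 := P.m1
  have hm0 := P.m0
  have hb := P.mbig
  have hbn : 5 * 10 ^ 14 ≤ m := by exact_mod_cast hb
  set x := ex m F.card with hx
  have hxl := R.lo
  have hxh := R.hi
  have hw1 : ∀ b, Wf F (K b) ≤ (E m (683 / 2)) ^ 2 := fun b => by
    rw [E_pow hm0]
    have := B.Wu b
    rw [pow_eq] at this
    refine this.trans (le_of_eq ?_)
    congr 1
    norm_num
  have hv1 : ∀ b, Vf (K b) ≤ E m 8 := fun b => by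
    have := B.Vu b
    rw [pow_eq] at this
    simpa using this
  have hL1 : ∀ b, OpB (K b) (E m ((2004 - x) / 4)) := fun b => (opB2 h c B b).2
  have hD : ∀ z ∈ F, ((F.filter fun y => (z, y) ∉ S).card : ℝ) ≤ E m (x - 1) := by
    intro z hz
    refine (badrow_le c hm1 (E_pos hm0 _).le hv1 hw1 hL1 hz).trans ?_
    rw [pow_eq, pow_eq]
    have hd := P.dO
    have hd1 := P.dp1O
    expo
  have hN : OpB (Matrix.of fun _ _ : ι => (0 : ℝ)) 0 := by
    refine ⟨le_rfl, fun v => ?_⟩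
    simp [dotProduct, Matrix.mulVec]
  refine wt_of c (fun _ _ => rfl) (fun _ _ _ => rfl) (fun _ _ => by simp) le_rfl zero_le_one
    (E_pos hm0 _).le ?_ hN hD b
  rw [E_pow hm0]
  refine (bad2 h c B).trans (le_of_eq ?_)
  congr 1
  push_cast
  ring

end Crest.Agent.R62.WtOf
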