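import Crest.Agent.R62.VNum
import Crest.Agent.R62.WtOf

/-!
R62 (helper644): the target inequalities for `V = ∑ K_zz²` in both stages.
-/

set_option autoImplicit false
set_option linter.unusedSectionVars false
set_option linter.unusedVariables false

open Matrix Finset

namespace Crest.Agent.R62.MainV

open Crest.Agent.R62.Step Crest.Agent.R62.DiagAv Crest.Agent.R62.Expo Crest.Agent.R62.Nums
open Crest.Agent.R62.VNum Crest.Agent.R62.AvV Crest.Agent.R62.WtOf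
open Crest.Agent.R062
open Crest.Agent.R62.AvBase (OpB)

variable {ι : Type} [Fintype ι] [DecidableEq ι]

lemma sg_sq (b : Bool) : (Mach.sg b : ℝ) ^ 2 = 1 := by cases b <;> simp [Mach.sg]

lemma γ_le_one {γ : ℝ} (h0 : 0 < γ) (h : γ ^ 2 ≤ 1 / 2) : γ ≤ 1 := by nlinarith

lemma inc_V {m k : ℕ} {S : Finset (ι × ι)} {Θ : ι → ι → ℝ} {K : Bool → Matrix ι ι ℝ} (b : Bool)
    (hm : (0 : ℝ) < m) {D : ℝ}
    (h : SW (wt S Θ) (fun x y => Vf (Upd.upd (Mach.sg b : ℝ) (K b) x y) - Vf (K b)) ≤ D) :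
    inc S Θ (fun x y => AvX1.Vf (nx b K x y) / (m : ℝ) ^ k) (AvX1.Vf (K b) / (m : ℝ) ^ k)
      ≤ D / (m : ℝ) ^ k := by
  rw [inc_eq_SW]
  have e : SW (wt S Θ) (fun x y => AvX1.Vf (nx b K x y) / (m : ℝ) ^ k
      - AvX1.Vf (K b) / (m : ℝ) ^ k)
      = (1 / (m : ℝ) ^ k) * SW (wt S Θ) (fun x y => Vf (Upd.upd (Mach.sg b : ℝ) (K b) x y)
        - Vf (K b)) := by
    rw [← SW_smul]
    congr 1
    funext x y
    have : AvX1.Vf (nx b K x y) = Vf (Upd.upd (Mach.sg b : ℝ) (K b) x y) := rfl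
    rw [this]
    have : AvX1.Vf (K b) = Vf (K b) := rfl
    rw [this]
    ring
  rw [e, one_div_mul_eq_div]
  exact div_le_div_of_nonneg_right h (by positivity)

/-- common bounds -/
lemma Sq_bd {K : Matrix ι ι ℝ} (hK : K.IsSymm) {m a b : ℝ} (hm : 1 ≤ m) (hV : O m 1 a (Vf K))
    (hR : O m 2 b (∑ z, (K ^ 2) z z ^ 2)) : O m 2 (a / 2 + b / 2) (Sq K (dg K)) := by
  have h0 : 0 < m := lt_of_lt_of_le one_pos hm
  refine ⟨Sq_nonneg _ _, (Sq_le hK _).trans ?_⟩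
  have h1 : n2 (dg K) ≤ E m (a / 2) := by
    rw [show n2 (dg K) = √(Vf K) from rfl, ← E_sqrt h0]
    exact Real.sqrt_le_sqrt (by simpa using hV.le)
  have h2 : n2 (fun z => (K ^ 2) z z) ≤ 2 * E m (b / 2) := by
    rw [show n2 (fun z => (K ^ 2) z z) = √(∑ z, (K ^ 2) z z ^ 2) from rfl]
    refine Real.sqrt_le_iff.2 ⟨by have := E_pos h0 (b / 2); positivity, ?_⟩
    rw [mul_pow, E_sq h0, show 2 * (b / 2) = b by ring]
    have := hR.le
    have := E_pos h0 b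
    linarith
  calc _ ≤ E m (a / 2) * (2 * E m (b / 2)) :=
        mul_le_mul h1 h2 (n2_nonneg _) (E_pos h0 _).le
    _ = 2 * E m (a / 2 + b / 2) := by rw [E_add h0]; ring


lemma sqrt_O {m C a z : ℝ} (hm : 1 ≤ m) (h : O m C a z) (hC : 1 ≤ C) : O m C (a / 2) √z := by
  have h0 : 0 < m := lt_of_lt_of_le one_pos hm
  refine ⟨Real.sqrt_nonneg _, Real.sqrt_le_iff.2
    ⟨mul_nonneg (by linarith) (E_pos h0 _).le, ?_⟩⟩
  rw [mul_pow, E_sq h0, show 2 * (a / 2) = a by ring]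
  have h1 := h.le
  have h2 := E_pos h0 a
  nlinarith [mul_nonneg (mul_nonneg (by linarith : (0:ℝ) ≤ C) (by linarith : (0:ℝ) ≤ C - 1)) h2.le]

/-- `n2 (kk K)` -/
lemma kk_bd {K : Matrix ι ι ℝ} {g : ℝ} (hK : K.IsSymm) (hg : g ≤ 1) (hg0 : 0 ≤ g)
    (he : ∀ z x, K z x ^ 2 ≤ (g + |K z z|) * (g + |K x x|)) {m a b : ℝ} (hm : 1 ≤ m)
    (ha : 0 ≤ a) (hab : 9 * a ≤ b)
    (hV : O m 1 a (Vf K)) (hR : O m 2 b (∑ z, (K ^ 2) z z ^ 2)) :
    O m 100 (a / 2 + b / 2) (n2 (kk K)) := by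
  have h0 : 0 < m := lt_of_lt_of_le one_pos hm
  refine O.mono_z ?_ (n2_nonneg _) (KapB.n2_kk_le hK hg hg0 he)
  have hv := sqrt_O hm hV le_rfl
  have hr := sqrt_O hm hR (by norm_num)
  have h1 : O m (2 * (1 + 1) * 2) (0 + max 0 (a / 2) + b / 2)
      (2 * (1 + √(Vf K)) * √(∑ z, (K ^ 2) z z ^ 2)) :=
    ((O.ofNat 2).mul hm ((O.one).add hm hv)).mul hm hr
  have h2 : O m 16 ((max 0 a + max 0 a + max 0 a + a + (a / 2 + b / 2)) / 2)
      √(8 * (1 + Vf K) ^ 3 * Vf K * (√(Vf K) * √(∑ z, (K ^ 2) z z ^ 2))) := by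
    have h3 : O m (8 * (1 + 1) ^ 3 * 1 * (1 * 2)) (0 + (max 0 a + max 0 a + max 0 a) + a
        + (a / 2 + b / 2)) (8 * (1 + Vf K) ^ 3 * Vf K * (√(Vf K) * √(∑ z, (K ^ 2) z z ^ 2))) :=
      (((O.ofNat 8).mul hm (((O.one).add hm hV).cube hm)).mul hm hV).mul hm (hv.mul hm hr)
    refine ⟨Real.sqrt_nonneg _, Real.sqrt_le_iff.2
      ⟨mul_nonneg (by norm_num) (E_pos h0 _).le, ?_⟩⟩
    rw [mul_pow, E_sq h0]
    have h4 := h3.le
    have h5 : E m (0 + (max 0 a + max 0 a + max 0 a) + a + (a / 2 + b / 2))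
        = E m (2 * ((max 0 a + max 0 a + max 0 a + a + (a / 2 + b / 2)) / 2)) := by
      congr 1; ring
    rw [h5] at h4
    have h6 := E_pos h0 (2 * ((max 0 a + max 0 a + max 0 a + a + (a / 2 + b / 2)) / 2))
    linarith
  have hm1 : max 0 a = a := max_eq_right ha
  have hm2 : max 0 (a / 2) = a / 2 := max_eq_right (by linarith)
  rw [hm1] at h2
  rw [hm2] at h1
  refine (h1.add hm h2).mono hm (by norm_num) (max_le (by linarith) (by linarith))

lemma fr_bd {K : Matrix ι ι ℝ} (hK : K.IsSymm) {m a : ℝ} (hm : 1 ≤ m)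
    (h : (K ^ 2).trace ≤ 2 * E m a) : O m 2 (a / 2) (frK K) := by
  have h0 : 0 < m := lt_of_lt_of_le one_pos hm
  refine ⟨frK_nonneg _, ?_⟩
  refine (abs_le_of_sq_le_sq' ?_ (mul_nonneg (by norm_num) (E_pos h0 _).le)).2
  rw [frK_sq hK, mul_pow, E_sq h0, show 2 * (a / 2) = a by ring]
  have := E_pos h0 a
  linarith

lemma pE (m : ℕ) (k : ℕ) [k.AtLeastTwo] : (m : ℝ) ^ (OfNat.ofNat k : ℕ) = E m (OfNat.ofNat k) :=
  (E_ofNat _ _).symm

lemma small_num {m x a b v r V : ℝ} (hm : 1 ≤ m) (hb : (5 : ℝ) * 10 ^ 14 ≤ m)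
    (h2 : a + b + 1 ≤ x) (h3 : a / 2 + b + 1 ≤ x) (ha : 0 ≤ a)
    (hv : O m 1 (a / 2) v) (hV : O m 1 a V) (hr : O m 2 b r) :
    v * r ≤ E m x / 100 ∧ V * r ≤ E m x / 100 := by
  constructor <;> expo_div

theorem s1v : S1V ι := by
  intro d n m γ F K S Θ h c B t b
  have P := par h
  have R := rho1 h B
  have hm1 := P.m1
  have hm0 := P.m0
  have hmb := P.mbig
  have hq := big_quarter P
  have hw := wt1 h c B t b
  have hx := R.lo
  have hx' := R.hi
  have hρ := R.eq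
  set x := ex (m : ℝ) F.card with hxdef
  have hs := sg_sq b
  have hK := c.symm b
  have hF := c.dead b
  have hρO := R.O
  have hρ0 := R.pos
  have hE0 := E_pos hm0 x
  have hbig : ∀ a : ℝ, 1 ≤ a → (5 : ℝ) * 10 ^ 14 ≤ E m a := fun a ha => by
    refine hmb.trans ?_
    calc (m : ℝ) = E m 1 := (E_one _).symm
      _ ≤ E m a := E_mono hm1 ha
  -- atoms
  have hV : O (m : ℝ) 1 6 (Vf (K b)) := by
    refine O.of_le (Vf_nonneg _) ?_
    have := B.Vu b
    rwa [pE] at this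
  have hRR : O (m : ℝ) 2 x (∑ z, (K b ^ 2) z z ^ 2) :=
    ⟨Finset.sum_nonneg fun _ _ => sq_nonneg _, by rw [← hρ]; exact Rf_le1 h c B b⟩
  have hX2 := X2_le1 P B b
  have hfr := fr_bd (K := K b) hK (m := m) (a := x) hm1 (by rw [← hρ]; linarith)
  have hSq := Sq_bd hK hm1 hV hRR
  have hγ1 := γ_le_one c.γ0 c.γ1
  have hρ3 : (1000 : ℝ) ≤ F.card := by
    rw [hρ]; exact le_trans (by norm_num) (hbig x (by linarith))
  have he := KapB.entry_sq_le hK hF hs c.γ0.le hγ1 (c.row b) (c.low b)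
  have hg0 : (0 : ℝ) ≤ γ + 2 / F.card :=
    add_nonneg c.γ0.le (div_nonneg (by norm_num) (by linarith))
  have hg1 : (γ : ℝ) + 2 / F.card ≤ 1 := by
    have h1 : (2 : ℝ) / F.card ≤ 2 / 1000 :=
      div_le_div_of_nonneg_left (by norm_num) (by norm_num) hρ3
    have h2 : γ ≤ 71 / 100 := by nlinarith [c.γ0, c.γ1]
    linarith
  have hk := kk_bd hK hg1 hg0 he hm1 (by norm_num) (by linarith) hV hRR
  have hv2 := sqrt_O hm1 hV le_rfl
  have hr2 := sqrt_O hm1 hRR (by norm_num)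
  have hκ : ∑ y, kk (K b) y ≤ 3 / 5 * E m x := by
    have hn := small_num (x := x) hm1 hmb (by linarith) (by linarith) (by norm_num) hv2 hV hr2
    have hh := kappa_box hK hF hs c.γ0.le c.γ1 (c.row b) (c.low b) hρ3 (by linarith)
      (by rw [hρ]; exact hn.1) (by rw [hρ]; exact hn.2)
    rwa [hρ] at hh
  have hT : O (m : ℝ) 2 361 |(K b).trace| := by
    refine ⟨abs_nonneg _, ?_⟩
    have h1 := B.X1u b
    have h2 := B.X1l b
    have h3 : U m F.card ≤ (m : ℝ) ^ 361 := by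
      unfold U
      have : max 0 (min 1 (((F.card : ℝ) - (m : ℝ) ^ 800) / (m : ℝ) ^ 800)) ≤ 1 :=
        max_le zero_le_one (min_le_left _ _)
      have h4 : (0 : ℝ) ≤ (m : ℝ) ^ 361 := by positivity
      nlinarith
    have h4 : (m : ℝ) ^ 335 ≤ (m : ℝ) ^ 361 := pow_le_pow_right₀ hm1 (by norm_num)
    have h5 : (m : ℝ) ^ 361 = E m 361 := pE m 361
    rw [← h5, abs_le]
    constructor <;> linarith
  have hη : O (m : ℝ) 2 (x / 2 + 1 / 10) (E m ((x + 1 / 5) / 2) + E m 371) := by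
    refine ((O.E hm0 _).add hm1 (O.E hm0 _)).mono hm1 (by norm_num) (max_le (by linarith) (by linarith))
  have hWp : ∀ z, (K b ^ 2) z z ≤ 2 * E m 305 := by
    intro z
    by_cases hz : z ∈ F
    · have h1 := diag_W_le (F := F) (K b) hz
      have h2 := B.Wu b
      rw [pE] at h2
      have h3 : (E (m : ℝ) 305) ^ 2 = E m 610 := by
        rw [E_sq hm0]; congr 1; norm_num
      have h4 : ((K b ^ 2) z z - 1) ^ 2 ≤ (E (m : ℝ) 305) ^ 2 := by rw [h3]; linarith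
      have h5 := (abs_le_of_sq_le_sq' h4 (E_pos hm0 _).le).2
      have h6 := hbig 305 (by norm_num)
      linarith
    · have h1 : (K b ^ 2) z z = 0 := by
        rw [pow_two, Matrix.mul_apply]
        exact Finset.sum_eq_zero fun j _ => by rw [hF z j hz, zero_mul]
      rw [h1]
      have := E_pos hm0 305
      linarith
  have hL2 : OpB (Ksq (K b)) (2 * E m 305) := KapB.opB_Ksq' hK (by have := E_pos hm0 305; linarith) hWp
  have hL2O : O (m : ℝ) 2 305 (2 * E m 305) := ⟨by have := E_pos hm0 305; linarith, le_rfl⟩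
  have hΛ := (opB1 h c B b).2
  have hm' : (1 : ℝ) / m ≤ 1 / 10 := by
    refine div_le_div_of_nonneg_left (by norm_num) (by norm_num) (by linarith)
  have hξ : E (m : ℝ) (x - 1) + 1 / (m : ℝ) * F.card ≤ E m x / 10 := by
    rw [hρ]
    have e1 : E (m : ℝ) (x - 1) = E m x / m := by rw [E_sub hm0, E_one]
    rw [e1, div_add' _ _ _ hm0.ne', div_le_div_iff₀ hm0 (by norm_num)]
    have : 1 / (m : ℝ) * E m x * m = E m x := by field_simp
    rw [this]
    nlinarith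
  have hd := drift hK hF hs (c.row b) hΛ hL2 hw hρ hm' hξ hκ (T := |(K b).trace|) le_rfl
    (R := ∑ z, (K b ^ 2) z z ^ 2) le_rfl (fr := frK (K b)) le_rfl (v := Vf (K b)) le_rfl
    (Sqv := Sq (K b) (dg (K b))) le_rfl (k := n2 (kk (K b))) le_rfl
  have hn := num1 (ρ := E m x) hm1 hmb hq hx hx' hT hη hL2O hfr hV
    (hSq.mono hm1 le_rfl (by linarith)) (hk.mono hm1 le_rfl (by linarith))
    (O.E hm0 ((2003 - x) / 4)) hRR (O.E hm0 x)
  have hfin := inc_V (k := 6) b hm0 (hd.trans hn)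
  refine hfin.trans (le_of_eq ?_)
  rw [E_add hm0, ← hρ]
  have e4 : E (m : ℝ) 4 = (m : ℝ) ^ 4 := (pE m 4).symm
  rw [e4, div_eq_div_iff (pow_ne_zero _ hm0.ne') (pow_ne_zero _ hm0.ne')]
  ring

theorem s2v : S2V ι := by
  intro d n m γ x0 F K S h c B b
  have P := par h
  have R := rho2 h B
  have hm1 := P.m1
  have hm0 := P.m0
  have hmb := P.mbig
  have hq := big_quarter P
  have hw := wt2 h c B b
  have hx := R.lo
  have hx' := R.hi
  have hρ := R.eq
  set x := ex (m : ℝ) F.card with hxdef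
  have hs := sg_sq b
  have hK := c.symm b
  have hF := c.dead b
  have hρO := R.O
  have hρ0 := R.pos
  have hE0 := E_pos hm0 x
  have hbig : ∀ a : ℝ, 1 ≤ a → (5 : ℝ) * 10 ^ 14 ≤ E m a := fun a ha => by
    refine hmb.trans ?_
    calc (m : ℝ) = E m 1 := (E_one _).symm
      _ ≤ E m a := E_mono hm1 ha
  -- atoms
  have hV : O (m : ℝ) 1 8 (Vf (K b)) := by
    refine O.of_le (Vf_nonneg _) ?_
    have := B.Vu b
    rwa [pE] at this
  have hX2 : (K b ^ 2).trace ≤ 101 / 100 * E m x := by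
    have h1 := B.X2u b
    have h2 : phi2 (r1 d n m) F.card ≤ F.card := by
      unfold phi2
      rw [div_le_iff₀ (by have := P.r1_pos; linarith)]
      nlinarith [P.r1_pos]
    have h3 : (m : ℝ) ^ 670 ≤ E m x / 100 := by
      rw [pE, le_div_iff₀ (by norm_num)]
      calc E (m : ℝ) 670 * 100 ≤ E m 670 * E m 1 :=
            mul_le_mul_of_nonneg_left (by rw [E_one]; linarith) (E_pos hm0 _).le
        _ = E m 671 := by rw [E_mul hm0]; norm_num
        _ ≤ E m x := E_mono hm1 (by linarith)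
    rw [hρ] at h2
    rw [hρ] at h1
    linarith
  have hRR : O (m : ℝ) 2 (x + 13 / 4) (∑ z, (K b ^ 2) z z ^ 2) := by
    refine ⟨Finset.sum_nonneg fun _ _ => sq_nonneg _, ?_⟩
    have h1 := Rf_eq (K := K b) (F := F) hK hF
    have h2 := B.Wu b
    rw [pE] at h2
    have h3 : (∑ z, (K b ^ 2) z z ^ 2) = Rf (K b) := rfl
    rw [h3, h1, hρ]
    have h4 : E (m : ℝ) 683 ≤ E m (x + 13 / 4) := E_mono hm1 (by linarith)
    have h5 : E (m : ℝ) (x + 13 / 4) = E m x * E m (13 / 4) := E_add hm0 _ _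
    have h6 := hbig (13 / 4) (by norm_num)
    have h7 : 3 * E (m : ℝ) x ≤ E m (x + 13 / 4) := by rw [h5]; nlinarith
    linarith
  have hfr := fr_bd (K := K b) hK (m := m) (a := x) hm1 (by linarith)
  have hSq := Sq_bd hK hm1 hV hRR
  have hγ1 := γ_le_one c.γ0 c.γ1
  have hρ3 : (1000 : ℝ) ≤ F.card := by
    rw [hρ]; exact le_trans (by norm_num) (hbig x (by linarith))
  have he := KapB.entry_sq_le hK hF hs c.γ0.le hγ1 (c.row b) (c.low b)
  have hg0 : (0 : ℝ) ≤ γ + 2 / F.card :=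
    add_nonneg c.γ0.le (div_nonneg (by norm_num) (by linarith))
  have hg1 : (γ : ℝ) + 2 / F.card ≤ 1 := by
    have h1 : (2 : ℝ) / F.card ≤ 2 / 1000 :=
      div_le_div_of_nonneg_left (by norm_num) (by norm_num) hρ3
    have h2 : γ ≤ 71 / 100 := by nlinarith [c.γ0, c.γ1]
    linarith
  have hk := kk_bd hK hg1 hg0 he hm1 (by norm_num) (by linarith) hV hRR
  have hv2 := sqrt_O hm1 hV le_rfl
  have hr2 := sqrt_O hm1 hRR (by norm_num)
  have hκ : ∑ y, kk (K b) y ≤ 3 / 5 * E m x := by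
    have hn := small_num (x := x) hm1 hmb (by linarith) (by linarith) (by norm_num) hv2 hV hr2
    have hh := kappa_box hK hF hs c.γ0.le c.γ1 (c.row b) (c.low b) hρ3 (by rw [hρ]; exact hX2)
      (by rw [hρ]; exact hn.1) (by rw [hρ]; exact hn.2)
    rwa [hρ] at hh
  have hT : O (m : ℝ) 1 336 |(K b).trace| := by
    refine O.of_le (abs_nonneg _) ?_
    have := B.X1 b
    rwa [pE] at this
  have hη : O (m : ℝ) 1 (x / 2 + 1 / 10) (E m ((x + 1 / 5) / 2) + 0) := by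
    rw [add_zero]
    exact (O.E hm0 _).mono hm1 (by norm_num) (by linarith)
  have hsup := KapB.sup_le hg1 hg0 he
  have hVle := hV.le
  have hL2 : OpB (Ksq (K b)) (5 * E m 300) := by
    refine (KapB.opB_Ksq hK hsup (by have := Vf_nonneg (K b); linarith) (E_pos hm0 300)).mono ?_
    have h1 : 2 * (2 * (1 + Vf (K b))) * (∑ z, (K b ^ 2) z z ^ 2) / E m 300
        ≤ (4 * E m 300) ^ 2 := by
      rw [div_le_iff₀ (E_pos hm0 300)]
      have h2 : O (m : ℝ) 16 (max 0 8 + (x + 13 / 4))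
          (2 * (2 * (1 + Vf (K b))) * (∑ z, (K b ^ 2) z z ^ 2)) := by
        have h3 := (((O.ofNat 2).mul hm1 ((O.ofNat 2).mul hm1 ((O.one).add hm1 hV))).mul hm1 hRR)
        exact h3.mono hm1 (by norm_num) (by rw [max_eq_right (by norm_num : (0:ℝ) ≤ 8)]; linarith)
      have h4 := h2.le
      rw [max_eq_right (by norm_num : (0:ℝ) ≤ 8)] at h4
      have h5 : E (m : ℝ) (8 + (x + 13 / 4)) ≤ E m 900 := E_mono hm1 (by linarith)
      have h6 : (4 * E (m : ℝ) 300) ^ 2 * E m 300 = 16 * E m 900 := by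
        rw [mul_pow, E_sq hm0, mul_assoc, E_mul hm0]; norm_num
      rw [h6]; linarith
    have h2 := Real.sqrt_le_sqrt h1
    rw [Real.sqrt_sq (by have := E_pos hm0 300; linarith)] at h2
    linarith
  have hL2O : O (m : ℝ) 5 300 (5 * E m 300) := ⟨by have := E_pos hm0 300; linarith, le_rfl⟩
  have hΛ := (opB2 h c B b).2
  have hξ : E (m : ℝ) (x - 1) + 0 * F.card ≤ E m x / 10 := by
    have e1 : E (m : ℝ) (x - 1) = E m x / m := by rw [E_sub hm0, E_one]
    rw [e1, zero_mul, add_zero, div_le_div_iff₀ hm0 (by norm_num)]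
    nlinarith
  have hd := drift hK hF hs (c.row b) hΛ hL2 hw hρ (by norm_num) hξ hκ (T := |(K b).trace|) le_rfl
    (R := ∑ z, (K b ^ 2) z z ^ 2) le_rfl (fr := frK (K b)) le_rfl (v := Vf (K b)) le_rfl
    (Sqv := Sq (K b) (dg (K b))) le_rfl (k := n2 (kk (K b))) le_rfl
  have hn := num2 (ρ := E m x) hm1 hmb hq hx hx' hT hη hL2O hfr hV
    (hSq.mono hm1 le_rfl (by linarith)) (hk.mono hm1 le_rfl (by linarith))
    (O.E hm0 ((2004 - x) / 4)) hRR (O.E hm0 x)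
  have hfin := inc_V (k := 8) b hm0 (hd.trans hn)
  refine hfin.trans (le_of_eq ?_)
  rw [E_add hm0, ← hρ]
  have e4 : E (m : ℝ) 6 = (m : ℝ) ^ 6 := (pE m 6).symm
  rw [e4, div_eq_div_iff (pow_ne_zero _ hm0.ne') (pow_ne_zero _ hm0.ne')]
  ring

end Crest.Agent.R62.MainV
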