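import Crest.Agent.R62.Expo

set_option autoImplicit false
namespace Crest.Agent.R62.MainWNum
open Crest.Agent.R62.Expo

/-- numbers of stage 1 -/
lemma num1 {m x : ℝ} (hm : 1 ≤ m) (hb : 5 * 10 ^ 14 ≤ m) (hx : 800 ≤ x) (hx' : x ≤ 1000 + 1 / 10)
    {fK V sq T Λ Sq η nd L2 nq rM nk kM R W Y : ℝ}
    (ofK : O m 1 (x / 2) fK) (osq : O m 1 (x / 2) sq) (oV : O m 1 6 V) (ond : O m 1 (6 / 2) nd)
    (oW : O m 1 610 W) (onq : O m 1 (610 / 2) nq) (oR : O m 2 x R) (orM : O m 2 (610 / 4) rM)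
    (onk : O m 30 (6 / 2 + x / 2) nk) (okM : O m 8 (6 + 610 / 2) kM)
    (oΛ : O m 1 ((2003 - x) / 4) Λ) (oη : O m 2 ((x + 1 / 5) / 2) η)
    (oL2 : O m 40 206 L2) (oT : O m 2 361 T) (oSq : O m 2 (610 / 2 + x / 2) Sq)
    (oY : O m 4 (680 + 1 / 10) Y) :
    8 * (Y + η * (Λ * Sq))
      + (216 * (fK + V) + 304 * sq + 8 * T) * (Λ * Sq)
      + (8 * η + 128 * (fK + V)) * (Λ * rM ^ 2 * nq * nd)
      + 208 * (Λ * fK * (L2 * nq * nd))
      + (64 * (sq * (rM + V)) + 208 * (nq * nd)) * Sq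
      + ((4 * η + 160 * (fK + V) + 84 * V) * L2 + 64 * (sq * (rM + V)) + 200 * (sq * V))
          * (nq * nq)
      + (432 * (21 * (V * L2) + 32 * Λ ^ 2) + 648 * (340 * (nk * V) + 361 * L2 ^ 2)) * R
      + (1722 * ((rM + V) * nk) + 9780752 * (V ^ 2 * kM)
          + 27 / 2 * (340 * (nk * V) + 361 * L2 ^ 2)) * W ≤ E m (x + 608) / 4 := by
  have t1 : 8 * (Y + η * (Λ * Sq)) ≤ E m (x + 608) / 40 := by expo_div
  have t2 : (216 * (fK + V) + 304 * sq + 8 * T) * (Λ * Sq) ≤ E m (x + 608) / 40 := by expo_div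
  have t3 : (8 * η + 128 * (fK + V)) * (Λ * rM ^ 2 * nq * nd) ≤ E m (x + 608) / 40 := by
    expo_div
  have t4 : 208 * (Λ * fK * (L2 * nq * nd)) ≤ E m (x + 608) / 40 := by expo_div
  have t5 : (64 * (sq * (rM + V)) + 208 * (nq * nd)) * Sq ≤ E m (x + 608) / 40 := by expo_div
  have t6 : ((4 * η + 160 * (fK + V) + 84 * V) * L2 + 64 * (sq * (rM + V)) + 200 * (sq * V))
      * (nq * nq) ≤ E m (x + 608) / 40 := by expo_div
  have t7 : (432 * (21 * (V * L2) + 32 * Λ ^ 2) + 648 * (340 * (nk * V) + 361 * L2 ^ 2)) * R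
      ≤ E m (x + 608) / 40 := by expo_div
  have t8 : (1722 * ((rM + V) * nk) + 9780752 * (V ^ 2 * kM)
      + 27 / 2 * (340 * (nk * V) + 361 * L2 ^ 2)) * W ≤ E m (x + 608) / 40 := by expo_div
  have h0 := E_pos (by linarith : 0 < m) (x + 608)
  linarith

/-- numbers of stage 2 -/
lemma num2 {m x y : ℝ} (hxy : x ≤ y) (hwy : 683 ≤ y) (hyx : y ≤ x + 13 / 4) (hm : 1 ≤ m) (hb : 5 * 10 ^ 14 ≤ m) (hx : 680 - 1 / 4 ≤ x) (hx' : x ≤ 800 + 1 / 10)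
    {fK V sq T Λ Sq η nd L2 nq rM nk kM R W Y : ℝ}
    (ofK : O m 1 (x / 2) fK) (osq : O m 1 (x / 2) sq) (oV : O m 1 8 V) (ond : O m 1 (8 / 2) nd)
    (oW : O m 1 683 W) (onq : O m 1 (683 / 2) nq) (oR : O m 2 y R) (orM : O m 2 (683 / 4) rM)
    (onk : O m 30 (8 / 2 + y / 2) nk) (okM : O m 8 (8 + 683 / 2) kM)
    (oΛ : O m 1 ((2004 - x) / 4) Λ) (oη : O m 2 ((x + 1 / 5) / 2) η)
    (oL2 : O m 40 232 L2) (oT : O m 2 336 T) (oSq : O m 2 (683 / 2 + y / 2) Sq)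
    (oY : O m 6 (680 + 1 / 10) Y) :
    8 * (Y + η * (Λ * Sq))
      + (216 * (fK + V) + 304 * sq + 8 * T) * (Λ * Sq)
      + (8 * η + 128 * (fK + V)) * (Λ * rM ^ 2 * nq * nd)
      + 208 * (Λ * fK * (L2 * nq * nd))
      + (64 * (sq * (rM + V)) + 208 * (nq * nd)) * Sq
      + ((4 * η + 160 * (fK + V) + 84 * V) * L2 + 64 * (sq * (rM + V)) + 200 * (sq * V))
          * (nq * nq)
      + (432 * (21 * (V * L2) + 32 * Λ ^ 2) + 648 * (340 * (nk * V) + 361 * L2 ^ 2)) * R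
      + (1722 * ((rM + V) * nk) + 9780752 * (V ^ 2 * kM)
          + 27 / 2 * (340 * (nk * V) + 361 * L2 ^ 2)) * W ≤ E m (x + 681) / 4 := by
  have t1 : 8 * (Y + η * (Λ * Sq)) ≤ E m (x + 681) / 40 := by expo_div
  have t2 : (216 * (fK + V) + 304 * sq + 8 * T) * (Λ * Sq) ≤ E m (x + 681) / 40 := by expo_div
  have t3 : (8 * η + 128 * (fK + V)) * (Λ * rM ^ 2 * nq * nd) ≤ E m (x + 681) / 40 := by
    expo_div
  have t4 : 208 * (Λ * fK * (L2 * nq * nd)) ≤ E m (x + 681) / 40 := by expo_div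
  have t5 : (64 * (sq * (rM + V)) + 208 * (nq * nd)) * Sq ≤ E m (x + 681) / 40 := by expo_div
  have t6 : ((4 * η + 160 * (fK + V) + 84 * V) * L2 + 64 * (sq * (rM + V)) + 200 * (sq * V))
      * (nq * nq) ≤ E m (x + 681) / 40 := by expo_div
  have t7 : (432 * (21 * (V * L2) + 32 * Λ ^ 2) + 648 * (340 * (nk * V) + 361 * L2 ^ 2)) * R
      ≤ E m (x + 681) / 40 := by expo_div
  have t8 : (1722 * ((rM + V) * nk) + 9780752 * (V ^ 2 * kM)
      + 27 / 2 * (340 * (nk * V) + 361 * L2 ^ 2)) * W ≤ E m (x + 681) / 40 := by expo_div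
  have h0 := E_pos (by linarith : 0 < m) (x + 681)
  linarith

end Crest.Agent.R62.MainWNum
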