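import Crest.Agent.R62.WIn
import Crest.Agent.R62.MainWNum

/-!
R62 (helper610): the targets `S1W`, `S2W` of `StepDefs` (numeric closure of `AvR.W_avg2`).
-/

set_option autoImplicit false
set_option linter.unusedSectionVars false
set_option linter.unusedVariables false

open Matrix Finset

namespace Crest.Agent.R62.MainW

open Crest.Agent.R62.Step Crest.Agent.R62.AvBase Crest.Agent.R62.DiagAv Crest.Agent.R62.Expo
open Crest.Agent.R62.Nums Crest.Agent.R62.WtOf Crest.Agent.R62.WIn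
open Crest.Agent.R62.AvV (dg kk kk_nonneg)
open Crest.Agent.R62.AvR (Wc qf Mf pd)
open Crest.Agent.R062

variable {ι : Type} [Fintype ι] [DecidableEq ι]

/-- the bias / tilt input `h2` -/
lemma h2_bound {K : Matrix ι ι ℝ} {D : Matrix ι ι ℝ} {η Λ : ℝ} (hK : K.IsSymm) (hD : OpB D η)
    (hΛ : OpB K Λ) (q : ι → ℝ) : |∑ x, ∑ y, D x y * Mf K q x y| ≤ η * (Λ * Sq K q) := by
  have h := opB_rank_sum hD q (fun z x => (K ^ 2) z x) (fun z y => K z y)
  refine h.trans (mul_le_mul_of_nonneg_left ?_ hD.1)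
  unfold Sq
  rw [Finset.mul_sum]
  refine Finset.sum_le_sum fun z _ => ?_
  have h1 := n2_sq_row hK hΛ z
  calc |q z| * (n2 (fun x => (K ^ 2) z x) * n2 fun y => K z y)
      ≤ |q z| * ((Λ * rr K z) * rr K z) := by
        refine mul_le_mul_of_nonneg_left ?_ (abs_nonneg _)
        exact mul_le_mul_of_nonneg_right h1 (rr_nonneg K z)
    _ = _ := by ring

lemma sum_qf {K : Matrix ι ι ℝ} {F : Finset ι} (hF : ∀ i j, i ∉ F → K i j = 0) :
    ∑ z, qf K F 1 z = (K ^ 2).trace - F.card := by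
  unfold qf
  rw [Finset.sum_ite_mem, Finset.univ_inter, Finset.sum_sub_distrib]
  have e1 : (K ^ 2).trace = ∑ i ∈ F, (K ^ 2) i i := by
    unfold Matrix.trace Matrix.diag
    symm
    apply Finset.sum_subset (Finset.subset_univ F)
    intro i _ hi
    exact dead_sq hF hi
  rw [e1]
  simp

lemma sum_qf_p {K : Matrix ι ι ℝ} {F : Finset ι} (hF : ∀ i j, i ∉ F → K i j = 0) :
    ∑ z, qf K F 1 z * (K ^ 2) z z = AvX1.Wf F K + ((K ^ 2).trace - F.card) := by
  rw [← sum_qf hF]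
  have e1 : AvX1.Wf F K = ∑ z, qf K F 1 z ^ 2 := by
    rw [← n2_sq, AvR.n2_qf_sq]; rfl
  rw [e1, ← Finset.sum_add_distrib]
  refine Finset.sum_congr rfl fun z _ => ?_
  unfold qf
  split_ifs
  · ring
  · ring

lemma Wc_eq (K : Matrix ι ι ℝ) (F : Finset ι) : Wc K F 1 = AvX1.Wf F K := rfl

lemma sg_sq' (b : Bool) : (Mach.sg b : ℝ) ^ 2 = 1 := by cases b <;> norm_num [Mach.sg]

/-- `E m k` for numerals -/
lemma pE (m k : ℕ) [k.AtLeastTwo] :
    (m : ℝ) ^ (OfNat.ofNat k : ℕ) = E (m : ℝ) (OfNat.ofNat k : ℝ) := (E_ofNat _ k).symm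

/-- from the averaged inequality to the increment of `W / c` -/
lemma inc_W {d n m : ℕ} {γ : ℝ} {F : Finset ι} {K : Bool → Matrix ι ι ℝ}
    {S : Finset (ι × ι)} {Θ : ι → ι → ℝ} (b : Bool) (c : ℝ) :
    inc S Θ (fun x y => AvX1.Wf ((F.erase x).erase y) (nx b K x y) / c) (AvX1.Wf F (K b) / c)
      = SW (wt S Θ) (fun x y => Wc (Upd.upd (Mach.sg b : ℝ) (K b) x y) ((F.erase x).erase y) 1
          - Wc (K b) F 1) / c := by
  rw [inc_eq_SW]
  unfold SW
  rw [Finset.sum_div]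
  refine Finset.sum_congr rfl fun x _ => ?_
  rw [Finset.sum_div]
  refine Finset.sum_congr rfl fun y _ => ?_
  simp only [Wc_eq, nx]
  rw [← sub_div, mul_div_assoc]

/-- final combination -/
lemma fin {ρ W Y κ ξ ω small B : ℝ} (hρ : 0 < ρ) (hW : 0 ≤ W) (hκ : κ ≤ 3 / 5 * ρ) (hκ0 : 0 ≤ κ)
    (hξ : ξ ≤ ρ / 100) (hω : ω ≤ 1 / 100) (hω0 : 0 ≤ ω) (hY : Y ≤ 0) (hY2 : 4 * Y ^ 2 ≤ B / 4)
    (hsm : small ≤ B / 4) (hB : 0 ≤ B) :
    -(2 * (ρ - ξ) * W) + 4 * (Y * (W + Y)) + 81 / 32 * (1 + ω) * (κ * W) + small ≤ B := by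
  have h1 : 81 / 32 * (1 + ω) * (κ * W) ≤ 81 / 32 * (1 + 1 / 100) * (3 / 5 * ρ * W) := by
    have a1 : 81 / 32 * (1 + ω) ≤ 81 / 32 * (1 + 1 / 100) := by linarith
    have a2 : κ * W ≤ 3 / 5 * ρ * W := mul_le_mul_of_nonneg_right hκ hW
    exact mul_le_mul a1 a2 (mul_nonneg hκ0 hW) (by norm_num)
  have h2 : Y * W ≤ 0 := mul_nonpos_of_nonpos_of_nonneg hY hW
  have h3 : ξ * W ≤ ρ / 100 * W := mul_le_mul_of_nonneg_right hξ hW
  have h4 : 0 ≤ ρ * W := mul_nonneg hρ.le hW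
  nlinarith

/-- the stage 1 target for `W` -/
theorem s1w : S1W ι := by
  intro d n m γ F K S Θ h c B t b
  have P := par h
  have R := rho1 h B
  have hm1 := P.m1
  have hm0 := P.m0
  have hb := P.mbig
  have hbn : 5 * 10 ^ 14 ≤ m := by exact_mod_cast hb
  obtain ⟨x, hx⟩ : ∃ x, x = ex (m : ℝ) F.card := ⟨_, rfl⟩
  rw [← hx] at R
  have hxl := R.lo
  have hxh := R.hi
  have hK : (K b).IsSymm := c.symm b
  have hdead := c.dead b
  have hs := sg_sq' b
  have hW0 : AvX1.Wf F (K b) ≤ E m 610 := by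
    have := B.Wu b
    rwa [pE] at this
  have hV0 : AvX1.Vf (K b) ≤ E m 6 := by
    have := B.Vu b
    rwa [pE] at this
  have I : Inp m F (K b) x 6 610 x :=
    inp_of P c b R.eq (by linarith) (X2_le1 P B b) hV0 hW0 (by norm_num) (by norm_num)
      (by norm_num) (by norm_num) (by linarith) le_rfl (by linarith)
  have hw := wt1 h c B t b
  rw [← hx] at hw
  have hΛ := (opB1 h c B b).2
  rw [← hx] at hΛ
  have hB2 : (2 : ℝ) ≤ E m 206 := by
    have : E (m : ℝ) 1 ≤ E m 206 := E_mono hm1 (by norm_num)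
    rw [E_one] at this; linarith
  have hV1 := AvV.Vf_nonneg (K b)
  have hL2 := opB_Ksq_W hK hdead I.S2 (by positivity) hB2
  have hmD := AvR.n2_Mf_diag hK hΛ I.rr (qf (K b) F 1)
  have hE := h2_bound hK hw.opb hΛ (qf (K b) F 1)
  have main := AvR.W_avg2 (t := 1) hK (fun i hi j => c.dead b i j hi) hs (MainX2.row_of c b) hΛ
    hL2 (Real.sqrt_nonneg _) I.rr I.kM hmD hw hE
  have hSq : O (m : ℝ) 2 (610 / 2 + x / 2) (Sq (K b) (qf (K b) F 1)) := by
    have h1 := I.nq.mul hm1 I.np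
    rw [one_mul] at h1
    exact h1.mono_z (Sq_nonneg _ _) (Sq_le hK _)
  have hT : O (m : ℝ) 2 361 |(K b).trace| := by
    refine ⟨abs_nonneg _, ?_⟩
    have h1 := B.X1u b
    have h2 := B.X1l b
    have h3 : U m F.card ≤ (m : ℝ) ^ 361 := by
      unfold U
      have h4 : max 0 (min 1 (((F.card : ℝ) - (m : ℝ) ^ 800) / (m : ℝ) ^ 800)) ≤ 1 :=
        max_le zero_le_one (min_le_left _ _)
      have h5 : (0 : ℝ) ≤ (m : ℝ) ^ 361 := by positivity
      nlinarith
    have h4 : (m : ℝ) ^ 335 ≤ (m : ℝ) ^ 361 := pow_le_pow_right₀ hm1 (by norm_num)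
    rw [pE m 361] at h3 h4
    have h5 := (E_pos hm0 (361 : ℝ)).le
    rw [abs_le]
    constructor <;> linarith
  have hY1 : (K b ^ 2).trace - F.card ≤ -(3 / 4) * r1 d n m := by
    have := B.X2u b; linarith
  have hY2 : -(4 * r1 d n m) ≤ (K b ^ 2).trace - F.card := by
    have := B.X2l b; linarith
  have hr := P.r1_pos
  have oY : O (m : ℝ) 4 (680 + 1 / 10) |(K b ^ 2).trace - F.card| := by
    refine ⟨abs_nonneg _, ?_⟩
    have h1 := P.r1O.le
    rw [abs_le]
    constructor <;> linarith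
  have hL2v : O (m : ℝ) 40 206 (E m 206
      + Real.sqrt (8 * (2 * (1 + AvV.Vf (K b))) * AvX1.Wf F (K b) / E m 206)) := by
    have h1 : Real.sqrt (8 * (2 * (1 + AvV.Vf (K b))) * AvX1.Wf F (K b) / E m 206)
        ≤ 39 * E m 206 := by
      have o1 := I.V
      have o2 := I.W
      have : Real.sqrt (8 * (2 * (1 + AvV.Vf (K b))) * AvX1.Wf F (K b) / E m 206)
        ≤ E m 206 := by expo
      have h5 := (E_pos hm0 (206 : ℝ)).le
      linarith
    refine ⟨add_nonneg (E_pos hm0 _).le (Real.sqrt_nonneg _), by linarith⟩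
  have hkM : O (m : ℝ) 8 (6 + 610 / 2)
      (2 * (1 + AvV.Vf (K b)) * (1 + Real.sqrt (AvX1.Wf F (K b)))) := by
    have hW1 := AvX1.Wf_nonneg F (K b)
    refine ⟨by positivity, ?_⟩
    have a1 : 1 + AvV.Vf (K b) ≤ 2 * E m 6 := by
      have := I.V.le
      have := one_le_E hm1 (by norm_num : (0 : ℝ) ≤ 6)
      linarith
    have a2 : 1 + Real.sqrt (AvX1.Wf F (K b)) ≤ 2 * E m (610 / 2) := by
      have h1 : Real.sqrt (AvX1.Wf F (K b)) ≤ E m (610 / 2) := by
        rw [← E_sqrt hm0]; exact Real.sqrt_le_sqrt hW0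
      have := one_le_E hm1 (by norm_num : (0 : ℝ) ≤ 610 / 2)
      linarith
    rw [E_add hm0]
    calc _ ≤ 2 * (2 * E m 6) * (2 * E m (610 / 2)) := by
          refine mul_le_mul (by linarith) a2 (by positivity) ?_
          have := (E_pos hm0 (6 : ℝ)).le
          positivity
      _ = _ := by ring
  have oη : O (m : ℝ) 2 ((x + 1 / 5) / 2) (E m ((x + 1 / 5) / 2) + E m 371) := by
    refine ⟨add_nonneg (E_pos hm0 _).le (E_pos hm0 _).le, ?_⟩
    have : E (m : ℝ) 371 ≤ E m ((x + 1 / 5) / 2) := E_mono hm1 (by linarith)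
    linarith
  have num := MainWNum.num1 hm1 hb hxl hxh I.fK I.sq I.V I.nd I.W I.nq I.R I.rM I.kk hkM
    (O.E hm0 _) oη hL2v hT hSq oY
  have e2 : n2 (qf (K b) F 1) * n2 (qf (K b) F 1) = AvX1.Wf F (K b) := by
    rw [← pow_two, AvR.n2_qf_sq]; rfl
  show inc S Θ (fun x y => p1W m (AvX1.Wf ((F.erase x).erase y) (nx b K x y)))
    (p1W m (AvX1.Wf F (K b))) ≤ F.card / (m : ℝ) ^ 2
  unfold p1W
  rw [inc_W (d := d) (n := n) (m := m) (γ := γ) b ((m : ℝ) ^ 610), div_le_iff₀ (by positivity)]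
  rw [sum_qf hdead, sum_qf_p hdead] at main
  have hfin := fin (ρ := F.card) (W := AvX1.Wf F (K b)) (Y := (K b ^ 2).trace - F.card)
    (κ := ∑ z, kk (K b) z) (ξ := E m (x - 1) + 1 / (m : ℝ) * F.card) (ω := 1 / (m : ℝ))
    (B := E m (x + 608)) R.pos (AvX1.Wf_nonneg _ _) I.kap
    (Finset.sum_nonneg fun z _ => kk_nonneg _ _) ?_ ?_ (by positivity) (by linarith) ?_ num
    (E_pos hm0 _).le
  · have e3 : (F.card : ℝ) / (m : ℝ) ^ 2 * (m : ℝ) ^ 610 = E m (x + 608) := by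
      have e4 : (m : ℝ) ^ 610 = (m : ℝ) ^ 2 * (m : ℝ) ^ 608 := by rw [← pow_add]
      have e5 : (m : ℝ) ^ 2 ≠ 0 := by positivity
      rw [e4, E_add hm0, ← R.eq, ← pE m 608]
      field_simp
    rw [e3]
    refine le_trans ?_ hfin
    refine main.trans (le_of_eq ?_)
    rw [Wc_eq]
    ring
  · -- ξ
    have h1 : E (m : ℝ) (x - 1) = F.card / m := by
      rw [E_sub hm0, E_one, ← R.eq]
    rw [h1]
    have h2 : (F.card : ℝ) / m = 1 / m * F.card := by ring
    have h3 : (1 : ℝ) / m ≤ 1 / 200 := by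
      apply one_div_le_one_div_of_le <;> linarith
    rw [h2]
    have := R.pos
    nlinarith
  · apply one_div_le_one_div_of_le <;> linarith
  · -- Y²
    have h1 : ((K b ^ 2).trace - F.card) ^ 2 ≤ 16 * r1 d n m ^ 2 := by nlinarith
    have h2 : 4 * (16 * r1 d n m ^ 2) ≤ E m (x + 608) / 4 := by
      have o1 := P.r1O
      expo_div
    linarith

/-- in stage 2, `X₂ ≤ ρ` -/
lemma X2_le_card {d n m : ℕ} {x0 : ℝ} {F : Finset ι} {K : Bool → Matrix ι ι ℝ} (h : Prm d n m)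
    (B : Box2 d n m x0 F K) (b : Bool) : (K b ^ 2).trace ≤ F.card := by
  have P := par h
  have R := rho2 h B
  have hm1 := P.m1
  have hm0 := P.m0
  have hb := P.mbig
  have h1 := B.X2u b
  have hr := P.r1_pos
  have hx0 := x0_ge P B
  have hr1 := P.r1_ge
  have hρ := R.pos
  have hge := B.rho_ge
  have h2 : (m : ℝ) ^ 670 ≤ F.card - phi2 (r1 d n m) F.card := by
    have e1 : F.card - phi2 (r1 d n m) F.card
        = F.card * (r1 d n m / 2) / (F.card + r1 d n m / 2) := by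
      unfold phi2
      field_simp
      ring
    rw [e1, le_div_iff₀ (by positivity), pE m 670]
    have h3 : E (m : ℝ) 670 ≤ r1 d n m / 4 := by
      have a1 : E (m : ℝ) 680 = E m 670 * E m 10 := by
        rw [E_mul hm0]; norm_num
      have a2 : (4 : ℝ) ≤ E m 10 := by
        have : E (m : ℝ) 1 ≤ E m 10 := E_mono hm1 (by norm_num)
        rw [E_one] at this; linarith
      have a3 := (E_pos hm0 (670 : ℝ)).le
      nlinarith
    have h4 : E (m : ℝ) 670 ≤ F.card / 2 := by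
      have a1 : E (m : ℝ) (680 - 1 / 4) ≤ F.card := by
        rw [R.eq]; exact E_mono hm1 R.lo
      have a2 : E (m : ℝ) (680 - 1 / 4) = E m 670 * E m (39 / 4) := by
        rw [E_mul hm0]; norm_num
      have a3 : (2 : ℝ) ≤ E m (39 / 4) := by
        have : E (m : ℝ) 1 ≤ E m (39 / 4) := E_mono hm1 (by norm_num)
        rw [E_one] at this; linarith
      have a4 := (E_pos hm0 (670 : ℝ)).le
      nlinarith
    have h5 := (E_pos hm0 (670 : ℝ)).le
    have b1 : E (m : ℝ) 670 * F.card ≤ r1 d n m / 4 * F.card :=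
      mul_le_mul_of_nonneg_right h3 hρ.le
    have b2 : E (m : ℝ) 670 * (r1 d n m / 2) ≤ F.card / 2 * (r1 d n m / 2) :=
      mul_le_mul_of_nonneg_right h4 (by positivity)
    nlinarith
  linarith

/-- the stage 2 target for `W` -/
theorem s2w : S2W ι := by
  intro d n m γ x0 F K S h c B b
  have P := par h
  have R := rho2 h B
  have hm1 := P.m1
  have hm0 := P.m0
  have hb := P.mbig
  have hbn : 5 * 10 ^ 14 ≤ m := by exact_mod_cast hb
  obtain ⟨x, hx⟩ : ∃ x, x = ex (m : ℝ) F.card := ⟨_, rfl⟩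
  rw [← hx] at R
  have hxl := R.lo
  have hxh := R.hi
  obtain ⟨y, hy⟩ : ∃ y, y = max 683 x := ⟨_, rfl⟩
  have hy1 : 683 ≤ y := hy ▸ le_max_left _ _
  have hy2 : x ≤ y := hy ▸ le_max_right _ _
  have hy3 : y ≤ x + 13 / 4 := by rw [hy]; exact max_le (by linarith) (by linarith)
  have hK : (K b).IsSymm := c.symm b
  have hdead := c.dead b
  have hs := sg_sq' b
  have hW0 : AvX1.Wf F (K b) ≤ E m 683 := by
    have := B.Wu b
    rwa [pE] at this
  have hV0 : AvX1.Vf (K b) ≤ E m 8 := by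
    have := B.Vu b
    rwa [pE] at this
  have hX2 := X2_le_card h B b
  have I : Inp m F (K b) x 8 683 y :=
    inp_of P c b R.eq (by linarith) hX2 hV0 hW0 (by norm_num) (by norm_num)
      (by norm_num) (by norm_num) hy1 hy2 (by linarith)
  have hw := wt2 h c B b
  rw [← hx] at hw
  have hΛ := (opB2 h c B b).2
  rw [← hx] at hΛ
  have hB2 : (2 : ℝ) ≤ E m 232 := by
    have : E (m : ℝ) 1 ≤ E m 232 := E_mono hm1 (by norm_num)
    rw [E_one] at this; linarith
  have hV1 := AvV.Vf_nonneg (K b)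
  have hL2 := opB_Ksq_W hK hdead I.S2 (by positivity) hB2
  have hmD := AvR.n2_Mf_diag hK hΛ I.rr (qf (K b) F 1)
  have hE := h2_bound hK hw.opb hΛ (qf (K b) F 1)
  have main := AvR.W_avg2 (t := 1) hK (fun i hi j => c.dead b i j hi) hs (MainX2.row_of c b) hΛ
    hL2 (Real.sqrt_nonneg _) I.rr I.kM hmD hw hE
  have hSq : O (m : ℝ) 2 (683 / 2 + y / 2) (Sq (K b) (qf (K b) F 1)) := by
    have h1 := I.nq.mul hm1 I.np
    rw [one_mul] at h1
    exact h1.mono_z (Sq_nonneg _ _) (Sq_le hK _)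
  have hT : O (m : ℝ) 2 336 |(K b).trace| := by
    refine ⟨abs_nonneg _, ?_⟩
    have h1 := B.X1 b
    rw [pE m 336] at h1
    have h5 := (E_pos hm0 (336 : ℝ)).le
    linarith
  have hY2 : -(6 * r1 d n m) ≤ (K b ^ 2).trace - F.card := by
    have := B.X2l b; linarith
  have hX20 : 0 ≤ (K b ^ 2).trace := by
    have := trace_even_nonneg (show (K b)ᵀ = K b from hK) 1
    simpa using this
  have hr := P.r1_pos
  have oY : O (m : ℝ) 6 (680 + 1 / 10) |(K b ^ 2).trace - F.card| := by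
    refine ⟨abs_nonneg _, ?_⟩
    have h1 := P.r1O.le
    rw [abs_le]
    constructor <;> linarith
  have hL2v : O (m : ℝ) 40 232 (E m 232
      + Real.sqrt (8 * (2 * (1 + AvV.Vf (K b))) * AvX1.Wf F (K b) / E m 232)) := by
    have h1 : Real.sqrt (8 * (2 * (1 + AvV.Vf (K b))) * AvX1.Wf F (K b) / E m 232)
        ≤ 39 * E m 232 := by
      have o1 := I.V
      have o2 := I.W
      have : Real.sqrt (8 * (2 * (1 + AvV.Vf (K b))) * AvX1.Wf F (K b) / E m 232)
        ≤ E m 232 := by expo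
      have h5 := (E_pos hm0 (232 : ℝ)).le
      linarith
    refine ⟨add_nonneg (E_pos hm0 _).le (Real.sqrt_nonneg _), by linarith⟩
  have hkM : O (m : ℝ) 8 (8 + 683 / 2)
      (2 * (1 + AvV.Vf (K b)) * (1 + Real.sqrt (AvX1.Wf F (K b)))) := by
    have hW1 := AvX1.Wf_nonneg F (K b)
    refine ⟨by positivity, ?_⟩
    have a1 : 1 + AvV.Vf (K b) ≤ 2 * E m 8 := by
      have := I.V.le
      have := one_le_E hm1 (by norm_num : (0 : ℝ) ≤ 8)
      linarith
    have a2 : 1 + Real.sqrt (AvX1.Wf F (K b)) ≤ 2 * E m (683 / 2) := by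
      have h1 : Real.sqrt (AvX1.Wf F (K b)) ≤ E m (683 / 2) := by
        rw [← E_sqrt hm0]; exact Real.sqrt_le_sqrt hW0
      have := one_le_E hm1 (by norm_num : (0 : ℝ) ≤ 683 / 2)
      linarith
    rw [E_add hm0]
    calc _ ≤ 2 * (2 * E m 8) * (2 * E m (683 / 2)) := by
          refine mul_le_mul (by linarith) a2 (by positivity) ?_
          have := (E_pos hm0 (8 : ℝ)).le
          positivity
      _ = _ := by ring
  have oη : O (m : ℝ) 2 ((x + 1 / 5) / 2) (E m ((x + 1 / 5) / 2) + 0) := by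
    refine ⟨add_nonneg (E_pos hm0 _).le le_rfl, ?_⟩
    have := (E_pos hm0 ((x + 1 / 5) / 2)).le
    linarith
  have num := MainWNum.num2 hy2 hy1 hy3 hm1 hb hxl hxh I.fK I.sq I.V I.nd I.W I.nq I.R I.rM I.kk
    hkM (O.E hm0 _) oη hL2v hT hSq oY
  have e2 : n2 (qf (K b) F 1) * n2 (qf (K b) F 1) = AvX1.Wf F (K b) := by
    rw [← pow_two, AvR.n2_qf_sq]; rfl
  show inc S (fun _ _ => 0) (fun x y => p2W m (AvX1.Wf ((F.erase x).erase y) (nx b K x y)))
    (p2W m (AvX1.Wf F (K b))) ≤ F.card / (m : ℝ) ^ 2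
  unfold p2W
  rw [inc_W (d := d) (n := n) (m := m) (γ := γ) b ((m : ℝ) ^ 683), div_le_iff₀ (by positivity)]
  rw [sum_qf hdead, sum_qf_p hdead] at main
  have hfin := fin (ρ := F.card) (W := AvX1.Wf F (K b)) (Y := (K b ^ 2).trace - F.card)
    (κ := ∑ z, kk (K b) z) (ξ := E m (x - 1) + 0 * F.card) (ω := 0)
    (B := E m (x + 681)) R.pos (AvX1.Wf_nonneg _ _) I.kap
    (Finset.sum_nonneg fun z _ => kk_nonneg _ _) ?_ (by norm_num) le_rfl (by linarith) ?_ num
    (E_pos hm0 _).le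
  · have e3 : (F.card : ℝ) / (m : ℝ) ^ 2 * (m : ℝ) ^ 683 = E m (x + 681) := by
      have e4 : (m : ℝ) ^ 683 = (m : ℝ) ^ 2 * (m : ℝ) ^ 681 := by rw [← pow_add]
      rw [e4, E_add hm0, ← R.eq, ← pE m 681]
      field_simp
    rw [e3]
    refine le_trans ?_ hfin
    refine main.trans (le_of_eq ?_)
    rw [Wc_eq]
    ring
  · -- ξ
    have h1 : E (m : ℝ) (x - 1) = F.card / m := by
      rw [E_sub hm0, E_one, ← R.eq]
    rw [h1]
    have h2 : (F.card : ℝ) / m = 1 / m * F.card := by ring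
    have h3 : (1 : ℝ) / m ≤ 1 / 200 := by
      apply one_div_le_one_div_of_le <;> linarith
    rw [h2]
    have := R.pos
    nlinarith
  · -- Y²
    have h1 : ((K b ^ 2).trace - F.card) ^ 2 ≤ 6 * r1 d n m * F.card := by
      have a1 : F.card - (K b ^ 2).trace ≤ F.card := by linarith
      have a2 : F.card - (K b ^ 2).trace ≤ 6 * r1 d n m := by linarith
      have a3 : 0 ≤ F.card - (K b ^ 2).trace := by linarith
      calc ((K b ^ 2).trace - F.card) ^ 2
          = (F.card - (K b ^ 2).trace) * (F.card - (K b ^ 2).trace) := by ring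
        _ ≤ 6 * r1 d n m * F.card := mul_le_mul a2 a1 a3 (by positivity)
    have h2 : 96 * r1 d n m ≤ E m 681 := by
      have a1 : r1 d n m ≤ 2 * d * E m 680 := by
        unfold r1
        rw [div_le_iff₀ (by positivity), ← pE m 680]
        have a2 := h.hn2
        have a3 : (m : ℝ) ^ 1000 = (m : ℝ) ^ 680 * (m : ℝ) ^ 320 := by rw [← pow_add]
        calc (n : ℝ) * d ≤ 2 * (m : ℝ) ^ 1000 * d :=
              mul_le_mul_of_nonneg_right a2 (Nat.cast_nonneg d)
          _ = _ := by rw [a3]; ring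
      have a4 : 192 * (d : ℝ) ≤ m := by
        have := MainX2.d_le h
        have hd0 : (0 : ℝ) ≤ d := Nat.cast_nonneg d
        nlinarith
      have a5 : E (m : ℝ) 681 = m * E m 680 := by
        rw [show (681 : ℝ) = 1 + 680 by norm_num, E_add hm0, E_one]
      rw [a5]
      have a6 := (E_pos hm0 (680 : ℝ)).le
      nlinarith
    rw [E_add hm0, ← R.eq]
    have := R.pos
    nlinarith

end Crest.Agent.R62.MainW
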