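import Crest.Agent.R62.X2Num
import Crest.Agent.R62.StepDefs
import Crest.Agent.R62.X3Low

/-!
R62 (helper420): the `X_2` pieces: `S1X2u`, `S1X2l`, `S2X2` of `StepDefs`.
-/

set_option autoImplicit false
set_option linter.unusedSectionVars false
set_option linter.unusedVariables false

open Matrix Finset

namespace Crest.Agent.R62.MainX2

open Crest.Agent.R62.AvX2 Crest.Agent.R62.AvBase Crest.Agent.R62.X2Drift Crest.Agent.R62.X2Pot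
open Crest.Agent.R62.X2Num Crest.Agent.R62.Step Crest.Agent.R62.X2Tilt
open Crest.Agent.R62.AvX1 (Vf Wf ind)
open Crest.Agent.R062

variable {ι : Type} [Fintype ι] [DecidableEq ι]

lemma sg_sq (b : Bool) : (Mach.sg b : ℝ) ^ 2 = 1 := by cases b <;> simp [Mach.sg]

section ctx

variable {d n m : ℕ} {γ : ℝ} {F : Finset ι} {K : Bool → Matrix ι ι ℝ} {S : Finset (ι × ι)}

lemma row_of (h : Ctx d m γ F K S) (b : Bool) : ∀ x ∈ F, ∑ y, K b x y = Mach.sg b := by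
  intro x hx
  have h1 := congrFun (h.row b) x
  simp only [Matrix.mulVec, dotProduct, ind, Pi.smul_apply, smul_eq_mul] at h1
  have h2 : ∀ y, K b x y * (if y ∈ F then (1:ℝ) else 0) = K b x y := by
    intro y
    by_cases hy : y ∈ F
    · rw [if_pos hy, mul_one]
    · rw [if_neg hy, mul_zero, ← (h.symm b).apply x y, h.dead b y x hy]
  simp_rw [h2] at h1
  rw [h1, if_pos hx, mul_one]

lemma deadF (h : Ctx d m γ F K S) (b : Bool) : ∀ x, x ∉ F → ∀ y, K b x y = 0 :=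
  fun x hx y => h.dead b x y hx

/-- `∑_F Q² = W + 2 X_2 - ρ` -/
lemma sum_Q_sq (h : Ctx d m γ F K S) (b : Bool) :
    ∑ x ∈ F, ((K b ^ 2) x x) ^ 2 = Wf F (K b) + 2 * (K b ^ 2).trace - F.card := by
  have h1 : (K b ^ 2).trace = ∑ x ∈ F, (K b ^ 2) x x := by
    rw [Matrix.trace]
    refine (Finset.sum_subset (Finset.subset_univ F) fun x _ hx => ?_).symm
    rw [Matrix.diag_apply, pow_two, Matrix.mul_apply]
    exact Finset.sum_eq_zero fun y _ => by rw [h.dead b x y hx, zero_mul]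
  rw [h1, Wf, Finset.mul_sum, ← Finset.sum_add_distrib]
  have h2 : (F.card : ℝ) = ∑ x ∈ F, (1 : ℝ) := by simp
  rw [h2, ← Finset.sum_sub_distrib]
  exact Finset.sum_congr rfl fun x _ => by ring

lemma sum_V (b : Bool) : ∑ x ∈ F, (K b x x) ^ 2 ≤ Vf (K b) :=
  Finset.sum_le_sum_of_subset_of_nonneg (Finset.subset_univ F) fun _ _ _ => sq_nonneg _

lemma Dl_ne (h : Ctx d m γ F K S) {p : ι × ι} (hp : p ∈ S) (b : Bool) :
    Upd.Dl (Mach.sg b : ℝ) (K b) p.1 p.2 ≠ 0 := by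
  have h1 := h.good1 p hp b
  have h2 := h.good2 p hp b
  have h3 := (D_bounds (i := (Upd.Dl (Mach.sg b : ℝ) (K b) p.1 p.2)⁻¹)
    (D := Upd.Dl (Mach.sg b : ℝ) (K b) p.1 p.2) (sg_sq b) h1 h2 rfl)
  intro h0
  have hs : |(Mach.sg b : ℝ) * K b p.1 p.2| ≤ 1 / 5 := by
    rw [abs_mul, abs_s (sg_sq b), one_mul]; exact h1
  rw [abs_le] at hs h2
  have : (1 - (Mach.sg b : ℝ) * K b p.1 p.2) ^ 2 - K b p.1 p.1 * K b p.2 p.2 = 0 := h0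
  nlinarith [hs.1, hs.2, h2.1, h2.2]

/-- the new value of `X_2` -/
lemma X2_nx (h : Ctx d m γ F K S) {p : ι × ι} (hp : p ∈ S) (b : Bool) :
    ((nx b K p.1 p.2) ^ 2).trace
      = (K b ^ 2).trace - 2 + f2 (Mach.sg b : ℝ) (K b) p.1 p.2 :=
  X2Upd.trace_sq_upd (sg_sq b) (h.symm b) (h.ne p hp) (Dl_ne h hp b)

end ctx

/-- one-sided quadratic potential, arbitrary nonnegative weights -/
lemma up_gen {α : Type*} (S : Finset α) (wt f : α → ℝ) (hw : ∀ p ∈ S, 0 ≤ wt p) {z w : ℝ} :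
    ∑ p ∈ S, wt p * ((max (z + f p) 0) ^ 2 / w ^ 2 - (max z 0) ^ 2 / w ^ 2)
      ≤ (2 * max z 0 * ∑ p ∈ S, wt p * f p + ∑ p ∈ S, wt p * (f p) ^ 2) / w ^ 2 := by
  rw [Finset.mul_sum, ← Finset.sum_add_distrib, Finset.sum_div]
  refine Finset.sum_le_sum fun p hp => ?_
  have h1 := Barrier.posSq_add_le z (f p)
  have h2 : 0 ≤ (w ^ 2)⁻¹ := by positivity
  have h3 : wt p * ((max (z + f p) 0) ^ 2 / w ^ 2 - (max z 0) ^ 2 / w ^ 2)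
      = wt p * ((max (z + f p) 0) ^ 2 - (max z 0) ^ 2) * (w ^ 2)⁻¹ := by
    rw [div_eq_mul_inv, div_eq_mul_inv]; ring
  rw [h3, div_eq_mul_inv]
  refine mul_le_mul_of_nonneg_right ?_ h2
  calc wt p * ((max (z + f p) 0) ^ 2 - (max z 0) ^ 2)
      ≤ wt p * (2 * max z 0 * f p + f p ^ 2) :=
        mul_le_mul_of_nonneg_left (by linarith) (hw p hp)
    _ = _ := by ring

section prm

variable {d n m : ℕ}

lemma M_ge (h : Prm d n m) : (10 : ℝ) ^ 10 ≤ m := by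
  have hd : (1 : ℝ) ≤ (d : ℝ) := by exact_mod_cast (by have := h.hd; omega : 1 ≤ d)
  have h1 : (1 : ℝ) ≤ (d : ℝ) ^ 10 := one_le_pow₀ hd
  have h2 := h.hm
  nlinarith

lemma d_sq_le (h : Prm d n m) : (10 : ℝ) ^ 10 * (d : ℝ) ^ 2 ≤ m := by
  have hd : (1 : ℝ) ≤ (d : ℝ) := by exact_mod_cast (by have := h.hd; omega : 1 ≤ d)
  have h1 : (d : ℝ) ^ 2 ≤ (d : ℝ) ^ 10 := pow_le_pow_right₀ hd (by norm_num)
  have h2 := h.hm
  nlinarith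

lemma d_le (h : Prm d n m) : (10 : ℝ) ^ 10 * (d : ℝ) ≤ m := by
  have hd : (1 : ℝ) ≤ (d : ℝ) := by exact_mod_cast (by have := h.hd; omega : 1 ≤ d)
  have h2 := d_sq_le h
  nlinarith

lemma nd_le (h : Prm d n m) : (n : ℝ) * d ≤ (m : ℝ) ^ 1001 := by
  have h1 := h.hn2
  have h2 := d_le h
  have hd : (0 : ℝ) ≤ (d : ℝ) := Nat.cast_nonneg d
  have hM := M_ge h
  have h3 : (0 : ℝ) ≤ (m : ℝ) ^ 1000 := by positivity
  calc (n : ℝ) * d ≤ 2 * (m : ℝ) ^ 1000 * d := mul_le_mul_of_nonneg_right h1 hd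
    _ = (2 * d) * (m : ℝ) ^ 1000 := by ring
    _ ≤ m * (m : ℝ) ^ 1000 := mul_le_mul_of_nonneg_right (by nlinarith) h3
    _ = (m : ℝ) ^ 1001 := by ring

lemma r1_ge (h : Prm d n m) : (m : ℝ) ^ 680 ≤ r1 d n m := by
  have hM := M_ge h
  have hM0 : (0 : ℝ) < m := by linarith [hM, (by norm_num : (0:ℝ) < 10 ^ 10)]
  have hd : (1 : ℝ) ≤ (d : ℝ) := by exact_mod_cast (by have := h.hd; omega : 1 ≤ d)
  have h1 := h.hn1
  have hn : (0 : ℝ) ≤ n := Nat.cast_nonneg n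
  unfold r1
  rw [le_div_iff₀ (by positivity)]
  have e : (m : ℝ) ^ 680 * (m : ℝ) ^ 320 = (m : ℝ) ^ 1000 := by ring
  rw [e]
  nlinarith

lemma r1_le (h : Prm d n m) : r1 d n m ≤ (m : ℝ) ^ 681 := by
  have hM := M_ge h
  have hM0 : (0 : ℝ) < m := by linarith [hM, (by norm_num : (0:ℝ) < 10 ^ 10)]
  unfold r1
  rw [div_le_iff₀ (by positivity)]
  have e : (m : ℝ) ^ 681 * (m : ℝ) ^ 320 = (m : ℝ) ^ 1001 := by ring
  rw [e]
  exact nd_le h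

end prm

section stage1

variable {d n m : ℕ} {γ : ℝ} {F : Finset ι} {K : Bool → Matrix ι ι ℝ} {S : Finset (ι × ι)}
variable {Θ : ι → ι → ℝ}

/-- the auxiliary number -/
noncomputable def w1 (m : ℕ) (F : Finset ι) (K : Bool → Matrix ι ι ℝ) (b : Bool) : ℝ :=
  Real.sqrt (2 * (((m : ℝ) ^ 301) ^ 2 * (2 * F.card)) + 2 * ((m : ℝ) ^ 5) ^ 2)

lemma g_facts1 (hP : Prm d n m) (hB : Box1 d n m F K) :
    (m : ℝ) ^ 400 ≤ Real.sqrt F.card ∧ Real.sqrt F.card ^ 2 = F.card ∧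
      (F.card : ℝ) ≤ (m : ℝ) ^ 1001 ∧ (m : ℝ) ^ 800 ≤ F.card := by
  have h1 := hB.rho_ge
  have h2 : (m : ℝ) ^ 800 ≤ F.card := by linarith
  refine ⟨?_, Real.sq_sqrt (Nat.cast_nonneg _), hB.rho_le.trans (nd_le hP), h2⟩
  refine Real.le_sqrt_of_sq_le ?_
  rw [← pow_mul]
  exact h2

lemma X4_1 (hP : Prm d n m) (hB : Box1 d n m F K) (b : Bool) :
    (K b ^ 4).trace ≤ (m : ℝ) ^ 1203 := by
  obtain ⟨-, -, -, h2⟩ := g_facts1 hP hB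
  have h1 := hB.X4u b
  have hM := M_ge hP
  have hM0 : (0 : ℝ) < m := by linarith [hM, (by norm_num : (0:ℝ) < 10 ^ 10)]
  by_contra hcon
  push Not at hcon
  have h3 : (0 : ℝ) < (m : ℝ) ^ 1203 := by positivity
  have h4 : (0 : ℝ) < (m : ℝ) ^ 800 := by positivity
  have h5 : (m : ℝ) ^ 1203 * (m : ℝ) ^ 800 < (K b ^ 4).trace * F.card :=
    mul_lt_mul hcon h2 h4 (by linarith)
  have e : (m : ℝ) ^ 1203 * (m : ℝ) ^ 800 = (m : ℝ) ^ 2003 := by ring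
  rw [e] at h5
  linarith

theorem bd1 (hP : Prm d n m) (hC : Ctx d m γ F K S) (hB : Box1 d n m F K) (b : Bool) :
    Bd (K b) F (Mach.sg b) (2 * Real.sqrt F.card) ((m : ℝ) ^ 602) ((m : ℝ) ^ 903)
      ((m : ℝ) ^ 5) ((m : ℝ) ^ 310) (w1 m F K b) := by
  obtain ⟨hg, hg2, hρ, hρ0⟩ := g_facts1 hP hB
  have hM := M_ge hP
  have hM0 : (0 : ℝ) < m := by linarith [hM, (by norm_num : (0:ℝ) < 10 ^ 10)]
  have hM1 : (1 : ℝ) ≤ m := by linarith [hM, (by norm_num : (1:ℝ) ≤ 10 ^ 10)]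
  have hr0 : (0:ℝ) < r1 d n m := lt_of_lt_of_le (by positivity) (r1_ge hP)
  have hX2 := hB.X2u b
  have hX4 := X4_1 hP hB b
  have e : (m : ℝ) ^ 903 = (m : ℝ) ^ 301 * (m : ℝ) ^ 602 := by rw [← pow_add]
  have hρ1 : (0:ℝ) ≤ F.card := Nat.cast_nonneg _
  rw [e]
  refine Bd.of (hC.symm b) (deadF hC b) (row_of hC b) (sg_sq b) (L := (m : ℝ) ^ 301)
    (opB_of_trace_four (hC.symm b) (by positivity) ?_) (by positivity) (by positivity)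
    (by positivity) (by positivity) ?_ ?_ ?_ ?_ ?_
  · rw [← pow_mul]
    exact hX4.trans (pw hM1 (by norm_num))
  · rw [mul_pow, hg2]; linarith
  · rw [← pow_mul]
    exact hX4.trans (pw hM1 (by norm_num))
  · rw [← pow_mul]
    exact ((sum_V b).trans (hB.Vu b)).trans (pw hM1 (by norm_num))
  · rw [← pow_mul]
    exact (hB.Wu b).trans (pw hM1 (by norm_num))
  · rw [sum_Q_sq hC]
    have h1 : Wf F (K b) ≤ (m : ℝ) ^ 800 := (hB.Wu b).trans (pw hM1 (by norm_num))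
    linarith

lemma w1_le (hP : Prm d n m) (hB : Box1 d n m F K) (b : Bool) :
    0 ≤ w1 m F K b ∧ w1 m F K b ≤ (m : ℝ) ^ 302 * Real.sqrt F.card := by
  obtain ⟨hg, hg2, hρ, hρ0⟩ := g_facts1 hP hB
  have hM := M_ge hP
  have hM0 : (0 : ℝ) < m := by linarith [hM, (by norm_num : (0:ℝ) < 10 ^ 10)]
  have hM1 : (1 : ℝ) ≤ m := by linarith [hM, (by norm_num : (1:ℝ) ≤ 10 ^ 10)]
  refine ⟨Real.sqrt_nonneg _, ?_⟩
  unfold w1
  refine Real.sqrt_le_iff.mpr ⟨mul_nonneg (pow_nonneg hM0.le _) (Real.sqrt_nonneg _), ?_⟩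
  rw [mul_pow, hg2]
  have hρ1 : (0:ℝ) ≤ F.card := Nat.cast_nonneg _
  have e0 : ((m : ℝ) ^ 301) ^ 2 = (m : ℝ) ^ 602 := by ring
  have e1 : ((m : ℝ) ^ 302) ^ 2 = (m : ℝ) ^ 2 * (m : ℝ) ^ 602 := by ring
  have e2 : ((m : ℝ) ^ 5) ^ 2 = (m : ℝ) ^ 10 := by ring
  rw [e0, e1, e2]
  have h4 : (0:ℝ) ≤ (m : ℝ) ^ 602 := by positivity
  have h3 : 2 * (m : ℝ) ^ 10 ≤ (m : ℝ) ^ 602 * F.card := by
    have h5 : 2 * (m : ℝ) ^ 10 ≤ (m : ℝ) ^ 800 :=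
      cm hM1 (by linarith [hM, (by norm_num : (2:ℝ) ≤ 10 ^ 10)]) (by norm_num)
    have h6 : (1:ℝ) ≤ (m : ℝ) ^ 602 := one_le_pow₀ hM1
    nlinarith
  have h7 : (5 : ℝ) ≤ (m:ℝ) ^ 2 := by nlinarith [hM, (by norm_num : (5:ℝ) ≤ 10 ^ 10)]
  have h8 : 0 ≤ (m : ℝ) ^ 602 * F.card := mul_nonneg h4 hρ1
  nlinarith

lemma T2_le {K : Matrix ι ι ℝ} {s N2 N4 N6 v r w : ℝ} (h : Bd K F s N2 N4 N6 v r w)
    (hS : S ⊆ F ×ˢ F) {p : ι × ι} (hp : p ∈ S) : (T2 K p.1 p.2) ^ 2 ≤ (2 * v * r) ^ 2 := by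
  have h1 := h.sum_T
  rw [← Finset.sum_product'] at h1
  exact (Finset.single_le_sum (f := fun p : ι × ι => (T2 K p.1 p.2) ^ 2)
    (fun _ _ => sq_nonneg _) (hS hp)).trans h1

lemma U_le (hM0 : (0:ℝ) < m) (ρ : ℝ) : U m ρ ≤ (m : ℝ) ^ 361 := by
  unfold U
  have h1 : max 0 (min 1 ((ρ - (m : ℝ) ^ 800) / (m : ℝ) ^ 800)) ≤ 1 :=
    max_le zero_le_one (min_le_left _ _)
  have h2 : (0:ℝ) ≤ (m : ℝ) ^ 361 := pow_nonneg hM0.le _
  calc _ ≤ (m : ℝ) ^ 361 * 1 := mul_le_mul_of_nonneg_left h1 h2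
    _ = _ := mul_one _

lemma X1_1 (hP : Prm d n m) (hB : Box1 d n m F K) (b : Bool) :
    |(K b).trace| ≤ (m : ℝ) ^ 362 := by
  have hM := M_ge hP
  have hM0 : (0 : ℝ) < m := by linarith [hM, (by norm_num : (0:ℝ) < 10 ^ 10)]
  have hM1 : (1 : ℝ) ≤ m := by linarith [hM, (by norm_num : (1:ℝ) ≤ 10 ^ 10)]
  have h1 := hB.X1u b
  have h2 := hB.X1l b
  have h3 := U_le hM0 (F.card : ℝ)
  have h4 : (m : ℝ) ^ 335 ≤ (m : ℝ) ^ 361 := pw hM1 (by norm_num)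
  have h5 : 2 * (m : ℝ) ^ 361 ≤ (m : ℝ) ^ 362 :=
    cm hM1 (by linarith [hM, (by norm_num : (2:ℝ) ≤ 10 ^ 10)]) (by norm_num)
  have h6 : (0:ℝ) ≤ (m : ℝ) ^ 361 := pow_nonneg hM0.le _
  rw [abs_le]
  constructor <;> linarith

lemma X3_1 (hP : Prm d n m) (hB : Box1 d n m F K) (b : Bool) :
    |(K b ^ 3).trace| ≤ (m : ℝ) ^ 1001 := by
  have hM := M_ge hP
  have hM0 : (0 : ℝ) < m := by linarith [hM, (by norm_num : (0:ℝ) < 10 ^ 10)]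
  have h1 := hB.X3u b
  have h2 := hB.X3l b
  have hn : (0:ℝ) ≤ n := Nat.cast_nonneg n
  have hd : (3 : ℝ) ≤ (d : ℝ) := by exact_mod_cast hP.hd
  have hdm := d_sq_le hP
  have h3 := hP.hn2
  have h4 : (0:ℝ) ≤ (m : ℝ) ^ 1000 := pow_nonneg hM0.le _
  rw [abs_of_nonneg (by linarith)]
  have h5 : 3 * ((d : ℝ) - 1) ^ 2 ≤ 3 * (d : ℝ) ^ 2 := by nlinarith
  calc (K b ^ 3).trace ≤ 3 * ((d : ℝ) - 1) ^ 2 * n := h1
    _ ≤ 3 * (d : ℝ) ^ 2 * (2 * (m : ℝ) ^ 1000) :=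
        mul_le_mul h5 h3 hn (by positivity)
    _ = 6 * (d : ℝ) ^ 2 * (m : ℝ) ^ 1000 := by ring
    _ ≤ m * (m : ℝ) ^ 1000 := mul_le_mul_of_nonneg_right (by nlinarith) h4
    _ = (m : ℝ) ^ 1001 := by ring

lemma wt_nonneg (hP : Prm d n m) (hT : Tilt1 d n m F K S Θ) (x y : ι) :
    |Θ x y| ≤ 1 / 2 := by
  have hM := M_ge hP
  have h2 : (2:ℝ) ≤ m := by linarith [hM, (by norm_num : (2:ℝ) ≤ 10 ^ 10)]
  refine (hT.abs_le x y).trans ?_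
  exact one_div_le_one_div_of_le (by norm_num) h2

/-- the mean -/
theorem mean1 (hP : Prm d n m) (hC : Ctx d m γ F K S) (hB : Box1 d n m F K)
    (hT : Tilt1 d n m F K S Θ) (b : Bool) :
    |∑ p ∈ S, (1 - Θ p.1 p.2) * f2 (Mach.sg b : ℝ) (K b) p.1 p.2|
      ≤ (m : ℝ) ^ 603 * F.card := by
  obtain ⟨hg, hg2, hρ, hρ0⟩ := g_facts1 hP hB
  have hM := M_ge hP
  have hM0 : (0 : ℝ) < m := by linarith [hM, (by norm_num : (0:ℝ) < 10 ^ 10)]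
  have hM1 : (1 : ℝ) ≤ m := by linarith [hM, (by norm_num : (1:ℝ) ≤ 10 ^ 10)]
  have hM3 : (1000 : ℝ) ≤ m := by linarith [hM, (by norm_num : (1000:ℝ) ≤ 10 ^ 10)]
  have hbd := bd1 hP hC hB b
  obtain ⟨hw0, hw1⟩ := w1_le hP hB b
  have hρ1 : (0:ℝ) ≤ F.card := Nat.cast_nonneg _
  have hρpos : (0:ℝ) < F.card := lt_of_lt_of_le (pow_pos hM0 _) hρ0
  have hfr : ∑ x, ∑ y, (Matrix.of Θ x y) ^ 2 ≤ ((m : ℝ) ^ 566) ^ 2 := by
    have h1 := hT.frob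
    have h2 : (0:ℝ) ≤ ∑ x, ∑ y, Θ x y ^ 2 :=
      Finset.sum_nonneg fun x _ => Finset.sum_nonneg fun y _ => sq_nonneg _
    by_contra hcon
    push Not at hcon
    have h3 : ((m : ℝ) ^ 566) ^ 2 * (m : ℝ) ^ 800 < (∑ x, ∑ y, Θ x y ^ 2) * F.card :=
      mul_lt_mul hcon hρ0 (pow_pos hM0 _) h2
    have e : ((m : ℝ) ^ 566) ^ 2 * (m : ℝ) ^ 800 = (m : ℝ) ^ 1932 := by ring
    rw [e] at h3
    have h4 : (m : ℝ) ^ 1928 ≤ (m : ℝ) ^ 1932 := pw hM1 (by norm_num)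
    linarith
  have hT1 := T1_op hbd (A := S) (Θ := Matrix.of Θ) (fun x y h => hT.supp x y h)
    (pow_nonneg hM0.le 566) hfr hT.opB
  have hcard : (((F ×ˢ F) \ S).card : ℝ) ≤ ((m : ℝ) * Real.sqrt F.card) ^ 2 := by
    rw [mul_pow, hg2]
    refine hC.bad.trans ?_
    refine mul_le_mul_of_nonneg_right ?_ hρ1
    have := d_sq_le hP
    nlinarith [sq_nonneg (d:ℝ)]
  have hΘS : ∑ p ∈ S, (Θ p.1 p.2) ^ 2 ≤ ((m : ℝ) ^ 566) ^ 2 := by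
    refine le_trans ?_ hfr
    simp only [Matrix.of_apply]
    rw [← Finset.sum_product']
    exact Finset.sum_le_sum_of_subset_of_nonneg (Finset.subset_univ S) fun _ _ _ => sq_nonneg _
  have key := sum_w hbd hC.sub (fun p hp => hC.good1 p hp b) (fun p hp => hC.good2 p hp b)
    (β := (m : ℝ) * Real.sqrt F.card) (mul_nonneg hM0.le (Real.sqrt_nonneg _)) hcard
    Θ (η := 1 / 2) (t := (m : ℝ) ^ 566) (by norm_num) (pow_nonneg hM0.le _)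
    (fun p _ => wt_nonneg hP hT p.1 p.2) hΘS hT1
  have hE := Err1 hM3 hg hw0 hw1 (le_refl (4 * ((m : ℝ) ^ 371 * (2 * Real.sqrt F.card)
    * (m : ℝ) ^ 602 + (m : ℝ) ^ 566 * (2 * Real.sqrt F.card))))
  have hE2 : (m : ℝ) ^ 371 * (2 * Real.sqrt F.card) * (m : ℝ) ^ 602
      = (m : ℝ) ^ 371 * (2 * Real.sqrt F.card) * (m : ℝ) ^ 602 := rfl
  have hX4 := X4_1 hP hB b
  have hX40 : 0 ≤ (K b ^ 4).trace := trace_even_nonneg (hC.symm b) 2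
  have hX20 : 0 ≤ (K b ^ 2).trace := trace_even_nonneg (hC.symm b) 1
  have hX2 := hB.X2u b
  have hX2l := hB.X2l b
  have hr0 : (0:ℝ) < r1 d n m := lt_of_lt_of_le (pow_pos hM0 _) (r1_ge hP)
  have hr1 := r1_le hP
  have hX1 := X1_1 hP hB b
  have hX3 := X3_1 hP hB b
  have hmean : |6 * (K b ^ 4).trace - 4 * (K b ^ 2).trace
        + 2 * ((K b ^ 2).trace - F.card) ^ 2
        + 4 * (K b).trace * ((K b ^ 3).trace - (K b).trace)| ≤ 5 * ((m : ℝ) ^ 600 * F.card) := by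
    have t1 : 6 * (m : ℝ) ^ 1203 ≤ (m : ℝ) ^ 600 * Real.sqrt F.card ^ 2 :=
      c0 hM1 (by linarith) hg (by norm_num)
    have t2 : 4 * ((m : ℝ) ^ 0 * Real.sqrt F.card ^ 2) ≤ (m : ℝ) ^ 600 * Real.sqrt F.card ^ 2 :=
      c2 hM1 (by linarith) (by norm_num)
    have t3 : 32 * (m : ℝ) ^ 1362 ≤ (m : ℝ) ^ 600 * Real.sqrt F.card ^ 2 :=
      c0 hM1 (by linarith) hg (by norm_num)
    have t4 : 4 * (m : ℝ) ^ 1363 ≤ (m : ℝ) ^ 600 * Real.sqrt F.card ^ 2 :=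
      c0 hM1 (by linarith) hg (by norm_num)
    have t5 : 4 * (m : ℝ) ^ 724 ≤ (m : ℝ) ^ 600 * Real.sqrt F.card ^ 2 :=
      c0 hM1 (by linarith) hg (by norm_num)
    have h1 : |4 * (K b).trace * ((K b ^ 3).trace - (K b).trace)|
        ≤ 4 * (m : ℝ) ^ 1363 + 4 * (m : ℝ) ^ 724 := by
      rw [abs_mul, abs_mul, abs_of_pos (by norm_num : (0:ℝ) < 4)]
      have h2 : |(K b ^ 3).trace - (K b).trace| ≤ (m : ℝ) ^ 1001 + (m : ℝ) ^ 362 :=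
        (abs_sub _ _).trans (add_le_add hX3 hX1)
      calc 4 * |(K b).trace| * |(K b ^ 3).trace - (K b).trace|
          ≤ 4 * (m : ℝ) ^ 362 * ((m : ℝ) ^ 1001 + (m : ℝ) ^ 362) :=
            mul_le_mul (by linarith) h2 (abs_nonneg _)
              (mul_nonneg (by norm_num) (pow_nonneg hM0.le _))
        _ = _ := by ring
    have h3 : ((K b ^ 2).trace - F.card) ^ 2 ≤ 16 * (m : ℝ) ^ 1362 := by
      have h4 : |(K b ^ 2).trace - F.card| ≤ 4 * (m : ℝ) ^ 681 := by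
        rw [abs_le]; constructor <;> linarith
      have h5 : ((K b ^ 2).trace - F.card) ^ 2 ≤ (4 * (m : ℝ) ^ 681) ^ 2 := by
        rw [← sq_abs]; exact pow_le_pow_left₀ (abs_nonneg _) h4 2
      calc _ ≤ _ := h5
        _ = _ := by ring
    have e2 : (m : ℝ) ^ 0 * Real.sqrt F.card ^ 2 = F.card := by rw [pow_zero, one_mul, hg2]
    rw [e2, hg2] at t2
    rw [hg2] at t1 t3 t4 t5
    have h6 := abs_le.mp h1
    have h7 := sq_nonneg ((K b ^ 2).trace - F.card)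
    rw [abs_le]
    constructor <;> linarith [h6.1, h6.2]
  have t6 : 1 * ((m : ℝ) ^ 602 * Real.sqrt F.card ^ 2) ≤ (m : ℝ) ^ 603 * Real.sqrt F.card ^ 2 :=
    c2 hM1 (by linarith) (by norm_num)
  have t7 : 10 * ((m : ℝ) ^ 600 * Real.sqrt F.card ^ 2) ≤ (m : ℝ) ^ 602 * Real.sqrt F.card ^ 2 :=
    c2 hM1 (by linarith) (by norm_num)
  have t8 : 10 * ((m : ℝ) ^ 602 * Real.sqrt F.card ^ 2) ≤ (m : ℝ) ^ 603 * Real.sqrt F.card ^ 2 :=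
    c2 hM1 (by linarith) (by norm_num)
  rw [hg2] at t6 t7 t8 hE
  have h9 : 0 ≤ (m : ℝ) ^ 602 * F.card := mul_nonneg (pow_nonneg hM0.le _) hρ1
  have ha := abs_le.mp key
  have hb := abs_le.mp hmean
  rw [abs_le]
  constructor <;> linarith [ha.1, ha.2, hb.1, hb.2]

/-- the second moment -/
theorem sq1 (hP : Prm d n m) (hC : Ctx d m γ F K S) (hB : Box1 d n m F K)
    (hT : Tilt1 d n m F K S Θ) (b : Bool) :
    ∑ p ∈ S, (1 - Θ p.1 p.2) * (f2 (Mach.sg b : ℝ) (K b) p.1 p.2) ^ 2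
      ≤ 2 * ((m : ℝ) ^ 1100 * F.card) := by
  obtain ⟨hg, hg2, hρ, hρ0⟩ := g_facts1 hP hB
  have hM := M_ge hP
  have hM0 : (0 : ℝ) < m := by linarith [hM, (by norm_num : (0:ℝ) < 10 ^ 10)]
  have hM1 : (1 : ℝ) ≤ m := by linarith [hM, (by norm_num : (1:ℝ) ≤ 10 ^ 10)]
  have hM3 : (100000 : ℝ) ≤ m := by linarith [hM, (by norm_num : (100000:ℝ) ≤ 10 ^ 10)]
  have hbd := bd1 hP hC hB b
  obtain ⟨hw0, hw1⟩ := w1_le hP hB b
  have hρ1 : (0:ℝ) ≤ F.card := Nat.cast_nonneg _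
  have hr0 : (0:ℝ) < r1 d n m := lt_of_lt_of_le (pow_pos hM0 _) (r1_ge hP)
  have hX2 := hB.X2u b
  have eκ : (2 * (m : ℝ) ^ 5 * (m : ℝ) ^ 310) ^ 2 = 4 * (m : ℝ) ^ 630 := by ring
  have key := sum_f2_sq hbd hC.sub (fun p hp => hC.good1 p hp b) (fun p hp => hC.good2 p hp b)
    (q := (m : ℝ) * Real.sqrt F.card ^ 2) (κ := 4 * (m : ℝ) ^ 630)
    (mul_nonneg (by norm_num) (pow_nonneg hM0.le _))
    (fun p hp => by rw [← eκ]; exact T2_le hbd hC.sub hp) (by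
      rw [sum_Q_sq hC, hg2]
      have h1 : Wf F (K b) ≤ (m : ℝ) ^ 800 := (hB.Wu b).trans (pw hM1 (by norm_num))
      nlinarith)
  have hQ := Q1 hM3 hg (by rw [hg2]; exact hρ) hw0 hw1
    (q := (m : ℝ) * Real.sqrt F.card ^ 2) (κ := 4 * (m : ℝ) ^ 630)
    (mul_nonneg hM0.le (sq_nonneg _)) le_rfl le_rfl
  have h2 : ∑ p ∈ S, (1 - Θ p.1 p.2) * (f2 (Mach.sg b : ℝ) (K b) p.1 p.2) ^ 2
      ≤ ∑ p ∈ S, 2 * (f2 (Mach.sg b : ℝ) (K b) p.1 p.2) ^ 2 := by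
    refine Finset.sum_le_sum fun p hp => mul_le_mul_of_nonneg_right ?_ (sq_nonneg _)
    have := wt_nonneg hP hT p.1 p.2
    rw [abs_le] at this
    linarith [this.1]
  rw [← Finset.mul_sum] at h2
  unfold Q2 at hQ
  rw [hg2] at hQ key
  linarith

/-- final arithmetic of stage 1 -/
lemma fin1 {M ρ r' z A B : ℝ} (hM : 1000 ≤ M) (hρ : 0 ≤ ρ) (hr : M ^ 679 ≤ r') (hz0 : 0 ≤ z)
    (hz : z ≤ r') (hA : |A| ≤ M ^ 603 * ρ) (hB : B ≤ 2 * (M ^ 1100 * ρ)) :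
    (2 * z * A + B) / r' ^ 2 ≤ ρ / M ^ 2 := by
  have hM1 : 1 ≤ M := by linarith
  have hM0 : 0 < M := by linarith
  have hr0 : 0 < r' := lt_of_lt_of_le (pow_pos hM0 _) hr
  rw [div_le_div_iff₀ (by positivity) (by positivity)]
  have h1 : 2 * z * A ≤ 2 * r' * (M ^ 603 * ρ) := by
    have h2 := (abs_le.mp hA).2
    have h3 : 0 ≤ M ^ 603 * ρ := mul_nonneg (pow_nonneg hM0.le _) hρ
    calc 2 * z * A ≤ 2 * z * (M ^ 603 * ρ) := mul_le_mul_of_nonneg_left h2 (by linarith)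
      _ ≤ 2 * r' * (M ^ 603 * ρ) := mul_le_mul_of_nonneg_right (by linarith) h3
  have h4 : (2 * z * A + B) * M ^ 2 ≤ (2 * r' * (M ^ 603 * ρ) + 2 * (M ^ 1100 * ρ)) * M ^ 2 :=
    mul_le_mul_of_nonneg_right (by linarith) (by positivity)
  refine h4.trans ?_
  have e : (2 * r' * (M ^ 603 * ρ) + 2 * (M ^ 1100 * ρ)) * M ^ 2
      = ρ * (2 * M ^ 605 * r' + 2 * M ^ 1102) := by ring
  rw [e]
  refine mul_le_mul_of_nonneg_left ?_ hρ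
  have h5 : 4 * M ^ 605 ≤ r' := (cm hM1 (by linarith) (by norm_num)).trans hr
  have h6 : 4 * M ^ 1102 ≤ M ^ 1358 := cm hM1 (by linarith) (by norm_num)
  have h7 : M ^ 1358 ≤ r' ^ 2 := by
    have e7 : M ^ 1358 = (M ^ 679) ^ 2 := by ring
    rw [e7]; exact pow_le_pow_left₀ (pow_nonneg hM0.le _) hr 2
  nlinarith

theorem s1X2u : S1X2u ι := by
  intro d n m γ F K S Θ hP hC hB hT b
  have hM := M_ge hP
  have hM0 : (0 : ℝ) < m := by linarith [hM, (by norm_num : (0:ℝ) < 10 ^ 10)]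
  have hM1 : (1 : ℝ) ≤ m := by linarith [hM, (by norm_num : (1:ℝ) ≤ 10 ^ 10)]
  have hM3 : (1000 : ℝ) ≤ m := by linarith [hM, (by norm_num : (1000:ℝ) ≤ 10 ^ 10)]
  have hr := r1_ge hP
  have hr0 : (0:ℝ) < r1 d n m := lt_of_lt_of_le (pow_pos hM0 _) hr
  set r := r1 d n m with hrdef
  set z := (K b ^ 2).trace - F.card + r with hz
  have e : inc S Θ (fun x y => p1X2u r ((F.card : ℝ) - 2) ((nx b K x y ^ 2).trace))
      (p1X2u r F.card (K b ^ 2).trace)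
      = ∑ p ∈ S, (1 - Θ p.1 p.2) * ((max (z + f2 (Mach.sg b : ℝ) (K b) p.1 p.2) 0) ^ 2
          / (r / 4) ^ 2 - (max z 0) ^ 2 / (r / 4) ^ 2) := by
    unfold inc p1X2u
    refine Finset.sum_congr rfl fun p hp => ?_
    beta_reduce
    rw [X2_nx hC hp b]
    have e1 : (K b ^ 2).trace - 2 + f2 (Mach.sg b : ℝ) (K b) p.1 p.2 - ((F.card : ℝ) - 2) + r
        = z + f2 (Mach.sg b : ℝ) (K b) p.1 p.2 := by rw [hz]; ring
    rw [e1]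
  show inc S Θ (fun x y => p1X2u r ((F.card : ℝ) - 2) ((nx b K x y ^ 2).trace))
      (p1X2u r F.card (K b ^ 2).trace) ≤ _
  rw [e]
  have hwt : ∀ p ∈ S, 0 ≤ 1 - Θ p.1 p.2 := fun p hp => by
    have := wt_nonneg hP hT p.1 p.2
    rw [abs_le] at this
    linarith [this.2]
  refine (up_gen S (fun p => 1 - Θ p.1 p.2) (fun p => f2 (Mach.sg b : ℝ) (K b) p.1 p.2) hwt
    (z := z) (w := r / 4)).trans ?_
  have hz1 : max z 0 ≤ r / 4 := by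
    have := hB.X2u b
    refine max_le ?_ (by linarith)
    rw [hz]
    linarith
  have hr4 : (m : ℝ) ^ 679 ≤ r / 4 := by
    have h1 : 4 * (m : ℝ) ^ 679 ≤ (m : ℝ) ^ 680 := cm hM1 (by linarith) (by norm_num)
    linarith
  exact fin1 hM3 (Nat.cast_nonneg _) hr4 (le_max_right _ _) hz1 (mean1 hP hC hB hT b)
    (sq1 hP hC hB hT b)

theorem s1X2l : S1X2l ι := by
  intro d n m γ F K S Θ hP hC hB hT b
  have hM := M_ge hP
  have hM0 : (0 : ℝ) < m := by linarith [hM, (by norm_num : (0:ℝ) < 10 ^ 10)]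
  have hM1 : (1 : ℝ) ≤ m := by linarith [hM, (by norm_num : (1:ℝ) ≤ 10 ^ 10)]
  have hM3 : (1000 : ℝ) ≤ m := by linarith [hM, (by norm_num : (1000:ℝ) ≤ 10 ^ 10)]
  have hr := r1_ge hP
  have hr0 : (0:ℝ) < r1 d n m := lt_of_lt_of_le (pow_pos hM0 _) hr
  set r := r1 d n m with hrdef
  set z := (F.card : ℝ) - 3 * r - (K b ^ 2).trace with hz
  have e : inc S Θ (fun x y => p1X2l r ((F.card : ℝ) - 2) ((nx b K x y ^ 2).trace))
      (p1X2l r F.card (K b ^ 2).trace)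
      = ∑ p ∈ S, (1 - Θ p.1 p.2) * ((max (z + -f2 (Mach.sg b : ℝ) (K b) p.1 p.2) 0) ^ 2
          / r ^ 2 - (max z 0) ^ 2 / r ^ 2) := by
    unfold inc p1X2l
    refine Finset.sum_congr rfl fun p hp => ?_
    beta_reduce
    rw [X2_nx hC hp b]
    have e1 : (F.card : ℝ) - 2 - 3 * r - ((K b ^ 2).trace - 2
        + f2 (Mach.sg b : ℝ) (K b) p.1 p.2)
        = z + -f2 (Mach.sg b : ℝ) (K b) p.1 p.2 := by rw [hz]; ring
    rw [e1]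
  show inc S Θ (fun x y => p1X2l r ((F.card : ℝ) - 2) ((nx b K x y ^ 2).trace))
      (p1X2l r F.card (K b ^ 2).trace) ≤ _
  rw [e]
  have hwt : ∀ p ∈ S, 0 ≤ 1 - Θ p.1 p.2 := fun p hp => by
    have := wt_nonneg hP hT p.1 p.2
    rw [abs_le] at this
    linarith [this.2]
  refine (up_gen S (fun p => 1 - Θ p.1 p.2) (fun p => -f2 (Mach.sg b : ℝ) (K b) p.1 p.2) hwt
    (z := z) (w := r)).trans ?_
  have hz1 : max z 0 ≤ r := by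
    have := hB.X2l b
    refine max_le ?_ hr0.le
    rw [hz]
    linarith
  have hr4 : (m : ℝ) ^ 679 ≤ r := (pw hM1 (by norm_num)).trans hr
  have h1 : |∑ p ∈ S, (1 - Θ p.1 p.2) * -f2 (Mach.sg b : ℝ) (K b) p.1 p.2|
      ≤ (m : ℝ) ^ 603 * F.card := by
    have e2 : ∑ p ∈ S, (1 - Θ p.1 p.2) * -f2 (Mach.sg b : ℝ) (K b) p.1 p.2
        = -∑ p ∈ S, (1 - Θ p.1 p.2) * f2 (Mach.sg b : ℝ) (K b) p.1 p.2 := by
      rw [← Finset.sum_neg_distrib]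
      exact Finset.sum_congr rfl fun p _ => by ring
    rw [e2, abs_neg]
    exact mean1 hP hC hB hT b
  have h2 : ∑ p ∈ S, (1 - Θ p.1 p.2) * (-f2 (Mach.sg b : ℝ) (K b) p.1 p.2) ^ 2
      ≤ 2 * ((m : ℝ) ^ 1100 * F.card) := by
    simp only [neg_sq]
    exact sq1 hP hC hB hT b
  exact fin1 hM3 (Nat.cast_nonneg _) hr4 (le_max_right _ _) hz1 h1 h2

end stage1

section stage2

variable {d n m : ℕ} {γ x0 : ℝ} {F : Finset ι} {K : Bool → Matrix ι ι ℝ} {S : Finset (ι × ι)}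

/-- the auxiliary number -/
noncomputable def w2 (m : ℕ) : ℝ :=
  Real.sqrt (2 * (((m : ℝ) ^ 332) ^ 2 * (m : ℝ) ^ 803) + 2 * ((m : ℝ) ^ 70) ^ 2)

lemma g_facts2 (hP : Prm d n m) (hB : Box2 d n m x0 F K) :
    (m : ℝ) ^ 339 ≤ Real.sqrt F.card ∧ Real.sqrt F.card ^ 2 = F.card ∧
      (m : ℝ) ^ 679 ≤ F.card := by
  have hM := M_ge hP
  have hM0 : (0 : ℝ) < m := by linarith [hM, (by norm_num : (0:ℝ) < 10 ^ 10)]
  have hM1 : (1 : ℝ) ≤ m := by linarith [hM, (by norm_num : (1:ℝ) ≤ 10 ^ 10)]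
  have h1 := hB.rho_ge
  have hr := r1_ge hP
  have hx := hB.x0_pos
  have hx1 := hB.x0_le
  have hx2 := hB.x0_m
  have h3 : x0 ^ 4 ≤ x0 := by
    calc x0 ^ 4 ≤ x0 ^ 1 := pow_le_pow_of_le_one hx.le hx1 (by norm_num)
      _ = x0 := pow_one _
  have h4 : 1 ≤ m * x0 := by nlinarith [(by norm_num : (1:ℝ) ≤ 10 ^ 10)]
  have h5 : (m : ℝ) ^ 679 ≤ x0 * r1 d n m := by
    have h6 : (0:ℝ) ≤ (m : ℝ) ^ 679 := pow_nonneg hM0.le _
    calc (m : ℝ) ^ 679 ≤ (m : ℝ) ^ 679 * (m * x0) := le_mul_of_one_le_right h6 h4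
      _ = x0 * (m : ℝ) ^ 680 := by ring
      _ ≤ x0 * r1 d n m := mul_le_mul_of_nonneg_left hr hx.le
  have h2 : (m : ℝ) ^ 679 ≤ F.card := by linarith
  refine ⟨?_, Real.sq_sqrt (Nat.cast_nonneg _), h2⟩
  refine Real.le_sqrt_of_sq_le ?_
  rw [← pow_mul]
  exact (pw hM1 (by norm_num)).trans h2

lemma X4_2 (hP : Prm d n m) (hB : Box2 d n m x0 F K) (b : Bool) :
    (K b ^ 4).trace ≤ (m : ℝ) ^ 1325 := by
  obtain ⟨-, -, h2⟩ := g_facts2 hP hB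
  have h1 := hB.X4u b
  have hM := M_ge hP
  have hM0 : (0 : ℝ) < m := by linarith [hM, (by norm_num : (0:ℝ) < 10 ^ 10)]
  by_contra hcon
  push Not at hcon
  have h3 : (0 : ℝ) < (m : ℝ) ^ 1325 := pow_pos hM0 _
  have h4 : (0 : ℝ) < (m : ℝ) ^ 679 := pow_pos hM0 _
  have h5 : (m : ℝ) ^ 1325 * (m : ℝ) ^ 679 < (K b ^ 4).trace * F.card :=
    mul_lt_mul hcon h2 h4 (by linarith)
  have e : (m : ℝ) ^ 1325 * (m : ℝ) ^ 679 = (m : ℝ) ^ 2004 := by ring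
  rw [e] at h5
  linarith

lemma X2_2 (hP : Prm d n m) (hB : Box2 d n m x0 F K) (b : Bool) :
    (K b ^ 2).trace ≤ F.card + (m : ℝ) ^ 670 := by
  have hM := M_ge hP
  have hM0 : (0 : ℝ) < m := by linarith [hM, (by norm_num : (0:ℝ) < 10 ^ 10)]
  obtain ⟨-, -, h2⟩ := g_facts2 hP hB
  have hρ : (0:ℝ) < F.card := lt_of_lt_of_le (pow_pos hM0 _) h2
  have h1 := hB.X2u b
  have hr0 : (0:ℝ) < r1 d n m := lt_of_lt_of_le (pow_pos hM0 _) (r1_ge hP)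
  have h3 : Step.phi2 (r1 d n m) F.card ≤ F.card := by
    unfold Step.phi2
    rw [div_le_iff₀ (by linarith)]
    nlinarith
  linarith

theorem bd2 (hP : Prm d n m) (hC : Ctx d m γ F K S) (hB : Box2 d n m x0 F K) (b : Bool) :
    Bd (K b) F (Mach.sg b) (2 * Real.sqrt F.card) ((m : ℝ) ^ 664) ((m : ℝ) ^ 996)
      ((m : ℝ) ^ 70) ((m : ℝ) ^ 402) (w2 m) := by
  obtain ⟨hg, hg2, hρ0⟩ := g_facts2 hP hB
  have hM := M_ge hP
  have hM0 : (0 : ℝ) < m := by linarith [hM, (by norm_num : (0:ℝ) < 10 ^ 10)]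
  have hM1 : (1 : ℝ) ≤ m := by linarith [hM, (by norm_num : (1:ℝ) ≤ 10 ^ 10)]
  have hX2 := X2_2 hP hB b
  have hX4 := X4_2 hP hB b
  have e : (m : ℝ) ^ 996 = (m : ℝ) ^ 332 * (m : ℝ) ^ 664 := by rw [← pow_add]
  have hρ1 : (0:ℝ) ≤ F.card := Nat.cast_nonneg _
  have h670 : (m : ℝ) ^ 670 ≤ (m : ℝ) ^ 679 := pw hM1 (by norm_num)
  have p : ∀ k : ℕ, (0:ℝ) ≤ (m : ℝ) ^ k := fun k => pow_nonneg hM0.le k
  rw [e]
  refine Bd.of (hC.symm b) (deadF hC b) (row_of hC b) (sg_sq b) (L := (m : ℝ) ^ 332)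
    (opB_of_trace_four (hC.symm b) (p _) ?_) (mul_nonneg (by norm_num) (Real.sqrt_nonneg _)) (p _)
    (p _) (p _) ?_ ?_ ?_ ?_ ?_
  · rw [← pow_mul]
    exact hX4.trans (pw hM1 (by norm_num))
  · rw [mul_pow, hg2]; linarith
  · rw [← pow_mul]
    exact hX4.trans (pw hM1 (by norm_num))
  · rw [← pow_mul]
    exact ((sum_V b).trans (hB.Vu b)).trans (pw hM1 (by norm_num))
  · rw [← pow_mul]
    exact (hB.Wu b).trans (pw hM1 (by norm_num))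
  · rw [sum_Q_sq hC]
    have h1 := hB.Wu b
    have h2 := hB.rho_le
    have h3 : 10 * (m : ℝ) ^ 683 ≤ (m : ℝ) ^ 803 := cm hM1 (by linarith [hM, (by norm_num : (10:ℝ) ≤ 10 ^ 10)]) (by norm_num)
    have h4 : 10 * (m : ℝ) ^ 800 ≤ (m : ℝ) ^ 803 := cm hM1 (by linarith [hM, (by norm_num : (10:ℝ) ≤ 10 ^ 10)]) (by norm_num)
    have h5 : 10 * (m : ℝ) ^ 670 ≤ (m : ℝ) ^ 803 := cm hM1 (by linarith [hM, (by norm_num : (10:ℝ) ≤ 10 ^ 10)]) (by norm_num)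
    have h6 : (1:ℝ) ≤ (m : ℝ) ^ 800 := one_le_pow₀ hM1
    linarith [p 803]

lemma w2_le (hP : Prm d n m) : 0 ≤ w2 m ∧ w2 m ≤ (m : ℝ) ^ 734 := by
  have hM := M_ge hP
  have hM0 : (0 : ℝ) < m := by linarith [hM, (by norm_num : (0:ℝ) < 10 ^ 10)]
  have hM1 : (1 : ℝ) ≤ m := by linarith [hM, (by norm_num : (1:ℝ) ≤ 10 ^ 10)]
  have hM4 : (4 : ℝ) ≤ m := by linarith [hM, (by norm_num : (4:ℝ) ≤ 10 ^ 10)]
  refine ⟨Real.sqrt_nonneg _, ?_⟩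
  unfold w2
  refine Real.sqrt_le_iff.mpr ⟨pow_nonneg hM0.le _, ?_⟩
  have e0 : 2 * (((m : ℝ) ^ 332) ^ 2 * (m : ℝ) ^ 803) + 2 * ((m : ℝ) ^ 70) ^ 2
      = 2 * (m : ℝ) ^ 1467 + 2 * (m : ℝ) ^ 140 := by ring
  have e1 : ((m : ℝ) ^ 734) ^ 2 = (m : ℝ) ^ 1468 := by ring
  rw [e0, e1]
  have h1 : 4 * (m : ℝ) ^ 1467 ≤ (m : ℝ) ^ 1468 := cm hM1 hM4 (by norm_num)
  have h2 : 4 * (m : ℝ) ^ 140 ≤ (m : ℝ) ^ 1468 := cm hM1 hM4 (by norm_num)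
  linarith

lemma X3_2 (hP : Prm d n m) (hC : Ctx d m γ F K S) (hB : Box2 d n m x0 F K) (b : Bool) :
    |(K b ^ 3).trace| ≤ (m : ℝ) ^ 1001 := by
  have hM := M_ge hP
  have hM0 : (0 : ℝ) < m := by linarith [hM, (by norm_num : (0:ℝ) < 10 ^ 10)]
  have hM1 : (1 : ℝ) ≤ m := by linarith [hM, (by norm_num : (1:ℝ) ≤ 10 ^ 10)]
  have hM4 : (4 : ℝ) ≤ m := by linarith [hM, (by norm_num : (4:ℝ) ≤ 10 ^ 10)]
  have h1 := hB.X3u b
  have h2 := X3Low.ctx_X3_ge' hC b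
  have hX2 := X2_2 hP hB b
  have hρ := hB.rho_le
  have hn : (0:ℝ) ≤ n := Nat.cast_nonneg n
  have hd : (3 : ℝ) ≤ (d : ℝ) := by exact_mod_cast hP.hd
  have hdm := d_sq_le hP
  have h3 := hP.hn2
  have h4 : (0:ℝ) ≤ (m : ℝ) ^ 1000 := pow_nonneg hM0.le _
  have h5 : 5 * ((d : ℝ) - 1) ^ 2 ≤ 5 * (d : ℝ) ^ 2 := by nlinarith
  have h6 : (K b ^ 3).trace ≤ (m : ℝ) ^ 1001 := by
    calc (K b ^ 3).trace ≤ 5 * ((d : ℝ) - 1) ^ 2 * n := h1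
      _ ≤ 5 * (d : ℝ) ^ 2 * (2 * (m : ℝ) ^ 1000) :=
          mul_le_mul h5 h3 hn (by positivity)
      _ = 10 * (d : ℝ) ^ 2 * (m : ℝ) ^ 1000 := by ring
      _ ≤ m * (m : ℝ) ^ 1000 := mul_le_mul_of_nonneg_right (by nlinarith) h4
      _ = (m : ℝ) ^ 1001 := by ring
  have h7 : 4 * (m : ℝ) ^ 800 ≤ (m : ℝ) ^ 1001 := cm hM1 hM4 (by norm_num)
  have h8 : 4 * (m : ℝ) ^ 670 ≤ (m : ℝ) ^ 1001 := cm hM1 hM4 (by norm_num)
  have h9 : (1:ℝ) ≤ (m : ℝ) ^ 670 := one_le_pow₀ hM1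
  rw [abs_le]
  constructor <;> linarith

/-- the mean -/
theorem mean2 (hP : Prm d n m) (hC : Ctx d m γ F K S) (hB : Box2 d n m x0 F K) (b : Bool) :
    |∑ p ∈ S, f2 (Mach.sg b : ℝ) (K b) p.1 p.2 - 2 * ((K b ^ 2).trace - F.card) ^ 2|
      ≤ (m : ℝ) ^ 662 * F.card := by
  obtain ⟨hg, hg2, hρ0⟩ := g_facts2 hP hB
  have hM := M_ge hP
  have hM0 : (0 : ℝ) < m := by linarith [hM, (by norm_num : (0:ℝ) < 10 ^ 10)]
  have hM1 : (1 : ℝ) ≤ m := by linarith [hM, (by norm_num : (1:ℝ) ≤ 10 ^ 10)]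
  have hM3 : (1000 : ℝ) ≤ m := by linarith [hM, (by norm_num : (1000:ℝ) ≤ 10 ^ 10)]
  have hbd := bd2 hP hC hB b
  obtain ⟨hw0, hw1⟩ := w2_le hP
  have hρ1 : (0:ℝ) ≤ F.card := Nat.cast_nonneg _
  have hcard : (((F ×ˢ F) \ S).card : ℝ) ≤ ((m : ℝ) * Real.sqrt F.card) ^ 2 := by
    rw [mul_pow, hg2]
    refine hC.bad.trans ?_
    refine mul_le_mul_of_nonneg_right ?_ hρ1
    have := d_sq_le hP
    nlinarith [sq_nonneg (d:ℝ)]
  have key := sum_f2 hbd hC.sub (fun p hp => hC.good1 p hp b) (fun p hp => hC.good2 p hp b)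
    (β := (m : ℝ) * Real.sqrt F.card) (mul_nonneg hM0.le (Real.sqrt_nonneg _)) hcard
  have hR := Rem2 hM3 hg hw0 hw1
  have hBi := Bias2 hM3 hg hw0 hw1
  have hX4 := X4_2 hP hB b
  have hX40 : 0 ≤ (K b ^ 4).trace := trace_even_nonneg (hC.symm b) 2
  have hX20 : 0 ≤ (K b ^ 2).trace := trace_even_nonneg (hC.symm b) 1
  have hX2 := X2_2 hP hB b
  have hX1 := hB.X1 b
  have hX3 := X3_2 hP hC hB b
  have h670 : (m : ℝ) ^ 670 ≤ (m : ℝ) ^ 679 := pw hM1 (by norm_num)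
  have t1 : 6 * (m : ℝ) ^ 1325 ≤ (m : ℝ) ^ 661 * Real.sqrt F.card ^ 2 :=
    c0 hM1 (by linarith) hg (by norm_num)
  have t2 : 8 * ((m : ℝ) ^ 0 * Real.sqrt F.card ^ 2) ≤ (m : ℝ) ^ 661 * Real.sqrt F.card ^ 2 :=
    c2 hM1 (by linarith) (by norm_num)
  have t4 : 4 * (m : ℝ) ^ 1337 ≤ (m : ℝ) ^ 661 * Real.sqrt F.card ^ 2 :=
    c0 hM1 (by linarith) hg (by norm_num)
  have t5 : 4 * (m : ℝ) ^ 672 ≤ (m : ℝ) ^ 661 * Real.sqrt F.card ^ 2 :=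
    c0 hM1 (by linarith) hg (by norm_num)
  have h1 : |4 * (K b).trace * ((K b ^ 3).trace - (K b).trace)|
      ≤ 4 * (m : ℝ) ^ 1337 + 4 * (m : ℝ) ^ 672 := by
    rw [abs_mul, abs_mul, abs_of_pos (by norm_num : (0:ℝ) < 4)]
    have h2 : |(K b ^ 3).trace - (K b).trace| ≤ (m : ℝ) ^ 1001 + (m : ℝ) ^ 336 :=
      (abs_sub _ _).trans (add_le_add hX3 hX1)
    calc 4 * |(K b).trace| * |(K b ^ 3).trace - (K b).trace|
        ≤ 4 * (m : ℝ) ^ 336 * ((m : ℝ) ^ 1001 + (m : ℝ) ^ 336) :=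
          mul_le_mul (by linarith) h2 (abs_nonneg _)
            (mul_nonneg (by norm_num) (pow_nonneg hM0.le _))
      _ = _ := by ring
  have e2 : (m : ℝ) ^ 0 * Real.sqrt F.card ^ 2 = F.card := by rw [pow_zero, one_mul, hg2]
  rw [e2, hg2] at t2
  rw [hg2] at t1 t4 t5 hR hBi
  have h6 := abs_le.mp h1
  have t8 : 10 * ((m : ℝ) ^ 661 * Real.sqrt F.card ^ 2) ≤ (m : ℝ) ^ 662 * Real.sqrt F.card ^ 2 :=
    c2 hM1 (by linarith) (by norm_num)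
  rw [hg2] at t8
  have h9 : 0 ≤ (m : ℝ) ^ 661 * F.card := mul_nonneg (pow_nonneg hM0.le _) hρ1
  have ha := abs_le.mp key
  rw [abs_le]
  constructor <;> linarith [ha.1, ha.2, h6.1, h6.2]

/-- the second moment -/
theorem sq2 (hP : Prm d n m) (hC : Ctx d m γ F K S) (hB : Box2 d n m x0 F K) (b : Bool) :
    ∑ p ∈ S, (f2 (Mach.sg b : ℝ) (K b) p.1 p.2) ^ 2 ≤ (m : ℝ) ^ 1330 * F.card := by
  obtain ⟨hg, hg2, hρ0⟩ := g_facts2 hP hB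
  have hM := M_ge hP
  have hM0 : (0 : ℝ) < m := by linarith [hM, (by norm_num : (0:ℝ) < 10 ^ 10)]
  have hM1 : (1 : ℝ) ≤ m := by linarith [hM, (by norm_num : (1:ℝ) ≤ 10 ^ 10)]
  have hM3 : (100000 : ℝ) ≤ m := by linarith [hM, (by norm_num : (100000:ℝ) ≤ 10 ^ 10)]
  have hbd := bd2 hP hC hB b
  obtain ⟨hw0, hw1⟩ := w2_le hP
  have hρ1 : (0:ℝ) ≤ F.card := Nat.cast_nonneg _
  have hX2 := X2_2 hP hB b
  have p : ∀ k : ℕ, (0:ℝ) ≤ (m : ℝ) ^ k := fun k => pow_nonneg hM0.le k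
  have eκ : (2 * (m : ℝ) ^ 70 * (m : ℝ) ^ 402) ^ 2 = 4 * (m : ℝ) ^ 944 := by ring
  have key := sum_f2_sq hbd hC.sub (fun p hp => hC.good1 p hp b) (fun p hp => hC.good2 p hp b)
    (q := (m : ℝ) ^ 803) (κ := 4 * (m : ℝ) ^ 944)
    (mul_nonneg (by norm_num) (pow_nonneg hM0.le _))
    (fun p hp => by rw [← eκ]; exact T2_le hbd hC.sub hp) (by
      rw [sum_Q_sq hC]
      have h1 := hB.Wu b
      have h2 := hB.rho_le
      have h3 : 10 * (m : ℝ) ^ 683 ≤ (m : ℝ) ^ 803 := cm hM1 (by linarith) (by norm_num)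
      have h4 : 10 * (m : ℝ) ^ 800 ≤ (m : ℝ) ^ 803 := cm hM1 (by linarith) (by norm_num)
      have h5 : 10 * (m : ℝ) ^ 670 ≤ (m : ℝ) ^ 803 := cm hM1 (by linarith) (by norm_num)
      have h6 : (1:ℝ) ≤ (m : ℝ) ^ 800 := one_le_pow₀ hM1
      linarith [p 803])
  have hQ := Q22 hM3 hg hw0 hw1
    (q := (m : ℝ) ^ 803) (κ := 4 * (m : ℝ) ^ 944) (p _) le_rfl le_rfl
  unfold Q2 at hQ
  rw [hg2] at hQ
  linarith

lemma card_S (hC : Ctx d m γ F K S) :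
    (F.card : ℝ) ^ 2 - 100 * (d : ℝ) ^ 2 * F.card ≤ S.card ∧ (S.card : ℝ) ≤ (F.card : ℝ) ^ 2 := by
  have h1 : ((F ×ˢ F) \ S).card + S.card = (F ×ˢ F).card := Finset.card_sdiff_add_card_eq_card hC.sub
  have h2 : ((((F ×ˢ F) \ S).card : ℝ)) + S.card = (F.card : ℝ) ^ 2 := by
    have : ((((F ×ˢ F) \ S).card + S.card : ℕ) : ℝ) = (((F ×ˢ F).card : ℕ) : ℝ) := by rw [h1]
    rw [Finset.card_product] at this
    push_cast at this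
    rw [this]; ring
  have h3 := hC.bad
  have h4 : (0:ℝ) ≤ ((F ×ˢ F) \ S).card := Nat.cast_nonneg _
  constructor <;> linarith

set_option maxHeartbeats 2000000 in
theorem s2X2 : S2X2 ι := by
  intro d n m γ x0 F K S hP hC hB b
  obtain ⟨hg, hg2, hρ0⟩ := g_facts2 hP hB
  have hM := M_ge hP
  have hM0 : (0 : ℝ) < m := by linarith [hM, (by norm_num : (0:ℝ) < 10 ^ 10)]
  have hM1 : (1 : ℝ) ≤ m := by linarith [hM, (by norm_num : (1:ℝ) ≤ 10 ^ 10)]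
  have hM3 : (1000 : ℝ) ≤ m := by linarith [hM, (by norm_num : (1000:ℝ) ≤ 10 ^ 10)]
  have p : ∀ k : ℕ, (0:ℝ) ≤ (m : ℝ) ^ k := fun k => pow_nonneg hM0.le k
  have hr := r1_ge hP
  have hr0 : (0:ℝ) < r1 d n m := lt_of_lt_of_le (pow_pos hM0 _) hr
  have hρhi := hB.rho_le
  have hX2u := hB.X2u b
  set r := r1 d n m with hrdef
  set X := (K b ^ 2).trace with hX
  set ρ : ℝ := (F.card : ℝ) with hρdef
  have hρpos : 0 < ρ := lt_of_lt_of_le (pow_pos hM0 _) hρ0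
  have hρ1000 : (1000:ℝ) ≤ ρ := by
    have : (m : ℝ) ^ 1 ≤ (m : ℝ) ^ 679 := pw hM1 (by norm_num)
    rw [pow_one] at this
    linarith
  set φ := Barrier.phi2 (r / 2) ρ with hφ
  set φ' := Barrier.phi2 (r / 2) (ρ - 2) with hφ'
  have hr2 : 0 < r / 2 := by linarith
  have hstep := Barrier.phi2_step_ge hr2 (show (2:ℝ) < ρ by linarith)
  have hstep2 := Barrier.phi2_step_le hr2 (show (4:ℝ) ≤ ρ by linarith)
  set q := (Barrier.ff (r / 2) ρ - 1) ^ 2 with hq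
  set c0' := 2 + (φ' - φ) with hc0
  have hff0 := Barrier.ff_nonneg hr2 hρpos.le
  have hff1 := Barrier.ff_le_one hr2 hρpos.le
  have hq1 : q ≤ 1 := by rw [hq]; nlinarith
  have hq0 : 0 ≤ q := sq_nonneg _
  have hc1 : 2 * q ≤ c0' := by rw [hc0]; linarith
  have hc2 : c0' ≤ 10 := by
    have : 8 / ρ ≤ 8 := by rw [div_le_iff₀ hρpos]; nlinarith
    rw [hc0]; linarith
  have hc3 : 0 ≤ c0' := by linarith
  have eφ : Step.phi2 r ρ = φ := rfl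
  have eφ' : Step.phi2 r (ρ - 2) = φ' := rfl
  set z := X - φ with hz
  have e : inc S (fun _ _ => 0) (fun x y => p2X2 m r (ρ - 2) ((nx b K x y ^ 2).trace))
      (p2X2 m r ρ X)
      = ∑ p ∈ S, (1:ℝ) * ((max (z + (f2 (Mach.sg b : ℝ) (K b) p.1 p.2 - c0')) 0) ^ 2
          / ((m : ℝ) ^ 670) ^ 2 - (max z 0) ^ 2 / ((m : ℝ) ^ 670) ^ 2) := by
    unfold inc p2X2
    refine Finset.sum_congr rfl fun p hp => ?_
    beta_reduce
    rw [X2_nx hC hp b, eφ, eφ', sub_zero]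
    have e1 : X - 2 + f2 (Mach.sg b : ℝ) (K b) p.1 p.2 - φ'
        = z + (f2 (Mach.sg b : ℝ) (K b) p.1 p.2 - c0') := by rw [hz, hc0]; ring
    have e2 : ((m : ℝ) ^ 670) ^ 2 = (m : ℝ) ^ 1340 := by ring
    rw [← hX, e1, e2]
  show inc S (fun _ _ => 0) (fun x y => p2X2 m r (ρ - 2) ((nx b K x y ^ 2).trace))
      (p2X2 m r ρ X) ≤ _
  rw [e]
  refine (up_gen S (fun _ => 1) (fun p => f2 (Mach.sg b : ℝ) (K b) p.1 p.2 - c0')
    (fun _ _ => zero_le_one) (z := z) (w := (m : ℝ) ^ 670)).trans ?_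
  simp only [one_mul]
  have hmean := mean2 hP hC hB b
  have hsq := sq2 hP hC hB b
  obtain ⟨hcS1, hcS2⟩ := card_S hC
  rw [← hρdef] at hmean hsq hcS1 hcS2
  rw [← hX] at hmean
  have hdm := d_sq_le hP
  have hz1 : max z 0 ≤ (m : ℝ) ^ 670 := max_le (by rw [hz]; linarith) (p _)
  have hz0 : 0 ≤ max z 0 := le_max_right _ _
  -- first order term
  have hA : 2 * max z 0 * ∑ i ∈ S, (f2 (Mach.sg b : ℝ) (K b) i.1 i.2 - c0')
      ≤ 2 * (m : ℝ) ^ 670 * ((m : ℝ) ^ 663 * ρ) := by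
    rcases le_or_gt z 0 with hz2 | hz2
    · rw [max_eq_right hz2]
      have : 0 ≤ 2 * (m : ℝ) ^ 670 * ((m : ℝ) ^ 663 * ρ) :=
        mul_nonneg (mul_nonneg (by norm_num) (p _)) (mul_nonneg (p _) hρpos.le)
      simpa using this
    · have h1 : ∑ i ∈ S, (f2 (Mach.sg b : ℝ) (K b) i.1 i.2 - c0')
          ≤ (m : ℝ) ^ 663 * ρ := by
        rw [Finset.sum_sub_distrib, Finset.sum_const, nsmul_eq_mul]
        have h2 := (abs_le.mp hmean).2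
        -- c0 |S| ≥ 2 (φ-ρ)² - 200 d² ρ
        have h3 : 2 * q * ρ ^ 2 - 200 * (d : ℝ) ^ 2 * ρ ≤ (S.card : ℝ) * c0' := by
          have h4 : 0 ≤ (S.card : ℝ) := Nat.cast_nonneg _
          have h5 : (S.card : ℝ) * (2 * q) ≤ (S.card : ℝ) * c0' :=
            mul_le_mul_of_nonneg_left hc1 h4
          have h6 : (ρ ^ 2 - 100 * (d : ℝ) ^ 2 * ρ) * (2 * q) ≤ (S.card : ℝ) * (2 * q) :=
            mul_le_mul_of_nonneg_right hcS1 (by linarith)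
          have h7 : 0 ≤ (d : ℝ) ^ 2 * ρ := mul_nonneg (sq_nonneg _) hρpos.le
          nlinarith
        have h8 : 2 * q * ρ ^ 2 = 2 * (φ - ρ) ^ 2 := by
          rw [hφ, Barrier.phi2_eq, hq]; ring
        have h9 : X + φ ≤ 2 * ρ := by
          have h10 : φ + (m : ℝ) ^ 670 / 2 ≤ ρ := by
            have h11 : ρ - φ = ρ * (1 - Barrier.ff (r / 2) ρ) := by
              rw [hφ, Barrier.phi2_eq]; ring
            have h12 := Barrier.one_sub_ff hr2 hρpos.le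
            have h13 : (m : ℝ) ^ 670 / 2 ≤ ρ * (r / 2 / (ρ + r / 2)) := by
              rw [← mul_div_assoc, le_div_iff₀ (by linarith)]
              have h14 : 4 * (m : ℝ) ^ 670 ≤ (m : ℝ) ^ 679 := cm hM1 (by linarith) (by norm_num)
              have h15 : 4 * (m : ℝ) ^ 670 ≤ (m : ℝ) ^ 680 := cm hM1 (by linarith) (by norm_num)
              nlinarith [p 670]
            rw [← h12] at h13
            linarith
          linarith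
        have h16 : 2 * (X - ρ) ^ 2 - 2 * (φ - ρ) ^ 2 ≤ 0 := by
          have : 2 * (X - ρ) ^ 2 - 2 * (φ - ρ) ^ 2 = 2 * (X - φ) * (X + φ - 2 * ρ) := by ring
          rw [this]
          exact mul_nonpos_of_nonneg_of_nonpos (by rw [hz] at hz2; linarith) (by linarith)
        have h17 : (m : ℝ) ^ 662 * ρ + 200 * (d : ℝ) ^ 2 * ρ ≤ (m : ℝ) ^ 663 * ρ := by
          have h18 : 2 * (m : ℝ) ^ 662 ≤ (m : ℝ) ^ 663 := cm hM1 (by linarith) (by norm_num)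
          have h19 : (m : ℝ) ^ 1 ≤ (m : ℝ) ^ 662 := pw hM1 (by norm_num)
          rw [pow_one] at h19
          have h20 : (m : ℝ) ^ 662 + 200 * (d : ℝ) ^ 2 ≤ (m : ℝ) ^ 663 := by nlinarith
          nlinarith
        linarith
      have h21 : (0:ℝ) ≤ (m : ℝ) ^ 663 * ρ := mul_nonneg (p _) hρpos.le
      calc _ ≤ 2 * max z 0 * ((m : ℝ) ^ 663 * ρ) :=
            mul_le_mul_of_nonneg_left h1 (by linarith)
        _ ≤ _ := mul_le_mul_of_nonneg_right (by linarith) h21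
  -- second order term
  have hBd : ∑ i ∈ S, (f2 (Mach.sg b : ℝ) (K b) i.1 i.2 - c0') ^ 2
      ≤ 2 * ((m : ℝ) ^ 1330 * ρ) + 200 * ρ ^ 2 := by
    have h1 : ∀ i ∈ S, (f2 (Mach.sg b : ℝ) (K b) i.1 i.2 - c0') ^ 2
        ≤ 2 * (f2 (Mach.sg b : ℝ) (K b) i.1 i.2) ^ 2 + 200 := by
      intro i _
      nlinarith [sq_nonneg (f2 (Mach.sg b : ℝ) (K b) i.1 i.2 + c0')]
    refine (Finset.sum_le_sum h1).trans ?_
    rw [Finset.sum_add_distrib, ← Finset.mul_sum, Finset.sum_const, nsmul_eq_mul]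
    nlinarith
  rw [div_le_div_iff₀ (pow_pos (pow_pos hM0 _) _) (pow_pos hM0 _)]
  have h22 : (2 * max z 0 * ∑ i ∈ S, (f2 (Mach.sg b : ℝ) (K b) i.1 i.2 - c0')
      + ∑ i ∈ S, (f2 (Mach.sg b : ℝ) (K b) i.1 i.2 - c0') ^ 2)
      ≤ (m : ℝ) ^ 1338 * ρ := by
    have e1 : 2 * (m : ℝ) ^ 670 * ((m : ℝ) ^ 663 * ρ) = 2 * (m : ℝ) ^ 1333 * ρ := by ring
    rw [e1] at hA
    have t1 : 5 * (m : ℝ) ^ 1333 ≤ (m : ℝ) ^ 1338 := cm hM1 (by linarith) (by norm_num)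
    have t2 : 5 * (m : ℝ) ^ 1330 ≤ (m : ℝ) ^ 1338 := cm hM1 (by linarith) (by norm_num)
    have t3 : 400 * (m : ℝ) ^ 800 ≤ (m : ℝ) ^ 1337 := cm hM1 (by linarith) (by norm_num)
    have t4 : 5 * (m : ℝ) ^ 1337 ≤ (m : ℝ) ^ 1338 := cm hM1 (by linarith) (by norm_num)
    have t5 : (1:ℝ) ≤ (m : ℝ) ^ 800 := one_le_pow₀ hM1
    have t6 : 200 * ρ ^ 2 ≤ (m : ℝ) ^ 1337 * ρ := by
      have : 200 * ρ ≤ (m : ℝ) ^ 1337 := by linarith
      nlinarith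
    have t7 : 2 * (m : ℝ) ^ 1333 * ρ + 2 * ((m : ℝ) ^ 1330 * ρ) + (m : ℝ) ^ 1337 * ρ
        ≤ (m : ℝ) ^ 1338 * ρ := by
      have : 2 * (m : ℝ) ^ 1333 + 2 * (m : ℝ) ^ 1330 + (m : ℝ) ^ 1337 ≤ (m : ℝ) ^ 1338 := by
        linarith [p 1338]
      nlinarith
    linarith
  calc _ ≤ (m : ℝ) ^ 1338 * ρ * (m : ℝ) ^ 2 := mul_le_mul_of_nonneg_right h22 (p _)
    _ = ρ * ((m : ℝ) ^ 670) ^ 2 := by ring

theorem s2X2l : S2X2l ι := by
  intro d n m γ x0 F K S hP hC hB b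
  obtain ⟨hg, hg2, hρ0⟩ := g_facts2 hP hB
  have hM := M_ge hP
  have hM0 : (0 : ℝ) < m := by linarith [hM, (by norm_num : (0:ℝ) < 10 ^ 10)]
  have hM1 : (1 : ℝ) ≤ m := by linarith [hM, (by norm_num : (1:ℝ) ≤ 10 ^ 10)]
  have hM3 : (1000 : ℝ) ≤ m := by linarith [hM, (by norm_num : (1000:ℝ) ≤ 10 ^ 10)]
  have p : ∀ k : ℕ, (0:ℝ) ≤ (m : ℝ) ^ k := fun k => pow_nonneg hM0.le k
  have hr := r1_ge hP
  have hr0 : (0:ℝ) < r1 d n m := lt_of_lt_of_le (pow_pos hM0 _) hr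
  have hX2l := hB.X2l b
  set r := r1 d n m with hrdef
  set ρ : ℝ := (F.card : ℝ) with hρdef
  have hρpos : 0 < ρ := lt_of_lt_of_le (pow_pos hM0 _) hρ0
  set z := ρ - 5 * r - (K b ^ 2).trace with hz
  have e : inc S (fun _ _ => 0) (fun x y => p2X2l r (ρ - 2) ((nx b K x y ^ 2).trace))
      (p2X2l r ρ (K b ^ 2).trace)
      = ∑ p ∈ S, (1:ℝ) * ((max (z + -f2 (Mach.sg b : ℝ) (K b) p.1 p.2) 0) ^ 2
          / r ^ 2 - (max z 0) ^ 2 / r ^ 2) := by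
    unfold inc p2X2l
    refine Finset.sum_congr rfl fun p hp => ?_
    beta_reduce
    rw [X2_nx hC hp b, sub_zero]
    have e1 : ρ - 2 - 5 * r - ((K b ^ 2).trace - 2
        + f2 (Mach.sg b : ℝ) (K b) p.1 p.2)
        = z + -f2 (Mach.sg b : ℝ) (K b) p.1 p.2 := by rw [hz]; ring
    rw [e1]
  show inc S (fun _ _ => 0) (fun x y => p2X2l r (ρ - 2) ((nx b K x y ^ 2).trace))
      (p2X2l r ρ (K b ^ 2).trace) ≤ _
  rw [e]
  refine (up_gen S (fun _ => 1) (fun p => -f2 (Mach.sg b : ℝ) (K b) p.1 p.2)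
    (fun _ _ => zero_le_one) (z := z) (w := r)).trans ?_
  simp only [one_mul, neg_sq, Finset.sum_neg_distrib]
  have hmean := mean2 hP hC hB b
  have hsq := sq2 hP hC hB b
  rw [← hρdef] at hmean hsq
  have hz1 : max z 0 ≤ r := max_le (by rw [hz]; linarith) hr0.le
  have hz0 : 0 ≤ max z 0 := le_max_right _ _
  have h1 := (abs_le.mp hmean).1
  have h2 : -∑ i ∈ S, f2 (Mach.sg b : ℝ) (K b) i.1 i.2 ≤ (m : ℝ) ^ 662 * ρ := by
    nlinarith [sq_nonneg ((K b ^ 2).trace - ρ)]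
  have h3 : (0:ℝ) ≤ (m : ℝ) ^ 662 * ρ := mul_nonneg (p _) hρpos.le
  have h4 : 2 * max z 0 * -∑ i ∈ S, f2 (Mach.sg b : ℝ) (K b) i.1 i.2
      ≤ 2 * r * ((m : ℝ) ^ 662 * ρ) := by
    calc _ ≤ 2 * max z 0 * ((m : ℝ) ^ 662 * ρ) := mul_le_mul_of_nonneg_left h2 (by linarith)
      _ ≤ _ := mul_le_mul_of_nonneg_right (by linarith) h3
  rw [div_le_div_iff₀ (pow_pos hr0 _) (pow_pos hM0 _)]
  have h5 : (2 * max z 0 * -∑ i ∈ S, f2 (Mach.sg b : ℝ) (K b) i.1 i.2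
      + ∑ i ∈ S, (f2 (Mach.sg b : ℝ) (K b) i.1 i.2) ^ 2) * (m : ℝ) ^ 2
      ≤ (2 * r * ((m : ℝ) ^ 662 * ρ) + (m : ℝ) ^ 1330 * ρ) * (m : ℝ) ^ 2 :=
    mul_le_mul_of_nonneg_right (by linarith) (p _)
  refine h5.trans ?_
  have e2 : (2 * r * ((m : ℝ) ^ 662 * ρ) + (m : ℝ) ^ 1330 * ρ) * (m : ℝ) ^ 2
      = ρ * (2 * (m : ℝ) ^ 664 * r + (m : ℝ) ^ 1332) := by ring
  rw [e2]
  refine mul_le_mul_of_nonneg_left ?_ hρpos.le
  have h6 : 4 * (m : ℝ) ^ 664 ≤ r := (cm hM1 (by linarith) (by norm_num)).trans hr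
  have h7 : 4 * (m : ℝ) ^ 1332 ≤ (m : ℝ) ^ 1360 := cm hM1 (by linarith) (by norm_num)
  have h8 : (m : ℝ) ^ 1360 ≤ r ^ 2 := by
    have e7 : (m : ℝ) ^ 1360 = ((m : ℝ) ^ 680) ^ 2 := by ring
    rw [e7]; exact pow_le_pow_left₀ (p _) hr 2
  nlinarith

end stage2

end Crest.Agent.R62.MainX2
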