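import Crest.Agent.R62.X3Num
import Crest.Agent.R62.Nums
import Crest.Agent.R62.X3Low

/-!
R62: the pieces `S1X3l`, `S1X3u`, `S2X3` of `StepDefs` (helper298).
-/

set_option autoImplicit false
set_option linter.unusedSectionVars false
set_option linter.unusedVariables false

open Matrix Finset

namespace Crest.Agent.R62.MainX3

open Crest.Agent.R62.Upd Crest.Agent.R62.AvX3 Crest.Agent.R62.AvBase Crest.Agent.R62.X3Drift
open Crest.Agent.R62.Step Crest.Agent.R62.Expo Crest.Agent.R62.Nums Crest.Agent.R062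
open Crest.Agent.R62.X3Num
open Crest.Agent.R62.AvX1 (ind Vf Wf)

variable {ι : Type} [Fintype ι] [DecidableEq ι]

lemma E_nat (m : ℝ) (k : ℕ) [k.AtLeastTwo] : m ^ (OfNat.ofNat k : ℕ) = E m (OfNat.ofNat k) :=
  (E_ofNat m k).symm

/-- row sums from the indicator form -/
lemma row_of {K : Matrix ι ι ℝ} {F : Finset ι} {s : ℝ} (hK : K.IsSymm)
    (hd : ∀ i j, i ∉ F → K i j = 0) (h : K *ᵥ ind F = s • ind F) :
    ∀ x ∈ F, ∑ y, K x y = s := by
  intro x hx
  have h1 := congrFun h x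
  simp only [mulVec, dotProduct, ind, Pi.smul_apply, smul_eq_mul, mul_ite, mul_one, mul_zero,
    if_pos hx] at h1
  rw [← h1]
  refine Finset.sum_congr rfl fun y _ => ?_
  by_cases hy : y ∈ F
  · rw [if_pos hy]
  · rw [if_neg hy, ← hK.apply x y, hd y x hy]

/-- the atoms from numerical bounds -/
lemma at_of {m x κ e V W : ℝ} (hm : 1 ≤ m) (hb : (5 : ℝ) * 10 ^ 14 ≤ m) (hV : V ≤ κ / 4 + x / 4)
    (hx : 5 * x ≤ 3 * κ) (hx0 : 0 ≤ x) (hκ : 0 ≤ κ - x) (he : 0 ≤ e) :
    At m x κ e V W (E m V) (E m W) (2 * E m (x / 2 + e)) (E m (x / 2)) (E m ((κ - x) / 2))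
      (E m ((κ - x) / 4) * E m ((κ - x) / 2) + E m (x / 2))
      ((E m ((κ - x) / 4) ^ 2 + 1) * E m ((κ - x) / 2))
      (E m ((κ - x) / 4) * (2 * E m (x / 2 + e)) + E m V)
      ((E m ((κ - x) / 4) ^ 2 + 1) * (2 * E m (x / 2 + e))) (E m ((κ - x) / 4)) := by
  have h0 : 0 < m := lt_of_lt_of_le one_pos hm
  have o1 : O m 1 ((κ - x) / 4) (E m ((κ - x) / 4)) := O.E h0 _
  have o2 : O m 1 ((κ - x) / 2) (E m ((κ - x) / 2)) := O.E h0 _
  have o3 : O m 1 (x / 2) (E m (x / 2)) := O.E h0 _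
  have o4 : O m 2 (x / 2 + e) (2 * E m (x / 2 + e)) :=
    ⟨by have := (E_pos h0 (x / 2 + e)).le; positivity, le_rfl⟩
  have oV : O m 1 V (E m V) := O.E h0 _
  have oL : O m 2 ((κ - x) / 2) (E m ((κ - x) / 4) ^ 2 + 1) := by
    refine ((o1.sq hm).add hm O.one).mono hm (by norm_num) (max_le ?_ ?_) <;> linarith
  refine ⟨hm, hb, oV, O.E h0 _, o4, o3, o2, o1, ?_, ?_, ?_, ?_⟩
  · refine ((o1.mul hm o2).add hm o3).mono hm (by norm_num) (max_le ?_ ?_) <;> linarith
  · refine (oL.mul hm o2).mono hm (by norm_num) ?_; linarith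
  · refine ((o1.mul hm o4).add hm oV).mono hm (by norm_num) (max_le ?_ ?_) <;> linarith
  · refine (oL.mul hm o4).mono hm (by norm_num) ?_; linarith

lemma good_of {d m : ℕ} {γ : ℝ} {F : Finset ι} {K : Bool → Matrix ι ι ℝ} {S : Finset (ι × ι)}
    (c : Ctx d m γ F K S) (b : Bool) : GoodS (K b) F S := by
  intro p hp
  have h := Finset.mem_product.1 (c.sub hp)
  exact ⟨h.1, h.2, c.ne p hp, (c.good1 p hp b).trans (by norm_num),
    (c.good2 p hp b).trans (by norm_num)⟩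

lemma sum_wF (K : Matrix ι ι ℝ) (F : Finset ι) :
    ∑ x, wF K F x ^ 2 = ∑ x ∈ F, ((K ^ 2) x x - 1) ^ 2 := by
  rw [← Finset.sum_subset (Finset.subset_univ F)]
  · exact Finset.sum_congr rfl fun x hx => by simp [wF, hx]
  · intro x _ hx; simp [wF, hx]

/-! ### the final scalar step -/

lemma fin_up {m x ρ c D N2 : ℝ} (hm : 1 ≤ m) (hb : (5 : ℝ) * 10 ^ 14 ≤ m) (hρ : ρ = E m x)
    (hc : E m 1000 / 4 ≤ c) (hD : D ≤ 6 * (E m (x + 997) / 1000))
    (hN : N2 ≤ 2 * (E m (x + 1997) / 1000)) : 2 * D / c + N2 / c ^ 2 ≤ ρ / m ^ 2 := by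
  have h0 : 0 < m := lt_of_lt_of_le one_pos hm
  have e1000 : 0 < E m 1000 := E_pos h0 _
  have hc0 : 0 < c := lt_of_lt_of_le (by positivity) hc
  have a1 : E m (x + 997) = E m (x - 3) * E m 1000 := by rw [E_mul h0]; congr 1; ring
  have a2 : E m (x + 1997) = E m (x - 3) * (E m 1000) ^ 2 := by
    rw [E_sq h0, E_mul h0]; congr 1; ring
  have a3 : ρ / m ^ 2 = E m (x - 3) * m := by
    rw [hρ, div_eq_iff (by positivity)]
    have : m = E m 1 := (E_one m).symm
    calc E m x = E m (x - 3 + 1 + 2) := by congr 1; ring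
      _ = E m (x - 3) * E m 1 * E m 2 := by rw [E_add h0, E_add h0]
      _ = E m (x - 3) * m * m ^ 2 := by rw [E_one, E_ofNat]
  have hz := E_pos h0 (x - 3)
  have b1 : 2 * D / c ≤ 1 * E m (x - 3) := by
    rw [div_le_iff₀ hc0]
    rw [a1] at hD
    have : E m (x - 3) * (E m 1000 / 4) ≤ E m (x - 3) * c := mul_le_mul_of_nonneg_left hc hz.le
    have : 0 ≤ E m (x - 3) * E m 1000 := by positivity
    linarith
  have b2 : N2 / c ^ 2 ≤ 1 * E m (x - 3) := by
    rw [div_le_iff₀ (by positivity)]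
    rw [a2] at hN
    have h1 : (E m 1000 / 4) ^ 2 ≤ c ^ 2 := pow_le_pow_left₀ (by positivity) hc 2
    have h2 : E m (x - 3) * (E m 1000 / 4) ^ 2 ≤ E m (x - 3) * c ^ 2 :=
      mul_le_mul_of_nonneg_left h1 hz.le
    have h3 : 0 ≤ E m (x - 3) * (E m 1000) ^ 2 := by positivity
    have h4 : E m (x - 3) * (E m 1000 / 4) ^ 2 = E m (x - 3) * (E m 1000) ^ 2 / 16 := by ring
    linarith
  rw [a3]
  nlinarith

/-! ### stage 1 -/

section stage1
variable {d n m : ℕ} {γ : ℝ} {F : Finset ι} {K : Bool → Matrix ι ι ℝ} {S : Finset (ι × ι)}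
  {Θ : ι → ι → ℝ}

/-- abbreviation: all numbers of a stage -/
def BdsE (K : Matrix ι ι ℝ) (F : Finset ι) (m x κ e V W : ℝ) : Prop :=
  Bds K F (E m V) (E m W) (2 * E m (x / 2 + e)) (E m (x / 2)) (E m ((κ - x) / 2))
      (E m ((κ - x) / 4) * E m ((κ - x) / 2) + E m (x / 2))
      ((E m ((κ - x) / 4) ^ 2 + 1) * E m ((κ - x) / 2))
      (E m ((κ - x) / 4) * (2 * E m (x / 2 + e)) + E m V)
      ((E m ((κ - x) / 4) ^ 2 + 1) * (2 * E m (x / 2 + e)))

theorem bds1 (hp : Prm d n m) (c : Ctx d m γ F K S) (b1 : Box1 d n m F K) (b : Bool) :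
    BdsE (K b) F m (ex m F.card) 2003 0 3 305 := by
  have P := par hp
  have R := rho1 hp b1
  have h4 := opB1 hp c b1 b
  have m0 := P.m0
  refine Bds.of (c.symm b) (fun i hi j => c.dead b i j hi) h4.2 (E_pos m0 _).le (E_pos m0 _).le
    (by have := (E_pos m0 (ex m F.card / 2 + 0)).le; positivity) (E_pos m0 _).le
    (E_pos m0 _).le ?_ ?_ ?_ ?_ ?_
  · rw [E_sq m0]
    have := b1.Vu b
    rw [pow_eq] at this
    norm_num at this ⊢
    exact this
  · rw [E_sq m0]
    have := b1.Wu b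
    rw [pow_eq] at this
    norm_num at this ⊢
    exact this
  · have := Rf_le1 hp c b1 b
    rw [mul_pow, E_sq m0]
    have e : 2 * (ex (m : ℝ) F.card / 2 + 0) = ex m F.card := by ring
    rw [e, ← R.eq]
    have h5 : Rf (K b) = ∑ x, (K b ^ 2) x x ^ 2 := rfl
    have := R.pos
    linarith
  · rw [E_sq m0]
    have e : 2 * (ex (m : ℝ) F.card / 2) = ex m F.card := by ring
    rw [e, ← R.eq]
    exact X2_le1 P b1 b
  · rw [E_sq m0]
    have e : 2 * ((2003 - ex (m : ℝ) F.card) / 2) = 2003 - ex m F.card := by ring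
    rw [e]; exact h4.1

lemma U_le (P : Par d n m) (ρ : ℝ) : U m ρ ≤ E m 361 := by
  unfold U
  rw [pow_eq]
  have h : max 0 (min 1 ((ρ - (m : ℝ) ^ 800) / (m : ℝ) ^ 800)) ≤ 1 :=
    max_le zero_le_one (min_le_left _ _)
  have := (E_pos P.m0 ((361 : ℕ) : ℝ)).le
  have e : ((361 : ℕ) : ℝ) = 361 := by norm_num
  rw [e] at this ⊢
  nlinarith

lemma X1_abs1 (P : Par d n m) (b1 : Box1 d n m F K) (b : Bool) : |(K b).trace| ≤ 2 * E m 361 := by
  have h1 := b1.X1u b
  have h2 := b1.X1l b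
  have h3 := U_le P (F.card : ℝ)
  rw [pow_eq] at h1 h2
  have h4 : E (m : ℝ) ((335 : ℕ) : ℝ) ≤ E m 361 := E_mono P.m1 (by norm_num)
  have := (E_pos P.m0 361).le
  rw [abs_le]; constructor <;> linarith

/-- the error of the weighted drift in stage 1 -/
theorem errW1 (hp : Prm d n m) (c : Ctx d m γ F K S) (b1 : Box1 d n m F K)
    (t : Tilt1 d n m F K S Θ) (b : Bool) :
    |∑ p ∈ S, (1 - Θ p.1 p.2) * dX3 (Mach.sg b : ℝ) (K b) p.1 p.2 - mainX3 (K b) F.card|
      ≤ 5 * (E m (ex m F.card + 997) / 1000) := by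
  have P := par hp
  have R := rho1 hp b1
  have m0 := P.m0
  have hB := bds1 hp c b1 b
  have hA := at_of (m := m) (x := ex m F.card) (κ := 2003) (e := 0) (V := 3) (W := 305) P.m1
    P.mbig (by have := R.lo; linarith) (by have := R.hi; linarith) (by have := R.lo; linarith)
    (by have := R.hi; linarith) le_rfl
  have hβ : (((F ×ˢ F) \ S).card : ℝ) ≤ E m ((ex m F.card + 1 / 5) / 2) ^ 2 := by
    rw [E_sq m0]
    refine (bad1 hp c b1).trans (le_of_eq ?_)
    congr 1; ring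
  have hη : (E (m : ℝ) (-1)) = 1 / m := by rw [E_neg m0, E_one]; ring
  have hθ : ∑ p ∈ S, Θ p.1 p.2 ^ 2 ≤ E m ((1928 - ex m F.card) / 2) ^ 2 := by
    rw [E_sq m0, show 2 * ((1928 - ex (m : ℝ) F.card) / 2) = 1928 - ex m F.card by ring,
      E_sub m0, ← R.eq, le_div_iff₀ R.pos]
    have h1 := t.frob
    rw [E_nat] at h1
    refine le_trans (mul_le_mul_of_nonneg_right ?_ R.pos.le) h1
    rw [← Fintype.sum_prod_type' (f := fun x y => Θ x y ^ 2)]
    exact Finset.sum_le_sum_of_subset_of_nonneg (Finset.subset_univ S) fun p _ _ => sq_nonneg _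
  have hN : OpB (Matrix.of Θ) (E m 371) := by
    have := t.opB
    rwa [E_nat] at this
  have h := sum_w (X3Low.sg_sq b) hB (fun i hi j => c.dead b i j hi)
    (row_of (c.symm b) (c.dead b) (c.row b)) (good_of c b) (E_pos m0 _).le hβ
    (E_pos m0 (-1)).le (E_pos m0 _).le (fun p _ => by rw [hη]; exact t.abs_le _ _) hθ t.supp hN
  refine h.trans ?_
  have o1 : O (m : ℝ) 1 ((ex m F.card + 1 / 5) / 2) (E m ((ex m F.card + 1 / 5) / 2)) := O.E m0 _
  have o2 : O (m : ℝ) 1 ((1928 - ex m F.card) / 2) (E m ((1928 - ex m F.card) / 2)) := O.E m0 _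
  have o3 : O (m : ℝ) 1 371 (E m 371) := O.E m0 _
  have z1 := err1 hA R.lo R.hi
  have z2 := errm1 hA o1 R.lo R.hi
  have z3 := errt1 hA o2 o3 R.lo R.hi
  have e0 := Err_nonneg hB
  have q1 := hB.x10
  have q2 := hB.t40
  have q3 := hB.x20
  have q4 := hB.t30
  have q5 := hB.v0
  have q6 := hB.w0
  have q7 := hB.d30
  have q8 := hB.d40
  have e1 := (E_pos m0 ((ex m F.card + 1 / 5) / 2)).le
  have hη1 : E (m : ℝ) (-1) ≤ 1 := E_le_one P.m1 (by norm_num)
  unfold ErrW ErrM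
  generalize E (m : ℝ) ((ex m F.card + 1 / 5) / 2) = β at *
  generalize E (m : ℝ) ((1928 - ex m F.card) / 2) = θ at *
  generalize E (m : ℝ) 371 = N at *
  set t3 := E (m : ℝ) ((2003 - ex m F.card) / 4) * E m ((2003 - ex m F.card) / 2)
    + E m (ex m F.card / 2) with ht3
  set t4 := (E (m : ℝ) ((2003 - ex m F.card) / 4) ^ 2 + 1) * E m ((2003 - ex m F.card) / 2)
    with ht4
  set d3 := E (m : ℝ) ((2003 - ex m F.card) / 4) * (2 * E m (ex m F.card / 2 + 0)) + E m 3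
    with hd3
  set d4 := (E (m : ℝ) ((2003 - ex m F.card) / 4) ^ 2 + 1) * (2 * E m (ex m F.card / 2 + 0))
    with hd4
  have hx : 0 ≤ 6 * (E (m : ℝ) (ex m F.card / 2) * t4 + E m ((2003 - ex m F.card) / 2) * t3) := by
    positivity
  have hb' : 0 ≤ 6 * (β * (t4 + E m 3 * d4 + E m 305 * d3)) := by positivity
  have hm' : E (m : ℝ) (-1) * (6 * (E m (ex m F.card / 2) * t4
        + E m ((2003 - ex m F.card) / 2) * t3) + Err (E m 3) (E m 305) (2 * E m (ex m F.card / 2 + 0))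
        (E m (ex m F.card / 2)) (E m ((2003 - ex m F.card) / 2)) t3 t4 d3 d4)
      ≤ 1 * (6 * (E m (ex m F.card / 2) * t4
        + E m ((2003 - ex m F.card) / 2) * t3) + Err (E m 3) (E m 305) (2 * E m (ex m F.card / 2 + 0))
        (E m (ex m F.card / 2)) (E m ((2003 - ex m F.card) / 2)) t3 t4 d3 d4) :=
    mul_le_mul_of_nonneg_right hη1 (by positivity)
  linarith

lemma th_abs (P : Par d n m) (t : Tilt1 d n m F K S Θ) (x y : ι) :
    0 ≤ 1 - Θ x y ∧ 1 - Θ x y ≤ 2 := by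
  have h1 := t.abs_le x y
  have h2 : (1 : ℝ) / m ≤ 1 := by
    rw [div_le_one P.m0]; exact P.m1
  have h3 := abs_le.1 (h1.trans h2)
  constructor <;> linarith [h3.1, h3.2]

/-- the second moment in stage 1 -/
theorem sqW1 (hp : Prm d n m) (c : Ctx d m γ F K S) (b1 : Box1 d n m F K)
    (t : Tilt1 d n m F K S Θ) (b : Bool) :
    ∑ p ∈ S, (1 - Θ p.1 p.2) * dX3 (Mach.sg b : ℝ) (K b) p.1 p.2 ^ 2
      ≤ 2 * (E m (ex m F.card + 1997) / 1000) := by
  have P := par hp
  have R := rho1 hp b1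
  have hB := bds1 hp c b1 b
  have hA := at_of (m := m) (x := ex m F.card) (κ := 2003) (e := 0) (V := 3) (W := 305) P.m1
    P.mbig (by have := R.lo; linarith) (by have := R.hi; linarith) (by have := R.lo; linarith)
    (by have := R.hi; linarith) le_rfl
  have h1 := sq_X3' (X3Low.sg_sq b) hB (opB1 hp c b1 b).2 (good_of c b)
  have h2 := sq1 hA R.lo R.hi
  calc ∑ p ∈ S, (1 - Θ p.1 p.2) * dX3 (Mach.sg b : ℝ) (K b) p.1 p.2 ^ 2
      ≤ ∑ p ∈ S, 2 * dX3 (Mach.sg b : ℝ) (K b) p.1 p.2 ^ 2 :=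
        Finset.sum_le_sum fun p _ =>
          mul_le_mul_of_nonneg_right (th_abs P t p.1 p.2).2 (sq_nonneg _)
    _ = 2 * ∑ p ∈ S, dX3 (Mach.sg b : ℝ) (K b) p.1 p.2 ^ 2 := by rw [Finset.mul_sum]
    _ ≤ _ := mul_le_mul_of_nonneg_left (h1.trans h2) (by norm_num)

/-- generic bound of `mainX3` -/
lemma main_le {K : Matrix ι ι ℝ} {F : Finset ι} {v w r x1 x2 t3 t4 d3 d4 L U : ℝ} {ρ : ℝ}
    (h : Bds K F v w r x1 x2 t3 t4 d3 d4) (hL : OpB K L) (hU : |K.trace| ≤ U) :
    |12 * (K ^ 5).trace + 6 * (K.trace * ((K ^ 4).trace - (K ^ 2).trace))|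
      ≤ 12 * (L * x2 ^ 2) + 6 * (U * (x2 ^ 2 + x1 ^ 2)) := by
  have q2 := frob_pow (K := K) h.sym 1
  have q4 := frob_pow (K := K) h.sym 2
  simp only [pow_one, Nat.reduceMul, mul_one] at q2 q4
  have X2 : (K ^ 2).trace ≤ x1 ^ 2 := by rw [← q2]; exact h.hX1
  have X4 : (K ^ 4).trace ≤ x2 ^ 2 := by rw [← q4]; exact h.hX2
  have X20 : 0 ≤ (K ^ 2).trace := by simpa using trace_even_nonneg (K := K) h.sym 1
  have X40 : 0 ≤ (K ^ 4).trace := by simpa using trace_even_nonneg (K := K) h.sym 2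
  have h5 := abs_trace_five_le (K := K) h.sym hL
  have h5' : |12 * (K ^ 5).trace| ≤ 12 * (L * x2 ^ 2) := by
    rw [abs_mul, abs_of_pos (by norm_num : (0:ℝ) < 12)]
    refine mul_le_mul_of_nonneg_left (h5.trans (mul_le_mul_of_nonneg_left X4 hL.1)) (by norm_num)
  have h6 : |(K ^ 4).trace - (K ^ 2).trace| ≤ x2 ^ 2 + x1 ^ 2 := by
    rw [abs_le]; constructor <;> nlinarith [sq_nonneg x1, sq_nonneg x2]
  refine (abs_add_le _ _).trans (add_le_add h5' ?_)
  rw [abs_mul, abs_mul, abs_of_pos (by norm_num : (0:ℝ) < 6)]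
  refine mul_le_mul_of_nonneg_left ?_ (by norm_num)
  exact mul_le_mul hU h6 (abs_nonneg _) ((abs_nonneg _).trans hU)

lemma n_big (P : Par d n m) : E (m : ℝ) 1000 ≤ n := P.n_ge

/-- numbers for `mainX3` in stage 1 -/
lemma mainnum1 (hp : Prm d n m) (b1 : Box1 d n m F K) :
    12 * (E m ((2003 - ex m F.card) / 4) * E m ((2003 - ex m F.card) / 2) ^ 2)
      + 12 * (3 * ((d : ℝ) - 1) ^ 2 * n)
      + 6 * (2 * E m 361 * (E m ((2003 - ex m F.card) / 2) ^ 2 + E m (ex m F.card / 2) ^ 2))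
      + 6 * (4 * r1 d n m * (3 * ((d : ℝ) - 1) ^ 2 * n + 2 * E m 361))
      ≤ E m (ex m F.card + 997) / 1000 := by
  have P := par hp
  have R := rho1 hp b1
  have m0 := P.m0
  have hm := P.m1
  have hA := at_of (m := m) (x := ex m F.card) (κ := 2003) (e := 0) (V := 3) (W := 305) P.m1
    P.mbig (by have := R.lo; linarith) (by have := R.hi; linarith) (by have := R.lo; linarith)
    (by have := R.hi; linarith) le_rfl
  have oU : O (m : ℝ) 2 361 (2 * E m 361) :=
    ⟨by have := (E_pos m0 361).le; positivity, le_rfl⟩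
  have oX : O (m : ℝ) 3 (1000 + 3 / 10) (3 * ((d : ℝ) - 1) ^ 2 * n) := by
    have h := ((O.ofNat (m := (m : ℝ)) 3).mul hm (P.d1O.sq hm)).mul hm P.nO
    refine h.mono hm (by norm_num) (by norm_num)
  have oR : O (m : ℝ) 4 (680 + 1 / 10) (4 * r1 d n m) := by
    have h := (O.ofNat (m := (m : ℝ)) 4).mul hm P.r1O
    refine h.mono hm (by norm_num) (by norm_num)
  exact main1 hA oU oX oR R.lo R.hi

theorem s1x3u : S1X3u ι := by
  intro d n m γ F K S Θ hp c b1 t b
  have P := par hp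
  have R := rho1 hp b1
  have m0 := P.m0
  have hd3 := P.d3
  have hB := bds1 hp c b1 b
  have hL := (opB1 hp c b1 b).2
  have hn := P.n_ge
  have hE := E_pos m0 1000
  have hn0 : (0 : ℝ) < n := lt_of_lt_of_le hE hn
  set q : ℝ := ((d : ℝ) - 1) ^ 2 * n with hq
  have hd4 : (4 : ℝ) ≤ ((d : ℝ) - 1) ^ 2 := by nlinarith
  have hq1 : 4 * (n : ℝ) ≤ q := by rw [hq]; exact mul_le_mul_of_nonneg_right hd4 hn0.le
  have hU := X1_abs1 P b1 b
  have hU2 : 2 * E (m : ℝ) 361 ≤ n := by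
    have h1 : E (m : ℝ) 1000 = E m 361 * E m 639 := by rw [E_mul m0]; norm_num
    have h2 : (2 : ℝ) ≤ E m 639 := by
      have := E_mono P.m1 (show (1 : ℝ) / 10 ≤ 639 by norm_num)
      have := P.d10
      linarith
    have := (E_pos m0 361).le
    nlinarith
  set b0 : ℝ := 2 * ((d : ℝ) - 1) ^ 2 * n with hb0
  have hb0q : b0 = 2 * q := by rw [hb0, hq]; ring
  have hX3u := b1.X3u b
  have hX3u' : (K b ^ 3).trace ≤ 3 * q := by rw [hq]; linarith
  have main := main_le (ρ := F.card) hB hL hU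
  have mnum := mainnum1 hp b1
  have err := errW1 hp c b1 t b
  have sqb := sqW1 hp c b1 t b
  have X2le := X2_le1 P b1 b
  -- positivity of pieces of mnum
  have r0 := P.r1_pos
  have p2 : 0 ≤ 6 * (4 * r1 d n m * (3 * ((d : ℝ) - 1) ^ 2 * n + 2 * E m 361)) := by
    have := (E_pos m0 361).le
    positivity
  have p1 : 0 ≤ 12 * (3 * ((d : ℝ) - 1) ^ 2 * n) := by positivity
  have hA0 := (E_pos m0 (ex m F.card + 997)).le
  have step := pot_step S (fun p => 1 - Θ p.1 p.2)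
    (fun p => dX3 (Mach.sg b : ℝ) (K b) p.1 p.2) (fun p _ => (th_abs P t p.1 p.2).1)
    (X := (K b ^ 3).trace) (b := b0) (c := q) (D := 6 * (E m (ex m F.card + 997) / 1000))
    (N2 := 2 * (E m (ex m F.card + 1997) / 1000)) (by linarith)
    (max_le (by linarith) (by linarith)) (by positivity) ?_ sqb
  · have fin := fin_up P.m1 P.mbig R.eq (c := q) (D := 6 * (E m (ex m F.card + 997) / 1000))
      (N2 := 2 * (E m (ex m F.card + 1997) / 1000)) (by linarith) le_rfl le_rfl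
    refine le_trans (le_of_eq ?_) (step.trans fin)
    unfold inc p1X3u
    refine Finset.sum_congr rfl fun p hp' => ?_
    simp only [nx]
    rw [trace_step (X3Low.sg_sq b) (c.symm b)]
  · intro hX
    have hm1 : mainX3 (K b) F.card ≤ E m (ex m F.card + 997) / 1000 := by
      unfold mainX3
      have h1 := (abs_le.1 main).2
      have h2 : ((K b ^ 2).trace - F.card) * ((K b ^ 3).trace - (K b).trace) ≤ 0 := by
        have h3 := (abs_le.1 hU).2
        exact mul_nonpos_of_nonpos_of_nonneg (by linarith) (by linarith)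
      linarith
    have h2 := (abs_le.1 err).2
    linarith

theorem s1x3l : S1X3l ι := by
  intro d n m γ F K S Θ hp c b1 t b
  have P := par hp
  have R := rho1 hp b1
  have m0 := P.m0
  have hd3 := P.d3
  have hB := bds1 hp c b1 b
  have hL := (opB1 hp c b1 b).2
  have hn := P.n_ge
  have hE := E_pos m0 1000
  have hn0 : (0 : ℝ) < n := lt_of_lt_of_le hE hn
  have hU := X1_abs1 P b1 b
  have hX3u := b1.X3u b
  have hX3l := b1.X3l b
  have main := main_le (ρ := F.card) hB hL hU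
  have mnum := mainnum1 hp b1
  have err := errW1 hp c b1 t b
  have sqb := sqW1 hp c b1 t b
  have X2le := X2_le1 P b1 b
  have X2ge := b1.X2l b
  have r0 := P.r1_pos
  have hA0 := (E_pos m0 (ex m F.card + 997)).le
  have sqb' : ∑ p ∈ S, (1 - Θ p.1 p.2) * (-dX3 (Mach.sg b : ℝ) (K b) p.1 p.2) ^ 2
      ≤ 2 * (E m (ex m F.card + 1997) / 1000) := by
    simpa only [neg_sq] using sqb
  have step := pot_step S (fun p => 1 - Θ p.1 p.2)
    (fun p => -dX3 (Mach.sg b : ℝ) (K b) p.1 p.2) (fun p _ => (th_abs P t p.1 p.2).1)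
    (X := -(K b ^ 3).trace) (b := -(3 / 2 * (n : ℝ))) (c := (n : ℝ) / 4)
    (D := 6 * (E m (ex m F.card + 997) / 1000))
    (N2 := 2 * (E m (ex m F.card + 1997) / 1000)) (by linarith)
    (max_le (by linarith) (by linarith)) (by positivity) ?_ sqb'
  · have fin := fin_up P.m1 P.mbig R.eq (c := (n : ℝ) / 4)
      (D := 6 * (E m (ex m F.card + 997) / 1000))
      (N2 := 2 * (E m (ex m F.card + 1997) / 1000)) (by linarith) le_rfl le_rfl
    refine le_trans (le_of_eq ?_) (step.trans fin)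
    unfold inc p1X3l
    refine Finset.sum_congr rfl fun p hp' => ?_
    simp only [nx]
    rw [trace_step (X3Low.sg_sq b) (c.symm b)]
    congr 3
    · congr 2; ring
    · congr 2; ring
  · intro hX
    have hm1 : -mainX3 (K b) F.card ≤ E m (ex m F.card + 997) / 1000 := by
      unfold mainX3
      have h1 := (abs_le.1 main).1
      have h3 := abs_le.1 hU
      have h2 : ((F.card : ℝ) - (K b ^ 2).trace) * ((K b ^ 3).trace - (K b).trace)
          ≤ 4 * r1 d n m * (3 * ((d : ℝ) - 1) ^ 2 * n + 2 * E m 361) := by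
        have h4 : (K b ^ 3).trace - (K b).trace ≤ 3 * ((d : ℝ) - 1) ^ 2 * n + 2 * E m 361 := by
          linarith [h3.1]
        have h5 : 0 ≤ 3 * ((d : ℝ) - 1) ^ 2 * n + 2 * E m 361 := by
          have := (E_pos m0 361).le
          positivity
        calc ((F.card : ℝ) - (K b ^ 2).trace) * ((K b ^ 3).trace - (K b).trace)
            ≤ ((F.card : ℝ) - (K b ^ 2).trace) * (3 * ((d : ℝ) - 1) ^ 2 * n + 2 * E m 361) :=
              mul_le_mul_of_nonneg_left h4 (by linarith)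
          _ ≤ _ := mul_le_mul_of_nonneg_right (by linarith) h5
      linarith
    have h2 := (abs_le.1 err).1
    have e : ∑ p ∈ S, (1 - Θ p.1 p.2) * -dX3 (Mach.sg b : ℝ) (K b) p.1 p.2
        = -∑ p ∈ S, (1 - Θ p.1 p.2) * dX3 (Mach.sg b : ℝ) (K b) p.1 p.2 := by
      rw [← Finset.sum_neg_distrib]
      exact Finset.sum_congr rfl fun p _ => by ring
    rw [e]
    linarith

end stage1

/-! ### stage 2 -/

section stage2
variable {d n m : ℕ} {γ x0 : ℝ} {F : Finset ι} {K : Bool → Matrix ι ι ℝ} {S : Finset (ι × ι)}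

/-- `X₂ ≤ ρ` in stage 2 -/
lemma X2_le_rho2 (hp : Prm d n m) (b2 : Box2 d n m x0 F K) (b : Bool) :
    (K b ^ 2).trace ≤ F.card := by
  have P := par hp
  have R := rho2 hp b2
  have m0 := P.m0
  have h1 := b2.X2u b
  rw [E_nat] at h1
  refine h1.trans ?_
  have hr := P.r1_ge
  have hρ : E m (680 - 1 / 4) ≤ (F.card : ℝ) := by rw [R.eq]; exact E_mono P.m1 R.lo
  have k : 4 * E (m : ℝ) 670 ≤ E m (680 - 1 / 4) := by
    have e : E (m : ℝ) (680 - 1 / 4) = E m 670 * E m (10 - 1 / 4) := by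
      rw [E_mul m0]; congr 1; norm_num
    have h2 : (4 : ℝ) ≤ E m (10 - 1 / 4) := by
      have h3 := E_mono P.m1 (show (1 : ℝ) / 10 ≤ 10 - 1 / 4 by norm_num)
      have := P.d10; have := P.d3; linarith
    rw [e]
    have := (E_pos m0 670).le
    nlinarith
  have k2 : E (m : ℝ) (680 - 1 / 4) ≤ E m 680 := E_mono P.m1 (by norm_num)
  have hpos : 0 < (F.card : ℝ) + r1 d n m / 2 := by have := R.pos; have := P.r1_pos; linarith
  unfold phi2
  have h5 : (F.card : ℝ) ^ 2 / (F.card + r1 d n m / 2) ≤ F.card - E m 670 := by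
    rw [div_le_iff₀ hpos]
    have a1 : E (m : ℝ) 670 * F.card ≤ r1 d n m / 4 * F.card :=
      mul_le_mul_of_nonneg_right (by linarith) R.pos.le
    have a2 : E (m : ℝ) 670 * r1 d n m ≤ F.card / 4 * r1 d n m :=
      mul_le_mul_of_nonneg_right (by linarith) P.r1_pos.le
    nlinarith [mul_pos R.pos P.r1_pos]
  linarith

theorem bds2 (hp : Prm d n m) (c : Ctx d m γ F K S) (b2 : Box2 d n m x0 F K) (b : Bool) :
    BdsE (K b) F m (ex m F.card) 2004 (13 / 8) 4 (683 / 2) := by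
  have P := par hp
  have R := rho2 hp b2
  have h4 := opB2 hp c b2 b
  have m0 := P.m0
  have hX2 := X2_le_rho2 hp b2 b
  refine Bds.of (c.symm b) (fun i hi j => c.dead b i j hi) h4.2 (E_pos m0 _).le (E_pos m0 _).le
    (by have := (E_pos m0 (ex m F.card / 2 + 13 / 8)).le; positivity) (E_pos m0 _).le
    (E_pos m0 _).le ?_ ?_ ?_ ?_ ?_
  · rw [E_sq m0]
    have := b2.Vu b
    rw [pow_eq] at this
    norm_num at this ⊢
    exact this
  · rw [E_sq m0]
    have := b2.Wu b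
    rw [pow_eq] at this
    norm_num at this ⊢
    exact this
  · have h1 := Rf_eq (c.symm b) (c.dead b)
    have h2 := b2.Wu b
    rw [E_nat] at h2
    rw [mul_pow, E_sq m0]
    have h5 : Rf (K b) = ∑ x, (K b ^ 2) x x ^ 2 := rfl
    have h6 : E (m : ℝ) 683 ≤ E m (2 * (ex m F.card / 2 + 13 / 8)) :=
      E_mono P.m1 (by have := R.lo; linarith)
    have h7 : (F.card : ℝ) ≤ E m (2 * (ex m F.card / 2 + 13 / 8)) := by
      conv_lhs => rw [R.eq]
      exact E_mono P.m1 (by linarith)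
    have h8 : Rf (K b) ≤ 2 * E m (2 * (ex m F.card / 2 + 13 / 8)) := by linarith
    have := (E_pos m0 (2 * (ex (m : ℝ) F.card / 2 + 13 / 8))).le
    linarith
  · rw [E_sq m0]
    have e : 2 * (ex (m : ℝ) F.card / 2) = ex m F.card := by ring
    rw [e, ← R.eq]
    exact hX2
  · rw [E_sq m0]
    have e : 2 * ((2004 - ex (m : ℝ) F.card) / 2) = 2004 - ex m F.card := by ring
    rw [e]; exact h4.1

theorem s2x3 : S2X3 ι := by
  intro d n m γ x0 F K S hp c b2 b
  have P := par hp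
  have R := rho2 hp b2
  have m0 := P.m0
  have hd3 := P.d3
  have hB := bds2 hp c b2 b
  have hA := at_of (m := m) (x := ex m F.card) (κ := 2004) (e := 13 / 8) (V := 4) (W := 683 / 2)
    P.m1 P.mbig (by have := R.lo; linarith) (by have := R.hi; linarith)
    (by have := R.lo; linarith) (by have := R.hi; linarith) (by norm_num)
  have hL := (opB2 hp c b2 b).2
  have hn := P.n_ge
  have hE := E_pos m0 1000
  have hn0 : (0 : ℝ) < n := lt_of_lt_of_le hE hn
  set q : ℝ := ((d : ℝ) - 1) ^ 2 * n with hq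
  have hd4 : (4 : ℝ) ≤ ((d : ℝ) - 1) ^ 2 := by nlinarith
  have hq1 : 4 * (n : ℝ) ≤ q := by rw [hq]; exact mul_le_mul_of_nonneg_right hd4 hn0.le
  have hU : |(K b).trace| ≤ E m 336 := by
    have := b2.X1 b
    rwa [E_nat] at this
  have hU2 : E (m : ℝ) 336 ≤ n := (E_mono P.m1 (by norm_num)).trans hn
  set b0 : ℝ := 4 * ((d : ℝ) - 1) ^ 2 * n with hb0
  have hb0q : b0 = 4 * q := by rw [hb0, hq]; ring
  have hX3u := b2.X3u b
  have hX3u' : (K b ^ 3).trace ≤ 5 * q := by rw [hq]; linarith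
  have main := main_le (ρ := F.card) hB hL hU
  have oU : O (m : ℝ) 1 336 (E m 336) := O.E m0 _
  have mnum := main2 hA oU R.lo R.hi
  have hβ : (((F ×ˢ F) \ S).card : ℝ) ≤ E m ((ex m F.card + 1 / 5) / 2) ^ 2 := by
    rw [E_sq m0]
    refine (bad2 hp c b2).trans (le_of_eq ?_)
    congr 1; ring
  have err := mean_X3 (X3Low.sg_sq b) hB (fun i hi j => c.dead b i j hi)
    (row_of (c.symm b) (c.dead b) (c.row b)) (good_of c b) (E_pos m0 _).le hβ
  have o1 : O (m : ℝ) 1 ((ex m F.card + 1 / 5) / 2) (E m ((ex m F.card + 1 / 5) / 2)) := O.E m0 _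
  have z1 := err2 hA R.lo R.hi
  have z2 := errm2 hA o1 R.lo R.hi
  have sqb := sq_X3' (X3Low.sg_sq b) hB hL (good_of c b)
  have z3 := sq2 hA R.lo R.hi
  have X2le := X2_le_rho2 hp b2 b
  have hA0 := (E_pos m0 (ex m F.card + 997)).le
  have hA1 := (E_pos m0 (ex m F.card + 1997)).le
  have s0 := sq_nonneg (E (m : ℝ) (ex m F.card / 2))
  have u0 := (E_pos m0 336).le
  have step := pot_step S (fun p => 1 - (0 : ℝ))
    (fun p => dX3 (Mach.sg b : ℝ) (K b) p.1 p.2) (fun p _ => by norm_num)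
    (X := (K b ^ 3).trace) (b := b0) (c := q) (D := 6 * (E m (ex m F.card + 997) / 1000))
    (N2 := 2 * (E m (ex m F.card + 1997) / 1000)) (by linarith)
    (max_le (by linarith) (by linarith)) (by positivity) ?_ ?_
  · have fin := fin_up P.m1 P.mbig R.eq (c := q) (D := 6 * (E m (ex m F.card + 997) / 1000))
      (N2 := 2 * (E m (ex m F.card + 1997) / 1000)) (by linarith) le_rfl le_rfl
    refine le_trans (le_of_eq ?_) (step.trans fin)
    unfold inc p2X3
    refine Finset.sum_congr rfl fun p hp' => ?_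
    simp only [nx]
    rw [trace_step (X3Low.sg_sq b) (c.symm b)]
  · intro hX
    have hm1 : mainX3 (K b) F.card ≤ E m (ex m F.card + 997) / 1000 := by
      unfold mainX3
      have h1 := (abs_le.1 main).2
      have h2 : ((K b ^ 2).trace - F.card) * ((K b ^ 3).trace - (K b).trace) ≤ 0 := by
        have h3 := (abs_le.1 hU).2
        exact mul_nonpos_of_nonpos_of_nonneg (by linarith) (by linarith)
      have h4 : 0 ≤ E (m : ℝ) 336 * E (m : ℝ) (ex m F.card / 2) ^ 2 := mul_nonneg u0 s0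
      linarith
    have h2 := (abs_le.1 err).2
    have e1 : ∑ p ∈ S, (1 - (0 : ℝ)) * dX3 (Mach.sg b : ℝ) (K b) p.1 p.2
        = ∑ p ∈ S, dX3 (Mach.sg b : ℝ) (K b) p.1 p.2 :=
      Finset.sum_congr rfl fun p _ => by ring
    rw [e1]
    unfold ErrM at h2
    unfold mainX3 at hm1
    linarith
  · have e1 : ∑ p ∈ S, (1 - (0 : ℝ)) * dX3 (Mach.sg b : ℝ) (K b) p.1 p.2 ^ 2
        = ∑ p ∈ S, dX3 (Mach.sg b : ℝ) (K b) p.1 p.2 ^ 2 :=
      Finset.sum_congr rfl fun p _ => by ring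
    rw [e1]
    have := sqb.trans z3
    linarith

end stage2

end Crest.Agent.R62.MainX3
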