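import Crest.Agent.R62.X4Drift
import Crest.Agent.R62.X3Low
import Crest.Agent.R62.TiltK
import Crest.Agent.R62.Expo
import Crest.Agent.R62.Nums

/-!
R62 (helper486): the targets `S1X4`, `S2X4` of `StepDefs`.
-/

set_option autoImplicit false
set_option linter.unusedSectionVars false
set_option linter.unusedVariables false

open scoped Matrix BigOperators

namespace Crest.Agent.R62.MainX4

open Crest.Agent.R62.AvBase Crest.Agent.R62.L2P Crest.Agent.R62.AvX4 Crest.Agent.R62.X4Drift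
open Crest.Agent.R62.Step Crest.Agent.R62.Expo Crest.Agent.R062 Crest.Agent.R62.Nums

/-! ### numerical closure -/

section num
variable {m x : ℝ}

/-- stage 1, everything except the two largest terms -/
lemma num1 (hm : 1 ≤ m) (hb : (10 : ℝ) ^ 14 ≤ m) (hx : 800 ≤ x) (hx' : x ≤ 1000 + 1 / 10)
    {x1 x2 x3 x4 v om q y L be η t ρ : ℝ}
    (hρ : O m 1 x ρ) (h1 : O m 2 361 x1) (h2 : O m 1 (x / 2) x2) (h3 : O m 1 (1000 + 1 / 5) x3)
    (h4 : O m 1 ((2003 - x) / 2) x4) (hv : O m 1 3 v) (hom : O m 1 305 om)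
    (hq : O m 2 (x / 2) q) (hy : O m 2 (653 + 1 / 4) y) (hL : O m 1 ((2003 - x) / 4) L)
    (hbe : O m 1 (x / 2 + 1 / 10) be) (hη : O m 1 (-1) η) (ht : O m 1 ((1928 - x) / 2) t) :
    8 * x1 ^ 2 + 8 * (x1 * (L * x4 ^ 2 + x3))
      + be * (8 * (2 * L ^ 3 * x4) + 4 * (2 * (v * (2 * L ^ 3 * q)) + 2 * (om * (2 * L ^ 2 * q))
          + (2 * (y + v)) ^ 2))
      + η * (2 * ρ ^ 2)
      + 4 * (t * (2 * (v * (2 * L ^ 3 * q)) + 2 * (om * (2 * L ^ 2 * q)) + (2 * (y + v)) ^ 2))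
      + 8 * (m ^ 371 * (x4 * (2 * (L * x4 + x2)))) ≤ E m (2000 + 1 / 2) := by
  expo

/-- stage 1, the two largest terms -/
lemma num1' (hm : 1 ≤ m) (hb : (10 : ℝ) ^ 14 ≤ m) (hx' : x ≤ 1000 + 1 / 10)
    {x2 x3 ρ : ℝ} (hρ : O m 1 x ρ) (h2 : O m 1 (x / 2) x2) (h3 : O m 1 (1000 + 1 / 5) x3) :
    8 * (ρ * x2 ^ 2) + 8 * x3 ^ 2 ≤ E m 2001 / 2 := by
  have h0 : 0 < m := by linarith
  have e : O m (8 * (1 * 1 ^ 2) + 8 * 1 ^ 2) (2000 + 2 / 5) (8 * (ρ * x2 ^ 2) + 8 * x3 ^ 2) := by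
    have a := ((O.const (m := m) (c := 8) (by norm_num)).mul hm (hρ.mul hm (h2.sq hm))).add hm
      ((O.const (m := m) (c := 8) (by norm_num)).mul hm (h3.sq hm))
    refine a.mono hm le_rfl ?_
    apply max_le <;> linarith
  refine e.2.trans ?_
  have h1 : E m 2001 = E m (3 / 5) * E m (2000 + 2 / 5) := by
    rw [E_mul h0]; norm_num
  have h2 : (32 : ℝ) ≤ E m (3 / 5) := by
    have h3 : (10 : ℝ) ^ 5 ≤ m := le_trans (by norm_num) hb
    have h4 : E (10 ^ 5) (3 / 5) ≤ E m (3 / 5) := E_mono_base (by norm_num) h3 (by norm_num)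
    have h5 : E ((10 : ℝ) ^ 5) (3 / 5) = 1000 := by
      unfold E
      rw [← Real.rpow_natCast, ← Real.rpow_mul (by norm_num)]
      norm_num
    linarith
  rw [h1]
  have h6 := E_pos h0 (2000 + 2 / 5)
  nlinarith

/-- stage 1, remainder monomials -/
lemma num1e (hm : 1 ≤ m) (hb : (10 : ℝ) ^ 14 ≤ m) (hx : 800 ≤ x) (hx' : x ≤ 1000 + 1 / 10)
    {x2 x4 v om q y L η : ℝ}
    (h2 : O m 1 (x / 2) x2)
    (h4 : O m 1 ((2003 - x) / 2) x4) (hv : O m 1 3 v) (hom : O m 1 305 om)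
    (hq : O m 2 (x / 2) q) (hy : O m 2 (653 + 1 / 4) y) (hL : O m 1 ((2003 - x) / 4) L)
    (hη : O m 1 (-1) η) :
    (1 + η) * (32000 * eTot x2 x4 v om q y L) ≤ E m 2000 := by
  unfold eTot errTot m1 m2 m3 m4
  expo

/-- stage 2, everything except the remainder monomials -/
lemma num2 (hm : 1 ≤ m) (hb : (10 : ℝ) ^ 14 ≤ m) (hx : 679 + 3 / 4 ≤ x) (hx' : x ≤ 800 + 1 / 10)
    {x1 yp x2 x3 x4 v om q L be ρ : ℝ}
    (hρ : O m 1 x ρ) (h1 : O m 1 336 x1) (hyp : O m 1 670 yp) (h2 : O m 2 (x / 2) x2)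
    (h3 : O m 1 (1000 + 1 / 5) x3)
    (h4 : O m 1 ((2004 - x) / 2) x4) (hv : O m 1 4 v) (hom : O m 1 (341 + 1 / 2) om)
    (hq : O m 4 (x / 2 + 7 / 4) q) (hL : O m 1 ((2004 - x) / 4) L)
    (hbe : O m 1 (x / 2 + 1 / 10) be) :
    8 * (yp * x4 ^ 2) + 8 * (ρ * x2 ^ 2) + 8 * x3 ^ 2 + 8 * x1 ^ 2
      + 8 * (x1 * (L * x4 ^ 2 + x3))
      + be * (8 * (2 * L ^ 3 * x4) + 4 * (2 * (v * (2 * L ^ 3 * q)) + 2 * (om * (2 * L ^ 2 * q))
          + (2 * (L * q + v)) ^ 2)) ≤ E m 2002 / 2 := by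
  expo_div

set_option maxHeartbeats 1000000 in
lemma num2e (hm : 1 ≤ m) (hb : (10 : ℝ) ^ 14 ≤ m) (hx : 679 + 3 / 4 ≤ x) (hx' : x ≤ 800 + 1 / 10)
    {x2 x4 v om q L : ℝ} (h2 : O m 2 (x / 2) x2)
    (h4 : O m 1 ((2004 - x) / 2) x4) (hv : O m 1 4 v) (hom : O m 1 (341 + 1 / 2) om)
    (hq : O m 4 (x / 2 + 7 / 4) q) (hL : O m 1 ((2004 - x) / 4) L) :
    (1 + 0) * (32000 * eTot x2 x4 v om q (L * q) L) ≤ E m 2002 / 2 := by
  unfold eTot errTot m1 m2 m3 m4
  expo_div

end num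


/-! ### the first order tilt term -/

lemma tilt_bound {ι : Type*} [Fintype ι] [DecidableEq ι] {K : Matrix ι ι ℝ} {L N s : ℝ}
    (hK : Kᵀ = K) (hL : OpB K L) (hs : s ^ 2 = 1) {Θ : ι → ι → ℝ} (hN : OpB (Matrix.of Θ) N)
    {S : Finset (ι × ι)} (hS : ∀ x y, (x, y) ∉ S → Θ x y = 0) {x2 x4 : ℝ} (h2 : 0 ≤ x2)
    (h4 : 0 ≤ x4) (X2 : (K ^ 2).trace ≤ x2 ^ 2) (X4 : (K ^ 4).trace ≤ x4 ^ 2) :
    |8 * s * ∑ p ∈ S, Θ p.1 p.2 * C4 K p| ≤ 8 * (N * (x4 * (2 * (L * x4 + x2)))) := by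
  have hN0 := hN.1
  have hL0 := hL.1
  have e1 : ∑ p ∈ S, Θ p.1 p.2 * C4 K p
      = ∑ x, ∑ y, (Matrix.of Θ) x y * (K ^ 2 * (K ^ 3 - K)) x y := by
    rw [← Finset.sum_product', Finset.univ_product_univ]
    rw [← Finset.sum_subset (Finset.subset_univ S) fun p _ hp => by
      rw [Matrix.of_apply, hS p.1 p.2 hp, zero_mul]]
    refine Finset.sum_congr rfl fun p _ => ?_
    rw [Matrix.of_apply]
    congr 1
    have : K ^ 2 * (K ^ 3 - K) = K ^ 5 - K ^ 3 := by
      rw [mul_sub, ← pow_add, ← pow_succ]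
    rw [this]; rfl
  have h := TiltK.ip_mul_le hN (K ^ 2) (K ^ 3 - K)
  rw [← e1] at h
  have a : Real.sqrt (∑ x, ∑ y, ((K ^ 2) x y) ^ 2) ≤ x4 := by
    rw [Real.sqrt_le_left h4, frob_pow hK 2]; exact X4
  have b : Real.sqrt (∑ x, ∑ y, ((K ^ 3 - K) x y) ^ 2) ≤ 2 * (L * x4 + x2) := by
    rw [Real.sqrt_le_left (by positivity)]
    have h5 := frob_sub_le hK 3 1
    simp only [pow_one, Nat.reduceMul] at h5
    have h6 := trace_six_le hK hL
    have h7 := mul_le_mul_of_nonneg_left X4 (sq_nonneg L)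
    have e : ∑ x, ∑ y, ((K ^ 3 - K) x y) ^ 2 = ∑ x, ∑ y, ((K ^ 3) x y - K x y) ^ 2 := rfl
    rw [e]
    nlinarith [mul_nonneg (mul_nonneg hL0 h4) h2, sq_nonneg (L * x4), sq_nonneg x2]
  rw [abs_mul, abs_mul, abs_s hs, mul_one]
  have e8 : |(8 : ℝ)| = 8 := by norm_num
  rw [e8]
  refine mul_le_mul_of_nonneg_left (h.trans ?_) (by norm_num)
  exact mul_le_mul_of_nonneg_left (mul_le_mul a b (Real.sqrt_nonneg _) h4) hN0

lemma ind_eq {ι : Type*} [Fintype ι] [DecidableEq ι] (F : Finset ι) :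
    AvX4.ind F = AvX1.ind F := rfl

lemma sg_or (b : Bool) : (Mach.sg b : ℝ) = 1 ∨ (Mach.sg b : ℝ) = -1 := by
  cases b <;> norm_num [Mach.sg]

lemma sg_sq (b : Bool) : (Mach.sg b : ℝ) ^ 2 = 1 := by cases b <;> norm_num [Mach.sg]

section
variable {ι : Type} [Fintype ι] [DecidableEq ι]

/-- the numerical hypotheses in stage 1 -/
theorem hyp1 {d n m : ℕ} {γ : ℝ} {F : Finset ι} {K : Bool → Matrix ι ι ℝ}
    {S : Finset (ι × ι)} {Θ : ι → ι → ℝ} (h : Prm d n m) (c : Ctx d m γ F K S)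
    (B : Box1 d n m F K) (T : Tilt1 d n m F K S Θ) (b : Bool) :
    Hyp (K b) F (Mach.sg b : ℝ) S Θ (2 * E m 361) 0 (E m (ex m F.card / 2))
      (3 * ((d : ℝ) - 1) ^ 2 * n) (E m ((2003 - ex m F.card) / 2)) (E m 3) (E m 305)
      (2 * E m (ex m F.card / 2)) (2 * E m (653 + 1 / 4)) (E m ((2003 - ex m F.card) / 4))
      (E m (ex m F.card / 2 + 1 / 10)) (E m (-1)) (E m ((1928 - ex m F.card) / 2))
      (8 * ((m : ℝ) ^ 371 * (E m ((2003 - ex m F.card) / 2) *
        (2 * (E m ((2003 - ex m F.card) / 4) * E m ((2003 - ex m F.card) / 2)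
          + E m (ex m F.card / 2)))))) (F.card : ℝ) := by
  have P := par h
  have R := rho1 h B
  have hm0 := P.m0
  have hm1 := P.m1
  obtain ⟨hX4, hop⟩ := opB1 h c B b
  set x := ex (m : ℝ) (F.card : ℝ) with hx
  have hlo := R.lo
  have hhi := R.hi
  have hX2 := X2_le1 P B b
  have e2 : E (m : ℝ) (x / 2) ^ 2 = F.card := by
    rw [E_pow hm0, R.eq]; congr 1; push_cast; ring
  have e4 : E (m : ℝ) ((2003 - x) / 2) ^ 2 = E m (2003 - x) := by
    rw [E_pow hm0]; congr 1; push_cast; ring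
  have hK : (K b)ᵀ = K b := c.symm b
  have hX2' : (K b ^ 2).trace ≤ E (m : ℝ) (x / 2) ^ 2 := by rw [e2]; exact hX2
  have hX4' : (K b ^ 4).trace ≤ E (m : ℝ) ((2003 - x) / 2) ^ 2 := by rw [e4]; exact hX4
  have hR : R2v (K b) ≤ (2 * E (m : ℝ) (x / 2)) ^ 2 := by
    have h1 : R2v (K b) ≤ 2 * F.card := Rf_le1 h c B b
    rw [mul_pow, e2]; linarith [R.pos]
  have hW : Wv (K b) F ≤ E (m : ℝ) 305 ^ 2 := by
    have h1 : Wv (K b) F ≤ (m : ℝ) ^ 610 := B.Wu b
    rw [E_pow hm0]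
    have : E (m : ℝ) (305 * ((2 : ℕ) : ℝ)) = (m : ℝ) ^ 610 := by
      rw [← E_natCast]; norm_num
    rw [this]; exact h1
  exact
    { symm := c.symm b
      sgn := sg_or b
      dead := c.dead b
      row := c.row b
      sub := c.sub
      ne := c.ne
      good1 := fun p hp => (c.good1 p hp b).trans (by norm_num)
      good2 := fun p hp => (c.good2 p hp b).trans (by norm_num)
      opb := hop
      L1 := one_le_E hm1 (by linarith)
      x2n := (E_pos hm0 _).le
      x4n := (E_pos hm0 _).le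
      vn := (E_pos hm0 _).le
      omn := (E_pos hm0 _).le
      qn := by have := (E_pos hm0 (x / 2)).le; positivity
      yn := by have := (E_pos hm0 (653 + 1 / 4)).le; positivity
      ypn := le_rfl
      tn := (E_pos hm0 _).le
      ben := (E_pos hm0 _).le
      etan := (E_pos hm0 _).le
      X1 := by
        have h1 := B.X1u b
        have h2 := B.X1l b
        have hU : U m F.card ≤ (m : ℝ) ^ 361 := by
          unfold U
          have h3 : max 0 (min 1 (((F.card : ℝ) - (m : ℝ) ^ 800) / (m : ℝ) ^ 800)) ≤ (1 : ℝ) :=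
            max_le zero_le_one (min_le_left _ _)
          have h4 : (0 : ℝ) ≤ (m : ℝ) ^ 361 := by positivity
          nlinarith
        have h5 : (m : ℝ) ^ 335 ≤ (m : ℝ) ^ 361 := pow_le_pow_right₀ hm1 (by norm_num)
        have h6 : E (m : ℝ) 361 = (m : ℝ) ^ 361 := by
          have := E_natCast (m : ℝ) 361
          simpa using this
        rw [h6, abs_le]
        have h7 : (0 : ℝ) ≤ (m : ℝ) ^ 361 := by positivity
        constructor <;> linarith
      Yp := by linarith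
      X2 := hX2'
      X3 := by
        have h1 := B.X3l b
        have h2 := B.X3u b
        have h3 : (0 : ℝ) ≤ n := Nat.cast_nonneg n
        have h4 : (0 : ℝ) ≤ (K b ^ 3).trace := by linarith
        rw [abs_of_nonneg h4]; exact h2
      X4 := hX4'
      V := by
        have h1 : Vv (K b) ≤ (m : ℝ) ^ 6 := B.Vu b
        rw [E_pow hm0]
        have : E (m : ℝ) (3 * ((2 : ℕ) : ℝ)) = (m : ℝ) ^ 6 := by
          rw [← E_natCast]; norm_num
        rw [this]; exact h1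
      Om := hW
      Q := hR
      Y := by
        have h1 : Yv (K b) ≤ (K b ^ 4).trace + E m ((2003 - x) / 4) ^ 2
            * (Real.sqrt (R2v (K b)) * Real.sqrt (Wv (K b) F)) := Yv_le' hK hop (c.dead b)
        have h2 : Real.sqrt (R2v (K b)) ≤ 2 * E (m : ℝ) (x / 2) :=
          (Real.sqrt_le_left (by have := (E_pos hm0 (x / 2)).le; positivity)).mpr hR
        have h3 : Real.sqrt (Wv (K b) F) ≤ E (m : ℝ) 305 :=
          (Real.sqrt_le_left (E_pos hm0 _).le).mpr hW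
        have h4 : E (m : ℝ) ((2003 - x) / 4) ^ 2
            * (Real.sqrt (R2v (K b)) * Real.sqrt (Wv (K b) F))
            ≤ E (m : ℝ) ((2003 - x) / 4) ^ 2 * ((2 * E (m : ℝ) (x / 2)) * E (m : ℝ) 305) := by
          refine mul_le_mul_of_nonneg_left ?_ (sq_nonneg _)
          exact mul_le_mul h2 h3 (Real.sqrt_nonneg _)
            (by have := (E_pos hm0 (x / 2)).le; positivity)
        have h5 : E (m : ℝ) ((2003 - x) / 4) ^ 2 * ((2 * E (m : ℝ) (x / 2)) * E (m : ℝ) 305)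
            = 2 * E (m : ℝ) (2 * (653 + 1 / 4)) := by
          rw [E_pow hm0]
          have : E (m : ℝ) ((2003 - x) / 4 * ((2 : ℕ) : ℝ)) * (2 * E (m : ℝ) (x / 2) * E m 305)
              = 2 * (E (m : ℝ) ((2003 - x) / 4 * ((2 : ℕ) : ℝ)) * (E (m : ℝ) (x / 2) * E m 305)) := by
            ring
          rw [this, E_mul hm0, E_mul hm0]
          congr 2; push_cast; ring
        have h6 : (2 * E (m : ℝ) (653 + 1 / 4)) ^ 2 = 4 * E (m : ℝ) (2 * (653 + 1 / 4)) := by
          rw [mul_pow, E_sq hm0]; norm_num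
        have h7 : (K b ^ 4).trace ≤ E (m : ℝ) (2 * (653 + 1 / 4)) :=
          hX4.trans (E_mono hm1 (by linarith))
        have h8 := (E_pos hm0 (2 * (653 + 1 / 4))).le
        rw [h6]
        have h9 : Yv (K b) ≤ E (m : ℝ) (2 * (653 + 1 / 4)) + 2 * E (m : ℝ) (2 * (653 + 1 / 4)) :=
          h1.trans (add_le_add h7 (h4.trans h5.le))
        exact h9.trans (by linarith)
      card := by
        have h1 := bad1 h c B
        rw [E_pow hm0]
        refine h1.trans (le_of_eq ?_)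
        congr 1; push_cast; ring
      th := fun p _ => by
        have h1 := T.abs_le p.1 p.2
        rw [E_neg hm0, E_one]; simpa using h1
      frob := by
        have h1 := T.frob
        have h2 : ∑ p ∈ S, Θ p.1 p.2 ^ 2 ≤ ∑ x, ∑ y, Θ x y ^ 2 := by
          rw [← Finset.sum_product' (f := fun x y => Θ x y ^ 2)]
          exact Finset.sum_le_sum_of_subset_of_nonneg (by intro p _; simp) fun p _ _ => sq_nonneg _
        refine h2.trans ?_
        rw [E_pow hm0]
        have h3 : E (m : ℝ) ((1928 - x) / 2 * ((2 : ℕ) : ℝ)) = (m : ℝ) ^ 1928 / F.card := by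
          have : (1928 - x) / 2 * ((2 : ℕ) : ℝ) = 1928 - x := by push_cast; ring
          rw [this, E_sub hm0, R.eq, ← E_natCast]; norm_num
        rw [h3, le_div_iff₀ R.pos]; exact h1
      tilt := tilt_bound hK hop (sg_sq b) T.opB T.supp (E_pos hm0 _).le (E_pos hm0 _).le hX2' hX4'
      rho := rfl
      rho2 := by
        have h1 := B.rho_ge
        have : (0 : ℝ) ≤ (m : ℝ) ^ 800 := by positivity
        linarith }

theorem s1x4 : S1X4 ι := by
  intro d n m γ F K S Θ h c B T b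
  have P := par h
  have R := rho1 h B
  have hm0 := P.m0
  have hm1 := P.m1
  have hyp := hyp1 h c B T b
  have hL4 : (0 : ℝ) < (m : ℝ) ^ 2003 := by positivity
  have hη1 : E (m : ℝ) (-1) ≤ 1 := E_le_one hm1 (by norm_num)
  have main := hyp.inc_le hL4 hη1
  have hb : (10 : ℝ) ^ 14 ≤ m := by have := P.mbig; linarith
  set x := ex (m : ℝ) (F.card : ℝ) with hx
  have hlo := R.lo
  have hhi := R.hi
  have OE : ∀ a : ℝ, O (m : ℝ) 1 a (E m a) := fun a => O.E hm0 a
  have O2E : ∀ a : ℝ, O (m : ℝ) 2 a (2 * E m a) := fun a =>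
    ⟨by have := (E_pos hm0 a).le; positivity, le_rfl⟩
  have hx3 : O (m : ℝ) 1 (1000 + 1 / 5) (3 * ((d : ℝ) - 1) ^ 2 * n) := by
    have hd := P.d10
    have hd3 := P.d3
    have h1 : (n : ℝ) ≤ 2 * E m 1000 := by
      have := h.hn2
      have e : E (m : ℝ) 1000 = (m : ℝ) ^ 1000 := by
        have := E_natCast (m : ℝ) 1000
        simpa using this
      rw [e]; exact this
    have h2 : (10 * (d : ℝ)) ^ 2 ≤ E m (1 / 10) ^ 2 := pow_le_pow_left₀ (by linarith) hd 2
    rw [E_sq hm0] at h2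
    have h3 := (E_pos hm0 1000).le
    have h4 : (0 : ℝ) ≤ n := Nat.cast_nonneg n
    refine ⟨by positivity, ?_⟩
    rw [one_mul, show (1000 : ℝ) + 1 / 5 = 2 * (1 / 10) + 1000 by norm_num, E_add hm0]
    calc 3 * ((d : ℝ) - 1) ^ 2 * n ≤ 3 * (d : ℝ) ^ 2 * (2 * E m 1000) := by
          refine mul_le_mul ?_ h1 h4 (by positivity)
          nlinarith
      _ ≤ (10 * (d : ℝ)) ^ 2 * E m 1000 := by nlinarith [sq_nonneg (d : ℝ)]
      _ ≤ _ := mul_le_mul_of_nonneg_right h2 h3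
  have n1 := num1 hm1 hb hlo hhi R.O (O2E 361) (OE (x / 2)) hx3 (OE ((2003 - x) / 2)) (OE 3)
    (OE 305) (O2E (x / 2)) (O2E (653 + 1 / 4)) (OE ((2003 - x) / 4)) (OE (x / 2 + 1 / 10))
    (OE (-1)) (OE ((1928 - x) / 2))
  have n2 := num1' hm1 hb hhi R.O (OE (x / 2)) hx3
  have n3 := num1e hm1 hb hlo hhi (OE (x / 2)) (OE ((2003 - x) / 2)) (OE 3)
    (OE 305) (O2E (x / 2)) (O2E (653 + 1 / 4)) (OE ((2003 - x) / 4)) (OE (-1))
  have hUU : UU (2 * E m 361) 0 (E m (x / 2))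
      (3 * ((d : ℝ) - 1) ^ 2 * n) (E m ((2003 - x) / 2)) (E m 3) (E m 305)
      (2 * E m (x / 2)) (2 * E m (653 + 1 / 4)) (E m ((2003 - x) / 4))
      (E m (x / 2 + 1 / 10)) (E m (-1)) (E m ((1928 - x) / 2))
      (8 * ((m : ℝ) ^ 371 * (E m ((2003 - x) / 2) *
        (2 * (E m ((2003 - x) / 4) * E m ((2003 - x) / 2)
          + E m (x / 2)))))) (F.card : ℝ) ≤ (m : ℝ) ^ 2001 := by
    have e1 : E (m : ℝ) 2001 = (m : ℝ) ^ 2001 := by
      have := E_natCast (m : ℝ) 2001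
      simpa using this
    have e2 : E (m : ℝ) 2001 = E m (1 / 2) * E m (2000 + 1 / 2) := by
      rw [E_mul hm0]; norm_num
    have e3 : E (m : ℝ) (2000 + 1 / 2) = E m (1 / 2) * E m 2000 := by
      rw [E_mul hm0]; norm_num
    have e4 : (4 : ℝ) ≤ E m (1 / 2) := by
      have h3 : (16 : ℝ) ≤ m := le_trans (by norm_num) hb
      have h4 : E 16 (1 / 2) ≤ E (m : ℝ) (1 / 2) := E_mono_base (by norm_num) h3 (by norm_num)
      have h5 : E (16 : ℝ) (1 / 2) = 4 := by
        unfold E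
        rw [show (16 : ℝ) = 4 ^ (2 : ℝ) by norm_num, ← Real.rpow_mul (by norm_num)]
        norm_num
      linarith
    have e5 := (E_pos hm0 2000).le
    have e6 := (E_pos hm0 (2000 + 1 / 2)).le
    rw [← e1]
    unfold UU mm4 m4
    nlinarith [n1, n2, n3, mul_le_mul_of_nonneg_right e4 e5, mul_le_mul_of_nonneg_right e4 e6]
  have hρ := R.pos
  have fin : (F.card : ℝ) / (m : ℝ) ^ 2003 * (m : ℝ) ^ 2001 = F.card / (m : ℝ) ^ 2 := by
    have : (m : ℝ) ^ 2003 = (m : ℝ) ^ 2 * (m : ℝ) ^ 2001 := by rw [← pow_add]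
    rw [this]
    field_simp
  unfold inc p1X4 nx
  refine main.trans ?_
  rw [← fin]
  exact mul_le_mul_of_nonneg_left hUU (by positivity)

/-- the numerical hypotheses in stage 2 -/
theorem hyp2 {d n m : ℕ} {γ x0 : ℝ} {F : Finset ι} {K : Bool → Matrix ι ι ℝ}
    {S : Finset (ι × ι)} (h : Prm d n m) (c : Ctx d m γ F K S)
    (B : Box2 d n m x0 F K) (b : Bool) :
    Hyp (K b) F (Mach.sg b : ℝ) S (fun _ _ => 0) (E m 336) (E m 670)
      (2 * E m (ex m F.card / 2))
      (E m (1000 + 1 / 5)) (E m ((2004 - ex m F.card) / 2)) (E m 4) (E m (341 + 1 / 2))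
      (2 * E m (ex m F.card / 2 + 7 / 4))
      (E m ((2004 - ex m F.card) / 4) * (2 * E m (ex m F.card / 2 + 7 / 4)))
      (E m ((2004 - ex m F.card) / 4))
      (E m (ex m F.card / 2 + 1 / 10)) 0 0 0 (F.card : ℝ) := by
  have P := par h
  have R := rho2 h B
  have hm0 := P.m0
  have hm1 := P.m1
  obtain ⟨hX4, hop⟩ := opB2 h c B b
  set x := ex (m : ℝ) (F.card : ℝ) with hx
  have hlo := R.lo
  have hhi := R.hi
  have hX2 := X2_le2 h B b
  have e2 : E (m : ℝ) (x / 2) ^ 2 = F.card := by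
    rw [E_pow hm0, R.eq]; congr 1; push_cast; ring
  have e4 : E (m : ℝ) ((2004 - x) / 2) ^ 2 = E m (2004 - x) := by
    rw [E_pow hm0]; congr 1; push_cast; ring
  have hK : (K b)ᵀ = K b := c.symm b
  have hρ := R.pos
  have hphi : phi2 (r1 d n m) F.card ≤ F.card := by
    unfold phi2
    rw [div_le_iff₀ (by have := P.r1_pos; linarith)]
    nlinarith [P.r1_pos]
  have h670 : (m : ℝ) ^ 670 = E m 670 := by
    have := (E_natCast (m : ℝ) 670).symm
    simpa using this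
  have hX2' : (K b ^ 2).trace ≤ (2 * E (m : ℝ) (x / 2)) ^ 2 := by
    rw [mul_pow, e2]; linarith
  have hX4' : (K b ^ 4).trace ≤ E (m : ℝ) ((2004 - x) / 2) ^ 2 := by rw [e4]; exact hX4
  have hWu : AvX1.Wf F (K b) ≤ E (m : ℝ) 683 := by
    have := (E_natCast (m : ℝ) 683)
    have e : E (m : ℝ) 683 = (m : ℝ) ^ 683 := by simpa using this
    rw [e]; exact B.Wu b
  have hR : R2v (K b) ≤ (2 * E (m : ℝ) (x / 2 + 7 / 4)) ^ 2 := by
    have h1 : R2v (K b) = AvX1.Wf F (K b) + 2 * (K b ^ 2).trace - F.card :=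
      Rf_eq (c.symm b) (c.dead b)
    have h2 : (2 * E (m : ℝ) (x / 2 + 7 / 4)) ^ 2 = 4 * E (m : ℝ) (x + 7 / 2) := by
      rw [mul_pow, E_sq hm0]
      have : 2 * (x / 2 + 7 / 4) = x + 7 / 2 := by ring
      rw [this]; norm_num
    have h3 : E (m : ℝ) 683 ≤ E m (x + 7 / 2) := E_mono hm1 (by linarith)
    have h4 : (F.card : ℝ) ≤ E m (x + 7 / 2) := by rw [R.eq]; exact E_mono hm1 (by linarith)
    rw [h1, h2]
    linarith
  exact
    { symm := c.symm b
      sgn := sg_or b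
      dead := c.dead b
      row := c.row b
      sub := c.sub
      ne := c.ne
      good1 := fun p hp => (c.good1 p hp b).trans (by norm_num)
      good2 := fun p hp => (c.good2 p hp b).trans (by norm_num)
      opb := hop
      L1 := one_le_E hm1 (by linarith)
      x2n := by have := (E_pos hm0 (x / 2)).le; positivity
      x4n := (E_pos hm0 _).le
      vn := (E_pos hm0 _).le
      omn := (E_pos hm0 _).le
      qn := by have := (E_pos hm0 (x / 2 + 7 / 4)).le; positivity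
      yn := by
        have := (E_pos hm0 (x / 2 + 7 / 4)).le
        have := (E_pos hm0 ((2004 - x) / 4)).le
        positivity
      ypn := (E_pos hm0 _).le
      tn := le_rfl
      ben := (E_pos hm0 _).le
      etan := le_rfl
      X1 := by
        have h1 := B.X1 b
        have e : E (m : ℝ) 336 = (m : ℝ) ^ 336 := by
          have := E_natCast (m : ℝ) 336
          simpa using this
        rw [e]; exact h1
      Yp := by
        have h1 := B.X2u b
        rw [h670] at h1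
        linarith
      X2 := hX2'
      X3 := by
        have h1 := B.X3u b
        have h2 := X3Low.ctx_X3_ge' c b
        have h3 : (0 : ℝ) ≤ n := Nat.cast_nonneg n
        have hd := P.d10
        have hd3 := P.d3
        have h4 : (n : ℝ) ≤ 2 * E m 1000 := by
          have := h.hn2
          have e : E (m : ℝ) 1000 = (m : ℝ) ^ 1000 := by
            have := E_natCast (m : ℝ) 1000
            simpa using this
          rw [e]; exact this
        have h5 : (10 * (d : ℝ)) ^ 2 ≤ E m (1 / 10) ^ 2 := pow_le_pow_left₀ (by linarith) hd 2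
        rw [E_sq hm0] at h5
        have h6 := (E_pos hm0 1000).le
        have h7 : 5 * ((d : ℝ) - 1) ^ 2 * n ≤ E m (1000 + 1 / 5) := by
          rw [show (1000 : ℝ) + 1 / 5 = 2 * (1 / 10) + 1000 by norm_num, E_add hm0]
          calc 5 * ((d : ℝ) - 1) ^ 2 * n ≤ 5 * (d : ℝ) ^ 2 * (2 * E m 1000) := by
                refine mul_le_mul ?_ h4 h3 (by positivity)
                nlinarith
            _ ≤ (10 * (d : ℝ)) ^ 2 * E m 1000 := by nlinarith [sq_nonneg (d : ℝ)]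
            _ ≤ _ := mul_le_mul_of_nonneg_right h5 h6
        have h8 : 2 * (F.card : ℝ) + 1 ≤ E m (1000 + 1 / 5) := by
          have h9 : (F.card : ℝ) ≤ E m (800 + 1 / 10) := by rw [R.eq]; exact E_mono hm1 hhi
          have h10 : E (m : ℝ) (1000 + 1 / 5) = E m (199 + 1 / 10) * E m 1 * E m (800 + 1 / 10) := by
            rw [E_mul hm0, E_mul hm0]; norm_num
          have h11 : (1 : ℝ) ≤ E m (199 + 1 / 10) := one_le_E hm1 (by norm_num)
          have h12 : (1 : ℝ) ≤ E m (800 + 1 / 10) := one_le_E hm1 (by norm_num)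
          have h13 : (3 : ℝ) ≤ E m 1 := by
            rw [E_one]; have := P.mbig; linarith
          rw [h10]
          have h14 : (3 : ℝ) ≤ E m (199 + 1 / 10) * E m 1 := by nlinarith
          nlinarith
        rw [abs_le]
        constructor <;> linarith
      X4 := hX4'
      V := by
        have h1 : Vv (K b) ≤ (m : ℝ) ^ 8 := B.Vu b
        rw [E_pow hm0]
        have : E (m : ℝ) (4 * ((2 : ℕ) : ℝ)) = (m : ℝ) ^ 8 := by
          rw [← E_natCast]; norm_num
        rw [this]; exact h1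
      Om := by
        have h1 : Wv (K b) F ≤ E (m : ℝ) 683 := hWu
        rw [E_pow hm0]
        have : (341 + 1 / 2 : ℝ) * ((2 : ℕ) : ℝ) = 683 := by norm_num
        rw [this]; exact h1
      Q := hR
      Y := by
        have h1 : Yv (K b) ≤ E m ((2004 - x) / 4) ^ 2 * R2v (K b) := Yv_le hK hop
        rw [mul_pow]
        exact h1.trans (mul_le_mul_of_nonneg_left hR (sq_nonneg _))
      card := by
        have h1 := bad2 h c B
        rw [E_pow hm0]
        refine h1.trans (le_of_eq ?_)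
        congr 1; push_cast; ring
      th := fun p _ => by simp
      frob := by simp
      tilt := by simp
      rho := rfl
      rho2 := by
        have h1 := B.rho_ge
        have h2 := mul_pos B.x0_pos P.r1_pos
        linarith }

theorem s2x4 : S2X4 ι := by
  intro d n m γ x0 F K S h c B b
  have P := par h
  have R := rho2 h B
  have hm0 := P.m0
  have hm1 := P.m1
  have hyp := hyp2 h c B b
  have hL4 : (0 : ℝ) < (m : ℝ) ^ 2004 := by positivity
  have main := hyp.inc_le hL4 zero_le_one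
  have hb : (10 : ℝ) ^ 14 ≤ m := by have := P.mbig; linarith
  set x := ex (m : ℝ) (F.card : ℝ) with hx
  have hlo : 679 + 3 / 4 ≤ x := by have := R.lo; linarith
  have hhi := R.hi
  have OE : ∀ a : ℝ, O (m : ℝ) 1 a (E m a) := fun a => O.E hm0 a
  have O2E : ∀ a : ℝ, O (m : ℝ) 2 a (2 * E m a) := fun a =>
    ⟨by have := (E_pos hm0 a).le; positivity, le_rfl⟩
  have O4E : O (m : ℝ) 4 (x / 2 + 7 / 4) (2 * E m (x / 2 + 7 / 4)) :=
    (O2E _).mono hm1 (by norm_num) le_rfl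
  have n1 := num2 hm1 hb hlo hhi R.O (OE 336) (OE 670) (O2E (x / 2)) (OE (1000 + 1 / 5))
    (OE ((2004 - x) / 2)) (OE 4) (OE (341 + 1 / 2)) O4E (OE ((2004 - x) / 4))
    (OE (x / 2 + 1 / 10))
  have n2 := num2e hm1 hb hlo hhi (O2E (x / 2)) (OE ((2004 - x) / 2)) (OE 4)
    (OE (341 + 1 / 2)) O4E (OE ((2004 - x) / 4))
  have hUU : UU (E m 336) (E m 670)
      (2 * E m (x / 2))
      (E m (1000 + 1 / 5)) (E m ((2004 - x) / 2)) (E m 4) (E m (341 + 1 / 2))
      (2 * E m (x / 2 + 7 / 4))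
      (E m ((2004 - x) / 4) * (2 * E m (x / 2 + 7 / 4)))
      (E m ((2004 - x) / 4))
      (E m (x / 2 + 1 / 10)) 0 0 0 (F.card : ℝ) ≤ (m : ℝ) ^ 2002 := by
    have e1 : E (m : ℝ) 2002 = (m : ℝ) ^ 2002 := by
      have := E_natCast (m : ℝ) 2002
      simpa using this
    rw [← e1]
    unfold UU mm4 m4
    nlinarith [n1, n2]
  have hρ := R.pos
  have fin : (F.card : ℝ) / (m : ℝ) ^ 2004 * (m : ℝ) ^ 2002 = F.card / (m : ℝ) ^ 2 := by
    have : (m : ℝ) ^ 2004 = (m : ℝ) ^ 2 * (m : ℝ) ^ 2002 := by rw [← pow_add]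
    rw [this]
    field_simp
  unfold inc p2X4 nx
  refine main.trans ?_
  rw [← fin]
  exact mul_le_mul_of_nonneg_left hUU (by positivity)

end

end Crest.Agent.R62.MainX4
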