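import Crest.Agent.R62.AvX1
import Crest.Agent.R62.Barrier

/-!
R62 (helper356): weighted one-step estimates for the potentials of `X_1 = Tr K`:
`((T - b)₊)² / w²` (upper) and `((-T - b)₊)² / w²` (lower).
-/

set_option autoImplicit false
set_option linter.unusedSectionVars false
set_option linter.unusedVariables false

open Matrix Finset

namespace Crest.Agent.R62.X1Drift

open Crest.Agent.R62.Upd Crest.Agent.R62.AvX1

variable {ι : Type*} [Fintype ι] [DecidableEq ι]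

/-- numerical hypotheses for the `X_1` step -/
structure Hyp (K : Matrix ι ι ℝ) (F : Finset ι) (s : ℝ) (A : Finset (ι × ι)) (Θ : ι → ι → ℝ)
    (x2 x3 x4 v ω β t ρ W : ℝ) : Prop where
  hs : s ^ 2 = 1
  symm : K.IsSymm
  dead : ∀ i j, i ∉ F → K i j = 0
  row : K *ᵥ ind F = s • ind F
  sub : A ⊆ F ×ˢ F
  ne : ∀ p ∈ A, p.1 ≠ p.2
  kxy : ∀ p ∈ A, |K p.1 p.2| ≤ 1 / 4
  kab : ∀ p ∈ A, |K p.1 p.1 * K p.2 p.2| ≤ 1 / 4
  th : ∀ p ∈ A, |Θ p.1 p.2| ≤ 1 / 2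
  th2 : ∑ p ∈ A, Θ p.1 p.2 ^ 2 ≤ t ^ 2
  x20 : 0 ≤ x2
  x40 : 0 ≤ x4
  v0 : 0 ≤ v
  ω0 : 0 ≤ ω
  β0 : 0 ≤ β
  t0 : 0 ≤ t
  X2 : (K ^ 2).trace ≤ x2 ^ 2
  X3 : |(K ^ 3).trace| ≤ x3
  X4 : (K ^ 4).trace ≤ x4 ^ 2
  V : ∑ x, K x x ^ 2 ≤ v ^ 2
  Ω : ∑ x ∈ F, ((K ^ 2) x x - 1) ^ 2 ≤ ω ^ 2
  card : (((F ×ˢ F) \ A).card : ℝ) ≤ β ^ 2
  hρ : (F.card : ℝ) = ρ
  ρ0 : 0 < ρ
  hW : W = ∑ p ∈ A, (1 - Θ p.1 p.2)
  W2 : ρ ^ 2 / 2 ≤ W
  W3 : W ≤ 2 * ρ ^ 2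

/-- error of the sum of the changes -/
def E1 (x2 x4 v ω β t : ℝ) : ℝ :=
  (16 * x2 + 8 * v ^ 2 + 2 * β + 8 * t) * (v * ω)
    + (4 * x2 + 8 * v ^ 2 + 2 * β + 4 * (x2 + v ^ 2)) * x4

variable {K : Matrix ι ι ℝ} {F : Finset ι} {s : ℝ} {A : Finset (ι × ι)} {Θ : ι → ι → ℝ}
  {x2 x3 x4 v ω β t ρ W : ℝ}

lemma Hyp.good (h : Hyp K F s A Θ x2 x3 x4 v ω β t ρ W) (p : ι × ι) (hp : p ∈ A) :
    GoodPair K p.1 p.2 := ⟨h.ne p hp, h.kxy p hp, h.kab p hp⟩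

lemma Hyp.sqrtX2 (h : Hyp K F s A Θ x2 x3 x4 v ω β t ρ W) : √(K ^ 2).trace ≤ x2 := by
  rw [← Real.sqrt_sq h.x20]; exact Real.sqrt_le_sqrt h.X2

lemma Hyp.sqrtX4 (h : Hyp K F s A Θ x2 x3 x4 v ω β t ρ W) : √(K ^ 4).trace ≤ x4 := by
  rw [← Real.sqrt_sq h.x40]; exact Real.sqrt_le_sqrt h.X4

lemma Hyp.sqrtVW (h : Hyp K F s A Θ x2 x3 x4 v ω β t ρ W) : √(Vf K * Wf F K) ≤ v * ω := by
  rw [← Real.sqrt_sq (mul_nonneg h.v0 h.ω0)]
  apply Real.sqrt_le_sqrt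
  rw [mul_pow]
  exact mul_le_mul h.V h.Ω (Wf_nonneg F K) (sq_nonneg v)

lemma Hyp.sqrtβ (h : Hyp K F s A Θ x2 x3 x4 v ω β t ρ W) :
    √(((F ×ˢ F) \ A).card : ℝ) ≤ β := by
  rw [← Real.sqrt_sq h.β0]; exact Real.sqrt_le_sqrt h.card

lemma Hyp.sqrtt (h : Hyp K F s A Θ x2 x3 x4 v ω β t ρ W) :
    √(∑ p ∈ A, Θ p.1 p.2 ^ 2) ≤ t := by
  rw [← Real.sqrt_sq h.t0]; exact Real.sqrt_le_sqrt h.th2

lemma mono_scalar {a b d e f g a' b' d' e' f' g' : ℝ} (h0 : 0 ≤ f) (h0' : 0 ≤ g)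
    (ha : a ≤ a') (hb : b ≤ b') (hd : d ≤ d') (he : e ≤ e') (hf : f ≤ f') (hg : g ≤ g')
    (ha0 : 0 ≤ a) (hb0 : 0 ≤ b) (hd0 : 0 ≤ d) (he0 : 0 ≤ e) :
    (16 * a + 8 * b + 2 * d + 8 * e) * f + (4 * a + 8 * b + 2 * d + 8 * (1 / 2) * (a + b)) * g
      ≤ (16 * a' + 8 * b' + 2 * d' + 8 * e') * f'
        + (4 * a' + 8 * b' + 2 * d' + 4 * (a' + b')) * g' := by
  apply add_le_add
  · exact mul_le_mul (by linarith) hf h0 (by linarith)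
  · exact mul_le_mul (by linarith) hg h0' (by linarith)

/-- the weighted sum of the changes of `T` -/
theorem sum_w (h : Hyp K F s A Θ x2 x3 x4 v ω β t ρ W) :
    |∑ p ∈ A, (1 - Θ p.1 p.2) * dT s K p.1 p.2
      - (2 * K.trace * ((K ^ 2).trace - ρ) + 2 * s * ρ + 2 * (K ^ 3).trace
        - 2 * s * ∑ p ∈ A, Θ p.1 p.2 * (K ^ 2) p.1 p.2)| ≤ E1 x2 x4 v ω β t := by
  have h1 := one_step_tilt h.hs h.symm h.dead h.row h.sub h.good (fun p => Θ p.1 p.2)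
    (η := 1 / 2) h.th (by norm_num)
  rw [h.hρ] at h1
  refine h1.trans ?_
  unfold E1
  exact mono_scalar (Real.sqrt_nonneg _) (Real.sqrt_nonneg _) h.sqrtX2
    (show Vf K ≤ v ^ 2 from h.V) h.sqrtβ h.sqrtt h.sqrtVW h.sqrtX4 (Real.sqrt_nonneg _)
    (Vf_nonneg K) (Real.sqrt_nonneg _) (Real.sqrt_nonneg _)

/-- weighted second moment of the change of `T` -/
theorem sum_sq (h : Hyp K F s A Θ x2 x3 x4 v ω β t ρ W) :
    ∑ p ∈ A, (1 - Θ p.1 p.2) * dT s K p.1 p.2 ^ 2 ≤ 144 * (v * ω) ^ 2 + 288 * x4 ^ 2 := by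
  have h1 := sum_dT_sq_tilt (F := F) h.hs h.symm h.sub h.good (fun p => Θ p.1 p.2)
    (η := 1 / 2) h.th (by norm_num)
  refine h1.trans ?_
  have h2 : Vf K * Wf F K ≤ (v * ω) ^ 2 := by
    rw [mul_pow]
    exact mul_le_mul h.V h.Ω (Wf_nonneg F K) (sq_nonneg v)
  have h3 := h.X4
  linarith

lemma Hyp.W0 (h : Hyp K F s A Θ x2 x3 x4 v ω β t ρ W) : 0 < W :=
  lt_of_lt_of_le (by have := h.ρ0; positivity) h.W2

lemma Hyp.X3n (h : Hyp K F s A Θ x2 x3 x4 v ω β t ρ W) : 0 ≤ x3 := le_trans (abs_nonneg _) h.X3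

lemma Hyp.E1n (h : Hyp K F s A Θ x2 x3 x4 v ω β t ρ W) : 0 ≤ E1 x2 x4 v ω β t :=
  le_trans (abs_nonneg _) (sum_w h)

/-- the total drift error -/
noncomputable def etaT (x2 x3 x4 v ω β t ρ : ℝ) : ℝ :=
  2 * (2 * ρ + 2 * x3 + E1 x2 x4 v ω β t) / ρ ^ 2

/-- the total noise -/
noncomputable def nuT (x4 v ω ρ Δ : ℝ) : ℝ :=
  4 * (144 * (v * ω) ^ 2 + 288 * x4 ^ 2) / ρ ^ 2 + 2 * Δ ^ 2

lemma Hyp.mu_nonneg (h : Hyp K F s A Θ x2 x3 x4 v ω β t ρ W) (p : ι × ι) (hp : p ∈ A) :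
    0 ≤ (1 - Θ p.1 p.2) / W := by
  have h1 := (abs_le.mp (h.th p hp)).2
  exact div_nonneg (by linarith) h.W0.le

lemma Hyp.mu_sum (h : Hyp K F s A Θ x2 x3 x4 v ω β t ρ W) :
    ∑ p ∈ A, (1 - Θ p.1 p.2) / W = 1 := by
  rw [← Finset.sum_div, ← h.hW, div_self h.W0.ne']

lemma sum_mu_eq (g : ι × ι → ℝ) :
    ∑ p ∈ A, (1 - Θ p.1 p.2) / W * g p = (∑ p ∈ A, (1 - Θ p.1 p.2) * g p) / W := by
  rw [Finset.sum_div]
  exact Finset.sum_congr rfl fun p _ => by ring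

lemma Hyp.noise (h : Hyp K F s A Θ x2 x3 x4 v ω β t ρ W) (c : ℝ) (sg : ℝ) (hsg : sg ^ 2 = 1) :
    ∑ p ∈ A, (1 - Θ p.1 p.2) / W * (sg * dT s K p.1 p.2 - c) ^ 2 ≤ nuT x4 v ω ρ c := by
  have hb : ∑ p ∈ A, (1 - Θ p.1 p.2) / W * (sg * dT s K p.1 p.2) ^ 2
      ≤ 2 * (144 * (v * ω) ^ 2 + 288 * x4 ^ 2) / ρ ^ 2 := by
    have e : ∀ p ∈ A, (1 - Θ p.1 p.2) / W * (sg * dT s K p.1 p.2) ^ 2
        = (1 - Θ p.1 p.2) / W * dT s K p.1 p.2 ^ 2 := by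
      intro p _
      rw [mul_pow, hsg, one_mul]
    rw [Finset.sum_congr rfl e, sum_mu_eq (fun p => dT s K p.1 p.2 ^ 2)]
    have hρ2 : 0 < ρ ^ 2 := by have := h.ρ0; positivity
    rw [div_le_div_iff₀ h.W0 hρ2]
    have h1 := sum_sq h
    have h2 : 0 ≤ 144 * (v * ω) ^ 2 + 288 * x4 ^ 2 := by positivity
    have h3 := h.W2
    calc (∑ p ∈ A, (1 - Θ p.1 p.2) * dT s K p.1 p.2 ^ 2) * ρ ^ 2
        ≤ (144 * (v * ω) ^ 2 + 288 * x4 ^ 2) * ρ ^ 2 :=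
          mul_le_mul_of_nonneg_right h1 hρ2.le
      _ ≤ (144 * (v * ω) ^ 2 + 288 * x4 ^ 2) * (2 * W) :=
          mul_le_mul_of_nonneg_left (by linarith) h2
      _ = _ := by ring
  have h4 := Barrier.var_shift A (fun p => (1 - Θ p.1 p.2) / W) h.mu_nonneg h.mu_sum
    (fun p => sg * dT s K p.1 p.2) (c := c) hb
  refine h4.trans (le_of_eq ?_)
  unfold nuT
  ring

/-- scalar drift estimate -/
lemma drift_scalar {D s ρ x3 T X2 X3 Q E W G : ℝ} (hs : |s| = 1) (hρ0 : 0 < ρ)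
    (hW : ρ ^ 2 / 2 ≤ W) (hW3 : W ≤ 2 * ρ ^ 2) (hX3 : |X3| ≤ x3)
    (h : |D - (2 * T * (X2 - ρ) + 2 * s * ρ + 2 * X3 - 2 * s * Q)| ≤ E)
    (hT : T * (X2 - ρ) ≤ 0) (hG : G ≤ 2 * s * Q) (hG0 : 0 ≤ G) :
    D / W ≤ - (G / (2 * ρ ^ 2)) + 2 * (2 * ρ + 2 * x3 + E) / ρ ^ 2 := by
  have hW0 : 0 < W := lt_of_lt_of_le (by positivity) hW
  have h1 := (abs_le.mp h).2
  have h2 := (abs_le.mp hX3).2
  have h3 : s ≤ 1 := by rw [← hs]; exact le_abs_self s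
  have hE : 0 ≤ E := le_trans (abs_nonneg _) h
  have hx3 : 0 ≤ x3 := le_trans (abs_nonneg _) hX3
  have h4 : D ≤ -G + (2 * ρ + 2 * x3 + E) := by nlinarith
  have h5 : D / W ≤ (-G + (2 * ρ + 2 * x3 + E)) / W := div_le_div_of_nonneg_right h4 hW0.le
  refine h5.trans ?_
  rw [add_div, neg_div]
  apply add_le_add
  · apply neg_le_neg
    exact div_le_div_of_nonneg_left hG0 hW0 hW3
  · rw [div_le_div_iff₀ hW0 (by positivity)]
    have h6 : 0 ≤ 2 * ρ + 2 * x3 + E := by positivity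
    nlinarith

/-- **Upper potential.** `b` old barrier, `b'` new barrier; `G` guaranteed push. -/
theorem upper_step (h : Hyp K F s A Θ x2 x3 x4 v ω β t ρ W) {b b' w G : ℝ} (hw : 0 < w)
    (hb : 0 ≤ b) (hX2 : b < K.trace → (K ^ 2).trace ≤ ρ)
    (hG : b < K.trace → G ≤ 2 * s * ∑ p ∈ A, Θ p.1 p.2 * (K ^ 2) p.1 p.2)
    (hG0 : 0 ≤ G) (hΔ : b - b' ≤ G / (2 * ρ ^ 2))
    (hP : (max (K.trace - b) 0) ^ 2 / w ^ 2 ≤ 1) :
    ∑ p ∈ A, (1 - Θ p.1 p.2) * ((max ((upd s K p.1 p.2).trace - b') 0) ^ 2 / w ^ 2) ≤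
      W * ((max (K.trace - b) 0) ^ 2 / w ^ 2
        + (2 * w * etaT x2 x3 x4 v ω β t ρ + nuT x4 v ω ρ (b' - b)) / w ^ 2) := by
  have hη : 0 ≤ etaT x2 x3 x4 v ω β t ρ := by
    unfold etaT
    have := h.E1n; have := h.X3n; have := h.ρ0
    positivity
  have hq := Barrier.quad_step' A (fun p => (1 - Θ p.1 p.2) / W) h.mu_nonneg h.mu_sum
    K.trace (fun p => K.trace + dT s K p.1 p.2) (b := b) (b' := b') (lam := 0)
    (η := etaT x2 x3 x4 v ω β t ρ) (ν := nuT x4 v ω ρ (b' - b)) hw hw hη hP ?_ ?_ (by simp)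
  · have hW0 := h.W0
    have e : ∑ p ∈ A, (1 - Θ p.1 p.2) * ((max ((upd s K p.1 p.2).trace - b') 0) ^ 2 / w ^ 2)
        = W * ∑ p ∈ A, (1 - Θ p.1 p.2) / W *
            ((max (K.trace + dT s K p.1 p.2 - b') 0) ^ 2 / w ^ 2) := by
      rw [Finset.mul_sum]
      refine Finset.sum_congr rfl fun p hp => ?_
      have hg := h.good p hp
      have hD : Dl s K p.1 p.2 ≠ 0 := by
        have := Dl_ge h.hs hg.2.1 hg.2.2
        linarith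
      rw [trace_upd h.hs h.symm hg.1 hD]
      field_simp
    rw [e]
    exact mul_le_mul_of_nonneg_left hq hW0.le
  · intro hbT _
    have e : ∑ p ∈ A, (1 - Θ p.1 p.2) / W * (K.trace + dT s K p.1 p.2 - K.trace)
        = (∑ p ∈ A, (1 - Θ p.1 p.2) * dT s K p.1 p.2) / W := by
      rw [← sum_mu_eq (fun p => dT s K p.1 p.2)]
      exact Finset.sum_congr rfl fun p _ => by ring
    rw [e]
    have hT : K.trace * ((K ^ 2).trace - ρ) ≤ 0 :=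
      mul_nonpos_of_nonneg_of_nonpos (by linarith) (by linarith [hX2 hbT])
    have h1 := drift_scalar (T := K.trace) (abs_s h.hs) h.ρ0 h.W2 h.W3 h.X3 (sum_w h) hT
      (hG hbT) hG0
    refine h1.trans ?_
    unfold etaT
    linarith
  · have e : ∀ p ∈ A, (1 - Θ p.1 p.2) / W * (K.trace + dT s K p.1 p.2 - K.trace - (b' - b)) ^ 2
        = (1 - Θ p.1 p.2) / W * (1 * dT s K p.1 p.2 - (b' - b)) ^ 2 := by
      intro p _; ring
    rw [Finset.sum_congr rfl e]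
    exact h.noise (b' - b) 1 (by norm_num)

/-- **Lower potential** (barrier `T ≥ -b`, `b` constant). `c` bounds the push of the other sign
in the wrong direction. -/
theorem lower_step (h : Hyp K F s A Θ x2 x3 x4 v ω β t ρ W) {b w c : ℝ} (hw : 0 < w)
    (hb : 0 ≤ b) (hX2 : b < -K.trace → (K ^ 2).trace ≤ ρ) (hc : 0 ≤ c)
    (hG : b < -K.trace → 2 * s * ∑ p ∈ A, Θ p.1 p.2 * (K ^ 2) p.1 p.2 ≤ c)
    (hP : (max (-K.trace - b) 0) ^ 2 / w ^ 2 ≤ 1) :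
    ∑ p ∈ A, (1 - Θ p.1 p.2) * ((max (-(upd s K p.1 p.2).trace - b) 0) ^ 2 / w ^ 2) ≤
      W * ((max (-K.trace - b) 0) ^ 2 / w ^ 2
        + (2 * w * (etaT x2 x3 x4 v ω β t ρ + 2 * c / ρ ^ 2) + nuT x4 v ω ρ 0) / w ^ 2) := by
  have hη : 0 ≤ etaT x2 x3 x4 v ω β t ρ + 2 * c / ρ ^ 2 := by
    unfold etaT
    have := h.E1n; have := h.X3n; have := h.ρ0
    positivity
  have hq := Barrier.quad_step' A (fun p => (1 - Θ p.1 p.2) / W) h.mu_nonneg h.mu_sum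
    (-K.trace) (fun p => -(K.trace + dT s K p.1 p.2)) (b := b) (b' := b) (lam := 0)
    (η := etaT x2 x3 x4 v ω β t ρ + 2 * c / ρ ^ 2) (ν := nuT x4 v ω ρ 0) hw hw hη hP ?_ ?_
    (by simp)
  · have hW0 := h.W0
    have e : ∑ p ∈ A, (1 - Θ p.1 p.2) * ((max (-(upd s K p.1 p.2).trace - b) 0) ^ 2 / w ^ 2)
        = W * ∑ p ∈ A, (1 - Θ p.1 p.2) / W *
            ((max (-(K.trace + dT s K p.1 p.2) - b) 0) ^ 2 / w ^ 2) := by
      rw [Finset.mul_sum]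
      refine Finset.sum_congr rfl fun p hp => ?_
      have hg := h.good p hp
      have hD : Dl s K p.1 p.2 ≠ 0 := by
        have := Dl_ge h.hs hg.2.1 hg.2.2
        linarith
      rw [trace_upd h.hs h.symm hg.1 hD]
      field_simp
    rw [e]
    exact mul_le_mul_of_nonneg_left hq hW0.le
  · intro hbT _
    have e : ∑ p ∈ A, (1 - Θ p.1 p.2) / W * (-(K.trace + dT s K p.1 p.2) - -K.trace)
        = -((∑ p ∈ A, (1 - Θ p.1 p.2) * dT s K p.1 p.2) / W) := by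
      rw [← sum_mu_eq (fun p => dT s K p.1 p.2), ← Finset.sum_neg_distrib]
      exact Finset.sum_congr rfl fun p _ => by ring
    rw [e]
    have hT : K.trace * ((K ^ 2).trace - ρ) ≥ 0 :=
      mul_nonneg_of_nonpos_of_nonpos (by linarith) (by linarith [hX2 hbT])
    have h1 := sum_w h
    have h2 := (abs_le.mp h1).1
    have h3 := (abs_le.mp h.X3).1
    have hs1 : -1 ≤ s := by
      have := abs_s h.hs
      have h4 := neg_abs_le s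
      linarith
    have hρ0 := h.ρ0
    have hlow : -(c + (2 * ρ + 2 * x3 + E1 x2 x4 v ω β t))
        ≤ ∑ p ∈ A, (1 - Θ p.1 p.2) * dT s K p.1 p.2 := by
      have := hG hbT
      nlinarith
    have h6 : 0 ≤ c + (2 * ρ + 2 * x3 + E1 x2 x4 v ω β t) := by
      have := h.E1n; have := h.X3n
      positivity
    have h7 : -((∑ p ∈ A, (1 - Θ p.1 p.2) * dT s K p.1 p.2) / W)
        ≤ 2 * (c + (2 * ρ + 2 * x3 + E1 x2 x4 v ω β t)) / ρ ^ 2 := by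
      rw [← neg_div, div_le_div_iff₀ h.W0 (by positivity)]
      have h8 := h.W2
      calc -(∑ p ∈ A, (1 - Θ p.1 p.2) * dT s K p.1 p.2) * ρ ^ 2
          ≤ (c + (2 * ρ + 2 * x3 + E1 x2 x4 v ω β t)) * ρ ^ 2 :=
            mul_le_mul_of_nonneg_right (by linarith) (by positivity)
        _ ≤ (c + (2 * ρ + 2 * x3 + E1 x2 x4 v ω β t)) * (2 * W) :=
            mul_le_mul_of_nonneg_left (by linarith) h6
        _ = _ := by ring
    refine h7.trans (le_of_eq ?_)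
    unfold etaT
    ring
  · have e : ∀ p ∈ A, (1 - Θ p.1 p.2) / W * (-(K.trace + dT s K p.1 p.2) - -K.trace
          - (b - b)) ^ 2
        = (1 - Θ p.1 p.2) / W * ((-1) * dT s K p.1 p.2 - 0) ^ 2 := by
      intro p _; ring
    rw [Finset.sum_congr rfl e]
    exact h.noise 0 (-1) (by norm_num)

end Crest.Agent.R62.X1Drift
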