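import Crest.Agent.R62.StepDefs
import Crest.Agent.R62.X1Drift
import Crest.Agent.R62.X3Low

/-!
R62 (helper356): the targets `S1X1u`, `S1X1l`, `S2X1` of `StepDefs`.
-/

set_option autoImplicit false
set_option linter.unusedSectionVars false
set_option linter.unusedVariables false

open Matrix Finset

namespace Crest.Agent.R62.MainX1

open Crest.Agent.R62.Upd Crest.Agent.R62.AvX1 Crest.Agent.R62.X1Drift Crest.Agent.R62.Step
open Crest.Agent.R062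

/-! ### numbers -/

lemma sg_sq (b : Bool) : ((Mach.sg b : ℝ)) ^ 2 = 1 := by
  cases b <;> simp [Mach.sg]

/-- final numerical comparison: `c` is a push in the wrong direction, `D` the barrier motion -/
lemma final_num {M w ρ x3 E c P x4 D : ℝ} (hM : 10 ^ 4 ≤ M) (hw : 0 < w) (hρ : 0 < ρ)
    (h1 : 2 * ρ + 2 * x3 + E + c ≤ 4 * (ρ * w / M ^ 3))
    (h2 : P ^ 2 ≤ ρ * w ^ 2 / M ^ 3) (h3 : x4 ^ 2 ≤ ρ * w ^ 2 / M ^ 3)
    (h4 : D ^ 2 * ρ ^ 2 ≤ ρ * w ^ 2 / M ^ 3) :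
    2 * ρ ^ 2 * ((2 * w * (2 * (2 * ρ + 2 * x3 + E) / ρ ^ 2 + 2 * c / ρ ^ 2)
      + (4 * (144 * P ^ 2 + 288 * x4 ^ 2) / ρ ^ 2 + 2 * D ^ 2)) / w ^ 2) ≤ ρ / M ^ 2 := by
  have hM0 : 0 < M := by linarith
  have e : 2 * ρ ^ 2 * ((2 * w * (2 * (2 * ρ + 2 * x3 + E) / ρ ^ 2 + 2 * c / ρ ^ 2)
      + (4 * (144 * P ^ 2 + 288 * x4 ^ 2) / ρ ^ 2 + 2 * D ^ 2)) / w ^ 2)
      = (8 * w * (2 * ρ + 2 * x3 + E + c)
        + 8 * (144 * P ^ 2 + 288 * x4 ^ 2) + 4 * (D ^ 2 * ρ ^ 2)) / w ^ 2 := by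
    field_simp
    ring
  rw [e, div_le_iff₀ (by positivity)]
  have h5 : 8 * w * (2 * ρ + 2 * x3 + E + c) ≤ 32 * (ρ * w ^ 2 / M ^ 3) := by
    calc 8 * w * (2 * ρ + 2 * x3 + E + c) ≤ 8 * w * (4 * (ρ * w / M ^ 3)) :=
          mul_le_mul_of_nonneg_left h1 (by positivity)
      _ = _ := by ring
  have h6 : ρ / M ^ 2 * w ^ 2 = M * (ρ * w ^ 2 / M ^ 3) := by
    field_simp
  rw [h6]
  have h7 : 0 ≤ ρ * w ^ 2 / M ^ 3 := by positivity
  nlinarith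

/-- bound of the error `E1` with the scalings used in both stages -/
lemma E1_num {M r v ω τ t P y : ℝ} (hr : 0 < r) (hv : v ^ 2 ≤ r) (hP : v * ω = P)
    (hP0 : 0 ≤ P) (ht : t ≤ τ * r) (hy : 0 ≤ y) :
    E1 r (y / r) v ω (M * r) t ≤ (24 + 2 * M + 8 * τ) * (r * P) + (20 + 2 * M) * y := by
  unfold E1
  rw [hP]
  have h1 : (16 * r + 8 * v ^ 2 + 2 * (M * r) + 8 * t) * P
      ≤ ((24 + 2 * M + 8 * τ) * r) * P := by
    apply mul_le_mul_of_nonneg_right _ hP0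
    nlinarith
  have h2 : (4 * r + 8 * v ^ 2 + 2 * (M * r) + 4 * (r + v ^ 2)) * (y / r)
      ≤ ((20 + 2 * M) * r) * (y / r) := by
    apply mul_le_mul_of_nonneg_right _ (by positivity)
    nlinarith
  have h3 : ((20 + 2 * M) * r) * (y / r) = (20 + 2 * M) * y := by
    field_simp
  rw [h3] at h2
  calc _ ≤ ((24 + 2 * M + 8 * τ) * r) * P + (20 + 2 * M) * y := add_le_add h1 h2
    _ = _ := by ring

/-- numerical conclusion of stage 1 -/
lemma num1 {M r v ω t y x3 c D : ℝ} (hM : (10 : ℝ) ^ 10 ≤ M) (hr : M ^ 400 ≤ r)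
    (hr2 : r ^ 2 ≤ M ^ 1001)
    (hv : v = M ^ 5) (hω : ω = M ^ 305) (ht : t = M ^ 964 / r) (hy : y = M ^ 1002)
    (hx3 : x3 ≤ M ^ 1001) (hc : c ≤ M ^ 1010) (hD : D ^ 2 ≤ 4 * M ^ 722 / M ^ 1600) :
    2 * (r ^ 2) ^ 2 * ((2 * M ^ 335 * (2 * (2 * r ^ 2 + 2 * x3
        + E1 r (y / r) v ω (M * r) t) / (r ^ 2) ^ 2 + 2 * c / (r ^ 2) ^ 2)
      + (4 * (144 * (v * ω) ^ 2 + 288 * (y / r) ^ 2) / (r ^ 2) ^ 2 + 2 * D ^ 2)) / (M ^ 335) ^ 2)
      ≤ r ^ 2 / M ^ 2 := by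
  have hM1 : (1 : ℝ) ≤ M := le_trans (by norm_num) hM
  have hM0 : (0 : ℝ) < M := by linarith
  have hp : ∀ k : ℕ, 0 < M ^ k := fun k => pow_pos hM0 k
  have hr0 : 0 < r := lt_of_lt_of_le (hp 400) hr
  have hrr : M ^ 800 ≤ r ^ 2 := by
    calc M ^ 800 = (M ^ 400) ^ 2 := by rw [← pow_mul]
      _ ≤ r ^ 2 := pow_le_pow_left₀ (hp 400).le hr 2
  have hrr' : r * M ^ 400 ≤ r ^ 2 := by nlinarith
  have hsc : ∀ k : ℕ, M ^ (k + 1) ≤ M ^ (k + 1 + 1) / 10 ^ 10 := by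
    intro k
    rw [le_div_iff₀ (by norm_num)]
    calc M ^ (k + 1) * 10 ^ 10 ≤ M ^ (k + 1) * M := mul_le_mul_of_nonneg_left hM (hp _).le
      _ = _ := by ring
  have hw3 : r ^ 2 * M ^ 335 / M ^ 3 = r ^ 2 * M ^ 332 := by
    rw [div_eq_iff (hp 3).ne']; ring
  have hw4 : r ^ 2 * (M ^ 335) ^ 2 / M ^ 3 = r ^ 2 * M ^ 667 := by
    rw [div_eq_iff (hp 3).ne']; ring
  apply final_num (le_trans (by norm_num) hM) (hp 335) (by positivity)
  · rw [hw3]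
    have hvω : v * ω = M ^ 310 := by rw [hv, hω]; ring
    have hv2 : v ^ 2 ≤ r := by
      rw [hv, ← pow_mul]
      exact le_trans (pow_le_pow_right₀ hM1 (by norm_num)) hr
    have htr : t ≤ M ^ 164 * r := by
      rw [ht, div_le_iff₀ hr0]
      calc M ^ 964 = M ^ 164 * M ^ 800 := by ring
        _ ≤ M ^ 164 * r ^ 2 := mul_le_mul_of_nonneg_left hrr (hp _).le
        _ = _ := by ring
    have hE := E1_num (M := M) hr0 hv2 hvω (hp _).le htr (y := y) (by rw [hy]; exact (hp _).le)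
    have h1 : (24 + 2 * M + 8 * M ^ 164) * (r * M ^ 310) ≤ r ^ 2 * M ^ 76 := by
      have h2 : 24 + 2 * M + 8 * M ^ 164 ≤ M ^ 166 := by
        have a1 : M ≤ M ^ 164 := by
          calc M = M ^ 1 := (pow_one M).symm
            _ ≤ _ := pow_le_pow_right₀ hM1 (by norm_num)
        have a2 : M ^ 166 = M * (M * M ^ 164) := by ring
        have a3 : M ^ 164 * 10 ^ 10 ≤ M * M ^ 164 := by
          nlinarith [hp 164]
        have a4 : M * M ^ 164 ≤ M * (M * M ^ 164) := by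
          have : 0 ≤ M * M ^ 164 := by positivity
          nlinarith
        nlinarith [hp 164]
      calc (24 + 2 * M + 8 * M ^ 164) * (r * M ^ 310) ≤ M ^ 166 * (r * M ^ 310) :=
            mul_le_mul_of_nonneg_right h2 (by positivity)
        _ = (r * M ^ 400) * M ^ 76 := by ring
        _ ≤ r ^ 2 * M ^ 76 := mul_le_mul_of_nonneg_right hrr' (hp _).le
    have h3 : (20 + 2 * M) * y ≤ r ^ 2 * M ^ 204 := by
      have h4 : 20 + 2 * M ≤ M ^ 2 := by nlinarith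
      rw [hy]
      calc (20 + 2 * M) * M ^ 1002 ≤ M ^ 2 * M ^ 1002 := mul_le_mul_of_nonneg_right h4 (hp _).le
        _ = M ^ 800 * M ^ 204 := by ring
        _ ≤ _ := mul_le_mul_of_nonneg_right hrr (hp _).le
    have h5 : 2 * x3 ≤ r ^ 2 * M ^ 202 := by
      calc 2 * x3 ≤ 2 * M ^ 1001 := by linarith
        _ ≤ M * M ^ 1001 := mul_le_mul_of_nonneg_right (by linarith) (hp _).le
        _ = M ^ 800 * M ^ 202 := by ring
        _ ≤ _ := mul_le_mul_of_nonneg_right hrr (hp _).le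
    have h6 : c ≤ r ^ 2 * M ^ 210 := by
      calc c ≤ M ^ 1010 := hc
        _ = M ^ 800 * M ^ 210 := by ring
        _ ≤ _ := mul_le_mul_of_nonneg_right hrr (hp _).le
    have hr20 : 0 < r ^ 2 := by positivity
    have m1 : ∀ a b : ℕ, a ≤ b → r ^ 2 * M ^ a ≤ r ^ 2 * M ^ b := fun a b hab =>
      mul_le_mul_of_nonneg_left (pow_le_pow_right₀ hM1 hab) hr20.le
    have h7 : r ^ 2 * M ^ 210 ≤ r ^ 2 * M ^ 331 := m1 _ _ (by norm_num)
    have h8 : r ^ 2 * M ^ 202 ≤ r ^ 2 * M ^ 331 := m1 _ _ (by norm_num)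
    have h9 : r ^ 2 * M ^ 204 ≤ r ^ 2 * M ^ 331 := m1 _ _ (by norm_num)
    have h10 : r ^ 2 * M ^ 76 ≤ r ^ 2 * M ^ 331 := m1 _ _ (by norm_num)
    have h11 : r ^ 2 ≤ r ^ 2 * M ^ 331 := by
      have := m1 0 331 (by norm_num)
      simpa using this
    have h12 : r ^ 2 * M ^ 331 * 10 ^ 10 ≤ r ^ 2 * M ^ 332 := by
      have : r ^ 2 * M ^ 332 = (r ^ 2 * M ^ 331) * M := by ring
      rw [this]
      exact mul_le_mul_of_nonneg_left hM (by positivity)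
    have h13 : 0 < r ^ 2 * M ^ 331 := by positivity
    linarith
  · rw [hw4, hv, hω]
    calc (M ^ 5 * M ^ 305) ^ 2 = M ^ 620 := by ring
      _ ≤ M ^ 1467 := pow_le_pow_right₀ hM1 (by norm_num)
      _ = M ^ 800 * M ^ 667 := by ring
      _ ≤ _ := mul_le_mul_of_nonneg_right hrr (hp _).le
  · rw [hw4, hy, div_pow, div_le_iff₀ (by positivity)]
    calc (M ^ 1002) ^ 2 = M ^ 2004 := by ring
      _ ≤ M ^ 2267 := pow_le_pow_right₀ hM1 (by norm_num)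
      _ = M ^ 800 * M ^ 667 * M ^ 800 := by ring
      _ ≤ r ^ 2 * M ^ 667 * r ^ 2 := by gcongr
  · rw [hw4]
    have h1 : D ^ 2 * (r ^ 2) ^ 2 ≤ (4 * M ^ 722 / M ^ 1600) * (M ^ 1001) ^ 2 := by
      apply mul_le_mul hD _ (by positivity) (by positivity)
      exact pow_le_pow_left₀ (by positivity) hr2 2
    have h2 : (4 * M ^ 722 / M ^ 1600) * (M ^ 1001) ^ 2 = 4 * M ^ 1124 := by
      rw [div_mul_eq_mul_div, div_eq_iff (hp _).ne']; ring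
    rw [h2] at h1
    refine h1.trans ?_
    calc 4 * M ^ 1124 ≤ M * M ^ 1124 := mul_le_mul_of_nonneg_right (by linarith) (hp _).le
      _ = M ^ 1125 := by ring
      _ ≤ M ^ 1467 := pow_le_pow_right₀ hM1 (by norm_num)
      _ = M ^ 800 * M ^ 667 := by ring
      _ ≤ _ := mul_le_mul_of_nonneg_right hrr (hp _).le

/-- numerical conclusion of stage 2 -/
lemma num2 {M r v ω t y x3 : ℝ} (hM : (10 : ℝ) ^ 10 ≤ M) (hr : M ^ 339 ≤ r)
    (hv : v = M ^ 70) (hω : ω = M ^ 342) (ht : t = 0) (hy : y = M ^ 1003)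
    (hx3 : x3 ≤ M ^ 1001) :
    2 * (r ^ 2) ^ 2 * ((2 * M ^ 336 * (2 * (2 * r ^ 2 + 2 * x3
        + E1 r (y / r) v ω (M * r) t) / (r ^ 2) ^ 2 + 2 * 0 / (r ^ 2) ^ 2)
      + (4 * (144 * (v * ω) ^ 2 + 288 * (y / r) ^ 2) / (r ^ 2) ^ 2 + 2 * (0 : ℝ) ^ 2))
        / (M ^ 336) ^ 2) ≤ r ^ 2 / (2 * M ^ 2) := by
  have hM1 : (1 : ℝ) ≤ M := le_trans (by norm_num) hM
  have hM0 : (0 : ℝ) < M := by linarith
  have hp : ∀ k : ℕ, 0 < M ^ k := fun k => pow_pos hM0 k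
  have hr0 : 0 < r := lt_of_lt_of_le (hp 339) hr
  have hrr : M ^ 678 ≤ r ^ 2 := by
    calc M ^ 678 = (M ^ 339) ^ 2 := by rw [← pow_mul]
      _ ≤ r ^ 2 := pow_le_pow_left₀ (hp 339).le hr 2
  have hrr' : r * M ^ 339 ≤ r ^ 2 := by nlinarith
  have key := final_num (M := M) (w := M ^ 336) (ρ := r ^ 2) (x3 := 2 * x3 + r ^ 2)
    (E := 2 * E1 r (y / r) v ω (M * r) t) (c := 0) (P := 2 * (v * ω)) (x4 := 2 * (y / r)) (D := 0)
    (le_trans (by norm_num) hM) (hp 336) (by positivity) ?_ ?_ ?_ ?_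
  · have e1 : r ^ 2 / (2 * M ^ 2) = (r ^ 2 / M ^ 2) / 2 := by
      field_simp
    rw [e1, le_div_iff₀ (by norm_num)]
    refine le_trans ?_ key
    have hE0 : 0 ≤ r ^ 2 := by positivity
    have e2 : 2 * (r ^ 2) ^ 2 * ((2 * M ^ 336 * (2 * (2 * r ^ 2 + 2 * x3
        + E1 r (y / r) v ω (M * r) t) / (r ^ 2) ^ 2 + 2 * 0 / (r ^ 2) ^ 2)
      + (4 * (144 * (v * ω) ^ 2 + 288 * (y / r) ^ 2) / (r ^ 2) ^ 2 + 2 * (0 : ℝ) ^ 2))
        / (M ^ 336) ^ 2) * 2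
      = 2 * (r ^ 2) ^ 2 * ((2 * M ^ 336 * (2 * (2 * (2 * r ^ 2 + 2 * x3
        + E1 r (y / r) v ω (M * r) t)) / (r ^ 2) ^ 2 + 2 * 0 / (r ^ 2) ^ 2)
      + (4 * (2 * (144 * (v * ω) ^ 2 + 288 * (y / r) ^ 2)) / (r ^ 2) ^ 2 + 2 * (0 : ℝ) ^ 2))
        / (M ^ 336) ^ 2) := by ring
    rw [e2]
    have h0 : 0 ≤ (v * ω) ^ 2 := sq_nonneg _
    have h0' : 0 ≤ (y / r) ^ 2 := sq_nonneg _
    gcongr
    · linarith
    · nlinarith
  · have hw3 : r ^ 2 * M ^ 336 / M ^ 3 = r ^ 2 * M ^ 333 := by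
      rw [div_eq_iff (hp 3).ne']; ring
    rw [hw3]
    have hvω : v * ω = M ^ 412 := by rw [hv, hω]; ring
    have hv2 : v ^ 2 ≤ r := by
      rw [hv, ← pow_mul]
      exact le_trans (pow_le_pow_right₀ hM1 (by norm_num)) hr
    have htr : t ≤ 0 * r := by rw [ht]; simp
    have hE := E1_num (M := M) hr0 hv2 hvω (hp _).le htr (y := y) (by rw [hy]; exact (hp _).le)
    have h2 : 24 + 2 * M + 8 * 0 ≤ M ^ 2 := by nlinarith
    have h1 : (24 + 2 * M + 8 * 0) * (r * M ^ 412) ≤ r ^ 2 * M ^ 75 := by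
      calc (24 + 2 * M + 8 * 0) * (r * M ^ 412) ≤ M ^ 2 * (r * M ^ 412) :=
            mul_le_mul_of_nonneg_right h2 (by positivity)
        _ = (r * M ^ 339) * M ^ 75 := by ring
        _ ≤ r ^ 2 * M ^ 75 := mul_le_mul_of_nonneg_right hrr' (hp _).le
    have h3 : (20 + 2 * M) * y ≤ r ^ 2 * M ^ 327 := by
      have h4 : 20 + 2 * M ≤ M ^ 2 := by nlinarith
      rw [hy]
      calc (20 + 2 * M) * M ^ 1003 ≤ M ^ 2 * M ^ 1003 := mul_le_mul_of_nonneg_right h4 (hp _).le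
        _ = M ^ 678 * M ^ 327 := by ring
        _ ≤ _ := mul_le_mul_of_nonneg_right hrr (hp _).le
    have h5 : x3 ≤ r ^ 2 * M ^ 323 := by
      calc x3 ≤ M ^ 1001 := hx3
        _ = M ^ 678 * M ^ 323 := by ring
        _ ≤ _ := mul_le_mul_of_nonneg_right hrr (hp _).le
    have hr20 : 0 < r ^ 2 := by positivity
    have m1 : ∀ a b : ℕ, a ≤ b → r ^ 2 * M ^ a ≤ r ^ 2 * M ^ b := fun a b hab =>
      mul_le_mul_of_nonneg_left (pow_le_pow_right₀ hM1 hab) hr20.le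
    have h8 : r ^ 2 * M ^ 323 ≤ r ^ 2 * M ^ 331 := m1 _ _ (by norm_num)
    have h9 : r ^ 2 * M ^ 327 ≤ r ^ 2 * M ^ 331 := m1 _ _ (by norm_num)
    have h10 : r ^ 2 * M ^ 75 ≤ r ^ 2 * M ^ 331 := m1 _ _ (by norm_num)
    have h11 : r ^ 2 ≤ r ^ 2 * M ^ 331 := by
      have := m1 0 331 (by norm_num)
      simpa using this
    have h12 : r ^ 2 * M ^ 331 * 10 ^ 10 ≤ r ^ 2 * M ^ 332 := by
      have : r ^ 2 * M ^ 332 = (r ^ 2 * M ^ 331) * M := by ring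
      rw [this]
      exact mul_le_mul_of_nonneg_left hM (by positivity)
    have h13 : 0 < r ^ 2 * M ^ 331 := by positivity
    have h14 : r ^ 2 * M ^ 332 ≤ r ^ 2 * M ^ 333 := m1 _ _ (by norm_num)
    linarith
  · have hw4 : r ^ 2 * (M ^ 336) ^ 2 / M ^ 3 = r ^ 2 * M ^ 669 := by
      rw [div_eq_iff (hp 3).ne']; ring
    rw [hw4, hv, hω]
    calc (2 * (M ^ 70 * M ^ 342)) ^ 2 = 4 * M ^ 824 := by ring
      _ ≤ M * M ^ 824 := mul_le_mul_of_nonneg_right (by linarith) (hp _).le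
      _ = M ^ 825 := by ring
      _ ≤ M ^ 1347 := pow_le_pow_right₀ hM1 (by norm_num)
      _ = M ^ 678 * M ^ 669 := by ring
      _ ≤ _ := mul_le_mul_of_nonneg_right hrr (hp _).le
  · have hw4 : r ^ 2 * (M ^ 336) ^ 2 / M ^ 3 = r ^ 2 * M ^ 669 := by
      rw [div_eq_iff (hp 3).ne']; ring
    rw [hw4, hy, mul_pow, div_pow, ← mul_div_assoc, div_le_iff₀ (by positivity)]
    calc 2 ^ 2 * (M ^ 1003) ^ 2 = 4 * M ^ 2006 := by ring
      _ ≤ M * M ^ 2006 := mul_le_mul_of_nonneg_right (by linarith) (hp _).le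
      _ = M ^ 2007 := by ring
      _ ≤ M ^ 2025 := pow_le_pow_right₀ hM1 (by norm_num)
      _ = M ^ 678 * M ^ 669 * M ^ 678 := by ring
      _ ≤ r ^ 2 * M ^ 669 * r ^ 2 := by gcongr
  · have : (0 : ℝ) ^ 2 * (r ^ 2) ^ 2 = 0 := by ring
    rw [this]; positivity


lemma nuT_nonneg (x4 v ω ρ D : ℝ) : 0 ≤ nuT x4 v ω ρ D := by
  unfold nuT; positivity

/-! ### the barrier `U` -/

lemma U_nonneg (m : ℕ) (ρ : ℝ) : 0 ≤ U m ρ := by
  unfold U; positivity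

lemma clamp_lip {a b : ℝ} (h : b ≤ a) :
    0 ≤ max 0 (min 1 a) - max 0 (min 1 b) ∧ max 0 (min 1 a) - max 0 (min 1 b) ≤ a - b := by
  constructor
  · have : max 0 (min 1 b) ≤ max 0 (min 1 a) := max_le_max le_rfl (min_le_min le_rfl h)
    linarith
  · rcases le_total 1 a with h1 | h1 <;> rcases le_total 1 b with h2 | h2 <;>
      rcases le_total 0 a with h3 | h3 <;> rcases le_total 0 b with h4 | h4 <;>
      simp [h1, h2, h3, h4] <;> linarith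

lemma U_diff {m : ℕ} (hm : (0 : ℝ) < m) (ρ : ℝ) :
    0 ≤ U m ρ - U m (ρ - 2) ∧ U m ρ - U m (ρ - 2) ≤ 2 * (m : ℝ) ^ 361 / (m : ℝ) ^ 800 := by
  have h8 : (0 : ℝ) < (m : ℝ) ^ 800 := by positivity
  have h := clamp_lip (a := (ρ - (m : ℝ) ^ 800) / (m : ℝ) ^ 800)
    (b := (ρ - 2 - (m : ℝ) ^ 800) / (m : ℝ) ^ 800)
    (div_le_div_of_nonneg_right (by linarith) h8.le)
  have e : (ρ - (m : ℝ) ^ 800) / (m : ℝ) ^ 800 - (ρ - 2 - (m : ℝ) ^ 800) / (m : ℝ) ^ 800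
      = 2 / (m : ℝ) ^ 800 := by
    rw [← sub_div]; congr 1; ring
  rw [e] at h
  have e2 : U m ρ - U m (ρ - 2) = (m : ℝ) ^ 361 *
      (max 0 (min 1 ((ρ - (m : ℝ) ^ 800) / (m : ℝ) ^ 800))
        - max 0 (min 1 ((ρ - 2 - (m : ℝ) ^ 800) / (m : ℝ) ^ 800))) := by
    unfold U; ring
  rw [e2]
  constructor
  · exact mul_nonneg (by positivity) h.1
  · calc _ ≤ (m : ℝ) ^ 361 * (2 / (m : ℝ) ^ 800) := mul_le_mul_of_nonneg_left h.2 (by positivity)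
      _ = _ := by ring

lemma U_const {m : ℕ} (hm : (0 : ℝ) < m) {ρ : ℝ} (h : 2 * (m : ℝ) ^ 800 ≤ ρ - 2) :
    U m ρ = U m (ρ - 2) := by
  have h8 : (0 : ℝ) < (m : ℝ) ^ 800 := by positivity
  unfold U
  rw [min_eq_left, min_eq_left]
  · rw [le_div_iff₀ h8]; linarith
  · rw [le_div_iff₀ h8]; linarith

/-! ### bounds of the weights -/

section
variable {ι : Type} [Fintype ι] [DecidableEq ι]

lemma W_bounds {d m : ℕ} {γ : ℝ} {F : Finset ι} {K : Bool → Matrix ι ι ℝ} {S : Finset (ι × ι)}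
    (hC : Ctx d m γ F K S) (Θ : ι → ι → ℝ) (hΘ : ∀ p ∈ S, |Θ p.1 p.2| ≤ 1 / 8)
    {M : ℝ} (hbad : (((F ×ˢ F) \ S).card : ℝ) ≤ M * F.card) (hbig : 4 * M ≤ F.card) :
    (F.card : ℝ) ^ 2 / 2 ≤ ∑ p ∈ S, (1 - Θ p.1 p.2) ∧
      ∑ p ∈ S, (1 - Θ p.1 p.2) ≤ 2 * (F.card : ℝ) ^ 2 := by
  have hρ0 : (0 : ℝ) ≤ F.card := Nat.cast_nonneg _
  have hc : (S.card : ℝ) + (((F ×ˢ F) \ S).card : ℝ) = (F.card : ℝ) ^ 2 := by
    have h1 := Finset.card_sdiff_add_card_eq_card hC.sub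
    rw [Finset.card_product] at h1
    have h2 : ((((F ×ˢ F) \ S).card + S.card : ℕ) : ℝ) = ((F.card * F.card : ℕ) : ℝ) := by
      rw [h1]
    push_cast at h2
    linarith
  have hb0 : (0 : ℝ) ≤ (((F ×ˢ F) \ S).card : ℝ) := Nat.cast_nonneg _
  have h1 : ∑ p ∈ S, (1 - Θ p.1 p.2) ≤ ∑ p ∈ S, (9 / 8 : ℝ) :=
    Finset.sum_le_sum fun p hp => by linarith [(abs_le.mp (hΘ p hp)).1]
  have h2 : ∑ p ∈ S, (7 / 8 : ℝ) ≤ ∑ p ∈ S, (1 - Θ p.1 p.2) :=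
    Finset.sum_le_sum fun p hp => by linarith [(abs_le.mp (hΘ p hp)).2]
  rw [Finset.sum_const, nsmul_eq_mul] at h1 h2
  constructor
  · nlinarith
  · nlinarith

/-- passing from the weighted sum to the increment -/
lemma inc_of {S : Finset (ι × ι)} {Θ : ι → ι → ℝ} {f' : ι → ι → ℝ} {f a W ρ : ℝ}
    (hW : W = ∑ p ∈ S, (1 - Θ p.1 p.2))
    (h : ∑ p ∈ S, (1 - Θ p.1 p.2) * f' p.1 p.2 ≤ W * (f + a)) (ha : 0 ≤ a)
    (hW3 : W ≤ 2 * ρ ^ 2) : inc S Θ f' f ≤ 2 * ρ ^ 2 * a := by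
  have e : inc S Θ f' f = ∑ p ∈ S, (1 - Θ p.1 p.2) * f' p.1 p.2 - W * f := by
    unfold inc
    rw [hW, Finset.sum_mul, ← Finset.sum_sub_distrib]
    exact Finset.sum_congr rfl fun p _ => by ring
  rw [e]
  have h1 : W * a ≤ 2 * ρ ^ 2 * a := mul_le_mul_of_nonneg_right hW3 ha
  linarith

/-- facts on the size of `m` -/
lemma prm_m {d n m : ℕ} (hp : Prm d n m) :
    (10 : ℝ) ^ 10 ≤ m ∧ 100 * (d : ℝ) ^ 2 ≤ m ∧ (1 : ℝ) ≤ d := by
  have hd : (3 : ℝ) ≤ d := by exact_mod_cast hp.hd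
  have h1 : (1 : ℝ) ≤ (d : ℝ) ^ 10 := one_le_pow₀ (by linarith)
  have h2 : (d : ℝ) ^ 2 ≤ (d : ℝ) ^ 10 := pow_le_pow_right₀ (by linarith) (by norm_num)
  have h3 := hp.hm
  refine ⟨?_, ?_, by linarith⟩
  · nlinarith
  · nlinarith

/-- numerical hypotheses of stage 1 -/
lemma hyp1 {d n m : ℕ} {γ : ℝ} {F : Finset ι} {K : Bool → Matrix ι ι ℝ} {S : Finset (ι × ι)}
    {Θ : ι → ι → ℝ} (hp : Prm d n m) (hC : Ctx d m γ F K S) (hB : Box1 d n m F K)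
    (hT : Tilt1 d n m F K S Θ) (b : Bool) :
    Hyp (K b) F (Mach.sg b : ℝ) S Θ (√(F.card : ℝ)) (3 * ((d : ℝ) - 1) ^ 2 * n)
      ((m : ℝ) ^ 1002 / √(F.card : ℝ)) ((m : ℝ) ^ 5) ((m : ℝ) ^ 305) (m * √(F.card : ℝ))
      ((m : ℝ) ^ 964 / √(F.card : ℝ)) (F.card : ℝ) (∑ p ∈ S, (1 - Θ p.1 p.2)) := by
  obtain ⟨hm, hd2, hd1⟩ := prm_m hp
  have hm1 : (1 : ℝ) ≤ m := le_trans (by norm_num) hm
  have hm0 : (0 : ℝ) < m := by linarith
  have hpp : ∀ k : ℕ, (0 : ℝ) < (m : ℝ) ^ k := fun k => pow_pos hm0 k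
  have h8 := hB.rho_ge
  have hρ0 : (0 : ℝ) < F.card := by have := hpp 800; linarith
  have hsq : √(F.card : ℝ) ^ 2 = F.card := Real.sq_sqrt hρ0.le
  have hs0 : 0 < √(F.card : ℝ) := Real.sqrt_pos.mpr hρ0
  have hn0 : (0 : ℝ) ≤ n := Nat.cast_nonneg _
  have hr1 : 0 ≤ r1 d n m := by unfold r1; positivity
  have hΘ8 : ∀ p ∈ S, |Θ p.1 p.2| ≤ 1 / 8 := fun p _ => by
    refine (hT.abs_le p.1 p.2).trans ?_
    apply one_div_le_one_div_of_le (by norm_num)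
    exact le_trans (by norm_num) hm
  have hbad : (((F ×ˢ F) \ S).card : ℝ) ≤ m * F.card :=
    hC.bad.trans (mul_le_mul_of_nonneg_right hd2 hρ0.le)
  have hm800 : 4 * (m : ℝ) ≤ (m : ℝ) ^ 800 := by
    calc 4 * (m : ℝ) ≤ m * m := mul_le_mul_of_nonneg_right (by linarith) hm0.le
      _ = (m : ℝ) ^ 2 := by ring
      _ ≤ _ := pow_le_pow_right₀ hm1 (by norm_num)
  have hWb := W_bounds hC Θ hΘ8 hbad (by linarith)
  exact
  { hs := sg_sq b
    symm := hC.symm b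
    dead := hC.dead b
    row := hC.row b
    sub := hC.sub
    ne := hC.ne
    kxy := fun p hp => (hC.good1 p hp b).trans (by norm_num)
    kab := fun p hp => (hC.good2 p hp b).trans (by norm_num)
    th := fun p hp => (hΘ8 p hp).trans (by norm_num)
    th2 := by
      have h1 : ∑ p ∈ S, Θ p.1 p.2 ^ 2 ≤ ∑ x, ∑ y, Θ x y ^ 2 := by
        rw [← Fintype.sum_prod_type' (fun x y => Θ x y ^ 2)]
        exact Finset.sum_le_univ_sum_of_nonneg fun p => sq_nonneg _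
      refine h1.trans ?_
      rw [div_pow, hsq, le_div_iff₀ hρ0, ← pow_mul]
      exact hT.frob
    x20 := hs0.le
    x40 := by positivity
    v0 := by positivity
    ω0 := by positivity
    β0 := by positivity
    t0 := by positivity
    X2 := by rw [hsq]; have := hB.X2u b; linarith
    X3 := by
      rw [abs_of_nonneg]
      · exact hB.X3u b
      · exact le_trans (by positivity) (hB.X3l b)
    X4 := by
      rw [div_pow, hsq, le_div_iff₀ hρ0, ← pow_mul]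
      exact (hB.X4u b).trans (pow_le_pow_right₀ hm1 (by norm_num))
    V := by
      rw [← pow_mul]
      exact (hB.Vu b).trans (pow_le_pow_right₀ hm1 (by norm_num))
    Ω := by
      rw [← pow_mul]
      exact hB.Wu b
    card := by
      rw [mul_pow, hsq]
      refine hbad.trans (mul_le_mul_of_nonneg_right ?_ hρ0.le)
      nlinarith
    hρ := rfl
    ρ0 := hρ0
    hW := rfl
    W2 := hWb.1
    W3 := hWb.2 }

lemma sqrt1 {d n m : ℕ} {F : Finset ι} {K : Bool → Matrix ι ι ℝ} (hp : Prm d n m)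
    (hB : Box1 d n m F K) :
    (m : ℝ) ^ 400 ≤ √(F.card : ℝ) ∧ √(F.card : ℝ) ^ 2 ≤ (m : ℝ) ^ 1001 ∧
      3 * ((d : ℝ) - 1) ^ 2 * n ≤ (m : ℝ) ^ 1001 := by
  obtain ⟨hm, hd2, hd1⟩ := prm_m hp
  have hm0 : (0 : ℝ) < m := lt_of_lt_of_le (by norm_num) hm
  have h8 := hB.rho_ge
  have hn := hp.hn2
  have hn0 : (0 : ℝ) ≤ n := Nat.cast_nonneg _
  have h1000 : (0 : ℝ) < (m : ℝ) ^ 1000 := by positivity
  refine ⟨?_, ?_, ?_⟩
  · apply Real.le_sqrt_of_sq_le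
    have e : ((m : ℝ) ^ 400) ^ 2 = (m : ℝ) ^ 800 := by rw [← pow_mul]
    rw [e]
    linarith
  · rw [Real.sq_sqrt (Nat.cast_nonneg _)]
    refine hB.rho_le.trans ?_
    calc (n : ℝ) * d ≤ (2 * (m : ℝ) ^ 1000) * d := mul_le_mul_of_nonneg_right hn (by linarith)
      _ = (2 * d) * (m : ℝ) ^ 1000 := by ring
      _ ≤ m * (m : ℝ) ^ 1000 := by
          apply mul_le_mul_of_nonneg_right _ h1000.le
          nlinarith
      _ = _ := by ring
  · have h1 : ((d : ℝ) - 1) ^ 2 ≤ (d : ℝ) ^ 2 := by nlinarith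
    calc 3 * ((d : ℝ) - 1) ^ 2 * n ≤ 3 * (d : ℝ) ^ 2 * (2 * (m : ℝ) ^ 1000) := by gcongr
      _ = (6 * (d : ℝ) ^ 2) * (m : ℝ) ^ 1000 := by ring
      _ ≤ m * (m : ℝ) ^ 1000 := by
          apply mul_le_mul_of_nonneg_right _ h1000.le
          nlinarith
      _ = _ := by ring

lemma gap_even {a k : ℕ} (ha : Even a) (h : 2 * k < a) : 2 * k + 2 ≤ a := by
  obtain ⟨c, rfl⟩ := ha; omega

lemma gap_real' {a k : ℕ} (ha : Even a) (h : 2 * (k : ℝ) < (a : ℝ)) :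
    2 * (k : ℝ) ≤ (a : ℝ) - 2 := by
  have h1 : 2 * k < a := by exact_mod_cast h
  have h2 := gap_even ha h1
  have h3 : 2 * (k : ℝ) + 2 ≤ (a : ℝ) := by exact_mod_cast h2
  linarith

lemma gap_real {a m j : ℕ} (ha : Even a) (h : 2 * (m : ℝ) ^ j < (a : ℝ)) :
    2 * (m : ℝ) ^ j ≤ (a : ℝ) - 2 := by
  have e : ((m ^ j : ℕ) : ℝ) = (m : ℝ) ^ j := Nat.cast_pow m j
  rw [← e] at h ⊢
  exact gap_real' ha h

/-- **stage 1, upper potential of `X_1`** -/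
theorem s1x1u : S1X1u ι := by
  intro d n m γ F K S Θ hp hC hB hT b
  obtain ⟨hm, hd2, hd1⟩ := prm_m hp
  have hm1 : (1 : ℝ) ≤ m := le_trans (by norm_num) hm
  have hm0 : (0 : ℝ) < m := by linarith
  have hpp : ∀ k : ℕ, (0 : ℝ) < (m : ℝ) ^ k := fun k => pow_pos hm0 k
  have hy := hyp1 hp hC hB hT b
  obtain ⟨hr1, hr2, hx3⟩ := sqrt1 hp hB
  have hρ0 : (0 : ℝ) < F.card := hy.ρ0
  have hsq : √(F.card : ℝ) ^ 2 = F.card := Real.sq_sqrt hρ0.le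
  have hUd := U_diff hm0 (F.card : ℝ)
  have hr10 : 0 ≤ r1 d n m := by unfold r1; positivity
  have hD2 : (U m ((F.card : ℝ) - 2) - U m F.card) ^ 2 ≤ 4 * (m : ℝ) ^ 722 / (m : ℝ) ^ 1600 := by
    have h1 : (U m ((F.card : ℝ) - 2) - U m F.card) ^ 2
        ≤ (2 * (m : ℝ) ^ 361 / (m : ℝ) ^ 800) ^ 2 := by
      apply sq_le_sq'
      · linarith [hUd.2]
      · have : 0 ≤ 2 * (m : ℝ) ^ 361 / (m : ℝ) ^ 800 := by positivity
        linarith [hUd.1]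
    refine h1.trans (le_of_eq ?_)
    rw [div_pow]; ring
  have hnum := num1 (c := 0) (D := U m ((F.card : ℝ) - 2) - U m F.card) hm hr1 hr2 rfl rfl rfl rfl
    hx3 (hpp 1010).le hD2
  rw [hsq] at hnum
  have hw0 := hpp 335
  have hP : (max ((K b).trace - U m F.card) 0) ^ 2 / ((m : ℝ) ^ 335) ^ 2 ≤ 1 := by
    rw [div_le_one (by positivity)]
    apply pow_le_pow_left₀ (le_max_right _ _)
    apply max_le _ hw0.le
    have := hB.X1u b
    linarith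
  have hX2 : U m F.card < (K b).trace → (K b ^ 2).trace ≤ F.card := fun _ => by
    have := hB.X2u b
    linarith
  have hW3 := hy.W3
  have fin : ∀ G : ℝ, 0 ≤ G → (U m F.card < (K b).trace →
        G ≤ 2 * (Mach.sg b : ℝ) * ∑ p ∈ S, Θ p.1 p.2 * (K b ^ 2) p.1 p.2) →
      U m F.card - U m ((F.card : ℝ) - 2) ≤ G / (2 * (F.card : ℝ) ^ 2) →
      inc S Θ (fun x y => p1X1u m ((F.card : ℝ) - 2) (nx b K x y).trace)
        (p1X1u m F.card (K b).trace) ≤ F.card / (m : ℝ) ^ 2 := by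
    intro G hG0 hG hΔ
    have key := upper_step hy hw0 (U_nonneg m F.card) hX2 hG hG0 hΔ hP
    have hη : 0 ≤ etaT √(F.card : ℝ) (3 * ((d : ℝ) - 1) ^ 2 * n)
        ((m : ℝ) ^ 1002 / √(F.card : ℝ)) ((m : ℝ) ^ 5) ((m : ℝ) ^ 305) (m * √(F.card : ℝ))
        ((m : ℝ) ^ 964 / √(F.card : ℝ)) (F.card : ℝ) := by
      unfold etaT
      have := hy.E1n; have := hy.X3n
      positivity
    have hν : 0 ≤ nuT ((m : ℝ) ^ 1002 / √(F.card : ℝ)) ((m : ℝ) ^ 5) ((m : ℝ) ^ 305)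
        (F.card : ℝ) (U m ((F.card : ℝ) - 2) - U m F.card) := by
      exact nuT_nonneg _ _ _ _ _
    have e670 : (m : ℝ) ^ 670 = ((m : ℝ) ^ 335) ^ 2 := by rw [← pow_mul]
    have h1 : inc S Θ (fun x y => p1X1u m ((F.card : ℝ) - 2) (nx b K x y).trace)
        (p1X1u m F.card (K b).trace) ≤ 2 * (F.card : ℝ) ^ 2 * ((2 * (m : ℝ) ^ 335
          * etaT √(F.card : ℝ) (3 * ((d : ℝ) - 1) ^ 2 * n)
            ((m : ℝ) ^ 1002 / √(F.card : ℝ)) ((m : ℝ) ^ 5) ((m : ℝ) ^ 305) (m * √(F.card : ℝ))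
            ((m : ℝ) ^ 964 / √(F.card : ℝ)) (F.card : ℝ)
          + nuT ((m : ℝ) ^ 1002 / √(F.card : ℝ)) ((m : ℝ) ^ 5) ((m : ℝ) ^ 305)
            (F.card : ℝ) (U m ((F.card : ℝ) - 2) - U m F.card)) / ((m : ℝ) ^ 335) ^ 2) := by
      apply inc_of rfl _ (by positivity) hW3
      unfold p1X1u nx
      rw [e670]
      exact key
    refine h1.trans ?_
    refine le_trans (le_of_eq ?_) hnum
    unfold etaT nuT
    congr 4
    · ring
  by_cases hcase : (F.card : ℝ) ≤ 2 * (m : ℝ) ^ 800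
  · apply fin (16 * (m : ℝ) ^ 1161) (by positivity)
    · intro h
      exact hT.gain b hcase h
    · refine hUd.2.trans ?_
      rw [div_le_div_iff₀ (hpp 800) (by positivity)]
      have h1 : (F.card : ℝ) ^ 2 ≤ (2 * (m : ℝ) ^ 800) ^ 2 := pow_le_pow_left₀ hρ0.le hcase 2
      calc 2 * (m : ℝ) ^ 361 * (2 * (F.card : ℝ) ^ 2)
          ≤ 2 * (m : ℝ) ^ 361 * (2 * (2 * (m : ℝ) ^ 800) ^ 2) := by gcongr
        _ = 16 * (m : ℝ) ^ 1161 * (m : ℝ) ^ 800 := by ring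
  · push Not at hcase
    have h3 : 2 * (m : ℝ) ^ 800 ≤ (F.card : ℝ) - 2 := gap_real hC.even hcase
    apply fin 0 le_rfl
    · intro _
      have : ∑ p ∈ S, Θ p.1 p.2 * (K b ^ 2) p.1 p.2 = 0 :=
        Finset.sum_eq_zero fun p _ => by rw [hT.off hcase, zero_mul]
      rw [this, mul_zero]
    · rw [U_const hm0 h3]
      simp

/-- **stage 1, lower potential of `X_1`** -/
theorem s1x1l : S1X1l ι := by
  intro d n m γ F K S Θ hp hC hB hT b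
  obtain ⟨hm, hd2, hd1⟩ := prm_m hp
  have hm1 : (1 : ℝ) ≤ m := le_trans (by norm_num) hm
  have hm0 : (0 : ℝ) < m := by linarith
  have hpp : ∀ k : ℕ, (0 : ℝ) < (m : ℝ) ^ k := fun k => pow_pos hm0 k
  have hy := hyp1 hp hC hB hT b
  obtain ⟨hr1, hr2, hx3⟩ := sqrt1 hp hB
  have hρ0 : (0 : ℝ) < F.card := hy.ρ0
  have hsq : √(F.card : ℝ) ^ 2 = F.card := Real.sq_sqrt hρ0.le
  have hr10 : 0 ≤ r1 d n m := by unfold r1; positivity
  have hnum := num1 (c := (m : ℝ) ^ 1010) (D := 0) hm hr1 hr2 rfl rfl rfl rfl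
    hx3 le_rfl (by simp only [ne_eq, OfNat.ofNat_ne_zero, not_false_eq_true, zero_pow]; positivity)
  rw [hsq] at hnum
  have hw0 := hpp 335
  have hP : (max (-(K b).trace - 0) 0) ^ 2 / ((m : ℝ) ^ 335) ^ 2 ≤ 1 := by
    rw [div_le_one (by positivity)]
    apply pow_le_pow_left₀ (le_max_right _ _)
    apply max_le _ hw0.le
    have := hB.X1l b
    linarith
  have hX2 : 0 < -(K b).trace → (K b ^ 2).trace ≤ F.card := fun _ => by
    have := hB.X2u b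
    linarith
  have hG : 0 < -(K b).trace →
      2 * (Mach.sg b : ℝ) * ∑ p ∈ S, Θ p.1 p.2 * (K b ^ 2) p.1 p.2 ≤ (m : ℝ) ^ 1010 := by
    intro h
    apply hT.cross b
    have := U_nonneg m F.card
    linarith
  have key := lower_step hy hw0 le_rfl hX2 (hpp 1010).le hG hP
  have hη : 0 ≤ etaT √(F.card : ℝ) (3 * ((d : ℝ) - 1) ^ 2 * n)
      ((m : ℝ) ^ 1002 / √(F.card : ℝ)) ((m : ℝ) ^ 5) ((m : ℝ) ^ 305) (m * √(F.card : ℝ))
      ((m : ℝ) ^ 964 / √(F.card : ℝ)) (F.card : ℝ) := by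
    unfold etaT
    have := hy.E1n; have := hy.X3n
    positivity
  have hν : 0 ≤ nuT ((m : ℝ) ^ 1002 / √(F.card : ℝ)) ((m : ℝ) ^ 5) ((m : ℝ) ^ 305)
      (F.card : ℝ) 0 := by
    exact nuT_nonneg _ _ _ _ _
  have e670 : (m : ℝ) ^ 670 = ((m : ℝ) ^ 335) ^ 2 := by rw [← pow_mul]
  have h1 : inc S Θ (fun x y => p1X1l m (nx b K x y).trace)
      (p1X1l m (K b).trace) ≤ 2 * (F.card : ℝ) ^ 2 * ((2 * (m : ℝ) ^ 335
        * (etaT √(F.card : ℝ) (3 * ((d : ℝ) - 1) ^ 2 * n)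
          ((m : ℝ) ^ 1002 / √(F.card : ℝ)) ((m : ℝ) ^ 5) ((m : ℝ) ^ 305) (m * √(F.card : ℝ))
          ((m : ℝ) ^ 964 / √(F.card : ℝ)) (F.card : ℝ)
          + 2 * (m : ℝ) ^ 1010 / (F.card : ℝ) ^ 2)
        + nuT ((m : ℝ) ^ 1002 / √(F.card : ℝ)) ((m : ℝ) ^ 5) ((m : ℝ) ^ 305)
          (F.card : ℝ) 0) / ((m : ℝ) ^ 335) ^ 2) := by
    apply inc_of rfl _ (by positivity) hy.W3
    unfold p1X1l nx
    rw [e670]
    simpa only [sub_zero] using key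
  refine h1.trans ?_
  refine le_trans (le_of_eq ?_) hnum
  unfold etaT nuT
  rfl

/-- numerical hypotheses of stage 2 -/
lemma hyp2 {d n m : ℕ} {γ x0 : ℝ} {F : Finset ι} {K : Bool → Matrix ι ι ℝ} {S : Finset (ι × ι)}
    (hp : Prm d n m) (hC : Ctx d m γ F K S) (hB : Box2 d n m x0 F K) (b : Bool) :
    (m : ℝ) ^ 678 ≤ F.card ∧
    Hyp (K b) F (Mach.sg b : ℝ) S (fun _ _ => 0) (√(F.card : ℝ)) ((m : ℝ) ^ 1001)
      ((m : ℝ) ^ 1003 / √(F.card : ℝ)) ((m : ℝ) ^ 70) ((m : ℝ) ^ 342) (m * √(F.card : ℝ))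
      0 (F.card : ℝ) (∑ p ∈ S, (1 - (fun _ _ => (0 : ℝ)) p.1 p.2)) := by
  obtain ⟨hm, hd2, hd1⟩ := prm_m hp
  have hm1 : (1 : ℝ) ≤ m := le_trans (by norm_num) hm
  have hm0 : (0 : ℝ) < m := by linarith
  have hpp : ∀ k : ℕ, (0 : ℝ) < (m : ℝ) ^ k := fun k => pow_pos hm0 k
  have hd3 : (3 : ℝ) ≤ d := by exact_mod_cast hp.hd
  have hr1 : (m : ℝ) ^ 680 ≤ r1 d n m := by
    unfold r1
    rw [le_div_iff₀ (hpp 320)]
    calc (m : ℝ) ^ 680 * (m : ℝ) ^ 320 = (m : ℝ) ^ 1000 * 1 := by ring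
      _ ≤ (n : ℝ) * d := mul_le_mul hp.hn1 hd1 zero_le_one (Nat.cast_nonneg _)
  have hx0 : 1 / (m : ℝ) ≤ x0 := by
    have h1 := hB.x0_m
    have h2 := hB.x0_pos
    have h3 := hB.x0_le
    have h4 : x0 ^ 4 ≤ x0 := by
      calc x0 ^ 4 = x0 * x0 ^ 3 := by ring
        _ ≤ x0 * 1 := mul_le_mul_of_nonneg_left (pow_le_one₀ h2.le h3) h2.le
        _ = x0 := mul_one _
    rw [div_le_iff₀ hm0]
    nlinarith
  have hρr : r1 d n m / m ≤ F.card := by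
    have h1 := hB.rho_ge
    have h2 : r1 d n m / m ≤ x0 * r1 d n m := by
      have := mul_le_mul_of_nonneg_right hx0 (le_trans (hpp 680).le hr1)
      calc r1 d n m / m = 1 / (m : ℝ) * r1 d n m := by ring
        _ ≤ _ := this
    linarith
  have hρ679 : (m : ℝ) ^ 679 ≤ F.card := by
    refine le_trans ?_ hρr
    rw [le_div_iff₀ hm0]
    calc (m : ℝ) ^ 679 * m = (m : ℝ) ^ 680 := by ring
      _ ≤ _ := hr1
  have hρ678 : (m : ℝ) ^ 678 ≤ F.card :=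
    le_trans (pow_le_pow_right₀ hm1 (by norm_num)) hρ679
  refine ⟨hρ678, ?_⟩
  have hρ0 : (0 : ℝ) < F.card := lt_of_lt_of_le (hpp 678) hρ678
  have hsq : √(F.card : ℝ) ^ 2 = F.card := Real.sq_sqrt hρ0.le
  have hs0 : 0 < √(F.card : ℝ) := Real.sqrt_pos.mpr hρ0
  have hbad : (((F ×ˢ F) \ S).card : ℝ) ≤ m * F.card :=
    hC.bad.trans (mul_le_mul_of_nonneg_right hd2 hρ0.le)
  have hm678 : 4 * (m : ℝ) ≤ (m : ℝ) ^ 678 := by
    calc 4 * (m : ℝ) ≤ m * m := mul_le_mul_of_nonneg_right (by linarith) hm0.le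
      _ = (m : ℝ) ^ 2 := by ring
      _ ≤ _ := pow_le_pow_right₀ hm1 (by norm_num)
  have hWb := W_bounds hC (fun _ _ => (0 : ℝ)) (fun p _ => by norm_num) hbad (by linarith)
  have hX2 : (K b ^ 2).trace ≤ F.card := by
    refine (hB.X2u b).trans ?_
    have hr10 : 0 < r1 d n m := lt_of_lt_of_le (hpp 680) hr1
    have e : phi2 (r1 d n m) F.card = F.card
        - (F.card * (r1 d n m / 2)) / (F.card + r1 d n m / 2) := by
      unfold phi2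
      field_simp
      ring
    rw [e]
    have h1 : (m : ℝ) ^ 670 ≤ (F.card * (r1 d n m / 2)) / (F.card + r1 d n m / 2) := by
      rw [le_div_iff₀ (by positivity)]
      have h2 : 4 * (m : ℝ) ^ 670 ≤ r1 d n m := by
        calc 4 * (m : ℝ) ^ 670 ≤ m * (m : ℝ) ^ 670 :=
              mul_le_mul_of_nonneg_right (by linarith) (hpp _).le
          _ = (m : ℝ) ^ 671 := by ring
          _ ≤ (m : ℝ) ^ 680 := pow_le_pow_right₀ hm1 (by norm_num)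
          _ ≤ _ := hr1
      have h3 : 4 * (m : ℝ) ^ 670 ≤ F.card := by
        calc 4 * (m : ℝ) ^ 670 ≤ m * (m : ℝ) ^ 670 :=
              mul_le_mul_of_nonneg_right (by linarith) (hpp _).le
          _ = (m : ℝ) ^ 671 := by ring
          _ ≤ (m : ℝ) ^ 679 := pow_le_pow_right₀ hm1 (by norm_num)
          _ ≤ _ := hρ679
      nlinarith [hpp 670]
    linarith
  have hX3 : |(K b ^ 3).trace| ≤ (m : ℝ) ^ 1001 := by
    rw [abs_le]
    constructor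
    · have h1 := X3Low.ctx_X3_ge' hC b
      have h2 := hB.rho_le
      have h3 : (m : ℝ) ^ 800 + 2 ≤ (m : ℝ) ^ 1001 := by
        calc (m : ℝ) ^ 800 + 2 ≤ (m : ℝ) ^ 800 * m := by
              have : (1 : ℝ) ≤ (m : ℝ) ^ 800 := one_le_pow₀ hm1
              nlinarith
          _ = (m : ℝ) ^ 801 := by ring
          _ ≤ _ := pow_le_pow_right₀ hm1 (by norm_num)
      linarith
    · refine (hB.X3u b).trans ?_
      have h1 : ((d : ℝ) - 1) ^ 2 ≤ (d : ℝ) ^ 2 := by nlinarith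
      have hn0 : (0 : ℝ) ≤ n := Nat.cast_nonneg _
      have hn := hp.hn2
      calc 5 * ((d : ℝ) - 1) ^ 2 * n ≤ 5 * (d : ℝ) ^ 2 * (2 * (m : ℝ) ^ 1000) := by gcongr
        _ = (10 * (d : ℝ) ^ 2) * (m : ℝ) ^ 1000 := by ring
        _ ≤ m * (m : ℝ) ^ 1000 := by
            apply mul_le_mul_of_nonneg_right _ (hpp 1000).le
            nlinarith
        _ = _ := by ring
  exact
  { hs := sg_sq b
    symm := hC.symm b
    dead := hC.dead b
    row := hC.row b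
    sub := hC.sub
    ne := hC.ne
    kxy := fun p hp => (hC.good1 p hp b).trans (by norm_num)
    kab := fun p hp => (hC.good2 p hp b).trans (by norm_num)
    th := fun p hp => by norm_num
    th2 := by simp
    x20 := hs0.le
    x40 := by positivity
    v0 := by positivity
    ω0 := by positivity
    β0 := by positivity
    t0 := le_rfl
    X2 := by rw [hsq]; exact hX2
    X3 := hX3
    X4 := by
      rw [div_pow, hsq, le_div_iff₀ hρ0, ← pow_mul]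
      exact (hB.X4u b).trans (pow_le_pow_right₀ hm1 (by norm_num))
    V := by
      rw [← pow_mul]
      exact (hB.Vu b).trans (pow_le_pow_right₀ hm1 (by norm_num))
    Ω := by
      rw [← pow_mul]
      exact (hB.Wu b).trans (pow_le_pow_right₀ hm1 (by norm_num))
    card := by
      rw [mul_pow, hsq]
      refine hbad.trans (mul_le_mul_of_nonneg_right ?_ hρ0.le)
      nlinarith
    hρ := rfl
    ρ0 := hρ0
    hW := rfl
    W2 := hWb.1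
    W3 := hWb.2 }

lemma sq_split (x : ℝ) : x ^ 2 = (max (x - 0) 0) ^ 2 + (max (-x - 0) 0) ^ 2 := by
  rcases le_total 0 x with h | h
  · rw [sub_zero, sub_zero, max_eq_left h, max_eq_right (by linarith)]; ring
  · rw [sub_zero, sub_zero, max_eq_right h, max_eq_left (by linarith)]; ring

/-- **stage 2, potential of `X_1`** -/
theorem s2x1 : S2X1 ι := by
  intro d n m γ x0 F K S hp hC hB b
  obtain ⟨hm, hd2, hd1⟩ := prm_m hp
  have hm1 : (1 : ℝ) ≤ m := le_trans (by norm_num) hm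
  have hm0 : (0 : ℝ) < m := by linarith
  have hpp : ∀ k : ℕ, (0 : ℝ) < (m : ℝ) ^ k := fun k => pow_pos hm0 k
  obtain ⟨hρ678, hy⟩ := hyp2 hp hC hB b
  have hρ0 : (0 : ℝ) < F.card := hy.ρ0
  have hsq : √(F.card : ℝ) ^ 2 = F.card := Real.sq_sqrt hρ0.le
  have hr1 : (m : ℝ) ^ 339 ≤ √(F.card : ℝ) := by
    apply Real.le_sqrt_of_sq_le
    rw [← pow_mul]
    exact hρ678
  have hnum := num2 hm hr1 rfl rfl rfl rfl (le_refl ((m : ℝ) ^ 1001))
  rw [hsq] at hnum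
  have hw0 := hpp 336
  have hX1 := abs_le.mp (hB.X1 b)
  have hX2 : (K b ^ 2).trace ≤ F.card := by
    have := hy.X2
    rwa [hsq] at this
  have hz : 2 * (Mach.sg b : ℝ) * ∑ p ∈ S, (fun _ _ => (0 : ℝ)) p.1 p.2 * (K b ^ 2) p.1 p.2
      = 0 := by simp
  have key1 := upper_step hy (b := 0) (b' := 0) (G := 0) hw0 le_rfl (fun _ => hX2)
    (fun _ => by rw [hz]) le_rfl (by simp) (by
      rw [div_le_one (by positivity)]
      apply pow_le_pow_left₀ (le_max_right _ _)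
      apply max_le _ hw0.le
      linarith)
  have key2 := lower_step hy (b := 0) (c := 0) hw0 le_rfl (fun _ => hX2) le_rfl
    (fun _ => by rw [hz]) (by
      rw [div_le_one (by positivity)]
      apply pow_le_pow_left₀ (le_max_right _ _)
      apply max_le _ hw0.le
      linarith)
  obtain ⟨η, hηd⟩ : ∃ η, η = etaT √(F.card : ℝ) ((m : ℝ) ^ 1001)
      ((m : ℝ) ^ 1003 / √(F.card : ℝ)) ((m : ℝ) ^ 70) ((m : ℝ) ^ 342) (m * √(F.card : ℝ))
      0 (F.card : ℝ) := ⟨_, rfl⟩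
  obtain ⟨ν, hνd⟩ : ∃ ν, ν = nuT ((m : ℝ) ^ 1003 / √(F.card : ℝ)) ((m : ℝ) ^ 70)
      ((m : ℝ) ^ 342) (F.card : ℝ) 0 := ⟨_, rfl⟩
  have hη : 0 ≤ η := by
    rw [hηd]
    unfold etaT
    have := hy.E1n; have := hy.X3n
    positivity
  have hν : 0 ≤ ν := by
    rw [hνd]; exact nuT_nonneg _ _ _ _ _
  have e672 : (m : ℝ) ^ 672 = ((m : ℝ) ^ 336) ^ 2 := by rw [← pow_mul]
  rw [← hηd, show (0 : ℝ) - 0 = 0 by ring, ← hνd] at key1
  rw [← hηd, ← hνd] at key2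
  have h1 : inc S (fun _ _ => 0) (fun x y => p2X1 m (nx b K x y).trace)
      (p2X1 m (K b).trace) ≤ 2 * (F.card : ℝ) ^ 2 * (2 * ((2 * (m : ℝ) ^ 336
        * (η + 2 * 0 / (F.card : ℝ) ^ 2) + ν) / ((m : ℝ) ^ 336) ^ 2)) := by
    apply inc_of rfl _ (by positivity) hy.W3
    unfold p2X1 nx
    rw [e672]
    have e1 : ∀ x : ℝ, x ^ 2 / ((m : ℝ) ^ 336) ^ 2
        = (max (x - 0) 0) ^ 2 / ((m : ℝ) ^ 336) ^ 2
          + (max (-x - 0) 0) ^ 2 / ((m : ℝ) ^ 336) ^ 2 := fun x => by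
      rw [← add_div, ← sq_split]
    have e2 : ∀ p ∈ S, (1 - (fun _ _ => (0 : ℝ)) p.1 p.2) *
        ((upd (Mach.sg b : ℝ) (K b) p.1 p.2).trace ^ 2 / ((m : ℝ) ^ 336) ^ 2)
        = (1 - (fun _ _ => (0 : ℝ)) p.1 p.2) *
          ((max ((upd (Mach.sg b : ℝ) (K b) p.1 p.2).trace - 0) 0) ^ 2 / ((m : ℝ) ^ 336) ^ 2)
          + (1 - (fun _ _ => (0 : ℝ)) p.1 p.2) *
          ((max (-(upd (Mach.sg b : ℝ) (K b) p.1 p.2).trace - 0) 0) ^ 2
            / ((m : ℝ) ^ 336) ^ 2) := fun p _ => by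
      rw [e1, mul_add]
    rw [Finset.sum_congr rfl e2, Finset.sum_add_distrib, e1 (K b).trace]
    refine (add_le_add key1 key2).trans (le_of_eq ?_)
    ring
  refine h1.trans ?_
  have h2 : 2 * (F.card : ℝ) ^ 2 * ((2 * (m : ℝ) ^ 336
        * (η + 2 * 0 / (F.card : ℝ) ^ 2) + ν) / ((m : ℝ) ^ 336) ^ 2)
      ≤ F.card / (2 * (m : ℝ) ^ 2) := by
    refine le_trans (le_of_eq ?_) hnum
    rw [hηd, hνd]
    unfold etaT nuT
    rfl
  calc 2 * (F.card : ℝ) ^ 2 * (2 * ((2 * (m : ℝ) ^ 336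
        * (η + 2 * 0 / (F.card : ℝ) ^ 2) + ν) / ((m : ℝ) ^ 336) ^ 2))
      = 2 * (2 * (F.card : ℝ) ^ 2 * ((2 * (m : ℝ) ^ 336
        * (η + 2 * 0 / (F.card : ℝ) ^ 2) + ν) / ((m : ℝ) ^ 336) ^ 2)) := by ring
    _ ≤ 2 * (F.card / (2 * (m : ℝ) ^ 2)) := by linarith
    _ = F.card / (m : ℝ) ^ 2 := by field_simp

end

end Crest.Agent.R62.MainX1
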