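import Crest.Agent.R62.Start
import Crest.Agent.R62.StepDefs
import Crest.Agent.R62.CtxReal
import Crest.Agent.R062.MachPar

/-!
R62 (helper644): the stage 1 potential at the start.
-/

set_option autoImplicit false
set_option linter.unusedSectionVars false
set_option linter.unusedVariables false

open Matrix Finset

namespace Crest.Agent.R62.StartPhi

open Crest.Agent.R62.Step Crest.Agent.R62.Start Crest.Agent.R062
open Crest.Agent.R62.AvX1 (Vf Wf)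

lemma sg_sq (b : Bool) : (Mach.sg b : ℝ) ^ 2 = 1 := by cases b <;> simp [Mach.sg]
lemma sg_le (b : Bool) : (Mach.sg b : ℝ) ≤ 1 := by cases b <;> simp [Mach.sg]
lemma le_sg (b : Bool) : -1 ≤ (Mach.sg b : ℝ) := by cases b <;> simp [Mach.sg]

/-- numerical facts -/
structure Q (d n m : ℕ) (δ : ℝ) : Prop where
  hd : 3 ≤ d
  D3 : (3 : ℝ) ≤ d
  M3 : (10 : ℝ) ^ 10 * (d : ℝ) ^ 3 ≤ m
  Mb : (10 : ℝ) ^ 11 ≤ m
  n0 : 0 < n
  n1 : (m : ℝ) ^ 1000 ≤ n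
  n2 : (n : ℝ) ≤ 2 * (m : ℝ) ^ 1000
  nM : (m : ℝ) ≤ n
  δ0 : 0 < δ
  δ1 : δ ≤ 1 / 100
  /-- `δ n ≥ m` -/
  δn : (m : ℝ) ≤ δ * n
  /-- `δ² n = n / m^640` -/
  δ2 : (m : ℝ) ≤ δ ^ 2 * n
  δ2' : δ ^ 2 * n ≤ 2 * (m : ℝ) ^ 360
  r1_eq : r1 d n m = δ * (n * d)

lemma q_of {d n m : ℕ} (h : Prm d n m) : Q d n m (1 / (m : ℝ) ^ 320) := by
  have hd := h.hd
  have D3 : (3 : ℝ) ≤ d := by exact_mod_cast hd
  have hm := h.hm
  have h3 : (d : ℝ) ^ 3 ≤ (d : ℝ) ^ 10 := pow_le_pow_right₀ (by linarith) (by norm_num)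
  have M3 : (10 : ℝ) ^ 10 * (d : ℝ) ^ 3 ≤ m := by linarith
  have h27 : (27 : ℝ) ≤ (d : ℝ) ^ 3 := by
    calc (27 : ℝ) = 3 ^ 3 := by norm_num
      _ ≤ _ := pow_le_pow_left₀ (by norm_num) D3 3
  have Mb : (10 : ℝ) ^ 11 ≤ m := by linarith
  have M1 : (1 : ℝ) ≤ m := by linarith
  have M0 : (0 : ℝ) < m := by linarith
  have hp : ∀ k : ℕ, (0 : ℝ) < (m : ℝ) ^ k := fun k => pow_pos M0 k
  have hn1 := h.hn1
  have nM : (m : ℝ) ≤ n := le_trans (by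
    calc (m : ℝ) = (m : ℝ) ^ 1 := (pow_one _).symm
      _ ≤ _ := pow_le_pow_right₀ M1 (by norm_num)) hn1
  have n0 : 0 < n := by
    have : (0 : ℝ) < n := by linarith
    exact_mod_cast this
  have δ1 : 1 / (m : ℝ) ^ 320 ≤ 1 / 100 := by
    refine div_le_div_of_nonneg_left (by norm_num) (by norm_num) ?_
    calc (100 : ℝ) ≤ m := by linarith
      _ = (m : ℝ) ^ 1 := (pow_one _).symm
      _ ≤ _ := pow_le_pow_right₀ M1 (by norm_num)
  have e2 : (1 / (m : ℝ) ^ 320) ^ 2 = 1 / (m : ℝ) ^ 640 := by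
    rw [div_pow, one_pow, ← pow_mul]
  refine ⟨hd, D3, M3, Mb, n0, hn1, h.hn2, nM, by have := hp 320; positivity, δ1, ?_, ?_, ?_, ?_⟩
  · rw [one_div_mul_eq_div, le_div_iff₀ (hp 320)]
    calc (m : ℝ) * (m : ℝ) ^ 320 = (m : ℝ) ^ 321 := by rw [← pow_succ']
      _ ≤ (m : ℝ) ^ 1000 := pow_le_pow_right₀ M1 (by norm_num)
      _ ≤ n := hn1
  · rw [e2, one_div_mul_eq_div, le_div_iff₀ (hp 640)]
    calc (m : ℝ) * (m : ℝ) ^ 640 = (m : ℝ) ^ 641 := by rw [← pow_succ']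
      _ ≤ (m : ℝ) ^ 1000 := pow_le_pow_right₀ M1 (by norm_num)
      _ ≤ n := hn1
  · rw [e2, one_div_mul_eq_div, div_le_iff₀ (hp 640), mul_assoc, ← pow_add]
    exact h.hn2
  · unfold r1
    ring

section
variable {d n m : ℕ} {δ : ℝ} (q : Q d n m δ)
include q

lemma Q.M1 : (1 : ℝ) ≤ m := by have := q.Mb; linarith
lemma Q.M0 : (0 : ℝ) < m := by have := q.Mb; linarith
lemma Q.D2 : (d : ℝ) ^ 2 ≤ (d : ℝ) ^ 3 := pow_le_pow_right₀ (by have := q.D3; linarith) (by norm_num)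
lemma Q.D1 : (d : ℝ) ≤ (d : ℝ) ^ 3 := by
  calc (d : ℝ) = (d : ℝ) ^ 1 := (pow_one _).symm
    _ ≤ _ := pow_le_pow_right₀ (by have := q.D3; linarith) (by norm_num)

lemma Q.sqrt_le : Real.sqrt ((d : ℝ) - 1) ≤ d := by
  have h3 := q.D3
  exact Real.sqrt_le_iff.2 ⟨by linarith, by nlinarith⟩
lemma Q.le_sqrt : 1 ≤ Real.sqrt ((d : ℝ) - 1) := by
  have h3 := q.D3
  exact Real.one_le_sqrt.2 (by linarith)

lemma Q.X1u (b : Bool) : (KS d δ n (Mach.sg b)).trace ≤ (m : ℝ) ^ 361 := by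
  have h := X1_le d q.hd δ q.δ0.le (by have := q.δ1; linarith) n q.n0 _ (sg_le b)
  have h1 := q.sqrt_le
  have h2 := q.δ2'
  have h3 := q.M3
  have h4 := q.D1
  have hD := q.D3
  have h5 : 0 ≤ δ ^ 2 * n := le_trans q.M0.le q.δ2
  have h6 : Real.sqrt ((d : ℝ) - 1) * (δ ^ 2 * n) ≤ d * (2 * (m : ℝ) ^ 360) :=
    mul_le_mul h1 h2 h5 (by linarith)
  have h7 : (m : ℝ) ^ 361 = m * (m : ℝ) ^ 360 := pow_succ' _ _
  have h8 : (1 : ℝ) ≤ (m : ℝ) ^ 360 := one_le_pow₀ q.M1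
  have h9 : (1 + 6 * (d : ℝ)) * (m : ℝ) ^ 360 ≤ m * (m : ℝ) ^ 360 :=
    mul_le_mul_of_nonneg_right (by linarith) (by linarith)
  rw [h7]
  linarith

lemma Q.X1l (b : Bool) : 0 ≤ (KS d δ n (Mach.sg b)).trace := by
  have h := le_X1 d q.hd δ q.δ0.le (by have := q.δ1; linarith) n q.n0 _ (le_sg b)
  have h1 := q.le_sqrt
  have h2 := q.δ2
  have h3 := q.Mb
  have h4 : Real.sqrt ((d : ℝ) - 1) * 4 ≤ Real.sqrt ((d : ℝ) - 1) * (δ ^ 2 * n) :=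
    mul_le_mul_of_nonneg_left (by linarith) (by linarith)
  linarith

lemma Q.X2u (b : Bool) : (KS d δ n (Mach.sg b) ^ 2).trace ≤ n * d - r1 d n m := by
  have h := X2_le d q.hd δ q.δ0.le (by have := q.δ1; linarith) n q.n0 _ (sg_sq b)
  rw [q.r1_eq]
  have h1 := q.δ1
  have h2 := q.δn
  have h3 := q.D3
  have h4 := q.Mb
  have h5 : (1000 : ℝ) ≤ δ * (n * d) := by nlinarith
  have h6 : δ * (δ * (n * d)) ≤ 1 / 100 * (δ * (n * d)) :=
    mul_le_mul_of_nonneg_right h1 (by linarith)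
  nlinarith

lemma Q.X2l (b : Bool) : n * d - 3 * r1 d n m ≤ (KS d δ n (Mach.sg b) ^ 2).trace := by
  have h := le_X2 d q.hd δ q.δ0.le (by have := q.δ1; linarith) n q.n0 _ (sg_sq b)
  rw [q.r1_eq]
  have h2 := q.δn
  have h3 := q.D3
  have h4 := q.Mb
  have h5 : (d : ℝ) ≤ δ * (n * d) := by nlinarith
  nlinarith

lemma Q.X3l (b : Bool) : 3 / 2 * (n : ℝ) ≤ (KS d δ n (Mach.sg b) ^ 3).trace := by
  have h := le_X3 d q.hd δ q.δ0.le (by have := q.δ1; linarith) n q.n0 _ (sg_le b) (le_sg b)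
  have h1 := q.δ1
  have h0 := q.δ0
  have h3 := q.D3
  have h4 := q.M3
  have h5 := q.D2
  have h6 := q.nM
  have e1 : 97 / 100 ≤ (1 - δ) ^ 3 := by nlinarith [sq_nonneg δ]
  have hn : (0 : ℝ) < n := by exact_mod_cast q.n0
  have e2 : 2 * (97 / 100) * (n : ℝ) ≤ 2 * (1 - δ) ^ 3 * n :=
    mul_le_mul_of_nonneg_right (by linarith) hn.le
  nlinarith

lemma Q.X3u (b : Bool) : (KS d δ n (Mach.sg b) ^ 3).trace ≤ 2 * ((d : ℝ) - 1) ^ 2 * n := by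
  have h := X3_le d q.hd δ q.δ0.le (by have := q.δ1; linarith) n q.n0 _ (sg_le b) (le_sg b)
  have h3 := q.D3
  have h6 := q.nM
  have h7 := q.Mb
  have h8 : (1 : ℝ) ≤ ((d : ℝ) - 1) ^ 2 := by nlinarith
  nlinarith

lemma Q.nD : (1 : ℝ) + n * (((d : ℝ) - 1) ^ 2 + 1) ≤ n * (d : ℝ) ^ 2 := by
  have h3 := q.D3
  have h6 := q.nM
  have h7 := q.Mb
  nlinarith

lemma Q.X4u (b : Bool) : (KS d δ n (Mach.sg b) ^ 4).trace * (n * d) / (m : ℝ) ^ 2003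
    ≤ 1 / (m : ℝ) ^ 2 := by
  have h := (X4_le d q.hd δ q.δ0.le (by have := q.δ1; linarith) n q.n0 _ (sg_sq b)).trans q.nD
  have h3 := q.D3
  have hM := q.M0
  have hn : (0 : ℝ) < n := by exact_mod_cast q.n0
  rw [div_le_div_iff₀ (pow_pos hM _) (pow_pos hM _), one_mul]
  have e1 : (KS d δ n (Mach.sg b) ^ 4).trace * (n * d) ≤ (n * (d : ℝ) ^ 2) * (n * d) :=
    mul_le_mul_of_nonneg_right h (by positivity)
  have e2 : (n * (d : ℝ) ^ 2) * (n * d) ≤ (2 * (m : ℝ) ^ 1000) * (2 * (m : ℝ) ^ 1000) * (d : ℝ) ^ 3 := by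
    have := mul_le_mul q.n2 q.n2 hn.le (by positivity)
    have h5 : (0 : ℝ) ≤ (d : ℝ) ^ 3 := by positivity
    calc (n * (d : ℝ) ^ 2) * (n * d) = ((n : ℝ) * n) * (d : ℝ) ^ 3 := by ring
      _ ≤ _ := mul_le_mul_of_nonneg_right this h5
  have e3 : (d : ℝ) ^ 3 * 4 ≤ m := by
    have := q.M3
    have h5 : (0 : ℝ) ≤ (d : ℝ) ^ 3 := by positivity
    linarith
  have e4 : (m : ℝ) ^ 2003 = (m : ℝ) ^ 1000 * (m : ℝ) ^ 1000 * m * (m : ℝ) ^ 2 := by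
    rw [← pow_add, ← pow_succ, ← pow_add]
  rw [e4]
  have e5 : (0 : ℝ) ≤ (m : ℝ) ^ 1000 * (m : ℝ) ^ 1000 := by positivity
  refine mul_le_mul_of_nonneg_right ?_ (by positivity)
  calc _ ≤ _ := e1
    _ ≤ _ := e2
    _ = ((m : ℝ) ^ 1000 * (m : ℝ) ^ 1000) * ((d : ℝ) ^ 3 * 4) := by ring
    _ ≤ _ := mul_le_mul_of_nonneg_left e3 e5

lemma Q.Mu : (KS d δ n (Mach.sg true) ^ 2 * KS d δ n (Mach.sg false) ^ 2).trace / (m : ℝ) ^ 1010
    ≤ 1 / (m : ℝ) ^ 2 := by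
  have h := (M22_le d q.hd δ q.δ0.le (by have := q.δ1; linarith) n q.n0 _ _ (sg_sq true)
    (sg_sq false)).trans q.nD
  have h3 := q.D3
  have hM := q.M0
  rw [div_le_div_iff₀ (pow_pos hM _) (pow_pos hM _), one_mul]
  have e3 : (d : ℝ) ^ 2 * 2 ≤ m := by
    have := q.M3
    have h5 : (0 : ℝ) ≤ (d : ℝ) ^ 3 := by positivity
    have := q.D2
    linarith
  have e4 : (m : ℝ) ^ 1010 = (m : ℝ) ^ 1000 * m * (m : ℝ) ^ 7 * (m : ℝ) ^ 2 := by
    rw [← pow_succ, ← pow_add, ← pow_add]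
  rw [e4]
  have h7 : (1 : ℝ) ≤ (m : ℝ) ^ 7 := one_le_pow₀ q.M1
  have e5 : (0 : ℝ) ≤ (m : ℝ) ^ 1000 := by positivity
  refine mul_le_mul_of_nonneg_right ?_ (by positivity)
  calc _ ≤ n * (d : ℝ) ^ 2 := h
    _ ≤ (2 * (m : ℝ) ^ 1000) * (d : ℝ) ^ 2 := mul_le_mul_of_nonneg_right q.n2 (by positivity)
    _ = (m : ℝ) ^ 1000 * ((d : ℝ) ^ 2 * 2) := by ring
    _ ≤ (m : ℝ) ^ 1000 * m := mul_le_mul_of_nonneg_left e3 e5
    _ ≤ _ := le_mul_of_one_le_right (by positivity) h7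

lemma Q.Vu (b : Bool) : Vf (KS d δ n (Mach.sg b)) / (m : ℝ) ^ 6 ≤ 1 / (m : ℝ) ^ 2 := by
  have h1 : Vf (KS d δ n (Mach.sg b)) = (KS d δ n (Mach.sg b)).trace ^ 2 / (n * d) :=
    V_eq d q.hd δ q.δ0.le (by have := q.δ1; linarith) n q.n0 _
  have hM := q.M0
  have h3 := q.D3
  have hn : (0 : ℝ) < n := by exact_mod_cast q.n0
  have h2 : Vf (KS d δ n (Mach.sg b)) ≤ 1 := by
    rw [h1, div_le_one (by positivity)]
    have h4 := pow_le_pow_left₀ (q.X1l b) (q.X1u b) 2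
    rw [← pow_mul] at h4
    have h5 : (m : ℝ) ^ (361 * 2) ≤ (m : ℝ) ^ 1000 := pow_le_pow_right₀ q.M1 (by norm_num)
    have h6 := q.n1
    have h7 : (n : ℝ) * 1 ≤ n * d := mul_le_mul_of_nonneg_left (by linarith) hn.le
    linarith
  rw [div_le_div_iff₀ (pow_pos hM _) (pow_pos hM _)]
  have h8 : (m : ℝ) ^ 2 ≤ (m : ℝ) ^ 6 := pow_le_pow_right₀ q.M1 (by norm_num)
  exact mul_le_mul h2 h8 (by positivity) (by norm_num)

lemma Q.W_eq (b : Bool) : Wf univ (KS d δ n (Mach.sg b))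
    = ((KS d δ n (Mach.sg b) ^ 2).trace - n * d) ^ 2 / (n * d) := by
  have hn : (0 : ℝ) < n := by exact_mod_cast q.n0
  have h3 := q.D3
  have hd : (0 : ℝ) < d := by linarith
  unfold Wf
  rw [Finset.sum_congr rfl fun i _ => by rw [KS_diag d q.hd δ n q.n0 (Mach.sg b) 2 i],
    Finset.sum_const, Finset.card_univ, Fintype.card_fin, nsmul_eq_mul]
  push_cast
  field_simp

lemma Q.Wu (b : Bool) : Wf univ (KS d δ n (Mach.sg b)) / (m : ℝ) ^ 610 ≤ 1 / (m : ℝ) ^ 2 := by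
  have hM := q.M0
  have h3 := q.D3
  have hn : (0 : ℝ) < n := by exact_mod_cast q.n0
  have hd : (0 : ℝ) < d := by linarith
  have h1 := q.X2u b
  have h2 := q.X2l b
  have hr : 0 ≤ r1 d n m := by rw [q.r1_eq]; have := q.δ0; positivity
  have h4 : ((KS d δ n (Mach.sg b) ^ 2).trace - n * d) ^ 2 ≤ (3 * r1 d n m) ^ 2 :=
    sq_le_sq' (by linarith) (by linarith)
  have h5 : Wf univ (KS d δ n (Mach.sg b)) ≤ 18 * d * (m : ℝ) ^ 360 := by
    rw [q.W_eq b, div_le_iff₀ (by positivity)]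
    refine h4.trans ?_
    rw [q.r1_eq]
    have h6 := q.δ2'
    calc (3 * (δ * (n * d))) ^ 2 = 9 * d * (δ ^ 2 * n) * (n * d) := by ring
      _ ≤ 9 * d * (2 * (m : ℝ) ^ 360) * (n * d) := by gcongr
      _ = _ := by ring
  rw [div_le_div_iff₀ (pow_pos hM _) (pow_pos hM _), one_mul]
  have e3 : 18 * (d : ℝ) ≤ m := by
    have := q.M3
    have := q.D1
    linarith
  calc Wf univ (KS d δ n (Mach.sg b)) * (m : ℝ) ^ 2 ≤ 18 * d * (m : ℝ) ^ 360 * (m : ℝ) ^ 2 :=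
        mul_le_mul_of_nonneg_right h5 (by positivity)
    _ ≤ m * (m : ℝ) ^ 360 * (m : ℝ) ^ 2 := by gcongr
    _ = (m : ℝ) ^ 363 := by rw [← pow_succ', ← pow_add]
    _ ≤ _ := pow_le_pow_right₀ q.M1 (by norm_num)

/-- **the potential at the start** -/
theorem Q.phi1 : Phi1 d n m univ (fun b => KS d δ n (Mach.sg b)) ≤ 1 / m := by
  have hM := q.M0
  have h3 := q.D3
  have hn : (0 : ℝ) < n := by exact_mod_cast q.n0
  have hc : ((univ : Finset (Fin (n * d))).card : ℝ) = n * d := by simp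
  have hnd : 2 * (m : ℝ) ^ 800 ≤ n * d := by
    have h1 : (m : ℝ) ^ 800 ≤ (m : ℝ) ^ 1000 := pow_le_pow_right₀ q.M1 (by norm_num)
    have h2 := q.n1
    nlinarith
  have hU : U m (n * d) = (m : ℝ) ^ 361 := by
    unfold U
    have h8 : (0 : ℝ) < (m : ℝ) ^ 800 := pow_pos hM _
    have h9 : (1 : ℝ) ≤ ((n : ℝ) * d - (m : ℝ) ^ 800) / (m : ℝ) ^ 800 := by
      rw [le_div_iff₀ h8]; linarith
    rw [min_eq_left h9, max_eq_right zero_le_one, mul_one]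
  have hpiece : ∀ b : Bool, p1X1u m (n * d) (KS d δ n (Mach.sg b)).trace
      + p1X1l m (KS d δ n (Mach.sg b)).trace
      + p1X2u (r1 d n m) (n * d) (KS d δ n (Mach.sg b) ^ 2).trace
      + p1X2l (r1 d n m) (n * d) (KS d δ n (Mach.sg b) ^ 2).trace
      + p1X3l n (KS d δ n (Mach.sg b) ^ 3).trace + p1X3u d n (KS d δ n (Mach.sg b) ^ 3).trace
      + p1X4 m (n * d) (KS d δ n (Mach.sg b) ^ 4).trace + p1V m (Vf (KS d δ n (Mach.sg b)))
      + p1W m (Wf univ (KS d δ n (Mach.sg b))) ≤ 3 / (m : ℝ) ^ 2 := by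
    intro b
    have a1 : p1X1u m (n * d) (KS d δ n (Mach.sg b)).trace = 0 := by
      unfold p1X1u
      rw [hU, max_eq_right (by have := q.X1u b; linarith)]; simp
    have a2 : p1X1l m (KS d δ n (Mach.sg b)).trace = 0 := by
      unfold p1X1l
      rw [max_eq_right (by have := q.X1l b; linarith)]; simp
    have a3 : p1X2u (r1 d n m) (n * d) (KS d δ n (Mach.sg b) ^ 2).trace = 0 := by
      unfold p1X2u
      rw [max_eq_right (by have := q.X2u b; linarith)]; simp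
    have a4 : p1X2l (r1 d n m) (n * d) (KS d δ n (Mach.sg b) ^ 2).trace = 0 := by
      unfold p1X2l
      rw [max_eq_right (by have := q.X2l b; linarith)]; simp
    have a5 : p1X3l n (KS d δ n (Mach.sg b) ^ 3).trace = 0 := by
      unfold p1X3l
      rw [max_eq_right (by have := q.X3l b; linarith)]; simp
    have a6 : p1X3u d n (KS d δ n (Mach.sg b) ^ 3).trace = 0 := by
      unfold p1X3u
      rw [max_eq_right (by have := q.X3u b; linarith)]; simp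
    have a7 : p1X4 m (n * d) (KS d δ n (Mach.sg b) ^ 4).trace ≤ 1 / (m : ℝ) ^ 2 := q.X4u b
    have a8 : p1V m (Vf (KS d δ n (Mach.sg b))) ≤ 1 / (m : ℝ) ^ 2 := q.Vu b
    have a9 : p1W m (Wf univ (KS d δ n (Mach.sg b))) ≤ 1 / (m : ℝ) ^ 2 := q.Wu b
    rw [a1, a2, a3, a4, a5, a6]
    have : 3 / (m : ℝ) ^ 2 = 1 / (m : ℝ) ^ 2 + 1 / (m : ℝ) ^ 2 + 1 / (m : ℝ) ^ 2 := by ring
    rw [this]
    linarith
  have hMM : p1M m (Mf (fun b => KS d δ n (Mach.sg b))) ≤ 1 / (m : ℝ) ^ 2 := q.Mu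
  unfold Phi1
  rw [hc]
  have h1 := hpiece true
  have h2 := hpiece false
  rw [Fintype.sum_bool]
  have h7 : 7 / (m : ℝ) ^ 2 ≤ 1 / m := by
    rw [div_le_div_iff₀ (by positivity) hM]
    have := q.Mb
    nlinarith
  have : 7 / (m : ℝ) ^ 2 = 3 / (m : ℝ) ^ 2 + 3 / (m : ℝ) ^ 2 + 1 / (m : ℝ) ^ 2 := by ring
  linarith

end

/-- real form -/
theorem phi1R_start {P : Mach.Par} {d n m : ℕ} (h : Prm d n m)
    (hγ : P.gam.v n = Start.gam d (1 / (m : ℝ) ^ 320))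
    (hμ : P.mu.v n = Start.muOf d (P.gam.v n)) :
    CtxReal.Phi1R P d n m [] ≤ 1 / m := by
  have q := q_of h
  have hK : ∀ b, EvalKit.KR P d n b [] = KS d (1 / (m : ℝ) ^ 320) n (Mach.sg b) := by
    intro b
    unfold EvalKit.KR
    rw [hμ, hγ]
    rfl
  have hF : GoodPairs.Fs n d [] = univ := by
    ext i
    simp [GoodPairs.mem_Fs, Mach.unused]
  unfold CtxReal.Phi1R
  simp only [hK, hF]
  exact q.phi1

/-- for the machine parameters of the final assembly (any lower bound `3 ≤ d` proof) -/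
theorem phi1R_root {d n : ℕ} (hd : 3 ≤ d) (h : Prm d n (Nat.nthRoot 1000 n))
    (hk : (1000 : ℕ) ≠ 0) :
    CtxReal.Phi1R (Mach.parOf d hd (Mach.Delta.root 1000 hk 320)) d n (Nat.nthRoot 1000 n) []
      ≤ 1 / (Nat.nthRoot 1000 n : ℝ) := by
  refine phi1R_start h ?_ (Mach.parOf_mu d hd _ n)
  rw [Mach.parOf_gam, Mach.Delta.root_f]
  push_cast
  rw [one_div]

/-- for the machine parameters `parOf` -/
theorem phi1R_parOf {d n m : ℕ} (h : Prm d n m) (δ : Mach.Delta)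
    (hδ : (δ.f n : ℝ) = 1 / (m : ℝ) ^ 320) :
    CtxReal.Phi1R (Mach.parOf d h.hd δ) d n m [] ≤ 1 / m :=
  phi1R_start h (by rw [Mach.parOf_gam, hδ]) (Mach.parOf_mu d h.hd δ n)

lemma inv_m_le {d n m : ℕ} (h : Prm d n m) : 1 / (m : ℝ) ≤ 1 / 4 := by
  have q := q_of h
  exact div_le_div_of_nonneg_left (by norm_num) (by norm_num) (by have := q.Mb; linarith)

theorem phi1R_parOf' {d n m : ℕ} (h : Prm d n m) (δ : Mach.Delta)
    (hδ : (δ.f n : ℝ) = 1 / (m : ℝ) ^ 320) :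
    CtxReal.Phi1R (Mach.parOf d h.hd δ) d n m [] ≤ 1 / 4 :=
  (phi1R_parOf h δ hδ).trans (inv_m_le h)

end Crest.Agent.R62.StartPhi
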