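import Crest.Agent.R62.MainPot
import Crest.Agent.R62.StartPhi
import Crest.Agent.R62.ExTilt
import Crest.Agent.R62.Main_X1
import Crest.Agent.R62.MainX2
import Crest.Agent.R62.MainX4
import Crest.Agent.R62.MainV
import Crest.Agent.R62.MainX3
import Crest.Agent.R62.MainM
import Crest.Agent.R62.MainW

/-!
R62: S0084.
-/

set_option autoImplicit false
open scoped Matrix BigOperators

namespace Crest.Agent.R62.Final

open Crest.Agent.R062 Crest.Agent.R62.Step Crest.Agent.R62.MainCst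

variable {ι : Type} [Fintype ι] [DecidableEq ι]

/-- stage 1 -/
theorem pieces1 : Pieces1 ι where
  x1u := MainX1.s1x1u
  x1l := MainX1.s1x1l
  x2u := MainX2.s1X2u
  x2l := MainX2.s1X2l
  x3l := MainX3.s1x3l
  x3u := MainX3.s1x3u
  x4 := MainX4.s1x4
  v := MainV.s1v
  w := MainW.s1w
  mm := MainM.s1m
  tilt := ExTilt.exTilt

/-- stage 2 -/
theorem pieces2 : Pieces2 ι where
  x1 := MainX1.s2x1
  x2 := MainX2.s2X2
  x2l := MainX2.s2X2l
  x3 := MainX3.s2x3
  x4 := MainX4.s2x4
  v := MainV.s2v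
  w := MainW.s2w

open Classical in
/-- the statement S0084 -/
theorem s0084 {d : ℕ} (hd : 3 ≤ d) :
    ∃ n₀ : ℕ, ∃ F : List Bool → List Bool, Crest.Complexity.PolyTime F ∧
      ∀ n : ℕ, n₀ ≤ n → Even n →
        (Crest.CombinatoricsR.GraphCode.adjGraph n
            (F (Crest.CombinatoricsR.GraphCode.unary n))).IsRegularOfDegree d ∧
        ∀ x : Fin n → ℝ, ∑ i, x i = 0 → x ≠ 0 →
          |x ⬝ᵥ ((Crest.CombinatoricsR.GraphCode.adjGraph n
              (F (Crest.CombinatoricsR.GraphCode.unary n))).adjMatrix ℝ *ᵥ x)| <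
            2 * Real.sqrt ((d : ℝ) - 1) * (x ⬝ᵥ x) := by
  refine MainPot.assemble hd (fun N => pieces1) (fun N => pieces2) ?_
  intro n h
  have h1 := StartPhi.phi1R_root hd h (by norm_num)
  have h2 := StartPhi.inv_m_le h
  have h3 : CtxReal.Phi1R (MainPot.PP d hd) d n (mm n) [] ≤ 1 / (mm n : ℝ) := h1
  linarith

end Crest.Agent.R62.Final
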