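import Crest.Agent.R62.KsqW

/-!
R62 (helper758): operator norm of the entrywise square of `K`, form `B + 4 √(S2 W / B)`.
-/

set_option autoImplicit false
set_option linter.unusedSectionVars false
set_option linter.unusedVariables false

open Matrix Finset

namespace Crest.Agent.R62.KapW

open Crest.Agent.R62.AvBase (OpB)
open Crest.Agent.R62.DiagAv

variable {ι : Type*} [Fintype ι] [DecidableEq ι] {K : Matrix ι ι ℝ}

theorem opB_Ksq_W (hK : K.IsSymm) {F : Finset ι} (hF : ∀ i, i ∉ F → ∀ j, K i j = 0)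
    {S2 B : ℝ} (hS2 : ∀ z x, K z x ^ 2 ≤ S2) (hS0 : 0 ≤ S2) (hB2 : 2 ≤ B) :
    OpB (Ksq K) (B + 4 * Real.sqrt (S2 * AvX1.Wf F K / B)) := by
  refine (KapB.opB_Ksq_W hK hF hS2 hS0 hB2).mono ?_
  have hW0 : 0 ≤ AvX1.Wf F K := AvX1.Wf_nonneg F K
  have hB : 0 < B := by linarith
  have h0 : 0 ≤ S2 * AvX1.Wf F K / B := by positivity
  have h1 : Real.sqrt (8 * S2 * AvX1.Wf F K / B) ≤ 4 * Real.sqrt (S2 * AvX1.Wf F K / B) := by
    rw [Real.sqrt_le_left (by positivity), mul_pow, Real.sq_sqrt h0]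
    have : 8 * S2 * AvX1.Wf F K / B = 8 * (S2 * AvX1.Wf F K / B) := by ring
    rw [this]; linarith
  linarith

end Crest.Agent.R62.KapW
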