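import Crest.Agent.R62.KapB

/-!
R62 (helper758): operator norm of the entrywise square of `K`, in terms of `W`.
-/

set_option autoImplicit false
set_option linter.unusedSectionVars false
set_option linter.unusedVariables false

open Matrix Finset

namespace Crest.Agent.R62.KapB

open Crest.Agent.R62.AvBase (OpB)
open Crest.Agent.R62.DiagAv
open Crest.Agent.R62.AvV

variable {ι : Type*} [Fintype ι] [DecidableEq ι] {K : Matrix ι ι ℝ}

/-- **operator norm of the entrywise square**, centred form -/
theorem opB_Ksq_W (hK : K.IsSymm) {F : Finset ι} (hF : ∀ i, i ∉ F → ∀ j, K i j = 0)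
    {S2 B : ℝ} (hS2 : ∀ z x, K z x ^ 2 ≤ S2) (hS0 : 0 ≤ S2) (hB2 : 2 ≤ B) :
    OpB (Ksq K) (B + Real.sqrt (8 * S2 * AvX1.Wf F K / B)) := by
  have hB : 0 < B := by linarith
  have hW0 : 0 ≤ AvX1.Wf F K := AvX1.Wf_nonneg F K
  set A : Matrix ι ι ℝ := fun x y =>
    if (K ^ 2) x x ≤ B ∧ (K ^ 2) y y ≤ B then K x y ^ 2 else 0 with hA
  set C : Matrix ι ι ℝ := fun x y =>
    if (K ^ 2) x x ≤ B ∧ (K ^ 2) y y ≤ B then 0 else K x y ^ 2 with hC
  have e0 : Ksq K = A + C := by
    funext x y
    rw [Matrix.add_apply]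
    simp only [Ksq, hA, hC]
    split_ifs <;> ring
  rw [e0]
  refine TiltK.OpB_add (TiltK.opB_of_rows hB.le ?_ ?_) (opB_of_fro (Real.sqrt_nonneg _) ?_)
  · intro x y
    simp only [hA]
    rw [hK.apply y x]
    simp only [and_comm]
  · intro x
    by_cases hx : (K ^ 2) x x ≤ B
    · refine le_trans ?_ hx
      rw [sq_diag_eq hK]
      refine Finset.sum_le_sum fun y _ => ?_
      simp only [hA]
      split_ifs
      · rw [abs_of_nonneg (sq_nonneg _)]
      · simp; positivity
    · have : ∀ y, A x y = 0 := fun y => by simp only [hA]; rw [if_neg (fun h => hx h.1)]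
      simp only [this, abs_zero, Finset.sum_const_zero]
      exact hB.le
  · rw [Real.sq_sqrt (by positivity)]
    have hbig : ∀ x, (if (K ^ 2) x x ≤ B then 0 else kk K x)
        ≤ 4 * S2 / B * (if x ∈ F then ((K ^ 2) x x - 1) ^ 2 else 0) := by
      intro x
      by_cases hx : (K ^ 2) x x ≤ B
      · rw [if_pos hx]
        by_cases hxF : x ∈ F
        · rw [if_pos hxF]; positivity
        · rw [if_neg hxF, mul_zero]
      · rw [if_neg hx]
        push Not at hx
        have hp := p_nonneg hK x
        have hxF : x ∈ F := by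
          by_contra hxF
          have : (K ^ 2) x x = 0 := by
            rw [sq_diag_eq hK]
            exact Finset.sum_eq_zero fun y _ => by rw [hF x hxF y]; norm_num
          linarith
        rw [if_pos hxF]
        have h1 : kk K x ≤ S2 * (K ^ 2) x x := by
          rw [← sum_row_sq hK x, Finset.mul_sum]
          unfold kk
          refine Finset.sum_le_sum fun z _ => ?_
          calc K z x ^ 4 = K z x ^ 2 * K z x ^ 2 := by ring
            _ ≤ _ := mul_le_mul_of_nonneg_right (hS2 z x) (sq_nonneg _)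
        refine h1.trans ?_
        rw [div_mul_eq_mul_div, le_div_iff₀ hB]
        have h2 : (K ^ 2) x x * B ≤ 4 * ((K ^ 2) x x - 1) ^ 2 := by nlinarith
        have h3 := mul_le_mul_of_nonneg_left h2 hS0
        linarith
    have h1 : ∑ x, ∑ y, C x y ^ 2 ≤ ∑ x, ∑ y, ((if (K ^ 2) x x ≤ B then 0 else K y x ^ 4)
        + (if (K ^ 2) y y ≤ B then 0 else K x y ^ 4)) := by
      refine Finset.sum_le_sum fun x _ => Finset.sum_le_sum fun y _ => ?_
      have h4 : (K x y ^ 2) ^ 2 = K x y ^ 4 := by ring
      have h5 : K y x ^ 4 = K x y ^ 4 := by rw [hK.apply x y]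
      have h6 : 0 ≤ K x y ^ 4 := by positivity
      simp only [hC, h5]
      by_cases hx : (K ^ 2) x x ≤ B <;> by_cases hy : (K ^ 2) y y ≤ B <;>
        simp only [hx, hy, and_self, and_true, and_false, if_true, if_false,
          h4] <;> nlinarith
    have h2 : ∑ x, ∑ y, ((if (K ^ 2) x x ≤ B then 0 else K y x ^ 4)
        + (if (K ^ 2) y y ≤ B then 0 else K x y ^ 4))
        = 2 * ∑ x, (if (K ^ 2) x x ≤ B then 0 else kk K x) := by
      simp only [Finset.sum_add_distrib]
      have e1 : ∑ x, ∑ y, (if (K ^ 2) x x ≤ B then 0 else K y x ^ 4)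
          = ∑ x, (if (K ^ 2) x x ≤ B then 0 else kk K x) := by
        refine Finset.sum_congr rfl fun x _ => ?_
        by_cases hx : (K ^ 2) x x ≤ B
        · simp [hx]
        · simp only [hx, if_false]; rfl
      have e2 : ∑ x, ∑ y, (if (K ^ 2) y y ≤ B then 0 else K x y ^ 4)
          = ∑ x, (if (K ^ 2) x x ≤ B then 0 else kk K x) := by
        rw [Finset.sum_comm]; exact e1
      rw [e1, e2]; ring
    have h3 : ∑ x, (if (K ^ 2) x x ≤ B then 0 else kk K x)
        ≤ 4 * S2 / B * AvX1.Wf F K := by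
      have e3 : AvX1.Wf F K = ∑ x, (if x ∈ F then ((K ^ 2) x x - 1) ^ 2 else 0) := by
        unfold AvX1.Wf
        simp [Finset.sum_ite_mem]
      rw [e3, Finset.mul_sum]
      exact Finset.sum_le_sum fun x _ => hbig x
    calc _ ≤ _ := h1
      _ = _ := h2
      _ ≤ 2 * (4 * S2 / B * AvX1.Wf F K) := by linarith
      _ = _ := by ring

end Crest.Agent.R62.KapB
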