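import Crest.Agent.R62.AvX1
import Crest.Agent.R62.L2P

/-!
R62, late phase (helper316): consequences of `K ≥ -1` and `‖K‖ ≤ Λ` for sums of diagonal entries.

`a_x = K_xx`, `Q = K²`, `X = Tr K²`, `V = ∑ K_xx²`.
-/

set_option autoImplicit false
set_option linter.unusedSectionVars false
set_option linter.unusedVariables false

open Matrix Finset

namespace Crest.Agent.R62.Late

open Crest.Agent.R62.Upd Crest.Agent.R62.AvX1 Crest.Agent.R62.AvBase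

variable {ι : Type*} [Fintype ι] [DecidableEq ι]

/-- `K + 1 ≥ 0` as a quadratic form -/
def Ge1 (K : Matrix ι ι ℝ) : Prop := ∀ f : ι → ℝ, 0 ≤ f ⬝ᵥ (K *ᵥ f) + f ⬝ᵥ f

/-- Cauchy–Schwarz for the form `K + 1` -/
lemma ge1_cs {K : Matrix ι ι ℝ} (hK : K.IsSymm) (h : Ge1 K) (u w : ι → ℝ) :
    (u ⬝ᵥ (K *ᵥ w) + u ⬝ᵥ w) ^ 2
      ≤ (u ⬝ᵥ (K *ᵥ u) + u ⬝ᵥ u) * (w ⬝ᵥ (K *ᵥ w) + w ⬝ᵥ w) := by
  have key : ∀ t : ℝ, 0 ≤ (w ⬝ᵥ (K *ᵥ w) + w ⬝ᵥ w) * (t * t)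
      + (2 * (u ⬝ᵥ (K *ᵥ w) + u ⬝ᵥ w)) * t + (u ⬝ᵥ (K *ᵥ u) + u ⬝ᵥ u) := by
    intro t
    have h1 := h (u + t • w)
    have h2 : w ⬝ᵥ (K *ᵥ u) = u ⬝ᵥ (K *ᵥ w) := dot_mulVec_comm hK w u
    have h3 : w ⬝ᵥ u = u ⬝ᵥ w := dotProduct_comm w u
    simp only [Matrix.mulVec_add, Matrix.mulVec_smul, dotProduct_add, add_dotProduct,
      dotProduct_smul, smul_dotProduct, smul_eq_mul] at h1
    rw [h2, h3] at h1
    linarith
  have h4 := discrim_le_zero key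
  unfold discrim at h4
  nlinarith

lemma single_form (K : Matrix ι ι ℝ) (x y : ι) :
    (Pi.single x (1 : ℝ)) ⬝ᵥ (K *ᵥ (Pi.single y (1 : ℝ))) = K x y := by
  simp

/-- 2×2 minors -/
lemma entry_le {K : Matrix ι ι ℝ} (hK : K.IsSymm) (h : Ge1 K) (x y : ι) :
    K x y ^ 2 ≤ (1 + |K x x|) * (1 + |K y y|) := by
  by_cases hxy : x = y
  · subst hxy
    rw [← sq_abs]
    nlinarith [abs_nonneg (K x x)]
  · have h1 := ge1_cs hK h (Pi.single x 1) (Pi.single y 1)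
    rw [single_form, single_form, single_form] at h1
    have h2 : (Pi.single x (1 : ℝ) : ι → ℝ) ⬝ᵥ Pi.single y 1 = 0 := by
      simp [hxy]
    have h3 : ∀ z : ι, (Pi.single z (1 : ℝ) : ι → ℝ) ⬝ᵥ Pi.single z 1 = 1 := by
      intro z; simp
    rw [h2, h3, h3, add_zero] at h1
    have h5 : 0 ≤ K x x + 1 := by
      have := h (Pi.single x 1)
      rwa [single_form, h3] at this
    have h6 : 0 ≤ K y y + 1 := by
      have := h (Pi.single y 1)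
      rwa [single_form, h3] at this
    calc K x y ^ 2 ≤ (K x x + 1) * (K y y + 1) := h1
      _ ≤ (1 + |K x x|) * (1 + |K y y|) :=
        mul_le_mul (by linarith [le_abs_self (K x x)]) (by linarith [le_abs_self (K y y)]) h6
          (by linarith [abs_nonneg (K x x)])

/-- `Q_xx ≤ Λ (1 + |K_xx|)` -/
lemma diag_le {K : Matrix ι ι ℝ} (hK : K.IsSymm) (h : Ge1 K) {Λ : ℝ} (hΛ : OpB K Λ)
    (hΛ1 : 1 ≤ Λ) (x : ι) : (K ^ 2) x x ≤ Λ * (1 + |K x x|) := by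
  set e : ι → ℝ := Pi.single x 1 with he
  set w : ι → ℝ := K *ᵥ e + e with hw
  have h3 : e ⬝ᵥ e = 1 := by simp [he]
  have hKe : e ⬝ᵥ (K *ᵥ e) = K x x := single_form K x x
  have h1 := ge1_cs hK h e w
  have e1 : e ⬝ᵥ (K *ᵥ w) + e ⬝ᵥ w = w ⬝ᵥ w := by
    have h2 : e ⬝ᵥ (K *ᵥ w) = w ⬝ᵥ (K *ᵥ e) := dot_mulVec_comm hK e w
    rw [h2, dotProduct_comm e w, ← dotProduct_add]
  rw [e1, hKe, h3] at h1
  have h4 : w ⬝ᵥ (K *ᵥ w) ≤ Λ * (w ⬝ᵥ w) := by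
    have := (abs_le.mp (form_self_le hΛ 1 w)).2
    simpa using this
  have hww : 0 ≤ w ⬝ᵥ w := dot_self_nonneg w
  have h5 : 0 ≤ K x x + 1 := by
    have := h e
    rwa [hKe, h3] at this
  have h6 : w ⬝ᵥ w ≤ (K x x + 1) * (Λ + 1) := by
    rcases hww.eq_or_lt with h0 | h0
    · rw [← h0]; positivity
    · have : (w ⬝ᵥ w) * (w ⬝ᵥ w) ≤ ((K x x + 1) * (Λ + 1)) * (w ⬝ᵥ w) := by
        calc (w ⬝ᵥ w) * (w ⬝ᵥ w) = (w ⬝ᵥ w) ^ 2 := by ring
          _ ≤ (K x x + 1) * (w ⬝ᵥ (K *ᵥ w) + w ⬝ᵥ w) := h1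
          _ ≤ (K x x + 1) * (Λ * (w ⬝ᵥ w) + w ⬝ᵥ w) :=
              mul_le_mul_of_nonneg_left (by linarith) h5
          _ = _ := by ring
      exact le_of_mul_le_mul_right this h0
  have h7 : w ⬝ᵥ w = (K ^ 2) x x + 2 * K x x + 1 := by
    have hc : (K *ᵥ e) ⬝ᵥ (K *ᵥ e) = (K ^ 2) x x := by
      have : K *ᵥ e = fun z => (K ^ 1) z x := by
        ext z; simp [he]
      rw [this, col_sq hK.eq 1 x]
    rw [hw, add_dotProduct, dotProduct_add, dotProduct_add, hc, h3, hKe,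
      dotProduct_comm (K *ᵥ e) e, hKe]
    ring
  rw [h7] at h6
  have h8 : (K ^ 2) x x ≤ (Λ - 1) * K x x + Λ := by linarith
  have h9 : (Λ - 1) * K x x ≤ Λ * |K x x| := by
    have h10 : (Λ - 1) * K x x ≤ (Λ - 1) * |K x x| :=
      mul_le_mul_of_nonneg_left (le_abs_self _) (by linarith)
    nlinarith [abs_nonneg (K x x)]
  linarith

/-! ### sums -/

/-- `A = ∑ |K_xx| Q_xx` -/
def Af (K : Matrix ι ι ℝ) : ℝ := ∑ x, |K x x| * (K ^ 2) x x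
/-- `R2 = ∑ Q_xx²` -/
def R2f (K : Matrix ι ι ℝ) : ℝ := ∑ x, (K ^ 2) x x ^ 2
/-- `g_x = ∑_z |K_zz| K_xz²` -/
def gf (K : Matrix ι ι ℝ) (x : ι) : ℝ := ∑ z, |K z z| * K x z ^ 2
/-- `H = ∑ |K_xx| g_x` -/
def Hf (K : Matrix ι ι ℝ) : ℝ := ∑ x, |K x x| * gf K x
/-- `M4 = ∑ K_xz⁴` -/
def M4f (K : Matrix ι ι ℝ) : ℝ := ∑ x, ∑ z, K x z ^ 4

lemma Q_eq {K : Matrix ι ι ℝ} (hK : K.IsSymm) (x : ι) : (K ^ 2) x x = ∑ z, K x z ^ 2 := by
  rw [← sum_KK hK]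
  exact Finset.sum_congr rfl fun z _ => by ring

lemma Q_nonneg {K : Matrix ι ι ℝ} (hK : K.IsSymm) (x : ι) : 0 ≤ (K ^ 2) x x :=
  diag_sq_nonneg hK.eq x

lemma gf_nonneg (K : Matrix ι ι ℝ) (x : ι) : 0 ≤ gf K x :=
  Finset.sum_nonneg fun z _ => mul_nonneg (abs_nonneg _) (sq_nonneg _)

lemma Af_nonneg {K : Matrix ι ι ℝ} (hK : K.IsSymm) : 0 ≤ Af K :=
  Finset.sum_nonneg fun x _ => mul_nonneg (abs_nonneg _) (Q_nonneg hK x)

lemma Hf_nonneg (K : Matrix ι ι ℝ) : 0 ≤ Hf K :=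
  Finset.sum_nonneg fun x _ => mul_nonneg (abs_nonneg _) (gf_nonneg K x)

lemma R2f_nonneg (K : Matrix ι ι ℝ) : 0 ≤ R2f K := Finset.sum_nonneg fun x _ => sq_nonneg _

lemma M4f_nonneg (K : Matrix ι ι ℝ) : 0 ≤ M4f K :=
  Finset.sum_nonneg fun x _ => Finset.sum_nonneg fun z _ => by positivity

lemma X_nonneg {K : Matrix ι ι ℝ} (hK : K.IsSymm) : 0 ≤ (K ^ 2).trace :=
  Finset.sum_nonneg fun x _ => Q_nonneg hK x

section
variable {K : Matrix ι ι ℝ} {Λ : ℝ}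

/-- `A ≤ X + 2 Λ V` -/
lemma Af_le (hK : K.IsSymm) (h : Ge1 K) (hΛ : OpB K Λ) (hΛ1 : 1 ≤ Λ) :
    Af K ≤ (K ^ 2).trace + 2 * Λ * Vf K := by
  unfold Af Vf Matrix.trace
  rw [Finset.mul_sum, ← Finset.sum_add_distrib]
  refine Finset.sum_le_sum fun x _ => ?_
  rw [Matrix.diag_apply]
  have h1 := diag_le hK h hΛ hΛ1 x
  have h2 := Q_nonneg hK x
  have h3 := abs_nonneg (K x x)
  have h4 : K x x ^ 2 = |K x x| ^ 2 := (sq_abs _).symm
  rw [h4]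
  rcases le_total (|K x x|) 1 with h5 | h5
  · have : |K x x| * (K ^ 2) x x ≤ 1 * (K ^ 2) x x := mul_le_mul_of_nonneg_right h5 h2
    have : 0 ≤ 2 * Λ * |K x x| ^ 2 := by positivity
    linarith
  · have h6 : |K x x| * (K ^ 2) x x ≤ |K x x| * (Λ * (1 + |K x x|)) :=
      mul_le_mul_of_nonneg_left h1 h3
    have h7 : |K x x| * (Λ * (1 + |K x x|)) ≤ 2 * Λ * |K x x| ^ 2 := by
      nlinarith [mul_nonneg (mul_nonneg (by linarith : (0:ℝ) ≤ Λ) h3) (by linarith : (0:ℝ) ≤ |K x x| - 1)]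
    linarith

/-- `R2 ≤ Λ (X + A)` -/
lemma R2f_le (hK : K.IsSymm) (h : Ge1 K) (hΛ : OpB K Λ) (hΛ1 : 1 ≤ Λ) :
    R2f K ≤ Λ * ((K ^ 2).trace + Af K) := by
  unfold Af R2f Matrix.trace
  rw [← Finset.sum_add_distrib, Finset.mul_sum]
  refine Finset.sum_le_sum fun x _ => ?_
  rw [Matrix.diag_apply]
  have h1 := diag_le hK h hΛ hΛ1 x
  have h2 := Q_nonneg hK x
  nlinarith [mul_le_mul_of_nonneg_right h1 h2]

/-- `∑ g = A` -/
lemma sum_gf (hK : K.IsSymm) : ∑ x, gf K x = Af K := by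
  unfold gf Af
  rw [Finset.sum_comm]
  refine Finset.sum_congr rfl fun z _ => ?_
  rw [← Finset.mul_sum, Q_eq hK]
  congr 1
  exact Finset.sum_congr rfl fun x _ => by rw [hK.apply z x]

/-- `∑ g Q` symmetric form -/
lemma gf_le (hK : K.IsSymm) (h : Ge1 K) (x : ι) :
    gf K x ≤ (K ^ 2) x x + 2 * (1 + |K x x|) * Vf K := by
  unfold gf Vf
  rw [Q_eq hK, Finset.mul_sum, ← Finset.sum_add_distrib]
  refine Finset.sum_le_sum fun z _ => ?_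
  have h1 := entry_le hK h x z
  have h2 := abs_nonneg (K z z)
  have h3 := abs_nonneg (K x x)
  have h4 : K z z ^ 2 = |K z z| ^ 2 := (sq_abs _).symm
  rw [h4]
  rcases le_total (|K z z|) 1 with h5 | h5
  · have : |K z z| * K x z ^ 2 ≤ 1 * K x z ^ 2 := mul_le_mul_of_nonneg_right h5 (sq_nonneg _)
    have : 0 ≤ 2 * (1 + |K x x|) * |K z z| ^ 2 := by positivity
    linarith
  · have h6 : |K z z| * K x z ^ 2 ≤ |K z z| * ((1 + |K x x|) * (1 + |K z z|)) :=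
      mul_le_mul_of_nonneg_left h1 h2
    have h7 : |K z z| * ((1 + |K x x|) * (1 + |K z z|)) ≤ 2 * (1 + |K x x|) * |K z z| ^ 2 := by
      nlinarith [mul_nonneg (mul_nonneg (by linarith : (0:ℝ) ≤ 1 + |K x x|) h2)
        (by linarith : (0:ℝ) ≤ |K z z| - 1)]
    nlinarith [sq_nonneg (K x z)]

/-- `H ≤ 4 V² + 2 A` -/
lemma Hf_le (hK : K.IsSymm) (h : Ge1 K) : Hf K ≤ 4 * Vf K ^ 2 + 2 * Af K := by
  have e1 : Hf K = ∑ x, ∑ z, |K x x| * (|K z z| * K x z ^ 2) := by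
    unfold Hf gf
    exact Finset.sum_congr rfl fun x _ => Finset.mul_sum _ _ _
  have e2 : 4 * Vf K ^ 2 + 2 * Af K
      = ∑ x, ∑ z, (4 * (K x x ^ 2 * K z z ^ 2) + (|K z z| * K x z ^ 2 + |K x x| * K x z ^ 2)) := by
    simp only [Finset.sum_add_distrib, ← Finset.mul_sum]
    have a1 : ∑ x, K x x ^ 2 * ∑ z, K z z ^ 2 = Vf K ^ 2 := by
      rw [← Finset.sum_mul]; unfold Vf; ring
    have a2 : ∑ x, ∑ z, |K z z| * K x z ^ 2 = Af K := sum_gf hK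
    have a3 : ∑ x, |K x x| * ∑ z, K x z ^ 2 = Af K := by
      unfold Af
      exact Finset.sum_congr rfl fun x _ => by rw [Q_eq hK]
    rw [a1, a2, a3]; ring
  rw [e1, e2]
  refine Finset.sum_le_sum fun x _ => Finset.sum_le_sum fun z _ => ?_
  have h1 := entry_le hK h x z
  have h2 := abs_nonneg (K z z)
  have h3 := abs_nonneg (K x x)
  have h4 : K z z ^ 2 = |K z z| ^ 2 := (sq_abs _).symm
  have h4' : K x x ^ 2 = |K x x| ^ 2 := (sq_abs _).symm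
  rw [h4, h4']
  have hk := sq_nonneg (K x z)
  set α := |K x x|
  set β := |K z z|
  set q := K x z ^ 2
  rcases le_total β 1 with h5 | h5
  · have : α * (β * q) ≤ α * (1 * q) :=
      mul_le_mul_of_nonneg_left (mul_le_mul_of_nonneg_right h5 hk) h3
    have : 0 ≤ 4 * (α ^ 2 * β ^ 2) := by positivity
    nlinarith [mul_nonneg h2 hk]
  · rcases le_total α 1 with h6 | h6
    · have : α * (β * q) ≤ 1 * (β * q) :=
        mul_le_mul_of_nonneg_right h6 (mul_nonneg h2 hk)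
      have : 0 ≤ 4 * (α ^ 2 * β ^ 2) := by positivity
      nlinarith [mul_nonneg h3 hk]
    · have h7 : q ≤ 4 * (α * β) := by nlinarith
      have h8 : α * (β * q) ≤ α * (β * (4 * (α * β))) :=
        mul_le_mul_of_nonneg_left (mul_le_mul_of_nonneg_left h7 h2) h3
      nlinarith [mul_nonneg h3 hk, mul_nonneg h2 hk]

/-- `M4 ≤ X + 2A + H` -/
lemma M4f_le (hK : K.IsSymm) (h : Ge1 K) : M4f K ≤ (K ^ 2).trace + 2 * Af K + Hf K := by
  have e2 : (K ^ 2).trace + 2 * Af K + Hf K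
      = ∑ x, ∑ z, (K x z ^ 2 + (|K z z| * K x z ^ 2 + |K x x| * K x z ^ 2)
          + |K x x| * (|K z z| * K x z ^ 2)) := by
    simp only [Finset.sum_add_distrib, ← Finset.mul_sum]
    have a0 : ∑ x, ∑ z, K x z ^ 2 = (K ^ 2).trace := by
      unfold Matrix.trace
      exact Finset.sum_congr rfl fun x _ => by rw [Matrix.diag_apply, Q_eq hK]
    have a2 : ∑ x, ∑ z, |K z z| * K x z ^ 2 = Af K := sum_gf hK
    have a3 : ∑ x, |K x x| * ∑ z, K x z ^ 2 = Af K := by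
      unfold Af
      exact Finset.sum_congr rfl fun x _ => by rw [Q_eq hK]
    have a4 : ∑ x, |K x x| * ∑ z, |K z z| * K x z ^ 2 = Hf K := rfl
    rw [a0, a2, a3, a4]; ring
  unfold M4f
  rw [e2]
  refine Finset.sum_le_sum fun x _ => Finset.sum_le_sum fun z _ => ?_
  have h1 := mul_le_mul_of_nonneg_right (entry_le hK h x z) (sq_nonneg (K x z))
  nlinarith

/-- `∑ g Q ≤ R2 + 2 V (X + A)` -/
lemma sum_gQ_le (hK : K.IsSymm) (h : Ge1 K) :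
    ∑ x, gf K x * (K ^ 2) x x ≤ R2f K + 2 * Vf K * ((K ^ 2).trace + Af K) := by
  have e2 : R2f K + 2 * Vf K * ((K ^ 2).trace + Af K)
      = ∑ x, ((K ^ 2) x x + 2 * (1 + |K x x|) * Vf K) * (K ^ 2) x x := by
    unfold R2f Af Matrix.trace
    simp only [Matrix.diag_apply]
    rw [← Finset.sum_add_distrib, Finset.mul_sum, ← Finset.sum_add_distrib]
    exact Finset.sum_congr rfl fun x _ => by ring
  rw [e2]
  exact Finset.sum_le_sum fun x _ => mul_le_mul_of_nonneg_right (gf_le hK h x) (Q_nonneg hK x)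

/-- `∑ g² ≤ R2 + 2 V (X + A) + 2 V (A + H)` -/
lemma sum_g_sq_le (hK : K.IsSymm) (h : Ge1 K) :
    ∑ x, gf K x ^ 2 ≤ R2f K + 2 * Vf K * ((K ^ 2).trace + Af K)
      + 2 * Vf K * (Af K + Hf K) := by
  have h1 := sum_gQ_le hK h
  have h2 : ∑ x, gf K x ^ 2 ≤ ∑ x, (gf K x * (K ^ 2) x x
      + 2 * Vf K * (gf K x + |K x x| * gf K x)) := by
    refine Finset.sum_le_sum fun x _ => ?_
    have := mul_le_mul_of_nonneg_left (gf_le hK h x) (gf_nonneg K x)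
    nlinarith
  rw [Finset.sum_add_distrib, ← Finset.mul_sum, Finset.sum_add_distrib, sum_gf hK] at h2
  have e : ∑ x, |K x x| * gf K x = Hf K := rfl
  rw [e] at h2
  linarith

end

end Crest.Agent.R62.Late
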