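import Crest.Agent.R62.PotCst

/-!
R62 (helper134): rational approximation of `√k` for the late phase.

`g N k = ⌊√(k N⁴)⌋ / N²`, `ginv d` = its inverse as a constant of the machine
(`N = n d + 1`, `k = n d - 2 t`).
-/

set_option autoImplicit false
set_option linter.unusedVariables false

open scoped BigOperators

namespace Crest.Agent.R62.LateCst

/-- rational approximation of `√k` -/
noncomputable def g (N k : ℕ) : ℝ := (Nat.sqrt (k * N ^ 4) : ℝ) / (N : ℝ) ^ 2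

variable {N k : ℕ}

lemma g_nonneg (N k : ℕ) : 0 ≤ g N k := by unfold g; positivity

lemma g_zero (N : ℕ) : g N 0 = 0 := by simp [g]

/-- `g² ≤ k` -/
theorem g_sq_le (hN : 0 < N) (k : ℕ) : g N k ^ 2 ≤ k := by
  have hN' : (0 : ℝ) < (N : ℝ) := by exact_mod_cast hN
  have h1 : Nat.sqrt (k * N ^ 4) ^ 2 ≤ k * N ^ 4 := Nat.sqrt_le' _
  have h2 : (Nat.sqrt (k * N ^ 4) : ℝ) ^ 2 ≤ (k : ℝ) * (N : ℝ) ^ 4 := by exact_mod_cast h1
  unfold g
  rw [div_pow, ← pow_mul, div_le_iff₀ (by positivity)]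
  exact h2

/-- `k < (g + 1/N²)²` -/
theorem lt_g_add_sq (hN : 0 < N) (k : ℕ) : (k : ℝ) < (g N k + 1 / (N : ℝ) ^ 2) ^ 2 := by
  have hN' : (0 : ℝ) < (N : ℝ) := by exact_mod_cast hN
  have h1 : k * N ^ 4 < (Nat.sqrt (k * N ^ 4) + 1) ^ 2 := Nat.lt_succ_sqrt' _
  have h2 : (k : ℝ) * (N : ℝ) ^ 4 < ((Nat.sqrt (k * N ^ 4) : ℝ) + 1) ^ 2 := by exact_mod_cast h1
  unfold g
  rw [← add_div, div_pow, ← pow_mul, lt_div_iff₀ (by positivity)]
  exact h2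

/-- monotone -/
theorem g_mono (N : ℕ) {a b : ℕ} (h : a ≤ b) : g N a ≤ g N b := by
  unfold g
  refine div_le_div_of_nonneg_right ?_ (by positivity)
  exact_mod_cast Nat.sqrt_le_sqrt (Nat.mul_le_mul_right _ h)

/-- lower bound: `r ≤ g N k` if `r² ≤ k` -/
theorem le_g {r : ℕ} (hN : 0 < N) (h : r ^ 2 ≤ k) : (r : ℝ) ≤ g N k := by
  have hN' : (0 : ℝ) < (N : ℝ) := by exact_mod_cast hN
  unfold g
  rw [le_div_iff₀ (by positivity)]
  have h1 : r * N ^ 2 ≤ Nat.sqrt (k * N ^ 4) := by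
    rw [Nat.le_sqrt']
    calc (r * N ^ 2) ^ 2 = r ^ 2 * N ^ 4 := by ring
      _ ≤ k * N ^ 4 := Nat.mul_le_mul_right _ h
  exact_mod_cast h1

theorem one_le_g (hN : 0 < N) (hk : 1 ≤ k) : 1 ≤ g N k := by
  have := le_g (N := N) (k := k) (r := 1) hN (by simpa using hk)
  simpa using this

theorem g_pos (hN : 0 < N) (hk : 1 ≤ k) : 0 < g N k :=
  lt_of_lt_of_le one_pos (one_le_g hN hk)

/-- `k ≤ g² (1 + 3 / N²)` -/
theorem le_g_sq' (hN : 0 < N) (hk : 1 ≤ k) : (k : ℝ) ≤ g N k ^ 2 * (1 + 3 / (N : ℝ) ^ 2) := by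
  have hN' : (0 : ℝ) < (N : ℝ) := by exact_mod_cast hN
  have hN1 : (1 : ℝ) ≤ (N : ℝ) := by exact_mod_cast hN
  have h1 := lt_g_add_sq hN k
  have h2 := one_le_g hN hk
  have h3 : 1 / (N : ℝ) ^ 2 ≤ 1 := by
    rw [div_le_one (by positivity)]
    exact one_le_pow₀ hN1
  have h4 : 0 ≤ 1 / (N : ℝ) ^ 2 := by positivity
  have e : 3 / (N : ℝ) ^ 2 = 3 * (1 / (N : ℝ) ^ 2) := by ring
  rw [e]
  nlinarith [mul_nonneg h4 (by linarith : (0 : ℝ) ≤ g N k - 1),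
    mul_nonneg (mul_nonneg h4 (by linarith : (0 : ℝ) ≤ g N k - 1)) (by linarith : (0 : ℝ) ≤ g N k)]

/-- `k ≤ g² (1 + 1/1000)` -/
theorem le_g_sq (hN : 100 ≤ N) (hk : 1 ≤ k) : (k : ℝ) ≤ g N k ^ 2 * (1 + 1 / 1000) := by
  have hN' : (100 : ℝ) ≤ (N : ℝ) := by exact_mod_cast hN
  have hN0 : 0 < N := by omega
  refine (le_g_sq' hN0 hk).trans ?_
  refine mul_le_mul_of_nonneg_left ?_ (sq_nonneg _)
  have : 3 / (N : ℝ) ^ 2 ≤ 1 / 1000 := by
    rw [div_le_div_iff₀ (by positivity) (by norm_num)]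
    nlinarith
  linarith

/-- `g(k) ≤ g(k-2) (1 + 3/(2k))` -/
theorem g_le_g_sub (hN : k ≤ N) (hk : 10 ≤ k) :
    g N k ≤ g N (k - 2) * (1 + 3 / (2 * (k : ℝ))) := by
  have hN0 : 0 < N := by omega
  have hk' : (10 : ℝ) ≤ (k : ℝ) := by exact_mod_cast hk
  have hNk : (k : ℝ) ≤ (N : ℝ) := by exact_mod_cast hN
  have h1 := g_sq_le hN0 k
  have h2 := le_g_sq' (N := N) (k := k - 2) hN0 (by omega)
  have h3 : ((k - 2 : ℕ) : ℝ) = (k : ℝ) - 2 := by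
    rw [Nat.cast_sub (by omega)]; norm_num
  rw [h3] at h2
  have h0 : 0 ≤ g N (k - 2) * (1 + 3 / (2 * (k : ℝ))) :=
    mul_nonneg (g_nonneg _ _) (by positivity)
  refine (sq_le_sq₀ (g_nonneg _ _) h0).mp ?_
  refine h1.trans ?_
  rw [mul_pow]
  set G := g N (k - 2) ^ 2 with hG
  have hG0 : 0 ≤ G := sq_nonneg _
  -- `G ≥ (k-2)/(1+3/k²)`
  have h4 : (k : ℝ) - 2 ≤ G * (1 + 3 / (k : ℝ) ^ 2) := by
    refine h2.trans (mul_le_mul_of_nonneg_left ?_ hG0)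
    have : 3 / (N : ℝ) ^ 2 ≤ 3 / (k : ℝ) ^ 2 := by
      apply div_le_div_of_nonneg_left (by norm_num) (by positivity)
      exact pow_le_pow_left₀ (by positivity) hNk 2
    linarith
  -- compare
  have h5 : (k : ℝ) * (1 + 3 / (k : ℝ) ^ 2) ≤ ((k : ℝ) - 2) * (1 + 3 / (2 * (k : ℝ))) ^ 2 := by
    have hk0 : (0 : ℝ) < k := by linarith
    have e1 : (k : ℝ) * (1 + 3 / (k : ℝ) ^ 2) = ((k : ℝ) ^ 2 + 3) / k := by
      field_simp
    have e2 : ((k : ℝ) - 2) * (1 + 3 / (2 * (k : ℝ))) ^ 2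
        = ((k : ℝ) - 2) * (2 * k + 3) ^ 2 / (4 * (k : ℝ) ^ 2) := by
      field_simp
      ring
    rw [e1, e2, div_le_div_iff₀ hk0 (by positivity)]
    have h6 : 0 ≤ (k : ℝ) - 10 := by linarith
    nlinarith [mul_nonneg h6 h6, mul_nonneg (mul_nonneg h6 h6) hk0.le, mul_nonneg h6 hk0.le]
  have h7 : (0 : ℝ) < 1 + 3 / (k : ℝ) ^ 2 := by positivity
  have h8 : (k : ℝ) * (1 + 3 / (k : ℝ) ^ 2)
      ≤ (G * (1 + 3 / (2 * (k : ℝ))) ^ 2) * (1 + 3 / (k : ℝ) ^ 2) := by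
    refine h5.trans ?_
    calc ((k : ℝ) - 2) * (1 + 3 / (2 * (k : ℝ))) ^ 2
        ≤ (G * (1 + 3 / (k : ℝ) ^ 2)) * (1 + 3 / (2 * (k : ℝ))) ^ 2 :=
          mul_le_mul_of_nonneg_right h4 (sq_nonneg _)
      _ = _ := by ring
  exact le_of_mul_le_mul_right h8 h7

end Crest.Agent.R62.LateCst

namespace Crest.Agent.R062.Mach.Cst

open Crest.Agent.Lib.PT

/-- `1 / g`, `N = n d + 1`, `k = n d - 2 t` -/
def ginv (d : ℕ) : Cst where
  f n t := (((n * d + 1) ^ 2 : ℕ) : ℚ) / ((Nat.sqrt ((n * d - 2 * t) * (n * d + 1) ^ 4) : ℕ) : ℚ)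
  ptf := by
    have hn : PTF (fun p : Un × Un => p.1.val) := PTU.toPTF (PTU.val PTF.fst)
    have ht : PTF (fun p : Un × Un => p.2.val) := PTU.toPTF (PTU.val PTF.snd)
    have hN : PTF (fun p : Un × Un => p.1.val * d + 1) := by fun_prop
    have hk : PTF (fun p : Un × Un => p.1.val * d - 2 * p.2.val) := by fun_prop
    exact PTF.ratDiv (PTF.ratNatCast (PTF.natPowConst hN 2))
      (PTF.ratNatCast (PTF.natSqrt (PTF.natMul hk (PTF.natPowConst hN 4))))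
  deg := 2 * (d + 1)
  bd n t := by
    have h1 : n * d + 1 ≤ (n + t + 2) ^ (d + 1) := by
      have h2 : d + 1 ≤ 2 ^ d := Nat.lt_two_pow_self
      have h3 : 2 ^ d ≤ (n + t + 2) ^ d := Nat.pow_le_pow_left (by omega) d
      calc n * d + 1 ≤ (d + 1) * (n + t + 2) := by nlinarith [Nat.zero_le (d * t), Nat.zero_le t]
        _ ≤ (n + t + 2) ^ d * (n + t + 2) := Nat.mul_le_mul_right _ (h2.trans h3)
        _ = _ := (pow_succ _ _).symm
    have h4 : (((n * d + 1) ^ 2 : ℕ) : ℚ) ≤ ((n : ℚ) + t + 2) ^ (2 * (d + 1)) := by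
      have : (n * d + 1) ^ 2 ≤ (n + t + 2) ^ (2 * (d + 1)) := by
        calc (n * d + 1) ^ 2 ≤ ((n + t + 2) ^ (d + 1)) ^ 2 := Nat.pow_le_pow_left h1 2
          _ = _ := by rw [← pow_mul, mul_comm]
      exact_mod_cast this
    refine le_trans ?_ h4
    rw [abs_div, Nat.abs_cast, Nat.abs_cast]
    rcases Nat.eq_zero_or_pos (Nat.sqrt ((n * d - 2 * t) * (n * d + 1) ^ 4)) with h | h
    · rw [h, Nat.cast_zero, div_zero]
      positivity
    · refine div_le_self (by positivity) ?_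
      exact_mod_cast h

theorem ginv_f (d n t : ℕ) : (((ginv d).f n t : ℚ) : ℝ)
    = (R62.LateCst.g (n * d + 1) (n * d - 2 * t))⁻¹ := by
  unfold ginv R62.LateCst.g
  push_cast
  rw [inv_div]

end Crest.Agent.R062.Mach.Cst
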