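import Crest.Agent.R62.LateX2

/-!
R62 (helper230): numeric closure (A) of the late phase: the error term of `X_2`.
-/

set_option autoImplicit false

namespace Crest.Agent.R62.Late

theorem errX_le {u b z θ : ℝ} (hu : 1 ≤ u) (hb : 4 ≤ b) (hz : (10 : ℝ) ^ 13 * b ^ 3 ≤ z)
    (hθ : θ = 1 / (10 ^ 4 * b)) :
    errX (3 / 2 * u ^ 2) (θ * u) (3 * u ^ 3) (z * u ^ 2) (b * (z * u ^ 2)) (8 * b ^ 2 * u ^ 4)
      (2 * u ^ 2) ≤ 1 / 100 * z ^ 2 * u ^ 8 := by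
  have hb0 : (0 : ℝ) < b := by linarith
  have hu0 : (0 : ℝ) < u := by linarith
  have hθ0 : 0 ≤ θ := by rw [hθ]; positivity
  have hθ1 : θ ≤ 1 / 40000 := by
    rw [hθ]
    apply one_div_le_one_div_of_le (by norm_num)
    linarith
  have hθ2 : θ ^ 2 ≤ 1 / 10 ^ 9 := by
    calc θ ^ 2 ≤ (1 / 40000 : ℝ) ^ 2 := pow_le_pow_left₀ hθ0 hθ1 2
      _ ≤ 1 / 10 ^ 9 := by norm_num
  have hθ20 : 0 ≤ θ ^ 2 := sq_nonneg θ
  have hb3 : b ≤ b ^ 3 := by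
    calc b = b ^ 1 := (pow_one b).symm
      _ ≤ b ^ 3 := pow_le_pow_right₀ (by linarith) (by norm_num)
  have hzb : (10 : ℝ) ^ 13 * b ≤ z := by
    have := mul_le_mul_of_nonneg_left hb3 (show (0 : ℝ) ≤ 10 ^ 13 by positivity)
    linarith
  have hz1 : (10 : ℝ) ^ 13 ≤ z := by
    have : (10 : ℝ) ^ 13 * 1 ≤ 10 ^ 13 * b :=
      mul_le_mul_of_nonneg_left (by linarith) (by positivity)
    linarith
  have hz0 : 0 < z := by linarith [show (0 : ℝ) < 10 ^ 13 by positivity]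
  have p4 : u ^ 4 ≤ u ^ 8 := pow_le_pow_right₀ hu (by norm_num)
  have p6 : u ^ 6 ≤ u ^ 8 := pow_le_pow_right₀ hu (by norm_num)
  have p7 : u ^ 7 ≤ u ^ 8 := pow_le_pow_right₀ hu (by norm_num)
  have hU : 0 < u ^ 8 := by positivity
  -- monomials against `W = z² u⁸`
  have hz2 : (10 : ℝ) ^ 13 * z ≤ z ^ 2 := by
    rw [pow_two]; exact mul_le_mul_of_nonneg_right hz1 hz0.le
  have q0 : (10 : ℝ) ^ 13 ≤ z ^ 2 := by
    have : (10 : ℝ) ^ 13 * 1 ≤ 10 ^ 13 * z :=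
      mul_le_mul_of_nonneg_left (by linarith [show (1 : ℝ) ≤ 10 ^ 13 by norm_num]) (by positivity)
    linarith
  have q1 : (10 : ℝ) ^ 13 * (b * z) ≤ z ^ 2 := by
    have := mul_le_mul_of_nonneg_right hzb hz0.le
    calc (10 : ℝ) ^ 13 * (b * z) = 10 ^ 13 * b * z := by ring
      _ ≤ z * z := this
      _ = z ^ 2 := by ring
  have q2 : (10 : ℝ) ^ 13 * b ^ 2 ≤ z ^ 2 := by
    have hbz : b ≤ z := by
      have : (1 : ℝ) * b ≤ 10 ^ 13 * b := mul_le_mul_of_nonneg_right (by norm_num) hb0.le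
      linarith
    have h2 : b ^ 2 ≤ b * z := by rw [pow_two]; exact mul_le_mul_of_nonneg_left hbz hb0.le
    have := mul_le_mul_of_nonneg_left h2 (show (0 : ℝ) ≤ 10 ^ 13 by positivity)
    linarith
  have m1 : (10 : ℝ) ^ 13 * u ^ 8 ≤ z ^ 2 * u ^ 8 := mul_le_mul_of_nonneg_right q0 hU.le
  have m2 : (10 : ℝ) ^ 13 * (z * u ^ 8) ≤ z ^ 2 * u ^ 8 := by
    have := mul_le_mul_of_nonneg_right hz2 hU.le
    linarith
  have m3 : (10 : ℝ) ^ 13 * (b ^ 2 * u ^ 8) ≤ z ^ 2 * u ^ 8 := by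
    have := mul_le_mul_of_nonneg_right q2 hU.le
    linarith
  have m4 : (10 : ℝ) ^ 13 * (b * z * u ^ 8) ≤ z ^ 2 * u ^ 8 := by
    have := mul_le_mul_of_nonneg_right q1 hU.le
    linarith
  have n0 : 0 ≤ b * z * u ^ 8 := by positivity
  have n1 : 0 ≤ z * u ^ 8 := by positivity
  have n2 : 0 ≤ z ^ 2 * u ^ 8 := by positivity
  have hθle : θ ≤ 1 := by linarith
  -- the mixed monomials
  have t1 : b * z * θ * u ^ 8 ≤ b * z * u ^ 8 := by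
    calc b * z * θ * u ^ 8 = θ * (b * z * u ^ 8) := by ring
      _ ≤ 1 * (b * z * u ^ 8) := mul_le_mul_of_nonneg_right hθle n0
      _ = _ := one_mul _
  have hθsq : θ ^ 2 ≤ 1 := by linarith [show (1 : ℝ) / 10 ^ 9 ≤ 1 by norm_num]
  have t2 : b * z * θ ^ 2 * u ^ 4 ≤ b * z * u ^ 8 := by
    calc b * z * θ ^ 2 * u ^ 4 ≤ b * z * 1 * u ^ 8 := by gcongr
      _ = _ := by ring
  have t3 : θ ^ 2 * z ^ 2 * u ^ 6 ≤ 1 / 10 ^ 9 * (z ^ 2 * u ^ 8) := by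
    calc θ ^ 2 * z ^ 2 * u ^ 6 ≤ 1 / 10 ^ 9 * z ^ 2 * u ^ 8 := by gcongr
      _ = _ := by ring
  have t4 : z * u ^ 7 ≤ z * u ^ 8 := by gcongr
  have t5 : θ ^ 2 * z * u ^ 7 ≤ z * u ^ 8 := by
    calc θ ^ 2 * z * u ^ 7 ≤ 1 * z * u ^ 8 := by gcongr
      _ = _ := by ring
  have t6 : θ ^ 2 * u ^ 8 ≤ u ^ 8 := by
    calc θ ^ 2 * u ^ 8 ≤ 1 * u ^ 8 := by gcongr
      _ = _ := by ring
  have t7 : θ ^ 2 * u ^ 4 ≤ u ^ 8 := by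
    calc θ ^ 2 * u ^ 4 ≤ 1 * u ^ 8 := by gcongr
      _ = _ := by ring
  have t8 : θ * u ^ 8 ≤ u ^ 8 := by
    calc θ * u ^ 8 ≤ 1 * u ^ 8 := by gcongr
      _ = _ := by ring
  have hθ3 : θ ^ 3 ≤ 1 := pow_le_one₀ hθ0 hθle
  have hθ4 : θ ^ 4 ≤ 1 := pow_le_one₀ hθ0 hθle
  have t9 : θ ^ 3 * u ^ 8 ≤ u ^ 8 := by
    calc θ ^ 3 * u ^ 8 ≤ 1 * u ^ 8 := by gcongr
      _ = _ := by ring
  have t10 : θ ^ 4 * u ^ 4 ≤ u ^ 8 := by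
    calc θ ^ 4 * u ^ 4 ≤ 1 * u ^ 8 := by gcongr
      _ = _ := by ring
  have key : errX (3 / 2 * u ^ 2) (θ * u) (3 * u ^ 3) (z * u ^ 2) (b * (z * u ^ 2))
      (8 * b ^ 2 * u ^ 4) (2 * u ^ 2) =
      72 * (b ^ 2 * u ^ 8) + 27 / 2 * (b * z * u ^ 8) + (27 * u ^ 8 + 16 * u ^ 4)
      + (18 * (b * z * θ * u ^ 8) + 4 * (b * z * θ ^ 2 * u ^ 4))
      + (54 * u ^ 4 + 10 * (θ ^ 2 * z ^ 2 * u ^ 6))
      + (144 * (z * u ^ 7) + 48 * (θ ^ 2 * z * u ^ 7)) + 567 / 16 * u ^ 8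
      + (81 * u ^ 8 + 54 * (θ ^ 2 * u ^ 8) + 36 * u ^ 4 + 24 * (θ ^ 2 * u ^ 4))
      + (216 * (θ * u ^ 8) + 72 * (θ ^ 3 * u ^ 8) + 48 * (θ ^ 2 * u ^ 4)
        + 16 * (θ ^ 4 * u ^ 4))
      + (864 * (θ ^ 2 * u ^ 8) + 576 * (θ ^ 2 * z * u ^ 7) + 96 * (θ ^ 2 * z ^ 2 * u ^ 6)
        + 972 * u ^ 8) := by
    unfold errX; ring
  rw [key]
  have f1 : u ^ 8 ≤ 1 / 10 ^ 13 * (z ^ 2 * u ^ 8) := by
    rw [div_mul_eq_mul_div, le_div_iff₀ (by positivity)]; linarith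
  have f2 : z * u ^ 8 ≤ 1 / 10 ^ 13 * (z ^ 2 * u ^ 8) := by
    rw [div_mul_eq_mul_div, le_div_iff₀ (by positivity)]; linarith
  have f3 : b ^ 2 * u ^ 8 ≤ 1 / 10 ^ 13 * (z ^ 2 * u ^ 8) := by
    rw [div_mul_eq_mul_div, le_div_iff₀ (by positivity)]; linarith
  have f4 : b * z * u ^ 8 ≤ 1 / 10 ^ 13 * (z ^ 2 * u ^ 8) := by
    rw [div_mul_eq_mul_div, le_div_iff₀ (by positivity)]; linarith
  nlinarith [f1, f2, f3, f4, t1, t2, t3, t4, t5, t6, t7, t8, t9, t10, p4, n2]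

end Crest.Agent.R62.Late
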