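import Crest.Agent.R62.LateV

/-!
R62 (helper110): numerical closures (B), (C) of the late phase (helper316 #5125).
-/

set_option autoImplicit false

namespace Crest.Agent.R62.Late

/-- common facts -/
lemma late_facts {u b z θ : ℝ} (hu : 1 ≤ u) (hb : 4 ≤ b) (hz : 10 ^ 13 * b ^ 3 ≤ z)
    (hθ : θ = 1 / (10 ^ 4 * b)) :
    0 < θ ∧ θ * b = 1 / 10 ^ 4 ∧ θ ≤ 1 / 10 ^ 4 ∧ 0 < z ∧ 10 ^ 13 * b ≤ z
      ∧ 10 ^ 5 * b * z ≤ θ ^ 2 * z ^ 2 := by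
  have hb0 : 0 < b := by linarith
  have h1 : 0 < θ := by rw [hθ]; positivity
  have h2 : θ * b = 1 / 10 ^ 4 := by rw [hθ]; field_simp
  have h3 : θ ≤ 1 / 10 ^ 4 := by
    rw [← h2]
    nlinarith
  have hb3 : b ≤ b ^ 3 := by nlinarith [sq_nonneg b, sq_nonneg (b - 1)]
  have h4 : 10 ^ 13 * b ≤ z := by nlinarith
  have h5 : 0 < z := by nlinarith
  refine ⟨h1, h2, h3, h5, h4, ?_⟩
  -- θ² z ≥ 10^5 b
  have h6 : 10 ^ 5 * b ≤ θ ^ 2 * z := by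
    have e1 : θ ^ 2 * b ^ 2 = 1 / 10 ^ 8 := by
      rw [← mul_pow, h2]; norm_num
    have e2 : θ ^ 2 * (10 ^ 13 * b ^ 3) = 10 ^ 5 * b := by
      calc θ ^ 2 * (10 ^ 13 * b ^ 3) = 10 ^ 13 * (θ ^ 2 * b ^ 2) * b := by ring
        _ = 10 ^ 5 * b := by rw [e1]; norm_num
    rw [← e2]
    exact mul_le_mul_of_nonneg_left hz (sq_nonneg _)
  calc 10 ^ 5 * b * z ≤ θ ^ 2 * z * z := mul_le_mul_of_nonneg_right h6 h5.le
    _ = θ ^ 2 * z ^ 2 := by ring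

/-- (B) -/
theorem errT_le {u b z θ : ℝ} (hu : 1 ≤ u) (hb : 4 ≤ b) (hz : 10 ^ 13 * b ^ 3 ≤ z)
    (hθ : θ = 1 / (10 ^ 4 * b)) :
    errT (3 / 2 * u ^ 2) (θ * u) (3 * u ^ 3) (z * u ^ 2) (b * (z * u ^ 2)) (2 * u ^ 2)
      ≤ 1 / 100 * z ^ 2 * u ^ 8 := by
  obtain ⟨h1, h2, h3, h4, h5, h6⟩ := late_facts hu hb hz hθ
  have hu0 : 0 < u := by linarith
  have hb0 : 0 < b := by linarith
  have hu2 : 1 ≤ u ^ 2 := one_le_pow₀ hu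
  have hz13 : (10 : ℝ) ^ 13 ≤ z := by nlinarith
  have hz0 : 0 ≤ z := h4.le
  have hbz : (10 : ℝ) ^ 13 * b ≤ b * z := by nlinarith
  -- pieces
  have p0 : 0 ≤ u ^ 2 := by positivity
  have a1 : 2 * (2 * u ^ 2 + 1) ≤ 6 * u ^ 2 := by linarith
  have hθ2 : θ ^ 2 ≤ 1 := by nlinarith
  have a2 : 16 * (3 / 2 * u ^ 2) + 8 * (θ * u) ^ 2 + 2 * (b * (z * u ^ 2))
      ≤ 3 * (b * z) * u ^ 2 := by
    have : 24 + 8 * θ ^ 2 ≤ b * z := by nlinarith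
    nlinarith
  have a3 : 4 * (3 / 2 * u ^ 2) + 8 * (θ * u) ^ 2 + 2 * (b * (z * u ^ 2))
      ≤ 3 * (b * z) * u ^ 2 := by nlinarith
  have a4 : θ * u * (3 * u ^ 3 + z * u ^ 2) ≤ 2 * θ * z * u ^ 4 := by
    have e1 : θ * u * (3 * u ^ 3 + z * u ^ 2) = 3 * (θ * u ^ 4) + (θ * z) * u ^ 3 := by ring
    have e2 : (θ * z) * u ^ 3 ≤ (θ * z) * u ^ 4 :=
      mul_le_mul_of_nonneg_left (pow_le_pow_right₀ hu (by norm_num)) (by positivity)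
    have e3 : 3 * (θ * u ^ 4) ≤ z * (θ * u ^ 4) :=
      mul_le_mul_of_nonneg_right (by linarith) (by positivity)
    rw [e1]
    calc 3 * (θ * u ^ 4) + (θ * z) * u ^ 3 ≤ z * (θ * u ^ 4) + (θ * z) * u ^ 4 := add_le_add e3 e2
      _ = 2 * θ * z * u ^ 4 := by ring
  have hbzu : 0 ≤ 3 * (b * z) * u ^ 2 := by positivity
  have b1 : (16 * (3 / 2 * u ^ 2) + 8 * (θ * u) ^ 2 + 2 * (b * (z * u ^ 2)))
      * (θ * u * (3 * u ^ 3 + z * u ^ 2)) ≤ 6 / 10 ^ 4 * (z ^ 2 * u ^ 6) := by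
    calc _ ≤ (3 * (b * z) * u ^ 2) * (2 * θ * z * u ^ 4) :=
          mul_le_mul a2 a4 (by positivity) hbzu
      _ = 6 * (θ * b) * (z ^ 2 * u ^ 6) := by ring
      _ = _ := by rw [h2]; ring
  have b2 : (4 * (3 / 2 * u ^ 2) + 8 * (θ * u) ^ 2 + 2 * (b * (z * u ^ 2)))
      * (3 / 2 * u ^ 2) ^ 2 ≤ 1 / 10 ^ 4 * (z ^ 2 * u ^ 6) := by
    calc _ ≤ (3 * (b * z) * u ^ 2) * (3 / 2 * u ^ 2) ^ 2 :=
          mul_le_mul_of_nonneg_right a3 (by positivity)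
      _ = 27 / 4 * b * (z * u ^ 6) := by ring
      _ ≤ 1 / 10 ^ 4 * z * (z * u ^ 6) :=
          mul_le_mul_of_nonneg_right (by linarith) (by positivity)
      _ = _ := by ring
  have hz2 : (10 : ℝ) ^ 13 ≤ z ^ 2 := by nlinarith
  have b3 : 2 * (2 * u ^ 2) * (3 / 2 * u ^ 2) ^ 2 + 2 * (3 / 2 * u ^ 2) ^ 3
      ≤ 1 / 10 ^ 4 * (z ^ 2 * u ^ 6) := by
    calc _ = 63 / 4 * u ^ 6 := by ring
      _ ≤ 1 / 10 ^ 4 * z ^ 2 * u ^ 6 :=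
          mul_le_mul_of_nonneg_right (by linarith) (by positivity)
      _ = _ := by ring
  have b4 : 96 * ((θ * u) ^ 2 * (3 * u ^ 3 + z * u ^ 2) ^ 2) ≤ 1 / 10 ^ 4 * (z ^ 2 * u ^ 8) := by
    have e1 : (θ * u) ^ 2 * (3 * u ^ 3 + z * u ^ 2) ^ 2
        = (θ * u * (3 * u ^ 3 + z * u ^ 2)) ^ 2 := by ring
    rw [e1]
    calc _ ≤ 96 * (2 * θ * z * u ^ 4) ^ 2 :=
          mul_le_mul_of_nonneg_left (pow_le_pow_left₀ (by positivity) a4 2) (by norm_num)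
      _ = 384 * θ ^ 2 * (z ^ 2 * u ^ 8) := by ring
      _ ≤ 1 / 10 ^ 4 * (z ^ 2 * u ^ 8) := by
          refine mul_le_mul_of_nonneg_right ?_ (by positivity)
          have : θ ^ 2 ≤ 1 / 10 ^ 8 := by
            have := pow_le_pow_left₀ h1.le h3 2
            norm_num at this ⊢
            exact this
          linarith
  have b5 : 192 * (3 / 2 * u ^ 2) ^ 4 ≤ 1 / 10 ^ 4 * (z ^ 2 * u ^ 8) := by
    calc _ = 972 * u ^ 8 := by ring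
      _ ≤ 1 / 10 ^ 4 * z ^ 2 * u ^ 8 :=
          mul_le_mul_of_nonneg_right (by linarith) (by positivity)
      _ = _ := by ring
  have c1 : 2 * (2 * u ^ 2) * (3 / 2 * u ^ 2) ^ 2 + 2 * (3 / 2 * u ^ 2) ^ 3
      + ((16 * (3 / 2 * u ^ 2) + 8 * (θ * u) ^ 2 + 2 * (b * (z * u ^ 2)))
        * (θ * u * (3 * u ^ 3 + z * u ^ 2))
        + (4 * (3 / 2 * u ^ 2) + 8 * (θ * u) ^ 2 + 2 * (b * (z * u ^ 2)))
        * (3 / 2 * u ^ 2) ^ 2) ≤ 8 / 10 ^ 4 * (z ^ 2 * u ^ 6) := by linarith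
  have c2 := mul_le_mul a1 c1 (by positivity) (by positivity : (0 : ℝ) ≤ 6 * u ^ 2)
  unfold errT
  calc _ ≤ 6 * u ^ 2 * (8 / 10 ^ 4 * (z ^ 2 * u ^ 6))
        + (1 / 10 ^ 4 * (z ^ 2 * u ^ 8) + 1 / 10 ^ 4 * (z ^ 2 * u ^ 8)) :=
        add_le_add c2 (add_le_add b4 b5)
    _ = 50 / 10 ^ 4 * (z ^ 2 * u ^ 8) := by ring
    _ ≤ 1 / 100 * (z ^ 2 * u ^ 8) :=
        mul_le_mul_of_nonneg_right (by norm_num) (by positivity)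
    _ = _ := by ring

/-- (C) -/
theorem errV_le {u b z θ : ℝ} (hu : 1 ≤ u) (hb : 4 ≤ b) (hz : 10 ^ 13 * b ^ 3 ≤ z)
    (hθ : θ = 1 / (10 ^ 4 * b)) :
    errV (3 / 2 * u ^ 2) (θ * u) (3 * u ^ 3) (z * u ^ 2) (b * (z * u ^ 2)) (8 * b ^ 2 * u ^ 4)
      (2 * u ^ 2) (3 * u ^ 4) (16 * u ^ 4) (4 * u ^ 3) ≤ 1 / 100 * θ ^ 2 * z ^ 2 * u ^ 6 := by
  obtain ⟨h1, h2, h3, h4, h5, h6⟩ := late_facts hu hb hz hθ
  have hu0 : 0 < u := by linarith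
  have hb0 : 0 < b := by linarith
  have hz13 : (10 : ℝ) ^ 13 ≤ z := by nlinarith
  have hbz : (10 : ℝ) ^ 13 ≤ b * z := by nlinarith
  have hθ1 : θ ≤ 1 := by linarith [show (1 : ℝ) / 10 ^ 4 ≤ 1 by norm_num]
  have hθ2 : θ ^ 2 ≤ 1 := by nlinarith
  -- expand
  have e : errV (3 / 2 * u ^ 2) (θ * u) (3 * u ^ 3) (z * u ^ 2) (b * (z * u ^ 2))
      (8 * b ^ 2 * u ^ 4) (2 * u ^ 2) (3 * u ^ 4) (16 * u ^ 4) (4 * u ^ 3)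
      = (16 * (θ * b) ^ 2 + 12 * (b * z) + 24 + 16 * (θ * b) * z + 48 * (3 / 2)
        + 48 * θ ^ 2 + 8 * θ * (24 + 8 * θ ^ 2) + 2 * θ ^ 2 * z * (24 + 8 * θ ^ 2)
        + 1024 * θ ^ 2 + 1728) * u ^ 6 + 8 * u ^ 2 := by
    unfold errV; ring
  have hu26 : u ^ 2 ≤ u ^ 6 := pow_le_pow_right₀ hu (by norm_num)
  rw [e, h2]
  have k1 : 8 * θ * (24 + 8 * θ ^ 2) ≤ 256 := by
    have : θ * (24 + 8 * θ ^ 2) ≤ 1 * 32 :=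
      mul_le_mul hθ1 (by linarith) (by positivity) (by norm_num)
    linarith
  have k2 : 2 * θ ^ 2 * z * (24 + 8 * θ ^ 2) ≤ 64 * z := by
    have : (θ ^ 2 * z) * (24 + 8 * θ ^ 2) ≤ (1 * z) * 32 :=
      mul_le_mul (mul_le_mul_of_nonneg_right hθ2 h4.le) (by linarith) (by positivity)
        (by positivity)
    linarith
  have hzbz : 4 * z ≤ b * z := mul_le_mul_of_nonneg_right hb h4.le
  have k3 : 16 * (1 / 10 ^ 4 : ℝ) ^ 2 + 12 * (b * z) + 24 + 16 * (1 / 10 ^ 4) * z + 48 * (3 / 2)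
      + 48 * θ ^ 2 + 8 * θ * (24 + 8 * θ ^ 2) + 2 * θ ^ 2 * z * (24 + 8 * θ ^ 2)
      + 1024 * θ ^ 2 + 1728 ≤ 100 * (b * z) := by
    norm_num
    linarith
  have k4 : (100 * (b * z)) ≤ 1 / 1000 * (θ ^ 2 * z ^ 2) := by linarith
  have h8 : 8 ≤ 1 / 1000 * (θ ^ 2 * z ^ 2) := by linarith
  have hu6 : 0 ≤ u ^ 6 := by positivity
  calc _ ≤ 1 / 1000 * (θ ^ 2 * z ^ 2) * u ^ 6 + 8 * u ^ 6 :=
        add_le_add (mul_le_mul_of_nonneg_right (k3.trans k4) hu6) (by linarith)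
    _ ≤ 1 / 1000 * (θ ^ 2 * z ^ 2) * u ^ 6 + 1 / 1000 * (θ ^ 2 * z ^ 2) * u ^ 6 :=
        add_le_add le_rfl (mul_le_mul_of_nonneg_right h8 hu6)
    _ = 2 / 1000 * (θ ^ 2 * z ^ 2 * u ^ 6) := by ring
    _ ≤ 1 / 100 * (θ ^ 2 * z ^ 2 * u ^ 6) :=
        mul_le_mul_of_nonneg_right (by norm_num) (by positivity)
    _ = _ := by ring

end Crest.Agent.R62.Late
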