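import Crest.Agent.R62.LateStep
import Crest.Agent.R62.LateCst
import Crest.Agent.R62.CtxReal
import Crest.Agent.R62.Assembly

/-!
R62, late phase (helper316): the real state, the late potential as a machine potential, the late
step in the form of `SpecOf.final`.
-/

set_option autoImplicit false
set_option linter.unusedSectionVars false
set_option linter.unusedVariables false
set_option linter.style.multiGoal false
set_option linter.style.show false
open scoped Matrix BigOperators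

namespace Crest.Agent.R62.Late

open Crest.Agent.R62.State Crest.Agent.R62.EvalKit Crest.Agent.R062 Crest.Agent.R062.Mach
open Crest.Agent.R62.SpecOf Crest.Agent.R62.GoodPairs Crest.Agent.R62.AvBase
open Crest.Agent.R62.CtxReal Crest.Agent.R62.AvX1

variable {P : Par} {d n : ℕ} {l : List (ℕ × ℕ)}

/-! ### the context of the real state -/

lemma ge1_of_low {ι : Type*} [Fintype ι] [DecidableEq ι] {K : Matrix ι ι ℝ} {F : Finset ι}
    {s γ : ℝ} (hs : s = 1 ∨ s = -1) (hK : K.IsSymm) (hrow : K *ᵥ ind F = s • ind F)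
    (hF : 0 < F.card) (hγ0 : 0 ≤ γ) (hγ1 : γ ≤ 1)
    (hlow : ∀ f : ι → ℝ, ∑ i ∈ F, f i = 0 → -γ * ∑ i ∈ F, f i ^ 2 ≤ f ⬝ᵥ (K *ᵥ f)) :
    Ge1 K := by
  intro f
  have hk : (0 : ℝ) < F.card := by exact_mod_cast hF
  set k : ℝ := (F.card : ℝ) with hkd
  set c : ℝ := (∑ i ∈ F, f i) / k with hc
  have hck : ∑ i ∈ F, f i = c * k := by rw [hc]; field_simp
  set g : ι → ℝ := f - c • ind F with hg
  have hgF : ∀ i ∈ F, g i = f i - c := by
    intro i hi
    simp [hg, ind, hi]
  have hg0 : ∑ i ∈ F, g i = 0 := by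
    rw [Finset.sum_congr rfl hgF, Finset.sum_sub_distrib, hck, Finset.sum_const, nsmul_eq_mul]
    ring
  have h1 := hlow g hg0
  have hgsq : ∑ i ∈ F, g i ^ 2 = ∑ i ∈ F, f i ^ 2 - c ^ 2 * k := by
    have e : ∀ i ∈ F, g i ^ 2 = f i ^ 2 - 2 * c * f i + c ^ 2 := by
      intro i hi; rw [hgF i hi]; ring
    rw [Finset.sum_congr rfl e, Finset.sum_add_distrib, Finset.sum_sub_distrib, ← Finset.mul_sum,
      hck, Finset.sum_const, nsmul_eq_mul]
    ring
  have hfi : f ⬝ᵥ ind F = c * k := by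
    rw [← hck]
    simp only [dotProduct, ind, mul_ite, mul_one, mul_zero]
    rw [Finset.sum_ite_mem, Finset.univ_inter]
  have hii : ind F ⬝ᵥ ind F = k := by
    rw [hkd]
    simp [dotProduct, ind]
  have hiK : ind F ⬝ᵥ (K *ᵥ f) = s * (c * k) := by
    rw [Upd.dot_mulVec_comm hK, hrow, dotProduct_smul, hfi, smul_eq_mul]
  have hgK : g ⬝ᵥ (K *ᵥ g) = f ⬝ᵥ (K *ᵥ f) - s * c ^ 2 * k := by
    rw [hg, Matrix.mulVec_sub, Matrix.mulVec_smul, hrow, sub_dotProduct, dotProduct_sub,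
      dotProduct_sub, smul_dotProduct, dotProduct_smul, dotProduct_smul, hfi, hiK,
      smul_dotProduct, dotProduct_smul, dotProduct_smul, hii]
    simp only [smul_eq_mul]
    ring
  have hff : ∑ i ∈ F, f i ^ 2 ≤ f ⬝ᵥ f := by
    simp only [dotProduct, ← pow_two]
    exact Finset.sum_le_sum_of_subset_of_nonneg (Finset.subset_univ _) fun i _ _ => sq_nonneg _
  have hg2 : 0 ≤ ∑ i ∈ F, g i ^ 2 := Finset.sum_nonneg fun i _ => sq_nonneg _
  rw [hgK, hgsq] at h1
  rw [hgsq] at hg2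
  have h2 : γ * (∑ i ∈ F, f i ^ 2 - c ^ 2 * k) ≤ 1 * (∑ i ∈ F, f i ^ 2 - c ^ 2 * k) :=
    mul_le_mul_of_nonneg_right hγ1 hg2
  have h3 : -(c ^ 2 * k) ≤ s * c ^ 2 * k := by
    have h4 : 0 ≤ c ^ 2 * k := mul_nonneg (sq_nonneg c) hk.le
    rcases hs with rfl | rfl <;> linarith
  linarith

lemma card_pos (h : Lst P d n l) : 0 < (Fs n d l).card := by
  have h1 := h.card
  have h2 := h.len
  omega

lemma Lst.ge1 (h : Lst P d n l) (b : Bool) : Ge1 (KR P d n b l) := by
  have h0 := h.γ0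
  have h1 := h.γ1
  exact ge1_of_low (sg_eq b) (Kmat_symm (P.gam.v n) (sg b) (P.mu.v n) n d l) (h.row b) (card_pos h)
    h0.le (by nlinarith) (h.low b)

open Classical in
/-- the late context of the real state -/
theorem lctx (h : Lst P d n l) :
    LCtx (d : ℝ) (Fs n d l) (fun b => KR P d n b l) (Sg P d n l) := by
  have hd : 0 < d := by have := h.hd; omega
  have hrow : ∀ x ∈ Fs n d l,
      ((((Fs n d l).filter fun y => (x, y) ∉ Sg P d n l).card : ℕ) : ℝ) ≤ (d + 1) * d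
        + ∑ b : Bool, (25 * (KR P d n b l ^ 2) x x
          + 100 * (KR P d n b l x x ^ 2 * Vf (KR P d n b l))) := by
    intro x hx
    have h1 := card_bad_row (P := P) hd h.valid x hx
    have e : ((Fs n d l).filter fun y => (x, y) ∉ Sg P d n l)
        = ((Fs n d l).filter fun y => ¬ Gp P d n l x y) :=
      Finset.filter_congr fun y _ => by rw [mem_Sg]
    rw [e, Fintype.sum_bool]
    unfold Vf
    linarith
  exact {
    symm := fun b => Kmat_symm (P.gam.v n) (sg b) (P.mu.v n) n d l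
    dead := fun b i j hi => KR_dead (Or.inl hi)
    row := fun b => h.row b
    ge := fun b => Lst.ge1 h b
    sub := Sg_subset P d n l
    good := fun b p hp => by
      have h1 := mem_Sg.mp hp
      exact ⟨fun e => adm_ne h1.1 (congrArg Fin.val e), (h1.2.1 b).trans (by norm_num),
        (h1.2.2 b).trans (by norm_num)⟩
    bad := by
      have h1 := card_bad (P := P) (n := n) (l := l) hd h.valid
      rw [Fintype.sum_bool]
      unfold Vf
      convert h1.trans (le_of_eq _) using 3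
      ring
    rowL := fun x hx => by
      convert hrow x hx
    rowR := fun y hy => by
      have h1 := hrow y hy
      have e : ((Fs n d l).filter fun x => (x, y) ∉ Sg P d n l)
          = ((Fs n d l).filter fun x => (y, x) ∉ Sg P d n l) :=
        Finset.filter_congr fun x _ => by
          rw [mem_Sg, mem_Sg]
          exact not_congr ⟨fun h => h.symm, fun h => h.symm⟩
      rw [← e] at h1
      convert h1 }

/-- one late step of the real state -/
theorem real_step (h : Lst P d n l) {z g g' : ℝ} (hz : 10 ^ 13 * ((d : ℝ) + 1) ^ 3 ≤ z)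
    (hk : z ^ 2 ≤ ((Fs n d l).card : ℝ)) (hg' : 0 < g') (hgg : g' ≤ g)
    (hg : g ≤ g' * (1 + 3 / (2 * ((Fs n d l).card : ℝ)))) (hgk : g ^ 2 ≤ ((Fs n d l).card : ℝ))
    (hkg : ((Fs n d l).card : ℝ) ≤ g ^ 2 * (1 + 1 / 1000))
    (hP : Psi z (1 / (10 ^ 4 * ((d : ℝ) + 1))) (Fs n d l).card g (fun b => KR P d n b l) ≤ 1) :
    ∃ x y : Fin (n * d), Gp P d n l x y ∧
      Psi z (1 / (10 ^ 4 * ((d : ℝ) + 1))) ((Fs n d l).card - 2) g'
        (fun b => KR P d n b (((x : ℕ), (y : ℕ)) :: l)) ≤ 1 - 1 / (4 * ((Fs n d l).card : ℝ)) := by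
  classical
  have hd3 : (3 : ℝ) ≤ d := by exact_mod_cast h.hd
  have hL := lctx h
  have hstep := late_step (b := (d : ℝ) + 1) hL rfl (by linarith) hz rfl hk hg' hgg hg hgk hkg hP
  have hne : (Sg P d n l).Nonempty := by
    have hk0 : (0 : ℝ) < (Fs n d l).card := by exact_mod_cast card_pos h
    have hg0 : 0 < g := by linarith
    obtain ⟨u, h2, -⟩ := lbd_of (b := (d : ℝ) + 1) hL (by linarith) hz rfl hk hg0 hgk hP
    have h3 := (ctx_of hL h2 rfl true).bad
    rw [mul_pow, ← h2.card] at h3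
    by_contra hcon
    rw [Finset.not_nonempty_iff_eq_empty] at hcon
    rw [hcon, Finset.sdiff_empty, Finset.card_product] at h3
    push_cast at h3
    have h4 : ((d : ℝ) + 1) ^ 2 < (Fs n d l).card := by
      refine lt_of_lt_of_le ?_ hk
      have h5 : (1 : ℝ) ≤ (d : ℝ) + 1 := by linarith
      have h6 : ((d : ℝ) + 1) ^ 1 ≤ ((d : ℝ) + 1) ^ 3 := pow_le_pow_right₀ h5 (by norm_num)
      have h7 : (d : ℝ) + 1 < z := by
        rw [pow_one] at h6
        nlinarith
      nlinarith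
    nlinarith
  obtain ⟨p, hp, h1⟩ := exists_of_avg (Sg P d n l) hne (fun _ => 1)
    (fun p => Psi z (1 / (10 ^ 4 * ((d : ℝ) + 1))) ((Fs n d l).card - 2) g'
      (fun c => Upd.upd (Mach.sg c : ℝ) (KR P d n c l) p.1 p.2))
    (1 - 1 / (4 * ((Fs n d l).card : ℝ))) (fun _ _ => one_pos) (by
      simp only [one_mul, Finset.sum_const, nsmul_eq_mul, mul_one]
      linarith)
  refine ⟨p.1, p.2, mem_Sg.mp hp, ?_⟩
  have e : (fun b => KR P d n b (((p.1 : ℕ), (p.2 : ℕ)) :: l))
      = fun c => Upd.upd (Mach.sg c : ℝ) (KR P d n c l) p.1 p.2 := by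
    funext c
    exact Kmat_cons _ _ _ n d l p.1 p.2
  rw [e]
  exact h1

/-! ### the late potential as a machine potential -/

/-- one sign -/
noncomputable def psiB (P : Par) (d z : ℕ) (b : Bool) : Pot P d :=
  Pot.add (Pot.add
    (Pot.smul (Cst.mul (Cst.const ((z : ℚ) ^ 2)) (Cst.invFree d)) (Pot.sub (Pot.x 2 b) (Pot.int 1)))
    (Pot.smul (Cst.mul (Cst.const ((z : ℚ) ^ 2)) (Cst.invFree d))
      (Pot.sq (Pot.sub (Pot.x 1 b) (Pot.int (if b then 1 else -1))))))
    (Pot.smul (Cst.mul (Cst.const ((z : ℚ) * (10 ^ 4 * ((d : ℚ) + 1)) ^ 2)) (Cst.ginv d)) (Pot.v b))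

/-- **the late potential**; the constraint of the late phase is `psi3 ≤ 1` -/
noncomputable def psi3 (P : Par) (d z : ℕ) : Pot P d := Pot.add (psiB P d z true) (psiB P d z false)

lemma sg_cast (b : Bool) : ((if b then 1 else -1 : ℤ) : ℝ) = Mach.sg b := by
  cases b <;> simp [Mach.sg]

/-- `g` at the list `l` -/
noncomputable def gl (n d : ℕ) (l : List (ℕ × ℕ)) : ℝ :=
  LateCst.g (n * d + 1) (n * d - 2 * l.length)

lemma psiB_val (z : ℕ) (b : Bool) (l : List (ℕ × ℕ)) :
    (psiB P d z b).val n l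
      = (z : ℝ) ^ 2 * ((KR P d n b l ^ 2).trace - 1) / ((n : ℝ) * d - 2 * l.length)
        + (z : ℝ) ^ 2 * ((KR P d n b l).trace - Mach.sg b) ^ 2 / ((n : ℝ) * d - 2 * l.length)
        + (z : ℝ) * Vf (KR P d n b l) / ((1 / (10 ^ 4 * ((d : ℝ) + 1))) ^ 2 * gl n d l) := by
  have e1 : (psiB P d z b).val n l
      = (((Cst.mul (Cst.const ((z : ℚ) ^ 2)) (Cst.invFree d)).f n l.length : ℚ) : ℝ)
          * (Matrix.trace (KR P d n b l ^ 2) - ((1 : ℤ) : ℝ))
        + (((Cst.mul (Cst.const ((z : ℚ) ^ 2)) (Cst.invFree d)).f n l.length : ℚ) : ℝ)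
          * (Matrix.trace (KR P d n b l ^ 1) - ((if b then 1 else -1 : ℤ) : ℝ)) ^ 2
        + (((Cst.mul (Cst.const ((z : ℚ) * (10 ^ 4 * ((d : ℚ) + 1)) ^ 2))
            (Cst.ginv d)).f n l.length : ℚ) : ℝ) * (∑ z, (KR P d n b l z z) ^ 2) := rfl
  rw [e1, Cst.mul_f, Cst.mul_f, Cst.const_f, Cst.const_f, Cst.invFree_f, Rat.cast_mul,
    Rat.cast_mul, Cst.ginv_f, sg_cast, pow_one]
  push_cast
  have hd : ((d : ℝ) + 1) ≠ 0 := by positivity
  unfold gl Vf
  rw [div_eq_mul_inv _ ((1 / (10 ^ 4 * ((d : ℝ) + 1))) ^ 2 * LateCst.g (n * d + 1)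
    (n * d - 2 * l.length)), mul_inv, one_div, inv_pow, inv_inv]
  ring

/-- the value of the late potential -/
theorem psi3_val (z : ℕ) (l : List (ℕ × ℕ)) :
    (psi3 P d z).val n l = Psi (z : ℝ) (1 / (10 ^ 4 * ((d : ℝ) + 1)))
      ((n : ℝ) * d - 2 * l.length) (gl n d l) (fun b => KR P d n b l) := by
  have e1 : (psi3 P d z).val n l = (psiB P d z true).val n l + (psiB P d z false).val n l := rfl
  rw [e1, psiB_val, psiB_val]
  unfold Psi
  rw [Fintype.sum_bool]

lemma card_real (h : Lst P d n l) : ((Fs n d l).card : ℝ) = (n : ℝ) * d - 2 * l.length := by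
  have h1 := h.card
  have : (((Fs n d l).card + 2 * l.length : ℕ) : ℝ) = ((n * d : ℕ) : ℝ) := by rw [h1]
  push_cast at this
  linarith

/-- **the late step** -/
theorem psi3_step (h : Lst P d n l) {z : ℕ} (hz : 10 ^ 13 * (d + 1) ^ 3 ≤ z)
    (hk : z ^ 2 + 2 * l.length ≤ n * d) (hP : (psi3 P d z).val n l ≤ 1) :
    ∃ x y : Fin (n * d), Gp P d n l x y ∧
      (psi3 P d z).val n (((x : ℕ), (y : ℕ)) :: l)
        ≤ 1 - 1 / (4 * ((n : ℝ) * d - 2 * l.length)) := by
  have hc := card_real h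
  have hcn : (Fs n d l).card = n * d - 2 * l.length := by have := h.card; omega
  have hz13 : 1000 ≤ z := by
    refine le_trans ?_ hz
    have h1 : 1 ≤ (d + 1) ^ 3 := Nat.one_le_pow _ _ (by omega)
    calc 1000 ≤ 10 ^ 13 * 1 := by norm_num
      _ ≤ 10 ^ 13 * (d + 1) ^ 3 := Nat.mul_le_mul_left _ h1
  have hzz : 1000 ≤ z ^ 2 := by nlinarith
  have hbig : 1000 ≤ n * d - 2 * l.length := by omega
  rw [psi3_val, ← hc] at hP
  have hgl : gl n d l = LateCst.g (n * d + 1) (Fs n d l).card := by rw [hcn]; rfl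
  have hgl' : ∀ p : ℕ × ℕ, gl n d (p :: l) = LateCst.g (n * d + 1) ((Fs n d l).card - 2) := by
    intro p
    unfold gl
    rw [hcn, List.length_cons]
    congr 1
  have hN0 : 0 < n * d + 1 := by omega
  have hgpos : 0 < LateCst.g (n * d + 1) ((Fs n d l).card - 2) :=
    LateCst.g_pos hN0 (by omega)
  obtain ⟨x, y, hg, h1⟩ := real_step h (z := (z : ℝ)) (g := gl n d l)
    (g' := LateCst.g (n * d + 1) ((Fs n d l).card - 2)) (by exact_mod_cast hz)
    (by
      have : z ^ 2 ≤ (Fs n d l).card := by omega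
      exact_mod_cast this) hgpos (by rw [hgl]; exact LateCst.g_mono _ (by omega))
    (by rw [hgl]; exact LateCst.g_le_g_sub (by omega) (by omega))
    (by rw [hgl]; exact LateCst.g_sq_le hN0 _)
    (by rw [hgl]; exact LateCst.le_g_sq (by omega) (by omega)) hP
  refine ⟨x, y, hg, ?_⟩
  rw [psi3_val, hgl', ← hc, List.length_cons]
  have e : (n : ℝ) * d - 2 * ((l.length + 1 : ℕ) : ℝ) = (Fs n d l).card - 2 := by
    rw [hc]; push_cast; ring
  rw [e]
  exact h1

/-- bound of `Tr K²` in the late phase -/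
theorem psi3_X2 (h : Lst P d n l) {z : ℕ} (hz : 0 < z) (hP : (psi3 P d z).val n l ≤ 1)
    (b : Bool) :
    (KR P d n b l ^ 2).trace ≤ 1 + ((n : ℝ) * d - 2 * l.length) / (z : ℝ) ^ 2 := by
  have hc := card_real h
  have hcn : (Fs n d l).card = n * d - 2 * l.length := by have := h.card; omega
  have hF := card_pos h
  have hk0 : (0 : ℝ) < (Fs n d l).card := by exact_mod_cast hF
  rw [psi3_val, ← hc] at hP
  have hg : 0 < gl n d l := by
    unfold gl
    exact LateCst.g_pos (by omega) (by rw [← hcn]; omega)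
  have hz0 : (0 : ℝ) < z := by exact_mod_cast hz
  have h1 := (part_le (θ := 1 / (10 ^ 4 * ((d : ℝ) + 1))) hz0 hk0 hg hF (lctx h) hP b).1
  rw [div_le_one hk0] at h1
  rw [← hc]
  have : (KR P d n b l ^ 2).trace - 1 ≤ (Fs n d l).card / (z : ℝ) ^ 2 := by
    rw [le_div_iff₀ (by positivity)]; linarith
  linarith

/-- the end of the late phase -/
theorem psi3_end (h : Lst P d n l) {z : ℕ} (hz : 0 < z) (hk : n * d < z ^ 2 + 2 * l.length)
    (hP : (psi3 P d z).val n l ≤ 1) (b : Bool) : (KR P d n b l ^ 2).trace < 2 := by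
  have h1 := psi3_X2 h hz hP b
  have hz0 : (0 : ℝ) < (z : ℝ) ^ 2 := by positivity
  have h2 : ((n : ℝ) * d - 2 * l.length) / (z : ℝ) ^ 2 < 1 := by
    rw [div_lt_one hz0]
    have : ((n * d : ℕ) : ℝ) < ((z ^ 2 + 2 * l.length : ℕ) : ℝ) := by exact_mod_cast hk
    push_cast at this
    linarith
  linarith

end Crest.Agent.R62.Late
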