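import Crest.Agent.R62.LateV
import Crest.Agent.R62.LateNum
import Crest.Agent.R62.LateErrX
import Crest.Agent.R062.MachDefs

/-!
R62, late phase (helper316): the abstract step of the late phase.

`Psi z θ k g K = ∑_b [ z² (Tr K_b² - 1)/k + z² (Tr K_b - s_b)²/k + z V_b / (θ² g) ]`.
-/

set_option autoImplicit false
set_option linter.unusedSectionVars false
set_option linter.unusedVariables false
set_option linter.style.multiGoal false
set_option linter.style.show false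

open Matrix Finset

namespace Crest.Agent.R62.Late

open Crest.Agent.R62.Upd Crest.Agent.R62.AvBase Crest.Agent.R62.AvX1
open Crest.Agent.R062

variable {ι : Type*} [Fintype ι] [DecidableEq ι]

lemma opB_of_frob {K : Matrix ι ι ℝ} {L : ℝ} (hK : K.IsSymm) (hL : 0 ≤ L)
    (h : (K ^ 2).trace ≤ L ^ 2) : OpB K L := by
  refine ⟨hL, fun v => ?_⟩
  have h2 : (K *ᵥ v) ⬝ᵥ (K *ᵥ v) ≤ (K ^ 2).trace * (v ⬝ᵥ v) := by
    have h3 := frob_pow hK.eq 1
    simp only [mul_one, pow_one] at h3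
    rw [← h3]
    simp only [Matrix.mulVec, dotProduct, Finset.sum_mul]
    refine Finset.sum_le_sum fun x _ => ?_
    have := Finset.sum_mul_sq_le_sq_mul_sq Finset.univ (fun y => K x y) v
    calc _ = (∑ y, K x y * v y) ^ 2 := by rw [← Finset.sum_mul]; ring
      _ ≤ _ := this
      _ = _ := by rw [Finset.sum_mul]; simp only [pow_two (v _)]
  exact h2.trans (mul_le_mul_of_nonneg_right h (dot_self_nonneg v))

/-- `Tr K² ≥ 1` because `K u = s u`, `u ≠ 0` -/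
lemma one_le_X2 {K : Matrix ι ι ℝ} {s : ℝ} {F : Finset ι} (hK : K.IsSymm)
    (hs : s ^ 2 = 1) (hr : K *ᵥ ind F = s • ind F) (hF : 0 < F.card) :
    1 ≤ (K ^ 2).trace := by
  have hX := X_nonneg hK
  have h1 := (opB_of_frob hK (Real.sqrt_nonneg _) (Real.sq_sqrt hX).ge).2 (ind F)
  rw [hr, Real.sq_sqrt hX] at h1
  have h2 : ind F ⬝ᵥ ind F = (F.card : ℝ) := by
    simp [dotProduct, ind]
  rw [smul_dotProduct, dotProduct_smul, h2, smul_eq_mul, smul_eq_mul, ← mul_assoc, ← pow_two, hs,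
    one_mul] at h1
  have h3 : (0 : ℝ) < F.card := by exact_mod_cast hF
  by_contra hcon
  push Not at hcon
  nlinarith

/-- structural facts in the late phase for both signs; `S` is the set of good pairs -/
structure LCtx (d : ℝ) (F : Finset ι) (K : Bool → Matrix ι ι ℝ) (S : Finset (ι × ι)) :
    Prop where
  symm : ∀ b, (K b).IsSymm
  dead : ∀ b i j, i ∉ F → K b i j = 0
  row : ∀ b, K b *ᵥ ind F = (Mach.sg b : ℝ) • ind F
  ge : ∀ b, Ge1 (K b)
  sub : S ⊆ F ×ˢ F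
  good : ∀ b, ∀ p ∈ S, GoodPair (K b) p.1 p.2
  bad : ((((F ×ˢ F) \ S).card : ℕ) : ℝ) ≤ (d + 1) * d * F.card
    + ∑ b, (25 * (K b ^ 2).trace + 100 * Vf (K b) ^ 2)
  rowL : ∀ x ∈ F, (((F.filter fun y => (x, y) ∉ S).card : ℕ) : ℝ) ≤ (d + 1) * d
    + ∑ b, (25 * (K b ^ 2) x x + 100 * (K b x x ^ 2 * Vf (K b)))
  rowR : ∀ y ∈ F, (((F.filter fun x => (x, y) ∉ S).card : ℕ) : ℝ) ≤ (d + 1) * d
    + ∑ b, (25 * (K b ^ 2) y y + 100 * (K b y y ^ 2 * Vf (K b)))

lemma sg_or (b : Bool) : (Mach.sg b : ℝ) = 1 ∨ (Mach.sg b : ℝ) = -1 := by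
  cases b <;> simp [Mach.sg]

lemma diag_le_trace {K : Matrix ι ι ℝ} (hK : K.IsSymm) (x : ι) :
    (K ^ 2) x x ≤ (K ^ 2).trace :=
  Finset.single_le_sum (f := fun x => (K ^ 2) x x) (fun x _ => Q_nonneg hK x)
    (Finset.mem_univ x)

lemma diag_sq_le_Vf (K : Matrix ι ι ℝ) (x : ι) : K x x ^ 2 ≤ Vf K :=
  Finset.single_le_sum (f := fun x => K x x ^ 2) (fun x _ => sq_nonneg _) (Finset.mem_univ x)

section one

variable {d b z θ u : ℝ} {F : Finset ι} {K : Bool → Matrix ι ι ℝ} {S : Finset (ι × ι)}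

/-- numerical bounds at a late time: `#F = (z u²)²`, `X_2 ≤ 1 + u⁴`, `V ≤ θ² u²`,
`(T - s)² ≤ u⁴` -/
structure LBd (b z θ u : ℝ) (F : Finset ι) (K : Bool → Matrix ι ι ℝ) : Prop where
  hu : 1 ≤ u
  hb : 4 ≤ b
  hz : 10 ^ 13 * b ^ 3 ≤ z
  hθ : θ = 1 / (10 ^ 4 * b)
  card : (F.card : ℝ) = (z * u ^ 2) ^ 2
  X : ∀ c, (K c ^ 2).trace ≤ 1 + u ^ 4
  V : ∀ c, Vf (K c) ≤ θ ^ 2 * u ^ 2
  T : ∀ c, ((K c).trace - Mach.sg c) ^ 2 ≤ u ^ 4

namespace LBd

lemma X' (h : LBd b z θ u F K) (c : Bool) : (K c ^ 2).trace ≤ 2 * u ^ 4 := by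
  have := h.X c
  have h1 : 1 ≤ u ^ 4 := one_le_pow₀ h.hu
  linarith

lemma b0 (h : LBd b z θ u F K) : 0 < b := by linarith [h.hb]

lemma z0 (h : LBd b z θ u F K) : 1 ≤ z := by
  have hb := h.hb
  have h1 : (1 : ℝ) ≤ b ^ 3 := one_le_pow₀ (by linarith)
  have := h.hz
  linarith

lemma hθ0 (h : LBd b z θ u F K) : 0 < θ := by
  rw [h.hθ]; exact div_pos one_pos (mul_pos (by norm_num) h.b0)

lemma θ1 (h : LBd b z θ u F K) : θ ≤ 1 / 10 ^ 4 := by
  refine h.hθ.le.trans ?_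
  rw [div_le_div_iff₀ (mul_pos (by norm_num) h.b0) (by norm_num)]
  nlinarith [h.hb]

lemma V1 (h : LBd b z θ u F K) (c : Bool) : Vf (K c) ^ 2 ≤ 1 / 1000 * u ^ 4 := by
  have h1 := h.V c
  have h2 := h.θ1
  have h3 := h.hθ0
  have hu := h.hu
  have h4 : Vf (K c) ≤ 1 / 10 ^ 8 * u ^ 2 := by
    refine h1.trans (mul_le_mul_of_nonneg_right ?_ (by positivity))
    calc θ ^ 2 ≤ (1 / 10 ^ 4) ^ 2 := pow_le_pow_left₀ h3.le h2 2
      _ = _ := by norm_num
  have h5 := Vf_nonneg (K c)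
  calc Vf (K c) ^ 2 ≤ (1 / 10 ^ 8 * u ^ 2) ^ 2 := pow_le_pow_left₀ h5 h4 2
    _ = 1 / 10 ^ 16 * u ^ 4 := by ring
    _ ≤ 1 / 1000 * u ^ 4 := mul_le_mul_of_nonneg_right (by norm_num) (by positivity)

end LBd

lemma rowBound (h : LCtx d F K S) (h2 : LBd b z θ u F K) (hd : b = d + 1) (x : ι) :
    (d + 1) * d + ∑ b, (25 * (K b ^ 2) x x + 100 * (K b x x ^ 2 * Vf (K b)))
      ≤ 8 * b ^ 2 * u ^ 4 := by
  rw [Fintype.sum_bool]
  have e : ∀ c, 25 * (K c ^ 2) x x + 100 * (K c x x ^ 2 * Vf (K c)) ≤ 51 * u ^ 4 := by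
    intro c
    have h3 := (diag_le_trace (h.symm c) x).trans (h2.X' c)
    have h4 := diag_sq_le_Vf (K c) x
    have h5 := Vf_nonneg (K c)
    have h6 := h2.V1 c
    have h7 : K c x x ^ 2 * Vf (K c) ≤ Vf (K c) ^ 2 := by nlinarith
    have h8 : 0 ≤ u ^ 4 := by have := h2.hu; positivity
    linarith
  have h1 : 1 ≤ u ^ 4 := one_le_pow₀ h2.hu
  have h3 : (d + 1) * d ≤ b ^ 2 * u ^ 4 := by
    have : (d + 1) * d ≤ b ^ 2 := by rw [hd]; nlinarith [h2.hb]
    calc _ ≤ b ^ 2 := this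
      _ = b ^ 2 * 1 := by ring
      _ ≤ _ := mul_le_mul_of_nonneg_left h1 (sq_nonneg b)
  have h4 : (102 : ℝ) * u ^ 4 ≤ 7 * b ^ 2 * u ^ 4 := by
    refine mul_le_mul_of_nonneg_right ?_ (by positivity)
    nlinarith [h2.hb]
  linarith [e true, e false]

/-- the context of the one-step bounds -/
theorem ctx_of (h : LCtx d F K S) (h2 : LBd b z θ u F K) (hd : b = d + 1) (c : Bool) :
    Ctx F (K c) (Mach.sg c : ℝ) S (3 / 2 * u ^ 2) (θ * u) (3 * u ^ 3) (z * u ^ 2)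
      (b * (z * u ^ 2)) (8 * b ^ 2 * u ^ 4) := by
  have hu := h2.hu
  have hb := h2.hb
  have hz := h2.z0
  have hθ := h2.θ1
  have hθ0 := h2.hθ0
  have hu2 : 1 ≤ u ^ 2 := one_le_pow₀ hu
  have hu4 : 1 ≤ u ^ 4 := one_le_pow₀ hu
  have hX : (K c ^ 2).trace ≤ (3 / 2 * u ^ 2) ^ 2 := by
    have := h2.X' c
    nlinarith
  have hOp : OpB (K c) (3 / 2 * u ^ 2) := opB_of_frob (h.symm c) (by positivity) hX
  have hN1 : 1 ≤ 3 / 2 * u ^ 2 := by linarith
  have hV : Vf (K c) ≤ (θ * u) ^ 2 := by rw [mul_pow]; exact h2.V c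
  have hθ2 : θ ^ 2 ≤ 1 / 10 ^ 8 := by
    calc θ ^ 2 ≤ (1 / 10 ^ 4) ^ 2 := pow_le_pow_left₀ hθ0.le hθ 2
      _ = _ := by norm_num
  have hA : Af (K c) ≤ 3 * u ^ 4 := by
    have h3 := Af_le (h.symm c) (h.ge c) hOp hN1
    have h4 := h2.X' c
    have h5 : 2 * (3 / 2 * u ^ 2) * Vf (K c) ≤ 2 * (3 / 2 * u ^ 2) * (1 / 10 ^ 8 * u ^ 2) := by
      refine mul_le_mul_of_nonneg_left ?_ (by positivity)
      exact (h2.V c).trans (mul_le_mul_of_nonneg_right hθ2 (by positivity))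
    nlinarith
  exact {
    hs := sg_or c
    sym := h.symm c
    dead := h.dead c
    row := h.row c
    hS := h.sub
    good := h.good c
    N1 := hN1
    X := hX
    op := hOp
    ge := h.ge c
    v0 := by positivity
    V := hV
    R0 := by positivity
    R2 := by
      have h3 := R2f_le (h.symm c) (h.ge c) hOp hN1
      have h4 := h2.X' c
      calc R2f (K c) ≤ _ := h3
        _ ≤ (3 / 2 * u ^ 2) * (2 * u ^ 4 + 3 * u ^ 4) :=
            mul_le_mul_of_nonneg_left (by linarith) (by positivity)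
        _ ≤ _ := by nlinarith [pow_pos (by linarith : (0:ℝ) < u) 6]
    t0 := by positivity
    card := h2.card.le
    β0 := by positivity
    bad := by
      refine h.bad.trans ?_
      rw [Fintype.sum_bool, h2.card]
      have e : ∀ c, 25 * (K c ^ 2).trace + 100 * Vf (K c) ^ 2 ≤ 51 * u ^ 4 := by
        intro c
        have h3 := h2.X' c
        have h6 := h2.V1 c
        linarith
      have h4 : (102 : ℝ) * u ^ 4 ≤ (z * u ^ 2) ^ 2 := by
        have h5 : (102 : ℝ) ≤ z ^ 2 := by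
          have := h2.hz
          have h7 : (1 : ℝ) ≤ b ^ 3 := one_le_pow₀ (by linarith)
          nlinarith
        calc (102 : ℝ) * u ^ 4 ≤ z ^ 2 * u ^ 4 := mul_le_mul_of_nonneg_right h5 (by positivity)
          _ = _ := by ring
      have h8 : (d + 1) * d * (z * u ^ 2) ^ 2 + (z * u ^ 2) ^ 2 ≤ (b * (z * u ^ 2)) ^ 2 := by
        have : (d + 1) * d + 1 ≤ b ^ 2 := by rw [hd]; nlinarith
        calc _ = ((d + 1) * d + 1) * (z * u ^ 2) ^ 2 := by ring
          _ ≤ b ^ 2 * (z * u ^ 2) ^ 2 := mul_le_mul_of_nonneg_right this (by positivity)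
          _ = _ := by ring
      linarith [e true, e false]
    D0 := by positivity
    rowL := fun x hx => (h.rowL x hx).trans (rowBound h h2 hd x)
    rowR := fun x hx => (h.rowR x hx).trans (rowBound h h2 hd x) }

lemma tau_le (h2 : LBd b z θ u F K) (c : Bool) : |(K c).trace| ≤ 2 * u ^ 2 := by
  have h1 : |(K c).trace - (Mach.sg c : ℝ)| ≤ u ^ 2 := by
    refine abs_le_of_sq_le_sq ?_ (by positivity)
    have := h2.T c
    calc _ ≤ u ^ 4 := this
      _ = _ := by ring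
  have hu2 : 1 ≤ u ^ 2 := one_le_pow₀ h2.hu
  rw [abs_le] at h1 ⊢
  rcases sg_or c with h | h <;> rw [h] at h1 <;> constructor <;> linarith [h1.1, h1.2]

lemma bounds (h : LCtx d F K S) (h2 : LBd b z θ u F K) (hd : b = d + 1) (c : Bool) :
    Af (K c) ≤ 3 * u ^ 4 ∧ M4f (K c) ≤ 16 * u ^ 4 ∧ ∑ x, gf (K c) x ^ 2 ≤ (4 * u ^ 3) ^ 2 := by
  have hC := ctx_of h h2 hd c
  have hu := h2.hu
  have hu4 : 1 ≤ u ^ 4 := one_le_pow₀ hu
  have hθ2 : θ ^ 2 ≤ 1 / 10 ^ 8 := by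
    calc θ ^ 2 ≤ (1 / 10 ^ 4) ^ 2 := pow_le_pow_left₀ h2.hθ0.le h2.θ1 2
      _ = _ := by norm_num
  have hV : Vf (K c) ≤ 1 / 10 ^ 8 * u ^ 2 :=
    (h2.V c).trans (mul_le_mul_of_nonneg_right hθ2 (by positivity))
  have hV0 := Vf_nonneg (K c)
  have hA : Af (K c) ≤ 3 * u ^ 4 := by
    have h3 := Af_le (h.symm c) (h.ge c) hC.op hC.N1
    have h4 := h2.X' c
    have h5 : 2 * (3 / 2 * u ^ 2) * Vf (K c) ≤ 2 * (3 / 2 * u ^ 2) * (1 / 10 ^ 8 * u ^ 2) :=
      mul_le_mul_of_nonneg_left hV (by positivity)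
    nlinarith
  have hH : Hf (K c) ≤ 7 * u ^ 4 := by
    have h3 := Hf_le (h.symm c) (h.ge c)
    have h4 := h2.V1 c
    linarith
  refine ⟨hA, ?_, ?_⟩
  · have h3 := M4f_le (h.symm c) (h.ge c)
    have h4 := h2.X' c
    linarith
  · have h3 := sum_g_sq_le (h.symm c) (h.ge c)
    have h4 := h2.X' c
    have h5 : R2f (K c) ≤ 9 * u ^ 6 := by
      refine hC.R2.trans (le_of_eq (by ring))
    have h6 : 2 * Vf (K c) * ((K c ^ 2).trace + Af (K c)) ≤ 2 * (1 / 10 ^ 8 * u ^ 2) * (5 * u ^ 4) :=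
      mul_le_mul (by linarith) (by linarith)
        (add_nonneg (X_nonneg (h.symm c)) (Af_nonneg (h.symm c))) (by positivity)
    have h7 : 2 * Vf (K c) * (Af (K c) + Hf (K c)) ≤ 2 * (1 / 10 ^ 8 * u ^ 2) * (10 * u ^ 4) :=
      mul_le_mul (by linarith) (by linarith)
        (add_nonneg (Af_nonneg (h.symm c)) (Hf_nonneg (K c))) (by positivity)
    nlinarith [pow_pos (by linarith : (0:ℝ) < u) 6]

end one

/-- the late potential -/
noncomputable def Psi (z θ k g : ℝ) (K : Bool → Matrix ι ι ℝ) : ℝ :=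
  ∑ b, (z ^ 2 * ((K b ^ 2).trace - 1) / k + z ^ 2 * ((K b).trace - Mach.sg b) ^ 2 / k
    + z * Vf (K b) / (θ ^ 2 * g))

section step

variable {d b z θ u k g g' : ℝ} {F : Finset ι} {K : Bool → Matrix ι ι ℝ} {S : Finset (ι × ι)}

/-- scalar combination for a functional with rate `-4` and weight `z²/k` -/
lemma comb1 {α : Type*} (S : Finset α) (f : α → ℝ) {X e z k : ℝ} (hk : 100 ≤ k) (hX : 0 ≤ X)
    (hS : (S.card : ℝ) ≤ k ^ 2) (hD : ∑ p ∈ S, (f p - X) ≤ -4 * k * X + e)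
    (he : z ^ 2 * e ≤ 1 / 100 * k ^ 2) :
    ∑ p ∈ S, (z ^ 2 * f p / (k - 2) - z ^ 2 * X / k) ≤ -2 * k * (z ^ 2 * X / k) + 11 / 1000 * k := by
  have hk2 : 0 < k - 2 := by linarith
  have hk0 : 0 < k := by linarith
  have e1 : ∑ p ∈ S, (z ^ 2 * f p / (k - 2) - z ^ 2 * X / k)
      = z ^ 2 / (k - 2) * ∑ p ∈ S, (f p - X) + S.card * (z ^ 2 * X * (2 / (k * (k - 2)))) := by
    rw [Finset.mul_sum, ← nsmul_eq_mul, ← Finset.sum_const, ← Finset.sum_add_distrib]
    refine Finset.sum_congr rfl fun p _ => ?_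
    field_simp
    ring
  rw [e1]
  have h1 : z ^ 2 / (k - 2) * ∑ p ∈ S, (f p - X) ≤ z ^ 2 / (k - 2) * (-4 * k * X + e) :=
    mul_le_mul_of_nonneg_left hD (by positivity)
  have h2 : (S.card : ℝ) * (z ^ 2 * X * (2 / (k * (k - 2))))
      ≤ k ^ 2 * (z ^ 2 * X * (2 / (k * (k - 2)))) :=
    mul_le_mul_of_nonneg_right hS (by positivity)
  have h3 : z ^ 2 / (k - 2) * (-4 * k * X + e) + k ^ 2 * (z ^ 2 * X * (2 / (k * (k - 2))))
      = (-2 * k * (z ^ 2 * X) + z ^ 2 * e) / (k - 2) := by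
    field_simp
    ring
  have h4 : -2 * k * (z ^ 2 * X / k) = -2 * (z ^ 2 * X) := by
    field_simp
  have h5 : (-2 * k * (z ^ 2 * X) + z ^ 2 * e) / (k - 2) ≤ -2 * (z ^ 2 * X) + 11 / 1000 * k := by
    rw [div_le_iff₀ hk2]
    have h6 : 0 ≤ z ^ 2 * X := by positivity
    nlinarith
  rw [h4]
  linarith

/-- scalar combination for `V` -/
lemma comb2 {α : Type*} (S : Finset α) (f : α → ℝ) {V e z k g g' θ : ℝ} (hk : 100 ≤ k)
    (hV : 0 ≤ V) (hz : 0 < z) (hθ : 0 < θ) (hg' : 0 < g') (hgg : g' ≤ g)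
    (hg : g ≤ g' * (1 + 3 / (2 * k)))
    (hS : (S.card : ℝ) ≤ k ^ 2) (hD : ∑ p ∈ S, (f p - V) ≤ -2 * k * V + e)
    (he : z * e ≤ 11 / 1000 * k * (θ ^ 2 * g')) :
    ∑ p ∈ S, (z * f p / (θ ^ 2 * g') - z * V / (θ ^ 2 * g))
      ≤ -(1 / 2) * k * (z * V / (θ ^ 2 * g)) + 11 / 1000 * k := by
  have hk0 : 0 < k := by linarith
  have hg0 : 0 < g := by linarith
  have e1 : ∑ p ∈ S, (z * f p / (θ ^ 2 * g') - z * V / (θ ^ 2 * g))
      = z / (θ ^ 2 * g') * ∑ p ∈ S, (f p - V)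
        + S.card * (z * V / (θ ^ 2 * g') - z * V / (θ ^ 2 * g)) := by
    rw [Finset.mul_sum, ← nsmul_eq_mul, ← Finset.sum_const, ← Finset.sum_add_distrib]
    refine Finset.sum_congr rfl fun p _ => ?_
    field_simp
    ring
  rw [e1]
  have h1 : z / (θ ^ 2 * g') * ∑ p ∈ S, (f p - V) ≤ z / (θ ^ 2 * g') * (-2 * k * V + e) :=
    mul_le_mul_of_nonneg_left hD (by positivity)
  set c := z * V / (θ ^ 2 * g) with hc
  have hc0 : 0 ≤ c := by positivity
  have hzV : z * V = c * (θ ^ 2 * g) := by rw [hc]; field_simp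
  have h2 : z * V / (θ ^ 2 * g') = c * (g / g') := by
    rw [hzV]; field_simp
  have h3 : g / g' ≤ 1 + 3 / (2 * k) := by rw [div_le_iff₀ hg']; linarith
  have h3' : 1 ≤ g / g' := by rw [le_div_iff₀ hg']; linarith
  have h4 : (S.card : ℝ) * (z * V / (θ ^ 2 * g') - c) ≤ k ^ 2 * (c * (3 / (2 * k))) := by
    rw [h2]
    have h5 : 0 ≤ c * (g / g') - c := by nlinarith
    calc (S.card : ℝ) * (c * (g / g') - c) ≤ k ^ 2 * (c * (g / g') - c) :=
          mul_le_mul_of_nonneg_right hS h5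
      _ ≤ _ := mul_le_mul_of_nonneg_left (by nlinarith) (by positivity)
  have h5 : k ^ 2 * (c * (3 / (2 * k))) = 3 / 2 * k * c := by
    field_simp
  have h6 : z / (θ ^ 2 * g') * (-2 * k * V + e) = -2 * k * (c * (g / g')) + z * e / (θ ^ 2 * g') := by
    rw [← h2]; field_simp
  have h7 : z * e / (θ ^ 2 * g') ≤ 11 / 1000 * k := by
    rw [div_le_iff₀ (by positivity)]; exact he
  have h8 : -2 * k * (c * (g / g')) ≤ -2 * k * c := by
    have : c ≤ c * (g / g') := by nlinarith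
    nlinarith
  linarith

lemma part_nonneg (hz : 0 < z) (hk : 0 < k) (hg : 0 < g) (hF : 0 < F.card)
    (h : LCtx d F K S) (c : Bool) :
    0 ≤ z ^ 2 * ((K c ^ 2).trace - 1) / k ∧ 0 ≤ z ^ 2 * ((K c).trace - Mach.sg c) ^ 2 / k ∧
      0 ≤ z * Vf (K c) / (θ ^ 2 * g) := by
  have h1 : 1 ≤ (K c ^ 2).trace := one_le_X2 (h.symm c)
    (by rcases sg_or c with h | h <;> rw [h] <;> norm_num) (h.row c) hF
  have h2 := Vf_nonneg (K c)
  refine ⟨?_, ?_, ?_⟩
  · exact div_nonneg (mul_nonneg (sq_nonneg z) (by linarith)) hk.le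
  · positivity
  · positivity

lemma part_le (hz : 0 < z) (hk : 0 < k) (hg : 0 < g) (hF : 0 < F.card)
    (h : LCtx d F K S) (hP : Psi z θ k g K ≤ 1) (c : Bool) :
    z ^ 2 * ((K c ^ 2).trace - 1) / k ≤ 1 ∧ z ^ 2 * ((K c).trace - Mach.sg c) ^ 2 / k ≤ 1 ∧
      z * Vf (K c) / (θ ^ 2 * g) ≤ 1 := by
  have h1 := part_nonneg (θ := θ) hz hk hg hF h true
  have h2 := part_nonneg (θ := θ) hz hk hg hF h false
  unfold Psi at hP
  rw [Fintype.sum_bool] at hP
  cases c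
  · refine ⟨?_, ?_, ?_⟩ <;> linarith [h1.1, h1.2.1, h1.2.2, h2.1, h2.2.1, h2.2.2]
  · refine ⟨?_, ?_, ?_⟩ <;> linarith [h1.1, h1.2.1, h1.2.2, h2.1, h2.2.1, h2.2.2]

lemma lbd_of (h : LCtx d F K S) (hb : 4 ≤ b) (hz : 10 ^ 13 * b ^ 3 ≤ z)
    (hθ : θ = 1 / (10 ^ 4 * b)) (hk : z ^ 2 ≤ (F.card : ℝ)) (hg : 0 < g)
    (hgk : g ^ 2 ≤ F.card) (hP : Psi z θ F.card g K ≤ 1) :
    ∃ u, LBd b z θ u F K ∧ z * u ^ 2 = Real.sqrt F.card := by
  have hb3 : (1 : ℝ) ≤ b ^ 3 := one_le_pow₀ (by linarith)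
  have hz1 : 1 ≤ z := by linarith
  have hz0 : 0 < z := by linarith
  have hk0 : (0 : ℝ) < F.card := lt_of_lt_of_le (by positivity) hk
  have hF : 0 < F.card := by exact_mod_cast hk0
  have hsk : z ≤ Real.sqrt F.card := Real.le_sqrt_of_sq_le hk
  refine ⟨Real.sqrt (Real.sqrt F.card / z), ?_, ?_⟩
  swap
  · rw [Real.sq_sqrt (by positivity)]; field_simp
  have hu2 : Real.sqrt (Real.sqrt F.card / z) ^ 2 = Real.sqrt F.card / z :=
    Real.sq_sqrt (by positivity)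
  have hu4 : Real.sqrt (Real.sqrt F.card / z) ^ 4 = F.card / z ^ 2 := by
    have : Real.sqrt (Real.sqrt F.card / z) ^ 4 = (Real.sqrt (Real.sqrt F.card / z) ^ 2) ^ 2 := by
      ring
    rw [this, hu2, div_pow, Real.sq_sqrt hk0.le]
  have hθ0 : 0 < θ := by rw [hθ]; positivity
  refine ⟨?_, hb, hz, hθ, ?_, ?_, ?_, ?_⟩
  · rw [Real.one_le_sqrt, le_div_iff₀ hz0, one_mul]; exact hsk
  · rw [hu2, mul_div_cancel₀ _ hz0.ne', Real.sq_sqrt hk0.le]
  · intro c
    have h1 := (part_le (θ := θ) hz0 hk0 hg hF h hP c).1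
    rw [div_le_one hk0] at h1
    rw [hu4]
    have : (K c ^ 2).trace - 1 ≤ F.card / z ^ 2 := by
      rw [le_div_iff₀ (by positivity)]; linarith
    linarith
  · intro c
    have h1 := (part_le (θ := θ) hz0 hk0 hg hF h hP c).2.2
    rw [div_le_one (by positivity)] at h1
    rw [hu2]
    have h2 : g ≤ Real.sqrt F.card := Real.le_sqrt_of_sq_le hgk
    have h3 : z * Vf (K c) ≤ θ ^ 2 * Real.sqrt F.card :=
      h1.trans (mul_le_mul_of_nonneg_left h2 (by positivity))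
    rw [← mul_div_assoc, le_div_iff₀ hz0]
    linarith
  · intro c
    have h1 := (part_le (θ := θ) hz0 hk0 hg hF h hP c).2.1
    rw [div_le_one hk0] at h1
    rw [hu4, le_div_iff₀ (by positivity)]
    linarith

/-- **the late step** -/
theorem late_step (h : LCtx d F K S) (hd : b = d + 1) (hb : 4 ≤ b) (hz : 10 ^ 13 * b ^ 3 ≤ z)
    (hθ : θ = 1 / (10 ^ 4 * b)) (hk : z ^ 2 ≤ (F.card : ℝ)) (hg' : 0 < g') (hgg : g' ≤ g)
    (hg : g ≤ g' * (1 + 3 / (2 * F.card))) (hgk : g ^ 2 ≤ F.card)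
    (hkg : (F.card : ℝ) ≤ g ^ 2 * (1 + 1 / 1000)) (hP : Psi z θ F.card g K ≤ 1) :
    ∑ p ∈ S, Psi z θ (F.card - 2) g' (fun c => upd (Mach.sg c : ℝ) (K c) p.1 p.2)
      ≤ S.card * (1 - 1 / (4 * F.card)) := by
  have hb3 : (1 : ℝ) ≤ b ^ 3 := one_le_pow₀ (by linarith)
  have hz1 : 10 ^ 13 ≤ z := by linarith
  have hz0 : 0 < z := by linarith
  have hk1 : (100 : ℝ) ≤ F.card := by
    refine le_trans ?_ hk
    nlinarith
  have hk0 : (0 : ℝ) < F.card := by linarith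
  have hF : 0 < F.card := by exact_mod_cast hk0
  have hg0 : 0 < g := by linarith
  have hθ0 : 0 < θ := by rw [hθ]; positivity
  obtain ⟨u, h2, hu⟩ := lbd_of h hb hz hθ hk hg0 hgk hP
  have hSle : (S.card : ℝ) ≤ (F.card : ℝ) ^ 2 := by
    have := Finset.card_le_card h.sub
    rw [Finset.card_product] at this
    calc (S.card : ℝ) ≤ ((F.card * F.card : ℕ) : ℝ) := by exact_mod_cast this
      _ = _ := by push_cast; ring
  have hSge : (F.card : ℝ) / 2 ≤ S.card := by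
    have h3 := (ctx_of h h2 hd true).bad
    rw [mul_pow, ← h2.card] at h3
    have h4 : ((((F ×ˢ F) \ S).card : ℕ) : ℝ) + S.card = (F.card : ℝ) ^ 2 := by
      have := Finset.card_sdiff_add_card_eq_card h.sub
      rw [Finset.card_product] at this
      rw [pow_two]
      exact_mod_cast this
    have h5 : b ^ 2 + 1 / 2 ≤ F.card := by
      refine le_trans ?_ hk
      have : b ^ 2 ≤ b ^ 3 := pow_le_pow_right₀ (by linarith) (by norm_num)
      nlinarith
    nlinarith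
  have hX1 : ∀ c, 1 ≤ (K c ^ 2).trace := fun c => one_le_X2 (h.symm c)
    (by rcases sg_or c with h | h <;> rw [h] <;> norm_num) (h.row c) hF
  have hz4 : z ^ 2 * (1 / 100 * z ^ 2 * u ^ 8) = 1 / 100 * (F.card : ℝ) ^ 2 := by
    rw [h2.card]; ring
  have hsum : ∑ p ∈ S, (Psi z θ (F.card - 2) g' (fun c => upd (Mach.sg c : ℝ) (K c) p.1 p.2)
      - Psi z θ F.card g K) ≤ -(1 / 2) * F.card * Psi z θ F.card g K + 7 / 100 * F.card := by
    have e1 : ∀ p : ι × ι, Psi z θ (F.card - 2) g' (fun c => upd (Mach.sg c : ℝ) (K c) p.1 p.2)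
        - Psi z θ F.card g K
        = ∑ c : Bool, ((z ^ 2 * (((upd (Mach.sg c : ℝ) (K c) p.1 p.2) ^ 2).trace - 1) / (F.card - 2)
            - z ^ 2 * ((K c ^ 2).trace - 1) / F.card)
          + (z ^ 2 * ((upd (Mach.sg c : ℝ) (K c) p.1 p.2).trace - Mach.sg c) ^ 2 / (F.card - 2)
            - z ^ 2 * ((K c).trace - Mach.sg c) ^ 2 / F.card)
          + (z * Vf (upd (Mach.sg c : ℝ) (K c) p.1 p.2) / (θ ^ 2 * g')
            - z * Vf (K c) / (θ ^ 2 * g))) := by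
      intro p
      unfold Psi
      rw [← Finset.sum_sub_distrib]
      exact Finset.sum_congr rfl fun c _ => by ring
    simp_rw [e1]
    rw [Finset.sum_comm]
    have e2 : ∀ c : Bool, ∑ p ∈ S,
        ((z ^ 2 * (((upd (Mach.sg c : ℝ) (K c) p.1 p.2) ^ 2).trace - 1) / (F.card - 2)
            - z ^ 2 * ((K c ^ 2).trace - 1) / F.card)
          + (z ^ 2 * ((upd (Mach.sg c : ℝ) (K c) p.1 p.2).trace - Mach.sg c) ^ 2 / (F.card - 2)
            - z ^ 2 * ((K c).trace - Mach.sg c) ^ 2 / F.card)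
          + (z * Vf (upd (Mach.sg c : ℝ) (K c) p.1 p.2) / (θ ^ 2 * g')
            - z * Vf (K c) / (θ ^ 2 * g)))
        ≤ -(1 / 2) * F.card * (z ^ 2 * ((K c ^ 2).trace - 1) / F.card
            + z ^ 2 * ((K c).trace - Mach.sg c) ^ 2 / F.card + z * Vf (K c) / (θ ^ 2 * g))
          + 33 / 1000 * F.card := by
      intro c
      have hC := ctx_of h h2 hd c
      have hτ := tau_le h2 c
      obtain ⟨hA, hM, hg2⟩ := bounds h h2 hd c
      have s1 := comb1 (z := z) S (fun p => ((upd (Mach.sg c : ℝ) (K c) p.1 p.2) ^ 2).trace - 1)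
        (X := (K c ^ 2).trace - 1) (k := F.card)
        (e := errX (3 / 2 * u ^ 2) (θ * u) (3 * u ^ 3) (z * u ^ 2) (b * (z * u ^ 2))
          (8 * b ^ 2 * u ^ 4) (2 * u ^ 2)) hk1 (by linarith [hX1 c]) hSle
        (by
          have := sum_X2 hC hτ
          refine le_trans (le_of_eq ?_) this
          exact Finset.sum_congr rfl fun p _ => by ring)
        (by
          rw [← hz4]
          exact mul_le_mul_of_nonneg_left (errX_le h2.hu hb hz hθ) (sq_nonneg z))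
      have s2 := comb1 (z := z) S (fun p => ((upd (Mach.sg c : ℝ) (K c) p.1 p.2).trace
          - Mach.sg c) ^ 2)
        (X := ((K c).trace - Mach.sg c) ^ 2) (k := F.card)
        (e := errT (3 / 2 * u ^ 2) (θ * u) (3 * u ^ 3) (z * u ^ 2) (b * (z * u ^ 2))
          (2 * u ^ 2)) hk1 (sq_nonneg _) hSle (sum_T hC hτ)
        (by
          rw [← hz4]
          exact mul_le_mul_of_nonneg_left (errT_le h2.hu hb hz hθ) (sq_nonneg z))
      have s3 := comb2 S (fun p => Vf (upd (Mach.sg c : ℝ) (K c) p.1 p.2))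
        (V := Vf (K c)) (k := F.card) (g := g) (g' := g') (θ := θ) (z := z)
        (e := errV (3 / 2 * u ^ 2) (θ * u) (3 * u ^ 3) (z * u ^ 2) (b * (z * u ^ 2))
          (8 * b ^ 2 * u ^ 4) (2 * u ^ 2) (3 * u ^ 4) (16 * u ^ 4) (4 * u ^ 3)) hk1
        (Vf_nonneg _) hz0 hθ0 hg' hgg hg hSle
        (sum_V hC hτ hA hM (by have := h2.hu; positivity) hg2)
        (by
          have h3 := mul_le_mul_of_nonneg_left (errV_le h2.hu hb hz hθ) hz0.le
          refine h3.trans ?_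
          have h4 : z * (1 / 100 * θ ^ 2 * z ^ 2 * u ^ 6)
              = 1 / 100 * θ ^ 2 * F.card * (z * u ^ 2) := by rw [h2.card]; ring
          have h5 : z * u ^ 2 ≤ 11 / 10 * g' := by
            rw [hu]
            have h6 : g ≤ g' * (1 + 3 / 200) := by
              refine hg.trans (mul_le_mul_of_nonneg_left ?_ hg'.le)
              have : 3 / (2 * (F.card : ℝ)) ≤ 3 / 200 := by
                apply div_le_div_of_nonneg_left <;> linarith
              linarith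
            refine Real.sqrt_le_iff.mpr ⟨by positivity, ?_⟩
            calc (F.card : ℝ) ≤ g ^ 2 * (1 + 1 / 1000) := hkg
              _ ≤ (g' * (1 + 3 / 200)) ^ 2 * (1 + 1 / 1000) :=
                  mul_le_mul_of_nonneg_right (pow_le_pow_left₀ hg0.le h6 2) (by norm_num)
              _ ≤ _ := by nlinarith [sq_nonneg g']
          rw [h4]
          calc 1 / 100 * θ ^ 2 * F.card * (z * u ^ 2)
              ≤ 1 / 100 * θ ^ 2 * F.card * (11 / 10 * g') :=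
                mul_le_mul_of_nonneg_left h5 (by positivity)
            _ = _ := by ring)
      have p1 := part_nonneg (θ := θ) hz0 hk0 hg0 hF h c
      rw [Finset.sum_add_distrib, Finset.sum_add_distrib]
      have q1 : 0 ≤ F.card * (z ^ 2 * ((K c ^ 2).trace - 1) / F.card) :=
        mul_nonneg hk0.le p1.1
      have q2 : 0 ≤ F.card * (z ^ 2 * ((K c).trace - Mach.sg c) ^ 2 / F.card) :=
        mul_nonneg hk0.le p1.2.1
      generalize z ^ 2 * ((K c ^ 2).trace - 1) / F.card = A at s1 q1 ⊢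
      generalize z ^ 2 * ((K c).trace - Mach.sg c) ^ 2 / F.card = B at s2 q2 ⊢
      generalize z * Vf (K c) / (θ ^ 2 * g) = C at s3 ⊢
      linarith
    have e3 := Finset.sum_le_sum fun (c : Bool) (_ : c ∈ Finset.univ) => e2 c
    refine e3.trans ?_
    rw [Finset.sum_add_distrib, ← Finset.mul_sum]
    simp only [Finset.sum_const, Finset.card_univ, Fintype.card_bool]
    have e4 : (2 : ℕ) • (33 / 1000 * (F.card : ℝ)) = 66 / 1000 * F.card := by
      rw [nsmul_eq_mul]; push_cast; ring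
    rw [e4]
    change -(1 / 2) * (F.card : ℝ) * Psi z θ F.card g K + 66 / 1000 * F.card ≤ _
    linarith
  rw [Finset.sum_sub_distrib, Finset.sum_const, nsmul_eq_mul] at hsum
  have hf : (S.card : ℝ) * (1 / (4 * F.card)) ≤ F.card / 4 := by
    rw [mul_one_div, div_le_iff₀ (by positivity)]
    nlinarith
  have h7 : ((S.card : ℝ) - F.card / 2) * Psi z θ F.card g K ≤ (S.card : ℝ) - F.card / 2 :=
    mul_le_of_le_one_right (by linarith) hP
  linarith

end step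

end Crest.Agent.R62.Late
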