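import Crest.Agent.R62.LateStep
import Crest.Agent.R62.LateCst
import Crest.Agent.R62.Box
import Crest.Agent.R062.EndComplete

/-!
R62 (helper134): the end time of the late phase and the numeric handover 2 → 3.
-/

set_option autoImplicit false
set_option linter.unusedSectionVars false
set_option linter.unusedVariables false

open Matrix Finset

namespace Crest.Agent.R62.LateT

open Crest.Agent.R062 Crest.Agent.Lib.PT Crest.Agent.R62.AvX1

/-! ### the end time -/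

/-- the constant `z` of the late potential -/
def zq (d : ℕ) : ℕ := 2 * (10 ^ 13 * (d + 1) ^ 3 + EndComplete.thr d)

/-- the late phase stops at `Mq d - 2` live stubs -/
def Mq (d : ℕ) : ℕ := zq d ^ 2

/-- the number of steps -/
def Tq (d n : ℕ) : ℕ := (n * d - (Mq d - 2)) / 2

lemma zq_ge (d : ℕ) : 2 * (10 ^ 13 * (d + 1) ^ 3) ≤ zq d := by
  unfold zq; omega

lemma zq_ge' (d : ℕ) : 2 * EndComplete.thr d ≤ zq d := by
  unfold zq; omega

lemma zq_pos (d : ℕ) : 0 < zq d := by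
  have := zq_ge' d
  unfold EndComplete.thr at this
  omega

lemma two_le_thr (d : ℕ) : 2 ≤ EndComplete.thr d := by unfold EndComplete.thr; omega

lemma zq_le_Mq (d : ℕ) : zq d ≤ Mq d := by
  unfold Mq
  rw [pow_two]
  exact Nat.le_mul_of_pos_left _ (zq_pos d)

lemma thr_lt_Mq (d : ℕ) : EndComplete.thr d + 1 ≤ Mq d := by
  have h1 := zq_ge' d
  have h2 := zq_le_Mq d
  have h3 := two_le_thr d
  omega

lemma Mq_even (d : ℕ) : Even (Mq d) := by
  unfold Mq zq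
  rw [mul_pow]
  exact ⟨2 * (10 ^ 13 * (d + 1) ^ 3 + EndComplete.thr d) ^ 2, by ring⟩

lemma four_le_Mq (d : ℕ) : 4 ≤ Mq d := by
  have h1 := zq_ge' d
  have h2 := zq_le_Mq d
  have h3 := two_le_thr d
  omega

lemma Mq_cast (d : ℕ) : ((Mq d : ℕ) : ℝ) = (zq d : ℝ) ^ 2 := by unfold Mq; push_cast; ring

theorem Tq_ptf (d : ℕ) : PTF (fun n : Un => Tq d n.val) := by
  have hn : PTF (fun n : Un => n.val) := PTU.toPTF (PTU.val PTF.id)
  unfold Tq
  exact PTF.natDiv (PTF.natSub (PTF.natMul hn (PTF.const d)) (PTF.const (Mq d - 2))) (PTF.const 2)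

theorem Tq_le (d n : ℕ) : 2 * Tq d n ≤ n * d := by
  unfold Tq
  omega

theorem Tq_eq {d n : ℕ} (h : Mq d ≤ n * d) (hn : Even n) :
    2 * Tq d n = n * d - (Mq d - 2) := by
  have h1 : Even (n * d) := hn.mul_right d
  have h2 := Mq_even d
  have h3 := four_le_Mq d
  obtain ⟨a, ha⟩ := h1
  obtain ⟨c, hc⟩ := h2
  unfold Tq
  omega

theorem Tq_end {d n : ℕ} (h : Mq d ≤ n * d) (hn : Even n) : n * d - 2 * Tq d n = Mq d - 2 := by
  rw [Tq_eq h hn]
  omega

theorem Tq_thr {d n : ℕ} (h : Mq d ≤ n * d) (hn : Even n) :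
    2 * Tq d n + EndComplete.thr d ≤ n * d + 1 := by
  rw [Tq_eq h hn]
  have h3 := four_le_Mq d
  have h4 := thr_lt_Mq d
  omega

/-- before the end time there are at least `Mq d` live stubs -/
theorem Mq_le_of_lt {d n t : ℕ} (h : Mq d ≤ n * d) (hn : Even n) (ht : t < Tq d n) :
    Mq d ≤ n * d - 2 * t := by
  have h1 := Tq_eq h hn
  have h3 := four_le_Mq d
  obtain ⟨a, ha⟩ := hn.mul_right d
  obtain ⟨c, hc⟩ := Mq_even d
  omega

/-! ### the constant `x0` -/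

/-- `x0 = 1/(100 z²)` -/
noncomputable def x0q (d : ℕ) : ℝ := 1 / (100 * (zq d : ℝ) ^ 2)

lemma zq_real (d : ℕ) : (10 : ℝ) ^ 13 * ((d : ℝ) + 1) ^ 3 ≤ zq d := by
  have h1 : ((2 * (10 ^ 13 * (d + 1) ^ 3) : ℕ) : ℝ) ≤ zq d := by exact_mod_cast zq_ge d
  push_cast at h1
  have h2 : (0 : ℝ) ≤ ((d : ℝ) + 1) ^ 3 := by positivity
  linarith

lemma zq_real_ge (d : ℕ) : (10 : ℝ) ^ 13 ≤ zq d := by
  have h1 := zq_real d
  have h2 : (1 : ℝ) ≤ ((d : ℝ) + 1) ^ 3 := one_le_pow₀ (by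
    have : (0 : ℝ) ≤ d := Nat.cast_nonneg d
    linarith)
  linarith

lemma zq_real_pos (d : ℕ) : (0 : ℝ) < zq d := by
  have := zq_real_ge d; linarith

lemma x0q_pos (d : ℕ) : 0 < x0q d := by
  have := zq_real_pos d
  unfold x0q; positivity

lemma x0q_le_one (d : ℕ) : x0q d ≤ 1 := by
  have h1 := zq_real_ge d
  unfold x0q
  rw [div_le_one (by have := zq_real_pos d; positivity)]
  nlinarith

lemma x0q_m {d : ℕ} {m : ℝ} (hm : 10 ^ 18 * (zq d : ℝ) ^ 8 ≤ m) : 10 ^ 10 ≤ m * x0q d ^ 4 := by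
  have h0 := zq_real_pos d
  unfold x0q
  rw [div_pow, one_pow, mul_one_div, le_div_iff₀ (by positivity)]
  calc (10 : ℝ) ^ 10 * (100 * (zq d : ℝ) ^ 2) ^ 4 = 10 ^ 18 * (zq d : ℝ) ^ 8 := by ring
    _ ≤ m := hm

/-! ### handover -/

variable {ι : Type*} [Fintype ι] [DecidableEq ι]

lemma sg_sq (b : Bool) : (Mach.sg b : ℝ) ^ 2 = 1 := by cases b <;> simp [Mach.sg]

/-- numeric criterion: the bounds at the end of stage 2 give `Psi ≤ 1/2` -/
theorem psi_le_of {d : ℕ} {m k g : ℝ} {K : Bool → Matrix ι ι ℝ}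
    (hm : 10 ^ 18 * (zq d : ℝ) ^ 8 ≤ m) (hk : 1000 * (zq d : ℝ) ^ 2 ≤ k) (hg : 0 < g)
    (hgk : k ≤ g ^ 2 * (1 + 1 / 1000))
    (h : ∀ b, (K b ^ 2).trace ≤ 3 * x0q d * k ∧ (K b).trace ^ 2 * m ^ 7 ≤ k ∧
      Vf (K b) ^ 2 * m ^ 660 ≤ k) (hV : ∀ b, 0 ≤ Vf (K b)) :
    Late.Psi (zq d) (1 / (10 ^ 4 * ((d : ℝ) + 1))) k g K ≤ 1 / 2 := by
  have hz := zq_real_pos d
  have hzg := zq_real_ge d
  have hz1 : (1 : ℝ) ≤ zq d := by linarith
  set z : ℝ := (zq d : ℝ) with hzdef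
  have hd0 : (0 : ℝ) ≤ d := Nat.cast_nonneg d
  have hd1 : (1 : ℝ) ≤ (d : ℝ) + 1 := by linarith
  have hk0 : 0 < k := lt_of_lt_of_le (by positivity) hk
  -- `z ≤ m`
  have hz8 : z ≤ z ^ 8 := by
    calc z = z ^ 1 := (pow_one z).symm
      _ ≤ z ^ 8 := pow_le_pow_right₀ hz1 (by norm_num)
  have hz8' : 0 < z ^ 8 := by positivity
  have hzm : 10 ^ 5 * z ≤ m := by
    refine le_trans ?_ hm
    nlinarith
  have hm1 : 1 ≤ m := by nlinarith
  have hm0 : 0 < m := by linarith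
  have key : ∀ b, z ^ 2 * ((K b ^ 2).trace - 1) / k
      + z ^ 2 * ((K b).trace - Mach.sg b) ^ 2 / k
      + z * Vf (K b) / ((1 / (10 ^ 4 * ((d : ℝ) + 1))) ^ 2 * g) ≤ 1 / 4 := by
    intro b
    obtain ⟨h2, h1, h4⟩ := h b
    have hVb := hV b
    -- first term
    have t1 : z ^ 2 * ((K b ^ 2).trace - 1) / k ≤ 3 / 100 := by
      rw [div_le_iff₀ hk0]
      have e : z ^ 2 * (3 * x0q d * k) = 3 / 100 * k := by
        unfold x0q
        rw [← hzdef]
        field_simp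
      have h3 : z ^ 2 * ((K b ^ 2).trace - 1) ≤ z ^ 2 * (3 * x0q d * k) :=
        mul_le_mul_of_nonneg_left (by linarith) (by positivity)
      rw [e] at h3
      exact h3
    -- second term
    have t2 : z ^ 2 * ((K b).trace - Mach.sg b) ^ 2 / k ≤ 1 / 100 := by
      rw [div_le_iff₀ hk0]
      have hs := sg_sq b
      have h3 : ((K b).trace - (Mach.sg b : ℝ)) ^ 2 ≤ 2 * (K b).trace ^ 2 + 2 := by
        nlinarith [sq_nonneg ((K b).trace + (Mach.sg b : ℝ))]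
      have h5 : z ^ 2 * (K b).trace ^ 2 * 1000 ≤ k := by
        have h6 : z ^ 2 * 1000 ≤ m ^ 7 := by
          have h7 : m ^ 2 ≤ m ^ 7 := pow_le_pow_right₀ hm1 (by norm_num)
          have h8 : z ^ 2 * 1000 ≤ m ^ 2 := by
            have : (10 ^ 5 * z) ^ 2 ≤ m ^ 2 := pow_le_pow_left₀ (by positivity) hzm 2
            nlinarith [sq_nonneg z]
          linarith
        calc z ^ 2 * (K b).trace ^ 2 * 1000 = (K b).trace ^ 2 * (z ^ 2 * 1000) := by ring
          _ ≤ (K b).trace ^ 2 * m ^ 7 := mul_le_mul_of_nonneg_left h6 (sq_nonneg _)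
          _ ≤ k := h1
      have h7 : z ^ 2 * ((K b).trace - (Mach.sg b : ℝ)) ^ 2
          ≤ z ^ 2 * (2 * (K b).trace ^ 2 + 2) := mul_le_mul_of_nonneg_left h3 (by positivity)
      nlinarith
    -- third term
    have t3 : z * Vf (K b) / ((1 / (10 ^ 4 * ((d : ℝ) + 1))) ^ 2 * g) ≤ 1 / 100 := by
      have hθ : (0 : ℝ) < (1 / (10 ^ 4 * ((d : ℝ) + 1))) ^ 2 := by positivity
      rw [div_le_iff₀ (by positivity)]
      -- `V m^330 ≤ 2 g`
      have h5 : Vf (K b) * m ^ 330 ≤ 2 * g := by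
        have h6 : (Vf (K b) * m ^ 330) ^ 2 ≤ (2 * g) ^ 2 := by
          calc (Vf (K b) * m ^ 330) ^ 2 = Vf (K b) ^ 2 * m ^ 660 := by ring
            _ ≤ k := h4
            _ ≤ g ^ 2 * (1 + 1 / 1000) := hgk
            _ ≤ (2 * g) ^ 2 := by nlinarith [sq_nonneg g]
        exact (sq_le_sq₀ (by positivity) (by positivity)).mp h6
      -- `200 z (10^4 (d+1))^2 ≤ m^330`
      have h7 : 200 * z * (10 ^ 4 * ((d : ℝ) + 1)) ^ 2 ≤ m ^ 330 := by
        have h8 : ((d : ℝ) + 1) ^ 2 ≤ z := by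
          have := zq_real d
          rw [← hzdef] at this
          have h9 : ((d : ℝ) + 1) ^ 2 ≤ ((d : ℝ) + 1) ^ 3 := pow_le_pow_right₀ hd1 (by norm_num)
          have h10 : (0 : ℝ) ≤ ((d : ℝ) + 1) ^ 3 := by positivity
          nlinarith
        have h9 : m ^ 2 ≤ m ^ 330 := pow_le_pow_right₀ hm1 (by norm_num)
        have h10 : (10 ^ 5 * z) ^ 2 ≤ m ^ 2 := pow_le_pow_left₀ (by positivity) hzm 2
        have h11 : 200 * z * (10 ^ 4 * ((d : ℝ) + 1)) ^ 2 ≤ m * m := by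
          calc 200 * z * (10 ^ 4 * ((d : ℝ) + 1)) ^ 2
              = (2 * 10 ^ 10) * z * ((d : ℝ) + 1) ^ 2 := by ring
            _ ≤ (2 * 10 ^ 10) * z * z := mul_le_mul_of_nonneg_left h8 (by positivity)
            _ ≤ (10 ^ 18 * z ^ 8) * (10 ^ 18 * z ^ 8) := by
                have : z * z ≤ z ^ 8 * z ^ 8 := mul_le_mul hz8 hz8 hz.le hz8'.le
                nlinarith
            _ ≤ m * m := mul_le_mul hm hm (by positivity) hm0.le
        nlinarith
      have hm330 : (0 : ℝ) < m ^ 330 := by positivity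
      -- combine
      have h8 : z * Vf (K b) * m ^ 330 ≤ z * (2 * g) := by
        calc z * Vf (K b) * m ^ 330 = z * (Vf (K b) * m ^ 330) := by ring
          _ ≤ z * (2 * g) := mul_le_mul_of_nonneg_left h5 hz.le
      have h9 : z * (2 * g) ≤ 1 / 100 * ((1 / (10 ^ 4 * ((d : ℝ) + 1))) ^ 2 * g) * m ^ 330 := by
        have h10 : z * 200 ≤ (1 / (10 ^ 4 * ((d : ℝ) + 1))) ^ 2 * m ^ 330 := by
          rw [div_pow, one_pow, div_mul_eq_mul_div, one_mul, le_div_iff₀ (by positivity)]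
          linarith
        nlinarith
      exact le_of_mul_le_mul_right (h8.trans h9) hm330
    linarith
  unfold Late.Psi
  rw [Fintype.sum_bool]
  have h1 := key true
  have h2 := key false
  linarith

lemma Vf_nonneg (K : Matrix ι ι ℝ) : 0 ≤ Vf K := by
  unfold Vf
  exact Finset.sum_nonneg fun _ _ => sq_nonneg _

end Crest.Agent.R62.LateT

namespace Crest.Agent.R62.LateT

open Crest.Agent.R062 Crest.Agent.R62.AvX1 Crest.Agent.R62.Step

variable {ι : Type} [Fintype ι] [DecidableEq ι]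

/-- HANDOVER 2 → 3 -/
theorem psi_of_Phi2 {d n m : ℕ} {F : Finset ι} {K : Bool → Matrix ι ι ℝ} (hp : Prm d n m)
    (hs : ∀ b, (K b).IsSymm) (h : Phi2 d n m F K ≤ 1) (hm : 10 ^ 18 * (zq d : ℝ) ^ 8 ≤ m)
    (h1 : x0q d * r1 d n m ≤ F.card) (h2 : (F.card : ℝ) ≤ x0q d * r1 d n m + 4) :
    Late.Psi (zq d) (1 / (10 ^ 4 * ((d : ℝ) + 1))) F.card (LateCst.g (n * d + 1) F.card) K
      ≤ 1 / 2 := by
  have hz := zq_real_pos d
  have hzg := zq_real_ge d
  have hz1 : (1 : ℝ) ≤ zq d := by linarith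
  have hm1 := Box.one_le_m hp
  have hm0 := Box.m_pos hp
  have hmg := Box.m_ge hp
  have hrg := Box.r1_ge' hp
  have h3 := Box.handover23 hp hs h (x0q_pos d) (x0q_le_one d) (x0q_m hm) h1 h2
  -- `1000 z² ≤ ρ`
  have hk : 1000 * (zq d : ℝ) ^ 2 ≤ F.card := by
    refine le_trans ?_ h1
    have h4 : x0q d * (m : ℝ) ^ 680 ≤ x0q d * r1 d n m :=
      mul_le_mul_of_nonneg_left hrg (x0q_pos d).le
    refine le_trans ?_ h4
    unfold x0q
    rw [div_mul_eq_mul_div, one_mul, le_div_iff₀ (by positivity)]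
    have h5 : (m : ℝ) ≤ (m : ℝ) ^ 680 := by
      calc (m : ℝ) = (m : ℝ) ^ 1 := (pow_one _).symm
        _ ≤ (m : ℝ) ^ 680 := pow_le_pow_right₀ hm1 (by norm_num)
    refine le_trans ?_ h5
    refine le_trans ?_ hm
    have h6 : (zq d : ℝ) ^ 4 ≤ (zq d : ℝ) ^ 8 := pow_le_pow_right₀ hz1 (by norm_num)
    have h7 : (0 : ℝ) < (zq d : ℝ) ^ 8 := by positivity
    calc 1000 * (zq d : ℝ) ^ 2 * (100 * (zq d : ℝ) ^ 2) = 10 ^ 5 * (zq d : ℝ) ^ 4 := by ring
      _ ≤ 10 ^ 18 * (zq d : ℝ) ^ 8 := by nlinarith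
  have hk1 : 1 ≤ F.card := by
    have : (1 : ℝ) ≤ F.card := by nlinarith
    exact_mod_cast this
  have hN : 100 ≤ n * d + 1 := by
    have h5 : (m : ℝ) ≤ (m : ℝ) ^ 1000 := by
      calc (m : ℝ) = (m : ℝ) ^ 1 := (pow_one _).symm
        _ ≤ (m : ℝ) ^ 1000 := pow_le_pow_right₀ hm1 (by norm_num)
    have h6 : (100 : ℝ) ≤ n := by
      have := hp.hn1
      linarith
    have h7 : 100 ≤ n := by exact_mod_cast h6
    have h8 := hp.hd
    nlinarith
  exact psi_le_of hm hk (LateCst.g_pos (by omega) hk1) (LateCst.le_g_sq hN hk1) h3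
    fun b => Vf_nonneg _

end Crest.Agent.R62.LateT
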