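import Crest.Agent.R62.LateX2

/-!
R62, late phase (helper316): one-step bounds for `(T - s)²` and for `V = ∑ K_xx²`, summed over
good pairs, with crude error terms.
-/

set_option autoImplicit false
set_option linter.unusedSectionVars false
set_option linter.unusedVariables false

open Matrix Finset

namespace Crest.Agent.R62.Late

open Crest.Agent.R62.Upd Crest.Agent.R62.AvX1 Crest.Agent.R62.AvBase Crest.Agent.R62.L2P

variable {ι : Type*} [Fintype ι] [DecidableEq ι]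

section T

variable {F : Finset ι} {K : Matrix ι ι ℝ} {s : ℝ} {S : Finset (ι × ι)} {N v R t β Db : ℝ}

/-- error term for `(T - s)²` -/
def errT (N v R t β τ : ℝ) : ℝ :=
  2 * (τ + 1) * (2 * τ * N ^ 2 + 2 * N ^ 3
      + ((16 * N + 8 * v ^ 2 + 2 * β) * (v * (R + t)) + (4 * N + 8 * v ^ 2 + 2 * β) * N ^ 2))
    + (96 * (v ^ 2 * (R + t) ^ 2) + 192 * N ^ 4)

lemma Ctx.abs_X3 (h : Ctx F K s S N v R t β Db) : |(K ^ 3).trace| ≤ N ^ 3 := by
  have h3 := trace_three_sq_le h.sym.eq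
  have h4 : ((K ^ 3).trace) ^ 2 ≤ (N ^ 3) ^ 2 := by
    calc _ ≤ _ := h3
      _ ≤ N ^ 2 * N ^ 4 := mul_le_mul h.X h.X4 (by
          have := trace_even_nonneg h.sym.eq 2; norm_num at this; exact this) (sq_nonneg N)
      _ = _ := by ring
  exact abs_le_of_sq_le_sq h4 (pow_nonneg h.N0 3)

/-- **late one-step bound for `(T - s)²`** -/
theorem sum_T (h : Ctx F K s S N v R t β Db) {τ : ℝ} (hτ : |K.trace| ≤ τ) :
    ∑ p ∈ S, (((upd s K p.1 p.2).trace - s) ^ 2 - (K.trace - s) ^ 2)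
      ≤ -4 * F.card * (K.trace - s) ^ 2 + errT N v R t β τ := by
  have hτ0 : 0 ≤ τ := (abs_nonneg _).trans hτ
  have hN := h.N0
  have e : ∀ p ∈ S, ((upd s K p.1 p.2).trace - s) ^ 2 - (K.trace - s) ^ 2
      = 2 * (K.trace - s) * dT s K p.1 p.2 + dT s K p.1 p.2 ^ 2 := by
    intro p hp
    obtain ⟨hxy, hc, hab⟩ := h.good p hp
    have hD := Dl_ge h.hs2 hc hab
    have hD0 : Dl s K p.1 p.2 ≠ 0 := by linarith
    rw [trace_upd h.hs2 h.sym hxy hD0]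
    ring
  rw [Finset.sum_congr rfl e, Finset.sum_add_distrib, ← Finset.mul_sum]
  have h1 := one_step h.hs2 h.sym h.dead h.row h.hS h.good
  have h2 := h.sum_dT2
  have hVW : √(Vf K * Wf F K) ≤ v * (R + t) := by
    have : Vf K * Wf F K ≤ (v * (R + t)) ^ 2 := by
      calc _ ≤ v ^ 2 * (R + t) ^ 2 := mul_le_mul h.V h.Wf_le (Wf_nonneg F K) (sq_nonneg v)
        _ = _ := by ring
    exact Real.sqrt_le_iff.mpr ⟨mul_nonneg h.v0 (add_nonneg h.R0 h.t0), this⟩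
  have hX : √(K ^ 2).trace ≤ N := Real.sqrt_le_iff.mpr ⟨hN, h.X⟩
  have hX4 : √(K ^ 4).trace ≤ N ^ 2 := by
    refine Real.sqrt_le_iff.mpr ⟨by positivity, ?_⟩
    calc (K ^ 4).trace ≤ N ^ 4 := h.X4
      _ = _ := by ring
  have hβ : √(((F ×ˢ F) \ S).card : ℝ) ≤ β := Real.sqrt_le_iff.mpr ⟨h.β0, h.bad⟩
  have hV := h.V
  have hV0 := Vf_nonneg K
  set E := (16 * N + 8 * v ^ 2 + 2 * β) * (v * (R + t)) + (4 * N + 8 * v ^ 2 + 2 * β) * N ^ 2
    with hE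
  have h3 : |∑ p ∈ S, dT s K p.1 p.2 - (2 * K.trace * ((K ^ 2).trace - F.card)
      + 2 * s * F.card + 2 * (K ^ 3).trace)| ≤ E := by
    refine h1.trans ?_
    rw [hE]
    have b1 := Real.sqrt_nonneg (K ^ 2).trace
    have b2 := Real.sqrt_nonneg (((F ×ˢ F) \ S).card : ℝ)
    have b3 := Real.sqrt_nonneg (Vf K * Wf F K)
    have b4 := Real.sqrt_nonneg (K ^ 4).trace
    refine add_le_add (mul_le_mul (by linarith) hVW b3 ?_) (mul_le_mul (by linarith) hX4 b4 ?_)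
    · have := sq_nonneg v; linarith [h.β0]
    · have := sq_nonneg v; linarith [h.β0]
  set D := ∑ p ∈ S, dT s K p.1 p.2 with hDdef
  set T := K.trace
  set X := (K ^ 2).trace
  set X3 := (K ^ 3).trace
  have hX0 : 0 ≤ X := X_nonneg h.sym
  have hs1 := abs_s h.hs2
  have e2 : 2 * T * (X - F.card) + 2 * s * F.card + 2 * X3
      = -2 * F.card * (T - s) + (2 * T * X + 2 * X3) := by ring
  rw [e2] at h3
  have h4 : |D - -2 * F.card * (T - s)| ≤ 2 * τ * N ^ 2 + 2 * N ^ 3 + E := by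
    have h5 : |2 * T * X + 2 * X3| ≤ 2 * τ * N ^ 2 + 2 * N ^ 3 := by
      have a1 : |T * X| ≤ τ * N ^ 2 := by
        rw [abs_mul, abs_of_nonneg hX0]
        exact mul_le_mul hτ h.X hX0 hτ0
      have a2 : |X3| ≤ N ^ 3 := h.abs_X3
      calc |2 * T * X + 2 * X3| ≤ |2 * T * X| + |2 * X3| := abs_add_le _ _
        _ = 2 * |T * X| + 2 * |X3| := by
            rw [mul_assoc, abs_mul 2 (T * X), abs_mul 2 X3]; norm_num
        _ ≤ _ := by linarith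
    have h6 : D - -2 * F.card * (T - s)
        = (D - (-2 * F.card * (T - s) + (2 * T * X + 2 * X3))) + (2 * T * X + 2 * X3) := by ring
    rw [h6]
    refine (abs_add_le _ _).trans ?_
    linarith
  have h7 : |T - s| ≤ τ + 1 := by
    calc _ ≤ |T| + |s| := abs_sub _ _
      _ ≤ _ := by rw [hs1]; linarith
  have h8 : 2 * (T - s) * D ≤ -4 * F.card * (T - s) ^ 2
      + 2 * (τ + 1) * (2 * τ * N ^ 2 + 2 * N ^ 3 + E) := by
    have h9 : (T - s) * (D - -2 * F.card * (T - s))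
        ≤ (τ + 1) * (2 * τ * N ^ 2 + 2 * N ^ 3 + E) := by
      refine (le_abs_self _).trans ?_
      rw [abs_mul]
      exact mul_le_mul h7 h4 (abs_nonneg _) (by linarith)
    nlinarith
  unfold errT
  rw [← hE]
  linarith

end T

/-! ### `V` -/

/-- Minkowski for finite sums -/
lemma L2_sum {α κ : Type*} (S : Finset α) (Z : Finset κ) (f : κ → α → ℝ) (a : κ → ℝ)
    (h : ∀ z ∈ Z, L2 S (f z) (a z)) : L2 S (fun p => ∑ z ∈ Z, f z p) (∑ z ∈ Z, a z) := by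
  classical
  induction Z using Finset.induction_on with
  | empty => exact ⟨by simp, by simp⟩
  | insert z Z hz ih =>
    have h1 := (h z (Finset.mem_insert_self z Z)).add
      (ih fun w hw => h w (Finset.mem_insert_of_mem hw))
    rw [Finset.sum_insert hz]
    exact h1.congr fun p _ => by rw [Finset.sum_insert hz]

/-- `P_xy = ∑_z K_zz K_zx K_zy` -/
def Pf (K : Matrix ι ι ℝ) (x y : ι) : ℝ := ∑ z, K z z * (K z x * K z y)
/-- signed `G_x = ∑_z K_zz K_zx²` -/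
def Gf (K : Matrix ι ι ℝ) (x : ι) : ℝ := ∑ z, K z z * K z x ^ 2
/-- `M_x = ∑_z K_zx⁴` -/
def Mx (K : Matrix ι ι ℝ) (x : ι) : ℝ := ∑ z, K z x ^ 4
/-- `C_xy = ∑_z K_zx² K_zy²` -/
def Cf (K : Matrix ι ι ℝ) (x y : ι) : ℝ := ∑ z, K z x ^ 2 * K z y ^ 2

/-- the increment of the diagonal entry `z` -/
noncomputable def dz (s : ℝ) (K : Matrix ι ι ℝ) (x y z : ι) : ℝ :=
  Bxx s K x y * K z x ^ 2 + 2 * Bxy s K x y * (K z x * K z y) + Byy s K x y * K z y ^ 2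

lemma upd_diag (s : ℝ) (K : Matrix ι ι ℝ) (x y z : ι) :
    upd s K x y z z = if z = x ∨ z = y then 0 else K z z + dz s K x y z := by
  unfold upd Pi2 dz
  by_cases h : z = x ∨ z = y
  · rw [if_pos h, if_pos (by tauto)]
  · rw [if_neg h, if_neg (by tauto), Khat_apply]
    ring

lemma Vf_upd_le (s : ℝ) (K : Matrix ι ι ℝ) {x y : ι} (hxy : x ≠ y) :
    Vf (upd s K x y) ≤ Vf K + (2 * Bxx s K x y * Gf K x + 4 * Bxy s K x y * Pf K x y
        + 2 * Byy s K x y * Gf K y) + ∑ z, dz s K x y z ^ 2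
      - K x x ^ 2 - 2 * (K x x * dz s K x y x) - K y y ^ 2 - 2 * (K y y * dz s K x y y) := by
  unfold Vf
  have e1 : ∀ z, upd s K x y z z ^ 2
      = if z = x ∨ z = y then 0 else (K z z + dz s K x y z) ^ 2 := by
    intro z
    rw [upd_diag]
    split_ifs <;> norm_num
  simp_rw [e1]
  rw [sum_ne x y hxy]
  have e2 : ∑ z, (K z z + dz s K x y z) ^ 2 = ∑ z, K z z ^ 2
      + (2 * Bxx s K x y * Gf K x + 4 * Bxy s K x y * Pf K x y + 2 * Byy s K x y * Gf K y)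
      + ∑ z, dz s K x y z ^ 2 := by
    unfold Gf Pf
    simp only [Finset.mul_sum, ← Finset.sum_add_distrib]
    refine Finset.sum_congr rfl fun z _ => ?_
    unfold dz; ring
  rw [e2]
  nlinarith [sq_nonneg (dz s K x y x), sq_nonneg (dz s K x y y)]

section V

variable {F : Finset ι} {K : Matrix ι ι ℝ} {s : ℝ} {S : Finset (ι × ι)} {N v R t β Db : ℝ}

lemma Q_col (hK : K.IsSymm) (z : ι) : ∑ x, K z x ^ 2 = (K ^ 2) z z := (Q_eq hK z).symm

lemma Cf_sum (hK : K.IsSymm) : ∑ x, ∑ y, Cf K x y = R2f K := by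
  unfold Cf R2f
  calc ∑ x, ∑ y, ∑ z, K z x ^ 2 * K z y ^ 2 = ∑ x, ∑ z, ∑ y, K z x ^ 2 * K z y ^ 2 :=
        Finset.sum_congr rfl fun x _ => Finset.sum_comm
    _ = ∑ z, ∑ x, ∑ y, K z x ^ 2 * K z y ^ 2 := Finset.sum_comm
    _ = _ := by
        refine Finset.sum_congr rfl fun z _ => ?_
        simp only [← Finset.mul_sum, ← Finset.sum_mul, Q_col hK]
        ring

lemma Mx_sum : ∑ x, Mx K x = M4f K := by
  unfold Mx M4f
  exact Finset.sum_comm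

lemma Cf_nonneg (x y : ι) : 0 ≤ Cf K x y := Finset.sum_nonneg fun z _ => by positivity
lemma Mx_nonneg (x : ι) : 0 ≤ Mx K x := Finset.sum_nonneg fun z _ => by positivity

lemma abs_Gf_le (hK : K.IsSymm) (x : ι) : |Gf K x| ≤ gf K x := by
  unfold Gf gf
  refine (Finset.abs_sum_le_sum_abs _ _).trans (le_of_eq ?_)
  refine Finset.sum_congr rfl fun z _ => ?_
  rw [abs_mul, abs_of_nonneg (sq_nonneg (K z x)), hK.apply x z]

/-- Frobenius norm of `K D K` -/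
lemma Pf_l2 (hK : K.IsSymm) {A : ℝ} (hA : Af K ≤ A) (T : Finset (ι × ι)) :
    L2 T (fun p => Pf K p.1 p.2) A := by
  have h1 : ∀ z ∈ (Finset.univ : Finset ι), L2 T (fun p : ι × ι => K z z * (K z p.1 * K z p.2))
      (|K z z| * (K ^ 2) z z) := by
    intro z _
    have hq := Q_nonneg hK z
    have h2 : L2 Finset.univ (fun x => K z x) (√((K ^ 2) z z)) :=
      L2.of_le (by rw [Q_col hK])
    have h3 : L2 T (fun p : ι × ι => K z p.1 * K z p.2) (√((K ^ 2) z z) * √((K ^ 2) z z)) :=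
      L2.tensor h2 h2 (by intro p _; simp)
    rw [Real.mul_self_sqrt hq] at h3
    exact h3.smul (K z z)
  have h2 := L2_sum T Finset.univ (fun z (p : ι × ι) => K z z * (K z p.1 * K z p.2))
    (fun z => |K z z| * (K ^ 2) z z) h1
  exact (h2.mono hA : _)

lemma row_sum (h : Ctx F K s S N v R t β Db) (z : ι) :
    ∑ x ∈ F, K z x = s * (if z ∈ F then 1 else 0) := by
  have h1 := congrFun h.row z
  simp only [Matrix.mulVec, dotProduct, ind, Pi.smul_apply, smul_eq_mul] at h1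
  rw [← h1]
  simp [Finset.sum_ite_mem]

lemma Pf_sum (h : Ctx F K s S N v R t β Db) : ∑ p ∈ F ×ˢ F, Pf K p.1 p.2 = K.trace := by
  rw [Finset.sum_product]
  unfold Pf
  calc ∑ x ∈ F, ∑ y ∈ F, ∑ z, K z z * (K z x * K z y)
      = ∑ x ∈ F, ∑ z, ∑ y ∈ F, K z z * (K z x * K z y) :=
        Finset.sum_congr rfl fun x _ => Finset.sum_comm
    _ = ∑ z, ∑ x ∈ F, ∑ y ∈ F, K z z * (K z x * K z y) := Finset.sum_comm
    _ = ∑ z, K z z := by
        refine Finset.sum_congr rfl fun z _ => ?_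
        simp only [← Finset.mul_sum, ← Finset.sum_mul, row_sum h]
        have hs2 := h.hs2
        by_cases hz : z ∈ F
        · rw [if_pos hz]; linear_combination (K z z) * hs2
        · rw [if_neg hz, h.dead z z hz]; ring
    _ = _ := rfl

lemma Gf_sum (h : Ctx F K s S N v R t β Db) {A : ℝ} (hA : Af K ≤ A) :
    |∑ x ∈ F, Gf K x| ≤ A := by
  calc |∑ x ∈ F, Gf K x| ≤ ∑ x ∈ F, |Gf K x| := Finset.abs_sum_le_sum_abs _ _
    _ ≤ ∑ x, |Gf K x| :=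
        Finset.sum_le_sum_of_subset_of_nonneg (Finset.subset_univ _) fun _ _ _ => abs_nonneg _
    _ ≤ ∑ x, gf K x := Finset.sum_le_sum fun x _ => abs_Gf_le h.sym x
    _ = Af K := sum_gf h.sym
    _ ≤ A := hA

lemma Gf_l2 (h : Ctx F K s S N v R t β Db) {g : ℝ} (hg0 : 0 ≤ g)
    (hg : ∑ x, gf K x ^ 2 ≤ g ^ 2) : L2 F (fun x => Gf K x) g := by
  refine ⟨hg0, le_trans ?_ hg⟩
  calc ∑ x ∈ F, Gf K x ^ 2 ≤ ∑ x, Gf K x ^ 2 :=
        Finset.sum_le_sum_of_subset_of_nonneg (Finset.subset_univ _) fun _ _ _ => sq_nonneg _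
    _ ≤ _ := Finset.sum_le_sum fun x _ => by
        rw [← sq_abs]
        exact pow_le_pow_left₀ (abs_nonneg _) (abs_Gf_le h.sym x) 2

/-- pointwise bound of the squared increments -/
lemma dz_sq_le (hs : s = 1 ∨ s = -1) {x y : ι} (hc : |K x y| ≤ 1 / 4)
    (hab : |K x x * K y y| ≤ 1 / 4) (z : ι) :
    dz s K x y z ^ 2 ≤ 32 * K y y ^ 2 * K z x ^ 4 + 192 * (K z x ^ 2 * K z y ^ 2)
      + 32 * K x x ^ 2 * K z y ^ 4 := by
  have hs2 : s ^ 2 = 1 := by rcases hs with rfl | rfl <;> norm_num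
  have hD := Dl_ge (K := K) hs2 hc hab
  have hDpos : 0 < Dl s K x y := by linarith
  unfold dz Bxx Bxy Byy
  set D := Dl s K x y
  set i := 1 / D with hi
  have hi0 : 0 < i := by rw [hi]; positivity
  have hi1 : i ≤ 16 / 5 := by rw [hi, div_le_iff₀ hDpos]; linarith
  have hi2 : i ^ 2 ≤ 256 / 25 := by nlinarith
  have hsc : (s - K x y) ^ 2 ≤ 25 / 16 := by
    have := abs_le.mp hc
    rcases hs with rfl | rfl <;> nlinarith
  have hb2 : (s * (1 - s * K x y)) = s - K x y := by linear_combination (-K x y) * hs2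
  rw [hb2]
  set u := K z x
  set w := K z y
  set a := K x x
  set b := K y y
  have e : b / D * u ^ 2 + 2 * ((s - K x y) / D) * (u * w) + a / D * w ^ 2
      = i * (b * u ^ 2 + 2 * (s - K x y) * (u * w) + a * w ^ 2) := by
    rw [hi]; field_simp
  rw [e, mul_pow]
  have h3 : (b * u ^ 2 + 2 * (s - K x y) * (u * w) + a * w ^ 2) ^ 2
      ≤ 3 * (b ^ 2 * u ^ 4 + 4 * (s - K x y) ^ 2 * (u ^ 2 * w ^ 2) + a ^ 2 * w ^ 4) := by
    nlinarith [sq_nonneg (b * u ^ 2 - 2 * (s - K x y) * (u * w)), sq_nonneg (b * u ^ 2 - a * w ^ 2),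
      sq_nonneg (2 * (s - K x y) * (u * w) - a * w ^ 2)]
  have h4 : (s - K x y) ^ 2 * (u ^ 2 * w ^ 2) ≤ 25 / 16 * (u ^ 2 * w ^ 2) :=
    mul_le_mul_of_nonneg_right hsc (by positivity)
  have h5 : (b * u ^ 2 + 2 * (s - K x y) * (u * w) + a * w ^ 2) ^ 2
      ≤ 3 * (b ^ 2 * u ^ 4) + 75 / 4 * (u ^ 2 * w ^ 2) + 3 * (a ^ 2 * w ^ 4) := by linarith
  have h6 : 0 ≤ (b * u ^ 2 + 2 * (s - K x y) * (u * w) + a * w ^ 2) ^ 2 := sq_nonneg _
  have h7 : 0 ≤ b ^ 2 * u ^ 4 := by positivity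
  have h8 : 0 ≤ u ^ 2 * w ^ 2 := by positivity
  have h9 : 0 ≤ a ^ 2 * w ^ 4 := by positivity
  calc i ^ 2 * (b * u ^ 2 + 2 * (s - K x y) * (u * w) + a * w ^ 2) ^ 2
      ≤ 256 / 25 * (b * u ^ 2 + 2 * (s - K x y) * (u * w) + a * w ^ 2) ^ 2 :=
        mul_le_mul_of_nonneg_right hi2 h6
    _ ≤ 256 / 25 * (3 * (b ^ 2 * u ^ 4) + 75 / 4 * (u ^ 2 * w ^ 2) + 3 * (a ^ 2 * w ^ 4)) :=
        mul_le_mul_of_nonneg_left h5 (by norm_num)
    _ ≤ _ := by linarith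

lemma sum_dz_sq_le (hs : s = 1 ∨ s = -1) {x y : ι} (hc : |K x y| ≤ 1 / 4)
    (hab : |K x x * K y y| ≤ 1 / 4) :
    ∑ z, dz s K x y z ^ 2 ≤ 32 * (K y y ^ 2 * Mx K x) + 192 * Cf K x y
      + 32 * (K x x ^ 2 * Mx K y) := by
  have h1 := Finset.sum_le_sum fun z (_ : z ∈ (Finset.univ : Finset ι)) => dz_sq_le hs hc hab z
  refine h1.trans (le_of_eq ?_)
  unfold Mx Cf
  simp only [Finset.mul_sum, ← Finset.sum_add_distrib]
  exact Finset.sum_congr rfl fun z _ => by ring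

/-- pointwise bound of the linear part -/
lemma sc_V {a b c D G H P : ℝ} (hs : s = 1 ∨ s = -1) (hD : D = (1 - s * c) ^ 2 - a * b)
    (hD0 : 5 / 16 ≤ D) (hc : |c| ≤ 1 / 4) :
    2 * (b / D) * G + 4 * (s * (1 - s * c) / D) * P + 2 * (a / D) * H
      - 2 * (a * (b / D * a ^ 2 + 2 * (s * (1 - s * c) / D) * (a * c) + a / D * c ^ 2))
      - 2 * (b * (b / D * c ^ 2 + 2 * (s * (1 - s * c) / D) * (c * b) + a / D * b ^ 2))
      ≤ 4 * (s * P) + 2 * (b * G + a * H) + 16 * ((|c| + |a * b|) * |P|)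
        + (|b * G| + |a * H|) * (16 * |c| + 8 * |a * b|)
        + (a ^ 2 + b ^ 2) * (16 * |c| + 8 * |a * b|) := by
  have hDpos : 0 < D := by linarith
  obtain ⟨h1, h2, h3⟩ := sc_inv (a := a) (b := b) hs hD hD0 hc
  have hs2 : s ^ 2 = 1 := by rcases hs with rfl | rfl <;> norm_num
  have hs1 := abs_s hs2
  set i : ℝ := 1 / D with hi
  have hi0 : 0 < i := by rw [hi]; positivity
  have hi1 : i ≤ 16 / 5 := by
    rw [hi, div_le_iff₀ hDpos]; linarith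
  have e : 2 * (b / D) * G + 4 * (s * (1 - s * c) / D) * P + 2 * (a / D) * H
      - 2 * (a * (b / D * a ^ 2 + 2 * (s * (1 - s * c) / D) * (a * c) + a / D * c ^ 2))
      - 2 * (b * (b / D * c ^ 2 + 2 * (s * (1 - s * c) / D) * (c * b) + a / D * b ^ 2))
      = 4 * (s * P) + 2 * (b * G + a * H) + 4 * (s * P * ((1 - s * c) * i - 1))
        + 2 * ((b * G + a * H) * (i - 1))
        - 2 * (i * a ^ 2 * (a * b + 2 * (s * c) - c ^ 2))
        - 2 * (i * b ^ 2 * (a * b + 2 * (s * c) - c ^ 2)) := by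
    rw [hi]
    field_simp
    linear_combination (4 * (a ^ 2 + b ^ 2) * c ^ 2) * hs2
  rw [e]
  have t1 : s * P * ((1 - s * c) * i - 1) ≤ (4 * |c| + 4 * |a * b|) * |P| := by
    refine (le_abs_self _).trans ?_
    rw [abs_mul, abs_mul, hs1, one_mul, mul_comm]
    exact mul_le_mul_of_nonneg_right h3 (abs_nonneg _)
  have t2 : (b * G + a * H) * (i - 1) ≤ (|b * G| + |a * H|) * (8 * |c| + 4 * |a * b|) := by
    refine (le_abs_self _).trans ?_
    rw [abs_mul]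
    exact mul_le_mul (abs_add_le _ _) h1 (abs_nonneg _) (by positivity)
  have hc2 : c ^ 2 ≤ 1 / 4 * |c| := by rw [← sq_abs]; nlinarith [abs_nonneg c]
  have hsc : |s * c| = |c| := by rw [abs_mul, hs1, one_mul]
  have t3 : |a * b + 2 * (s * c) - c ^ 2| ≤ |a * b| + 9 / 4 * |c| := by
    calc _ ≤ |a * b + 2 * (s * c)| + |c ^ 2| := abs_sub _ _
      _ ≤ |a * b| + |2 * (s * c)| + |c ^ 2| := by linarith [abs_add_le (a * b) (2 * (s * c))]
      _ = |a * b| + 2 * |c| + c ^ 2 := by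
          rw [abs_mul 2, hsc, abs_of_nonneg (sq_nonneg c)]; norm_num
      _ ≤ _ := by linarith
  have t4 : ∀ w : ℝ, -(i * w ^ 2 * (a * b + 2 * (s * c) - c ^ 2))
      ≤ w ^ 2 * (8 * |c| + 4 * |a * b|) := by
    intro w
    have h5 : -(a * b + 2 * (s * c) - c ^ 2) ≤ |a * b| + 9 / 4 * |c| :=
      (neg_le_abs _).trans t3
    have h6 : i * -(a * b + 2 * (s * c) - c ^ 2) ≤ 16 / 5 * (|a * b| + 9 / 4 * |c|) := by
      have h7 : i * -(a * b + 2 * (s * c) - c ^ 2) ≤ i * (|a * b| + 9 / 4 * |c|) :=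
        mul_le_mul_of_nonneg_left h5 hi0.le
      have h8 : i * (|a * b| + 9 / 4 * |c|) ≤ 16 / 5 * (|a * b| + 9 / 4 * |c|) :=
        mul_le_mul_of_nonneg_right hi1 (by positivity)
      linarith
    have h9 : 16 / 5 * (|a * b| + 9 / 4 * |c|) ≤ 8 * |c| + 4 * |a * b| := by
      have := abs_nonneg (a * b); have := abs_nonneg c; linarith
    have := mul_le_mul_of_nonneg_left (h6.trans h9) (sq_nonneg w)
    nlinarith
  have t5 := t4 a
  have t6 := t4 b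
  nlinarith

/-- error term for `V` -/
def errV (N v R t β Db τ A M g : ℝ) : ℝ :=
  2 * Db * v ^ 2 + (4 * τ + 4 * β * A) + (4 * τ * A + 4 * β * (v * g))
    + 16 * ((N + v * v) * A) + 2 * (v * g) * (16 * N + 8 * (v * v))
    + 2 * (v ^ 2 * t) * (16 * N + 8 * (v * v)) + 64 * (v ^ 2 * M) + 192 * R ^ 2

/-- **late one-step bound for `V = ∑ K_xx²`** -/
theorem sum_V (h : Ctx F K s S N v R t β Db) {τ A M g : ℝ} (hτ : |K.trace| ≤ τ)
    (hA : Af K ≤ A) (hM : M4f K ≤ M) (hg0 : 0 ≤ g) (hg : ∑ x, gf K x ^ 2 ≤ g ^ 2) :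
    ∑ p ∈ S, (Vf (upd s K p.1 p.2) - Vf K)
      ≤ -2 * F.card * Vf K + errV N v R t β Db τ A M g := by
  have hτ0 : 0 ≤ τ := (abs_nonneg _).trans hτ
  have hN := h.N0
  have hA0 : 0 ≤ A := (Af_nonneg h.sym).trans hA
  have hpt : ∀ p ∈ S, Vf (upd s K p.1 p.2) - Vf K ≤
      -(K p.1 p.1 ^ 2 + K p.2 p.2 ^ 2) + 4 * (s * Pf K p.1 p.2)
      + 2 * (K p.2 p.2 * Gf K p.1 + K p.1 p.1 * Gf K p.2)
      + 16 * ((|K p.1 p.2| + |K p.1 p.1 * K p.2 p.2|) * |Pf K p.1 p.2|)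
      + (|K p.2 p.2 * Gf K p.1| + |K p.1 p.1 * Gf K p.2|)
          * (16 * |K p.1 p.2| + 8 * |K p.1 p.1 * K p.2 p.2|)
      + (K p.1 p.1 ^ 2 + K p.2 p.2 ^ 2) * (16 * |K p.1 p.2| + 8 * |K p.1 p.1 * K p.2 p.2|)
      + (32 * (K p.2 p.2 ^ 2 * Mx K p.1) + 192 * Cf K p.1 p.2
          + 32 * (K p.1 p.1 ^ 2 * Mx K p.2)) := by
    intro p hp
    obtain ⟨hxy, hc, hab⟩ := h.good p hp
    have hD := Dl_ge h.hs2 hc hab
    have h1 := Vf_upd_le s K hxy
    have h2 := sum_dz_sq_le (K := K) h.hs hc hab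
    have h3 := sc_V (G := Gf K p.1) (H := Gf K p.2) (P := Pf K p.1 p.2) h.hs
      (rfl : Dl s K p.1 p.2 = (1 - s * K p.1 p.2) ^ 2 - K p.1 p.1 * K p.2 p.2) hD hc
    have e1 : dz s K p.1 p.2 p.1 = K p.2 p.2 / Dl s K p.1 p.2 * K p.1 p.1 ^ 2
        + 2 * (s * (1 - s * K p.1 p.2) / Dl s K p.1 p.2) * (K p.1 p.1 * K p.1 p.2)
        + K p.1 p.1 / Dl s K p.1 p.2 * K p.1 p.2 ^ 2 := rfl
    have e2 : dz s K p.1 p.2 p.2 = K p.2 p.2 / Dl s K p.1 p.2 * K p.1 p.2 ^ 2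
        + 2 * (s * (1 - s * K p.1 p.2) / Dl s K p.1 p.2) * (K p.1 p.2 * K p.2 p.2)
        + K p.1 p.1 / Dl s K p.1 p.2 * K p.2 p.2 ^ 2 := by
      unfold dz Bxx Bxy Byy
      rw [h.sym.apply p.1 p.2]
    rw [e1, e2] at h1
    unfold Bxx Bxy Byy at h1
    linarith
  refine (Finset.sum_le_sum hpt).trans ?_
  simp only [Finset.sum_add_distrib]
  -- 1
  have k1 : ∑ p ∈ S, (-(K p.1 p.1 ^ 2 + K p.2 p.2 ^ 2)) ≤ -2 * F.card * Vf K + 2 * Db * v ^ 2 := by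
    rw [sum_good h.hS, Finset.sum_neg_distrib, Finset.sum_neg_distrib, Finset.sum_add_distrib,
      Finset.sum_add_distrib, Ctx.sum_FF_left (fun x => K x x ^ 2),
      Ctx.sum_FF_right (fun x => K x x ^ 2), h.sumF_a2]
    have b1 := h.sum_bad_left (fun x => K x x ^ 2) (fun x => sq_nonneg _)
    have b2 := h.sum_bad_right (fun x => K x x ^ 2) (fun x => sq_nonneg _)
    rw [h.sumF_a2] at b1 b2
    have b3 : Db * Vf K ≤ Db * v ^ 2 := mul_le_mul_of_nonneg_left h.V h.D0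
    linarith
  -- 2
  have k2 : ∑ p ∈ S, 4 * (s * Pf K p.1 p.2) ≤ 4 * τ + 4 * β * A := by
    rw [← Finset.mul_sum, ← Finset.mul_sum]
    have b1 := abs_sum_sub_le h.hS (Pf_l2 h.sym hA (F ×ˢ F)) h.bad
    rw [Pf_sum h, Real.sqrt_sq h.β0] at b1
    have b2 : |∑ p ∈ S, Pf K p.1 p.2| ≤ τ + β * A := by
      calc |∑ p ∈ S, Pf K p.1 p.2|
          = |(∑ p ∈ S, Pf K p.1 p.2 - K.trace) + K.trace| := by ring_nf
        _ ≤ _ := abs_add_le _ _
        _ ≤ _ := by linarith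
    have b3 : s * ∑ p ∈ S, Pf K p.1 p.2 ≤ τ + β * A := by
      refine (le_abs_self _).trans ?_
      rw [abs_mul, abs_s h.hs2, one_mul]; exact b2
    linarith
  -- 3
  have hG := Gf_l2 h hg0 hg
  have k3 : ∑ p ∈ S, 2 * (K p.2 p.2 * Gf K p.1 + K p.1 p.1 * Gf K p.2)
      ≤ 4 * τ * A + 4 * β * (v * g) := by
    have e0 : ∑ y ∈ F, K y y = K.trace :=
      sum_F_eq_univ F (fun y => K y y) fun y hy => h.dead y y hy
    have f1 := sum_tensor F F (fun x => K x x) (fun y => Gf K y)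
    have f2 := sum_tensor F F (fun y => Gf K y) (fun x => K x x)
    rw [e0] at f1 f2
    have g1 := abs_sum_sub_le h.hS (L2.tensor h.l2a hG (S := F ×ˢ F) (Finset.Subset.refl _)) h.bad
    have g2 := abs_sum_sub_le h.hS (L2.tensor hG h.l2a (S := F ×ˢ F) (Finset.Subset.refl _)) h.bad
    rw [f1, Real.sqrt_sq h.β0] at g1
    rw [f2, Real.sqrt_sq h.β0] at g2
    rw [← Finset.mul_sum, Finset.sum_add_distrib]
    have e3 : ∑ p ∈ S, K p.2 p.2 * Gf K p.1 = ∑ p ∈ S, Gf K p.1 * K p.2 p.2 :=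
      Finset.sum_congr rfl fun p _ => mul_comm _ _
    rw [e3]
    have hp : K.trace * ∑ y ∈ F, Gf K y ≤ τ * A := by
      refine (le_abs_self _).trans ?_
      rw [abs_mul]
      exact mul_le_mul hτ (Gf_sum h hA) (abs_nonneg _) hτ0
    have g1' := (abs_le.mp g1).2
    have g2' := (abs_le.mp g2).2
    have hp2 : (∑ y ∈ F, Gf K y) * K.trace = K.trace * ∑ y ∈ F, Gf K y := mul_comm _ _
    rw [hp2] at g2'
    nlinarith
  -- 4
  have k4 : ∑ p ∈ S, 16 * ((|K p.1 p.2| + |K p.1 p.1 * K p.2 p.2|) * |Pf K p.1 p.2|)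
      ≤ 16 * ((N + v * v) * A) := by
    have b1 := (h.l2c S).sum_mul (Pf_l2 h.sym hA S)
    have b2 := h.l2ab.sum_mul (Pf_l2 h.sym hA S)
    rw [← Finset.mul_sum]
    have e : ∀ p ∈ S, (|K p.1 p.2| + |K p.1 p.1 * K p.2 p.2|) * |Pf K p.1 p.2|
        = |K p.1 p.2| * |Pf K p.1 p.2| + |K p.1 p.1 * K p.2 p.2| * |Pf K p.1 p.2| := by
      intro p _; ring
    rw [Finset.sum_congr rfl e, Finset.sum_add_distrib]
    nlinarith
  -- 5
  have k5 : ∑ p ∈ S, (|K p.2 p.2 * Gf K p.1| + |K p.1 p.1 * Gf K p.2|)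
          * (16 * |K p.1 p.2| + 8 * |K p.1 p.1 * K p.2 p.2|)
      ≤ 2 * (v * g) * (16 * N + 8 * (v * v)) := by
    have a1 : L2 S (fun p => K p.1 p.1 * Gf K p.2) (v * g) := L2.tensor h.l2a hG h.hS
    have a2 : L2 S (fun p => Gf K p.1 * K p.2 p.2) (g * v) := L2.tensor hG h.l2a h.hS
    have b1 := a1.sum_mul (h.l2c S)
    have b2 := a1.sum_mul h.l2ab
    have b3 := a2.sum_mul (h.l2c S)
    have b4 := a2.sum_mul h.l2ab
    have e : ∀ p ∈ S, (|K p.2 p.2 * Gf K p.1| + |K p.1 p.1 * Gf K p.2|)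
          * (16 * |K p.1 p.2| + 8 * |K p.1 p.1 * K p.2 p.2|)
        = 16 * (|K p.1 p.1 * Gf K p.2| * |K p.1 p.2|)
          + 8 * (|K p.1 p.1 * Gf K p.2| * |K p.1 p.1 * K p.2 p.2|)
          + 16 * (|Gf K p.1 * K p.2 p.2| * |K p.1 p.2|)
          + 8 * (|Gf K p.1 * K p.2 p.2| * |K p.1 p.1 * K p.2 p.2|) := by
      intro p _
      rw [mul_comm (K p.2 p.2) (Gf K p.1)]
      ring
    rw [Finset.sum_congr rfl e]
    simp only [Finset.sum_add_distrib, ← Finset.mul_sum]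
    nlinarith
  -- 6
  have k6 : ∑ p ∈ S, (K p.1 p.1 ^ 2 + K p.2 p.2 ^ 2)
          * (16 * |K p.1 p.2| + 8 * |K p.1 p.1 * K p.2 p.2|)
      ≤ 2 * (v ^ 2 * t) * (16 * N + 8 * (v * v)) := by
    have a0 : L2 F (fun x => K x x ^ 2) (v ^ 2) := by
      refine ⟨sq_nonneg _, ?_⟩
      have := h.l2a.sum_pow_four
      calc ∑ x ∈ F, (K x x ^ 2) ^ 2 = ∑ x ∈ F, K x x ^ 4 :=
            Finset.sum_congr rfl fun x _ => by ring
        _ ≤ v ^ 4 := this
        _ = _ := by ring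
    have a1 : L2 S (fun p => K p.1 p.1 ^ 2 * 1) (v ^ 2 * t) := L2.tensor a0 h.l2one h.hS
    have a2 : L2 S (fun p => 1 * K p.2 p.2 ^ 2) (t * v ^ 2) := L2.tensor h.l2one a0 h.hS
    have b1 := a1.sum_mul (h.l2c S)
    have b2 := a1.sum_mul h.l2ab
    have b3 := a2.sum_mul (h.l2c S)
    have b4 := a2.sum_mul h.l2ab
    have e : ∀ p ∈ S, (K p.1 p.1 ^ 2 + K p.2 p.2 ^ 2)
          * (16 * |K p.1 p.2| + 8 * |K p.1 p.1 * K p.2 p.2|)
        = 16 * (|K p.1 p.1 ^ 2 * 1| * |K p.1 p.2|)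
          + 8 * (|K p.1 p.1 ^ 2 * 1| * |K p.1 p.1 * K p.2 p.2|)
          + 16 * (|1 * K p.2 p.2 ^ 2| * |K p.1 p.2|)
          + 8 * (|1 * K p.2 p.2 ^ 2| * |K p.1 p.1 * K p.2 p.2|) := by
      intro p _
      rw [mul_one, one_mul, abs_of_nonneg (sq_nonneg (K p.1 p.1)),
        abs_of_nonneg (sq_nonneg (K p.2 p.2))]
      ring
    rw [Finset.sum_congr rfl e]
    simp only [Finset.sum_add_distrib, ← Finset.mul_sum]
    nlinarith
  -- 7
  have k7 : ∑ p ∈ S, 32 * (K p.2 p.2 ^ 2 * Mx K p.1) + ∑ p ∈ S, 192 * Cf K p.1 p.2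
      + ∑ p ∈ S, 32 * (K p.1 p.1 ^ 2 * Mx K p.2) ≤ 64 * (v ^ 2 * M) + 192 * R ^ 2 := by
    simp only [← Finset.mul_sum]
    have hMF : ∑ x ∈ F, Mx K x ≤ M := by
      calc ∑ x ∈ F, Mx K x ≤ ∑ x, Mx K x :=
            Finset.sum_le_sum_of_subset_of_nonneg (Finset.subset_univ _) fun _ _ _ => Mx_nonneg _
        _ = M4f K := Mx_sum
        _ ≤ M := hM
    have hMF0 : 0 ≤ ∑ x ∈ F, Mx K x := Finset.sum_nonneg fun _ _ => Mx_nonneg _
    have hV0 := Vf_nonneg K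
    have c1 : ∑ p ∈ S, K p.1 p.1 ^ 2 * Mx K p.2 ≤ v ^ 2 * M := by
      calc ∑ p ∈ S, K p.1 p.1 ^ 2 * Mx K p.2 ≤ ∑ p ∈ F ×ˢ F, K p.1 p.1 ^ 2 * Mx K p.2 :=
            Finset.sum_le_sum_of_subset_of_nonneg h.hS fun p _ _ =>
              mul_nonneg (sq_nonneg _) (Mx_nonneg _)
        _ = Vf K * ∑ x ∈ F, Mx K x := by
            rw [sum_tensor F F (fun x => K x x ^ 2) (fun y => Mx K y), h.sumF_a2]
        _ ≤ _ := mul_le_mul h.V hMF hMF0 (sq_nonneg v)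
    have c2 : ∑ p ∈ S, K p.2 p.2 ^ 2 * Mx K p.1 ≤ v ^ 2 * M := by
      calc ∑ p ∈ S, K p.2 p.2 ^ 2 * Mx K p.1 = ∑ p ∈ S, Mx K p.1 * K p.2 p.2 ^ 2 :=
            Finset.sum_congr rfl fun p _ => mul_comm _ _
        _ ≤ ∑ p ∈ F ×ˢ F, Mx K p.1 * K p.2 p.2 ^ 2 :=
            Finset.sum_le_sum_of_subset_of_nonneg h.hS fun p _ _ =>
              mul_nonneg (Mx_nonneg _) (sq_nonneg _)
        _ = Vf K * ∑ x ∈ F, Mx K x := by
            rw [sum_tensor F F (fun x => Mx K x) (fun y => K y y ^ 2), h.sumF_a2]; ring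
        _ ≤ _ := mul_le_mul h.V hMF hMF0 (sq_nonneg v)
    have c3 : ∑ p ∈ S, Cf K p.1 p.2 ≤ R ^ 2 := by
      calc ∑ p ∈ S, Cf K p.1 p.2 ≤ ∑ p ∈ F ×ˢ F, Cf K p.1 p.2 :=
            Finset.sum_le_sum_of_subset_of_nonneg h.hS fun p _ _ => Cf_nonneg _ _
        _ ≤ ∑ x, ∑ y, Cf K x y := sum_prod_le_univ F (fun x y => Cf K x y) fun _ _ => Cf_nonneg _ _
        _ = R2f K := Cf_sum h.sym
        _ ≤ _ := h.R2
    linarith
  unfold errV
  linarith

end V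

end Crest.Agent.R62.Late
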