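import Crest.Agent.R62.Upd

/-!
R62: exact update formulas for traces (helper704), generating form.
-/

set_option autoImplicit false
set_option linter.unusedSectionVars false
set_option linter.unusedVariables false

open Matrix Finset

namespace Crest.Agent.R62.UpdX

open Crest.Agent.R62.Upd

variable {ι : Type*} [Fintype ι] [DecidableEq ι]

/-- `x`-entry of the column `x` etc. -/
noncomputable def D1 (s : ℝ) (K : Matrix ι ι ℝ) (x y : ι) : ℝ :=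
  -2 * s * (1 - s * K x y) * (K ^ 2) x y - K x x * ((K ^ 2) y y - 1)
    - K y y * ((K ^ 2) x x - 1)

noncomputable def D2 (s : ℝ) (K : Matrix ι ι ℝ) (x y : ι) : ℝ :=
  (K ^ 2) x y ^ 2 - 2 * s * (1 - s * K x y) * ((K ^ 3) x y - K x y)
    - K x x * ((K ^ 3) y y - K y y) - ((K ^ 2) x x - 1) * ((K ^ 2) y y - 1)
    - K y y * ((K ^ 3) x x - K x x)

noncomputable def D3 (s : ℝ) (K : Matrix ι ι ℝ) (x y : ι) : ℝ :=
  -2 * s * (1 - s * K x y) * ((K ^ 4) x y - (K ^ 2) x y)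
    + 2 * (K ^ 2) x y * ((K ^ 3) x y - K x y)
    - K x x * ((K ^ 4) y y - (K ^ 2) y y) - ((K ^ 2) x x - 1) * ((K ^ 3) y y - K y y)
    - ((K ^ 3) x x - K x x) * ((K ^ 2) y y - 1) - K y y * ((K ^ 4) x x - (K ^ 2) x x)

noncomputable def D4 (s : ℝ) (K : Matrix ι ι ℝ) (x y : ι) : ℝ :=
  -2 * s * (1 - s * K x y) * ((K ^ 5) x y - (K ^ 3) x y)
    + 2 * (K ^ 2) x y * ((K ^ 4) x y - (K ^ 2) x y) + ((K ^ 3) x y - K x y) ^ 2
    - K x x * ((K ^ 5) y y - (K ^ 3) y y) - ((K ^ 2) x x - 1) * ((K ^ 4) y y - (K ^ 2) y y)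
    - ((K ^ 3) x x - K x x) * ((K ^ 3) y y - K y y)
    - ((K ^ 4) x x - (K ^ 2) x x) * ((K ^ 2) y y - 1) - K y y * ((K ^ 5) x x - (K ^ 3) x x)

lemma ip_self_upd (s : ℝ) {K : Matrix ι ι ℝ} (hK : K.IsSymm) :
    ip K K = (K ^ 2).trace := by
  rw [ip_eq_trace, hK.eq, pow_two]

lemma ip_pow (m n : ℕ) {K : Matrix ι ι ℝ} (hK : K.IsSymm) :
    ip (K ^ m) (K ^ n) = (K ^ (m + n)).trace := by
  rw [ip_eq_trace, (pow_symm hK n).eq, ← pow_add]

lemma ip_one_pow (n : ℕ) {K : Matrix ι ι ℝ} (hK : K.IsSymm) :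
    ip K (K ^ n) = (K ^ (n + 1)).trace := by
  have := ip_pow 1 n hK
  rw [pow_one, add_comm] at this
  exact this

lemma trace_Pi2 {x y : ι} (hxy : x ≠ y) (A : Matrix ι ι ℝ) :
    (Pi2 x y A).trace = A.trace - A x x - A y y := by
  have h : ∀ i, Pi2 x y A i i = if i = x ∨ i = y then 0 else A i i := by
    intro i
    by_cases hi : i = x ∨ i = y
    · rw [if_pos hi]; rcases hi with rfl | rfl <;> simp [Pi2]
    · rw [if_neg hi]; push Not at hi; rw [Pi2_apply_of_ne _ hi.1 hi.2 hi.1 hi.2]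
  simp only [Matrix.trace, Matrix.diag]
  simp_rw [h]
  rw [sum_ne x y hxy]

lemma Khat_xx {s : ℝ} (hs : s ^ 2 = 1) {K : Matrix ι ι ℝ} (hK : K.IsSymm) {x y : ι}
    (hD : Dl s K x y ≠ 0) : Khat s K x y x x = K x x / Dl s K x y := by
  rw [Khat_col_x hs hK hD]; congr 1; ring

lemma Khat_yy {s : ℝ} (hs : s ^ 2 = 1) {K : Matrix ι ι ℝ} (hK : K.IsSymm) {x y : ι}
    (hD : Dl s K x y ≠ 0) : Khat s K x y y y = K y y / Dl s K x y := by
  have hyx : K y x = K x y := hK.apply x y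
  rw [Khat_col_y hs hK hD, hyx]; congr 1; ring

lemma Khat_xy {s : ℝ} (hs : s ^ 2 = 1) {K : Matrix ι ι ℝ} (hK : K.IsSymm) {x y : ι}
    (hD : Dl s K x y ≠ 0) : Khat s K x y x y =
      ((1 - s * K x y) * K x y + s * K y y * K x x) / Dl s K x y := by
  rw [Khat_col_y hs hK hD]

lemma trace_sym2 (b1 b2 b3 : ℝ) (f g : ι → ℝ) :
    (sym2 b1 b2 b3 f g).trace = b1 * (f ⬝ᵥ f) + 2 * b2 * (f ⬝ᵥ g) + b3 * (g ⬝ᵥ g) := by
  simp only [Matrix.trace, Matrix.diag, sym2, dotProduct, Finset.mul_sum,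
    ← Finset.sum_add_distrib]
  exact Finset.sum_congr rfl fun i _ => by ring

lemma trace_Khat (s : ℝ) {K : Matrix ι ι ℝ} (hK : K.IsSymm) (x y : ι) :
    (Khat s K x y).trace = K.trace + (Bxx s K x y * (K ^ 2) x x
      + 2 * Bxy s K x y * (K ^ 2) x y + Byy s K x y * (K ^ 2) y y) := by
  rw [Khat, Matrix.trace_add, trace_sym2, dot_col hK, dot_col hK, dot_col hK]

/-- `X_1' = X_1 - D1/D0`. -/
theorem X1_upd {s : ℝ} (hs : s = 1 ∨ s = -1) {K : Matrix ι ι ℝ} (hK : K.IsSymm) {x y : ι}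
    (hxy : x ≠ y) (hD : Dl s K x y ≠ 0) :
    (upd s K x y).trace = K.trace - D1 s K x y / Dl s K x y := by
  have hs2 : s ^ 2 = 1 := by rcases hs with rfl | rfl <;> norm_num
  rw [upd, trace_Pi2 hxy, trace_Khat s hK, Khat_xx hs2 hK hD, Khat_yy hs2 hK hD, Bxx, Bxy, Byy, D1]
  field_simp
  ring

lemma sum_col_sq {s : ℝ} {K : Matrix ι ι ℝ} (hK : K.IsSymm) (x y : ι) (u v u' v' : ℝ) :
    ∑ j, (u * K j x + v * K j y) * (u' * K j x + v' * K j y)
      = u * u' * (K ^ 2) x x + (u * v' + v * u') * (K ^ 2) x y + v * v' * (K ^ 2) y y := by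
  rw [← sum_KK hK x x, ← sum_KK hK x y, ← sum_KK hK y y]
  simp only [Finset.mul_sum, ← Finset.sum_add_distrib]
  refine Finset.sum_congr rfl fun j _ => ?_
  rw [hK.apply j x, hK.apply j y]
  ring

lemma sum_Khat_xx {s : ℝ} (hs : s ^ 2 = 1) {K : Matrix ι ι ℝ} (hK : K.IsSymm) {x y : ι}
    (hD : Dl s K x y ≠ 0) :
    ∑ j, Khat s K x y j x * Khat s K x y j x
      = ((1 - s * K x y) ^ 2 * (K ^ 2) x x + 2 * (1 - s * K x y) * (s * K x x) * (K ^ 2) x y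
          + (s * K x x) ^ 2 * (K ^ 2) y y) / Dl s K x y ^ 2 := by
  simp_rw [Khat_col_x hs hK hD]
  have := sum_col_sq (s := s) hK x y (1 - s * K x y) (s * K x x) (1 - s * K x y) (s * K x x)
  have e : ∀ j, ((1 - s * K x y) * K j x + s * K x x * K j y) / Dl s K x y *
      (((1 - s * K x y) * K j x + s * K x x * K j y) / Dl s K x y)
      = (((1 - s * K x y) * K j x + s * K x x * K j y) *
        ((1 - s * K x y) * K j x + s * K x x * K j y)) / Dl s K x y ^ 2 := by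
    intro j; field_simp
  simp_rw [e]
  rw [← Finset.sum_div, this]
  congr 1
  ring

lemma sum_Khat_yy {s : ℝ} (hs : s ^ 2 = 1) {K : Matrix ι ι ℝ} (hK : K.IsSymm) {x y : ι}
    (hD : Dl s K x y ≠ 0) :
    ∑ j, Khat s K x y j y * Khat s K x y j y
      = ((1 - s * K x y) ^ 2 * (K ^ 2) y y + 2 * (1 - s * K x y) * (s * K y y) * (K ^ 2) x y
          + (s * K y y) ^ 2 * (K ^ 2) x x) / Dl s K x y ^ 2 := by
  simp_rw [Khat_col_y hs hK hD]
  have := sum_col_sq (s := s) hK x y (s * K y y) (1 - s * K x y) (s * K y y) (1 - s * K x y)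
  have e : ∀ j, ((1 - s * K x y) * K j y + s * K y y * K j x) / Dl s K x y *
      (((1 - s * K x y) * K j y + s * K y y * K j x) / Dl s K x y)
      = ((s * K y y * K j x + (1 - s * K x y) * K j y) *
        (s * K y y * K j x + (1 - s * K x y) * K j y)) / Dl s K x y ^ 2 := by
    intro j; field_simp; ring
  simp_rw [e]
  rw [← Finset.sum_div, this]
  congr 1
  ring

lemma pow_three' (K : Matrix ι ι ℝ) : K * K * K = K ^ 3 := by
  rw [pow_succ, pow_two]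

/-- `X_2' = X_2 - 2 - 2 e2 + e1^2`. -/
theorem X2_upd {s : ℝ} (hs : s = 1 ∨ s = -1) {K : Matrix ι ι ℝ} (hK : K.IsSymm) {x y : ι}
    (hxy : x ≠ y) (hD : Dl s K x y ≠ 0) :
    ((upd s K x y) ^ 2).trace = (K ^ 2).trace - 2 - 2 * (D2 s K x y / Dl s K x y)
      + (D1 s K x y / Dl s K x y) ^ 2 := by
  have hs2 : s ^ 2 = 1 := by rcases hs with rfl | rfl <;> norm_num
  have hyx : ∀ n : ℕ, (K ^ n) y x = (K ^ n) x y := fun n => pow_apply_comm hK n y x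
  rw [← ip_self_upd s (upd_symm s hK x y)]
  unfold upd
  rw [ip_Pi2 hxy (Khat_symm s hK x y) (Khat_symm s hK x y), ip_Khat_Khat s s hK hK,
    sum_Khat_xx hs2 hK hD, sum_Khat_yy hs2 hK hD, Khat_xx hs2 hK hD, Khat_yy hs2 hK hD,
    Khat_xy hs2 hK hD, ip_self_upd s hK, pow_three' K, ← pow_two K, hyx 2]
  have hd : Dl s K x y = (1 - s * K x y) ^ 2 - K x x * K y y := rfl
  simp only [D1, D2, Bxx, Bxy, Byy]
  generalize Dl s K x y = D at hD hd ⊢
  generalize (K ^ 2).trace = X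
  generalize (K ^ 3) x x = a3
  generalize (K ^ 3) y y = b3
  generalize (K ^ 3) x y = c3
  generalize (K ^ 2) x x = a2
  generalize (K ^ 2) y y = b2
  generalize (K ^ 2) x y = c2
  generalize K x x = a at hd ⊢
  generalize K y y = b at hd ⊢
  generalize K x y = c at hd ⊢
  rcases hs with rfl | rfl
  · field_simp
    rw [hd]; ring
  · field_simp
    rw [hd]; ring


/-- `H = B ((G₂-1) W + 1)`, column `x`. -/
noncomputable def hx1 (s : ℝ) (K : Matrix ι ι ℝ) (x y : ι) : ℝ :=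
  Bxx s K x y * (((K ^ 2) x x - 1) * ((1 - s * K x y) / Dl s K x y)
      + (K ^ 2) x y * (s * K x x / Dl s K x y) + 1)
    + Bxy s K x y * ((K ^ 2) x y * ((1 - s * K x y) / Dl s K x y)
      + ((K ^ 2) y y - 1) * (s * K x x / Dl s K x y))
noncomputable def hx2 (s : ℝ) (K : Matrix ι ι ℝ) (x y : ι) : ℝ :=
  Bxy s K x y * (((K ^ 2) x x - 1) * ((1 - s * K x y) / Dl s K x y)
      + (K ^ 2) x y * (s * K x x / Dl s K x y) + 1)
    + Byy s K x y * ((K ^ 2) x y * ((1 - s * K x y) / Dl s K x y)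
      + ((K ^ 2) y y - 1) * (s * K x x / Dl s K x y))
noncomputable def hy1 (s : ℝ) (K : Matrix ι ι ℝ) (x y : ι) : ℝ :=
  Bxx s K x y * (((K ^ 2) x x - 1) * (s * K y y / Dl s K x y)
      + (K ^ 2) x y * ((1 - s * K x y) / Dl s K x y))
    + Bxy s K x y * ((K ^ 2) x y * (s * K y y / Dl s K x y)
      + ((K ^ 2) y y - 1) * ((1 - s * K x y) / Dl s K x y) + 1)
noncomputable def hy2 (s : ℝ) (K : Matrix ι ι ℝ) (x y : ι) : ℝ :=
  Bxy s K x y * (((K ^ 2) x x - 1) * (s * K y y / Dl s K x y)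
      + (K ^ 2) x y * ((1 - s * K x y) / Dl s K x y))
    + Byy s K x y * ((K ^ 2) x y * (s * K y y / Dl s K x y)
      + ((K ^ 2) y y - 1) * ((1 - s * K x y) / Dl s K x y) + 1)

/-- Column `x` of `Qhat`. -/
lemma Qhat_col_x {s : ℝ} (hs : s = 1 ∨ s = -1) {K : Matrix ι ι ℝ} (hK : K.IsSymm) {x y : ι}
    (hD : Dl s K x y ≠ 0) (i : ι) :
    Qhat s K x y i x = (1 - s * K x y) / Dl s K x y * (K ^ 2) i x
      + s * K x x / Dl s K x y * (K ^ 2) i y + hx1 s K x y * K i x + hx2 s K x y * K i y := by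
  rw [Qhat_apply]
  have hd : Dl s K x y = (1 - s * K x y) ^ 2 - K x x * K y y := rfl
  simp only [hx1, hx2, Bxx, Bxy, Byy, Exx, Exy, Eyy]
  generalize Dl s K x y = D at hD hd ⊢
  generalize (K ^ 2) i x = u2
  generalize (K ^ 2) i y = v2
  generalize K i x = u
  generalize K i y = v
  generalize (K ^ 2) x x = a2
  generalize (K ^ 2) y y = b2
  generalize (K ^ 2) x y = c2
  generalize K x x = a at hd ⊢
  generalize K y y = b at hd ⊢
  generalize K x y = c at hd ⊢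
  rcases hs with rfl | rfl
  · field_simp
    rw [hd]; ring
  · field_simp
    rw [hd]; ring

/-- Column `y` of `Qhat`. -/
lemma Qhat_col_y {s : ℝ} (hs : s = 1 ∨ s = -1) {K : Matrix ι ι ℝ} (hK : K.IsSymm) {x y : ι}
    (hD : Dl s K x y ≠ 0) (i : ι) :
    Qhat s K x y i y = s * K y y / Dl s K x y * (K ^ 2) i x
      + (1 - s * K x y) / Dl s K x y * (K ^ 2) i y + hy1 s K x y * K i x + hy2 s K x y * K i y := by
  rw [Qhat_apply, hK.apply x y, pow_apply_comm hK 2 y x]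
  have hd : Dl s K x y = (1 - s * K x y) ^ 2 - K x x * K y y := rfl
  simp only [hy1, hy2, Bxx, Bxy, Byy, Exx, Exy, Eyy]
  generalize Dl s K x y = D at hD hd ⊢
  generalize (K ^ 2) i x = u2
  generalize (K ^ 2) i y = v2
  generalize K i x = u
  generalize K i y = v
  generalize (K ^ 2) x x = a2
  generalize (K ^ 2) y y = b2
  generalize (K ^ 2) x y = c2
  generalize K x x = a at hd ⊢
  generalize K y y = b at hd ⊢
  generalize K x y = c at hd ⊢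
  rcases hs with rfl | rfl
  · field_simp
    rw [hd]; ring
  · field_simp
    rw [hd]; ring

lemma sum_quad {K : Matrix ι ι ℝ} (hK : K.IsSymm) (x y : ι) (p1 p2 p3 p4 q1 q2 q3 q4 : ℝ) :
    ∑ j, (p1 * (K ^ 2) j x + p2 * (K ^ 2) j y + p3 * K j x + p4 * K j y) *
        (q1 * (K ^ 2) j x + q2 * (K ^ 2) j y + q3 * K j x + q4 * K j y)
      = p1 * q1 * (K ^ 4) x x + (p1 * q2 + p2 * q1) * (K ^ 4) x y + p2 * q2 * (K ^ 4) y y
        + (p1 * q3 + p3 * q1) * (K ^ 3) x x + (p1 * q4 + p2 * q3 + p3 * q2 + p4 * q1) * (K ^ 3) x y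
        + (p2 * q4 + p4 * q2) * (K ^ 3) y y
        + p3 * q3 * (K ^ 2) x x + (p3 * q4 + p4 * q3) * (K ^ 2) x y + p4 * q4 * (K ^ 2) y y := by
  have h4 : ∀ u v, ∑ j, (K ^ 2) j u * (K ^ 2) j v = (K ^ 4) u v := fun u v => by
    have := dot_col hK 2 2 u v
    simpa [dotProduct, Upd.col] using this
  have h3 : ∀ u v, ∑ j, (K ^ 2) j u * K j v = (K ^ 3) u v := fun u v => by
    have := dot_col hK 2 1 u v
    simpa [dotProduct, Upd.col] using this
  have h2 : ∀ u v, ∑ j, K j u * K j v = (K ^ 2) u v := fun u v => by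
    have := dot_col hK 1 1 u v
    simpa [dotProduct, Upd.col] using this
  have e : ∀ j, (p1 * (K ^ 2) j x + p2 * (K ^ 2) j y + p3 * K j x + p4 * K j y) *
        (q1 * (K ^ 2) j x + q2 * (K ^ 2) j y + q3 * K j x + q4 * K j y)
      = p1 * q1 * ((K ^ 2) j x * (K ^ 2) j x) + (p1 * q2 + p2 * q1) * ((K ^ 2) j x * (K ^ 2) j y)
        + p2 * q2 * ((K ^ 2) j y * (K ^ 2) j y)
        + (p1 * q3 + p3 * q1) * ((K ^ 2) j x * K j x) + (p1 * q4 + p4 * q1) * ((K ^ 2) j x * K j y)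
        + (p2 * q3 + p3 * q2) * ((K ^ 2) j y * K j x)
        + (p2 * q4 + p4 * q2) * ((K ^ 2) j y * K j y)
        + p3 * q3 * (K j x * K j x) + (p3 * q4 + p4 * q3) * (K j x * K j y)
        + p4 * q4 * (K j y * K j y) := fun j => by ring
  simp_rw [e]
  simp only [Finset.sum_add_distrib, ← Finset.mul_sum, h4, h3, h2]
  rw [pow_apply_comm hK 3 y x]
  ring

lemma upd_pow_symm (s : ℝ) {K : Matrix ι ι ℝ} (hK : K.IsSymm) (x y : ι) (n : ℕ) :
    ((upd s K x y) ^ n).IsSymm := pow_symm (upd_symm s hK x y) n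

/-- `<Khat,Qhat>` for one matrix, all inner products evaluated. -/
lemma ip_Khat_Qhat_self (s : ℝ) {K : Matrix ι ι ℝ} (hK : K.IsSymm) (x y : ι) :
    ip (Khat s K x y) (Qhat s K x y) =
      (K ^ 3).trace
      + 2 * (Bxx s K x y * (K ^ 4) x x + 2 * (Bxy s K x y * (K ^ 4) x y)
          + Byy s K x y * (K ^ 4) y y)
      + (Exx s K x y * (K ^ 3) x x + 2 * Exy s K x y * (K ^ 3) x y + Eyy s K x y * (K ^ 3) y y)
      + (Bxx s K x y * (K ^ 4) x x + 2 * Bxy s K x y * (K ^ 4) x y + Byy s K x y * (K ^ 4) y y)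
      + ip (sym2 (Bxx s K x y) (Bxy s K x y) (Byy s K x y) (Upd.col K 1 x) (Upd.col K 1 y))
          (mix2 (Bxx s K x y) (Bxy s K x y) (Byy s K x y) (Upd.col K 2 x) (Upd.col K 2 y)
            (Upd.col K 1 x) (Upd.col K 1 y))
      + ip (sym2 (Bxx s K x y) (Bxy s K x y) (Byy s K x y) (Upd.col K 1 x) (Upd.col K 1 y))
          (sym2 (Exx s K x y) (Exy s K x y) (Eyy s K x y) (Upd.col K 1 x) (Upd.col K 1 y)) := by
  rw [ip_Khat_Qhat s s hK hK]
  have e1 : K ^ 2 * K * K = K ^ 4 := by rw [← pow_succ, ← pow_succ]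
  have e2 : K * K ^ 2 * K = K ^ 4 := by rw [← pow_succ', ← pow_succ]
  rw [e1, e2, pow_three' K, ip_one_pow 2 hK, pow_apply_comm hK 4 y x]
  ring

/-- `X_3' = X_3 - 3 e3 + 3 e1 e2 - e1^3`. -/
theorem X3_upd {s : ℝ} (hs : s = 1 ∨ s = -1) {K : Matrix ι ι ℝ} (hK : K.IsSymm) {x y : ι}
    (hxy : x ≠ y) (hD : Dl s K x y ≠ 0) :
    ((upd s K x y) ^ 3).trace = (K ^ 3).trace - 3 * (D3 s K x y / Dl s K x y)
      + 3 * (D1 s K x y / Dl s K x y) * (D2 s K x y / Dl s K x y)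
      - (D1 s K x y / Dl s K x y) ^ 3 := by
  have hs2 : s ^ 2 = 1 := by rcases hs with rfl | rfl <;> norm_num
  have hyx : ∀ n : ℕ, (K ^ n) y x = (K ^ n) x y := fun n => pow_apply_comm hK n y x
  rw [← ip_one_pow 2 (upd_symm s hK x y), upd_sq hs2 hK hxy hD]
  unfold upd
  rw [ip_Pi2 hxy (Khat_symm s hK x y) (Qhat_symm s hK x y), ip_Khat_Qhat_self s hK]
  have sx : ∑ j, Khat s K x y j x * Qhat s K x y j x = ∑ j,
      (0 * (K ^ 2) j x + 0 * (K ^ 2) j y + (1 - s * K x y) / Dl s K x y * K j x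
        + s * K x x / Dl s K x y * K j y) *
      ((1 - s * K x y) / Dl s K x y * (K ^ 2) j x
      + s * K x x / Dl s K x y * (K ^ 2) j y + hx1 s K x y * K j x + hx2 s K x y * K j y) := by
    refine Finset.sum_congr rfl fun j _ => ?_
    rw [Qhat_col_x hs hK hD, Khat_col_x hs2 hK hD]
    ring
  have sy : ∑ j, Khat s K x y j y * Qhat s K x y j y = ∑ j,
      (0 * (K ^ 2) j x + 0 * (K ^ 2) j y + s * K y y / Dl s K x y * K j x
        + (1 - s * K x y) / Dl s K x y * K j y) *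
      (s * K y y / Dl s K x y * (K ^ 2) j x
      + (1 - s * K x y) / Dl s K x y * (K ^ 2) j y + hy1 s K x y * K j x + hy2 s K x y * K j y) := by
    refine Finset.sum_congr rfl fun j _ => ?_
    rw [Qhat_col_y hs hK hD, Khat_col_y hs2 hK hD]
    ring
  rw [sx, sy, sum_quad hK, sum_quad hK, Qhat_col_x hs hK hD x, Qhat_col_y hs hK hD y,
    Qhat_col_y hs hK hD x, Khat_xx hs2 hK hD, Khat_yy hs2 hK hD, Khat_xy hs2 hK hD,
    ip_sym2_mix2, ip_sym2_sym2]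
  simp only [dot_col hK, hyx, hK.apply x y]
  norm_num only
  have hd : Dl s K x y = (1 - s * K x y) ^ 2 - K x x * K y y := rfl
  simp only [D1, D2, D3, Bxx, Bxy, Byy, Exx, Exy, Eyy, hx1, hx2, hy1, hy2]
  generalize Dl s K x y = D at hD hd ⊢
  generalize (K ^ 3).trace = X
  generalize (K ^ 4) x x = a4
  generalize (K ^ 4) y y = b4
  generalize (K ^ 4) x y = c4
  generalize (K ^ 3) x x = a3
  generalize (K ^ 3) y y = b3
  generalize (K ^ 3) x y = c3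
  generalize (K ^ 2) x x = a2
  generalize (K ^ 2) y y = b2
  generalize (K ^ 2) x y = c2
  generalize K x x = a at hd ⊢
  generalize K y y = b at hd ⊢
  generalize K x y = c at hd ⊢
  rcases hs with rfl | rfl
  · field_simp
    rw [hd]; ring
  · field_simp
    rw [hd]; ring


lemma ip_mix2_mix2 (b1 b2 b3 c1 c2 c3 : ℝ) (m n f g m' n' f' g' : ι → ℝ) :
    ip (mix2 b1 b2 b3 m n f g) (mix2 c1 c2 c3 m' n' f' g') =
      2 * (b1 * c1 * ((m ⬝ᵥ m') * (f ⬝ᵥ f') + (m ⬝ᵥ f') * (f ⬝ᵥ m'))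
        + b1 * c2 * ((m ⬝ᵥ m') * (f ⬝ᵥ g') + (m ⬝ᵥ g') * (f ⬝ᵥ m')
            + (m ⬝ᵥ n') * (f ⬝ᵥ f') + (m ⬝ᵥ f') * (f ⬝ᵥ n'))
        + b1 * c3 * ((m ⬝ᵥ n') * (f ⬝ᵥ g') + (m ⬝ᵥ g') * (f ⬝ᵥ n'))
        + b2 * c1 * ((m ⬝ᵥ m') * (g ⬝ᵥ f') + (m ⬝ᵥ f') * (g ⬝ᵥ m')
            + (n ⬝ᵥ m') * (f ⬝ᵥ f') + (n ⬝ᵥ f') * (f ⬝ᵥ m'))
        + b2 * c2 * ((m ⬝ᵥ m') * (g ⬝ᵥ g') + (m ⬝ᵥ g') * (g ⬝ᵥ m')
            + (m ⬝ᵥ n') * (g ⬝ᵥ f') + (m ⬝ᵥ f') * (g ⬝ᵥ n')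
            + (n ⬝ᵥ m') * (f ⬝ᵥ g') + (n ⬝ᵥ g') * (f ⬝ᵥ m')
            + (n ⬝ᵥ n') * (f ⬝ᵥ f') + (n ⬝ᵥ f') * (f ⬝ᵥ n'))
        + b2 * c3 * ((m ⬝ᵥ n') * (g ⬝ᵥ g') + (m ⬝ᵥ g') * (g ⬝ᵥ n')
            + (n ⬝ᵥ n') * (f ⬝ᵥ g') + (n ⬝ᵥ g') * (f ⬝ᵥ n'))
        + b3 * c1 * ((n ⬝ᵥ m') * (g ⬝ᵥ f') + (n ⬝ᵥ f') * (g ⬝ᵥ m'))
        + b3 * c2 * ((n ⬝ᵥ m') * (g ⬝ᵥ g') + (n ⬝ᵥ g') * (g ⬝ᵥ m')
            + (n ⬝ᵥ n') * (g ⬝ᵥ f') + (n ⬝ᵥ f') * (g ⬝ᵥ n'))
        + b3 * c3 * ((n ⬝ᵥ n') * (g ⬝ᵥ g') + (n ⬝ᵥ g') * (g ⬝ᵥ n'))) := by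
  rw [mix2_eq, mix2_eq]
  simp only [ip_add_right, ip_smul_right, ip_add_left, ip_smul_left, ip_vecMulVec_vecMulVec]
  ring

/-- `<Qhat(K),Qhat(L)>` for two matrices. -/
lemma ip_Qhat_Qhat (s t : ℝ) {K L : Matrix ι ι ℝ} (hK : K.IsSymm) (hL : L.IsSymm) (x y : ι) :
    ip (Qhat s K x y) (Qhat t L x y) =
      ip (K ^ 2) (L ^ 2)
      + 2 * (Bxx t L x y * (L ^ 2 * K ^ 2 * L) x x
          + Bxy t L x y * ((L ^ 2 * K ^ 2 * L) x y + (L ^ 2 * K ^ 2 * L) y x)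
          + Byy t L x y * (L ^ 2 * K ^ 2 * L) y y)
      + 2 * (Bxx s K x y * (K ^ 2 * L ^ 2 * K) x x
          + Bxy s K x y * ((K ^ 2 * L ^ 2 * K) x y + (K ^ 2 * L ^ 2 * K) y x)
          + Byy s K x y * (K ^ 2 * L ^ 2 * K) y y)
      + (Exx t L x y * (L * K ^ 2 * L) x x + 2 * Exy t L x y * (L * K ^ 2 * L) x y
          + Eyy t L x y * (L * K ^ 2 * L) y y)
      + (Exx s K x y * (K * L ^ 2 * K) x x + 2 * Exy s K x y * (K * L ^ 2 * K) x y
          + Eyy s K x y * (K * L ^ 2 * K) y y)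
      + ip (mix2 (Bxx s K x y) (Bxy s K x y) (Byy s K x y) (Upd.col K 2 x) (Upd.col K 2 y)
            (Upd.col K 1 x) (Upd.col K 1 y))
          (mix2 (Bxx t L x y) (Bxy t L x y) (Byy t L x y) (Upd.col L 2 x) (Upd.col L 2 y)
            (Upd.col L 1 x) (Upd.col L 1 y))
      + ip (sym2 (Exx s K x y) (Exy s K x y) (Eyy s K x y) (Upd.col K 1 x) (Upd.col K 1 y))
          (mix2 (Bxx t L x y) (Bxy t L x y) (Byy t L x y) (Upd.col L 2 x) (Upd.col L 2 y)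
            (Upd.col L 1 x) (Upd.col L 1 y))
      + ip (sym2 (Exx t L x y) (Exy t L x y) (Eyy t L x y) (Upd.col L 1 x) (Upd.col L 1 y))
          (mix2 (Bxx s K x y) (Bxy s K x y) (Byy s K x y) (Upd.col K 2 x) (Upd.col K 2 y)
            (Upd.col K 1 x) (Upd.col K 1 y))
      + ip (sym2 (Exx s K x y) (Exy s K x y) (Eyy s K x y) (Upd.col K 1 x) (Upd.col K 1 y))
          (sym2 (Exx t L x y) (Exy t L x y) (Eyy t L x y) (Upd.col L 1 x) (Upd.col L 1 y)) := by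
  unfold Qhat
  have hL2 : (L ^ 2).IsSymm := pow_symm hL 2
  have hK2 : (K ^ 2).IsSymm := pow_symm hK 2
  simp only [ip_add_right, ip_add_left]
  rw [ip_comm (mix2 _ _ _ _ _ _ _) (L ^ 2), ip_mix2_right hK2, ip_mix2_right hL2,
    ip_sym2_right hK2, ip_sym2_left hL2,
    ip_comm (mix2 _ _ _ _ _ _ _) (sym2 (Exx t L x y) _ _ _ _)]
  simp only [dot_mid hK, dot_mid hL, pow_one]
  ring

/-- `<Qhat,Qhat>` for one matrix. -/
lemma ip_Qhat_Qhat_self (s : ℝ) {K : Matrix ι ι ℝ} (hK : K.IsSymm) (x y : ι) :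
    ip (Qhat s K x y) (Qhat s K x y) =
      (K ^ 4).trace
      + 4 * (Bxx s K x y * (K ^ 5) x x + 2 * (Bxy s K x y * (K ^ 5) x y)
          + Byy s K x y * (K ^ 5) y y)
      + 2 * (Exx s K x y * (K ^ 4) x x + 2 * Exy s K x y * (K ^ 4) x y + Eyy s K x y * (K ^ 4) y y)
      + ip (mix2 (Bxx s K x y) (Bxy s K x y) (Byy s K x y) (Upd.col K 2 x) (Upd.col K 2 y)
            (Upd.col K 1 x) (Upd.col K 1 y))
          (mix2 (Bxx s K x y) (Bxy s K x y) (Byy s K x y) (Upd.col K 2 x) (Upd.col K 2 y)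
            (Upd.col K 1 x) (Upd.col K 1 y))
      + 2 * ip (sym2 (Exx s K x y) (Exy s K x y) (Eyy s K x y) (Upd.col K 1 x) (Upd.col K 1 y))
          (mix2 (Bxx s K x y) (Bxy s K x y) (Byy s K x y) (Upd.col K 2 x) (Upd.col K 2 y)
            (Upd.col K 1 x) (Upd.col K 1 y))
      + ip (sym2 (Exx s K x y) (Exy s K x y) (Eyy s K x y) (Upd.col K 1 x) (Upd.col K 1 y))
          (sym2 (Exx s K x y) (Exy s K x y) (Eyy s K x y) (Upd.col K 1 x) (Upd.col K 1 y)) := by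
  rw [ip_Qhat_Qhat s s hK hK]
  have e1 : K ^ 2 * K ^ 2 * K = K ^ 5 := by rw [← pow_add, ← pow_succ]
  have e2 : K * K ^ 2 * K = K ^ 4 := by rw [← pow_succ', ← pow_succ]
  rw [e1, e2, ip_pow 2 2 hK, pow_apply_comm hK 5 y x]
  ring



/-- Diagonal (and general) entries of the step away from `x`, `y`. -/
lemma upd_apply (s : ℝ) (K : Matrix ι ι ℝ) {x y i j : ι} (h1 : i ≠ x) (h2 : i ≠ y)
    (h3 : j ≠ x) (h4 : j ≠ y) :
    upd s K x y i j = K i j + (Bxx s K x y * (K i x * K j x)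
      + Bxy s K x y * (K i x * K j y + K i y * K j x) + Byy s K x y * (K i y * K j y)) := by
  rw [upd, Pi2_apply_of_ne _ h1 h2 h3 h4, Khat_apply]

lemma upd_sq_apply {s : ℝ} (hs : s ^ 2 = 1) {K : Matrix ι ι ℝ} (hK : K.IsSymm) {x y : ι}
    (hxy : x ≠ y) (hD : Dl s K x y ≠ 0) {i j : ι} (h1 : i ≠ x) (h2 : i ≠ y)
    (h3 : j ≠ x) (h4 : j ≠ y) :
    ((upd s K x y) ^ 2) i j = (K ^ 2) i j
      + (Bxx s K x y * ((K ^ 2) i x * K j x + K i x * (K ^ 2) j x)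
        + Bxy s K x y * ((K ^ 2) i x * K j y + (K ^ 2) i y * K j x + K i x * (K ^ 2) j y
            + K i y * (K ^ 2) j x)
        + Byy s K x y * ((K ^ 2) i y * K j y + K i y * (K ^ 2) j y))
      + (Exx s K x y * (K i x * K j x) + Exy s K x y * (K i x * K j y + K i y * K j x)
        + Eyy s K x y * (K i y * K j y)) := by
  rw [upd_sq hs hK hxy hD, Pi2_apply_of_ne _ h1 h2 h3 h4, Qhat_apply]

/-- `M_22'` in raw form: both matrices are updated with the same pair. -/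
theorem M22_upd {s t : ℝ} (hs : s = 1 ∨ s = -1) (ht : t = 1 ∨ t = -1) {K L : Matrix ι ι ℝ}
    (hK : K.IsSymm) (hL : L.IsSymm) {x y : ι} (hxy : x ≠ y) (hD : Dl s K x y ≠ 0)
    (hE : Dl t L x y ≠ 0) :
    ip ((upd s K x y) ^ 2) ((upd t L x y) ^ 2) =
      ip (Qhat s K x y) (Qhat t L x y)
      - 2 * ∑ j, Qhat s K x y j x * Qhat t L x y j x
      - 2 * ∑ j, Qhat s K x y j y * Qhat t L x y j y
      + Qhat s K x y x x * Qhat t L x y x x + Qhat s K x y y y * Qhat t L x y y y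
      + 2 * (Qhat s K x y x y * Qhat t L x y x y) := by
  have hs2 : s ^ 2 = 1 := by rcases hs with rfl | rfl <;> norm_num
  have ht2 : t ^ 2 = 1 := by rcases ht with rfl | rfl <;> norm_num
  rw [upd_sq hs2 hK hxy hD, upd_sq ht2 hL hxy hE,
    ip_Pi2 hxy (Qhat_symm s hK x y) (Qhat_symm t hL x y)]

set_option maxHeartbeats 4000000 in
/-- `X_4' = X_4 - 2 - 4 e4 + 4 e1 e3 + 2 e2^2 - 4 e1^2 e2 + e1^4`. -/
theorem X4_upd {s : ℝ} (hs : s = 1 ∨ s = -1) {K : Matrix ι ι ℝ} (hK : K.IsSymm) {x y : ι}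
    (hxy : x ≠ y) (hD : Dl s K x y ≠ 0) :
    ((upd s K x y) ^ 4).trace = (K ^ 4).trace - 2 - 4 * (D4 s K x y / Dl s K x y)
      + 4 * (D1 s K x y / Dl s K x y) * (D3 s K x y / Dl s K x y)
      + 2 * (D2 s K x y / Dl s K x y) ^ 2
      - 4 * (D1 s K x y / Dl s K x y) ^ 2 * (D2 s K x y / Dl s K x y)
      + (D1 s K x y / Dl s K x y) ^ 4 := by
  have hs2 : s ^ 2 = 1 := by rcases hs with rfl | rfl <;> norm_num
  have hyx : ∀ n : ℕ, (K ^ n) y x = (K ^ n) x y := fun n => pow_apply_comm hK n y x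
  rw [← ip_pow 2 2 (upd_symm s hK x y), upd_sq hs2 hK hxy hD]
  rw [ip_Pi2 hxy (Qhat_symm s hK x y) (Qhat_symm s hK x y), ip_Qhat_Qhat_self s hK]
  simp_rw [Qhat_col_x hs hK hD, Qhat_col_y hs hK hD]
  rw [sum_quad hK, sum_quad hK, ip_mix2_mix2, ip_sym2_mix2, ip_sym2_sym2]
  simp only [dot_col hK, hyx, hK.apply x y]
  norm_num only
  have hd : Dl s K x y = (1 - s * K x y) ^ 2 - K x x * K y y := rfl
  simp only [D1, D2, D3, D4, Bxx, Bxy, Byy, Exx, Exy, Eyy, hx1, hx2, hy1, hy2]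
  generalize Dl s K x y = D at hD hd ⊢
  generalize (K ^ 4).trace = X
  generalize (K ^ 5) x x = a5
  generalize (K ^ 5) y y = b5
  generalize (K ^ 5) x y = c5
  generalize (K ^ 4) x x = a4
  generalize (K ^ 4) y y = b4
  generalize (K ^ 4) x y = c4
  generalize (K ^ 3) x x = a3
  generalize (K ^ 3) y y = b3
  generalize (K ^ 3) x y = c3
  generalize (K ^ 2) x x = a2
  generalize (K ^ 2) y y = b2
  generalize (K ^ 2) x y = c2
  generalize K x x = a at hd ⊢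
  generalize K y y = b at hd ⊢
  generalize K x y = c at hd ⊢
  rcases hs with rfl | rfl
  · field_simp
    rw [hd]; ring
  · field_simp
    rw [hd]; ring

end Crest.Agent.R62.UpdX
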