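import Crest.Agent.R62.LateBase
import Crest.Agent.R62.UpdX

/-!
R62, late phase (helper316): one-step upper bound for `X_2 = Tr K²` summed over good pairs,
with crude error terms.
-/

set_option autoImplicit false
set_option linter.unusedSectionVars false
set_option linter.unusedVariables false

open Matrix Finset

namespace Crest.Agent.R62.Late

open Crest.Agent.R62.Upd Crest.Agent.R62.AvX1 Crest.Agent.R62.AvBase Crest.Agent.R62.L2P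

variable {ι : Type*} [Fintype ι] [DecidableEq ι]

/-- the standing assumptions for one sign -/
structure Ctx (F : Finset ι) (K : Matrix ι ι ℝ) (s : ℝ) (S : Finset (ι × ι))
    (N v R t β Db : ℝ) : Prop where
  hs : s = 1 ∨ s = -1
  sym : K.IsSymm
  dead : ∀ i j, i ∉ F → K i j = 0
  row : K *ᵥ ind F = s • ind F
  hS : S ⊆ F ×ˢ F
  good : ∀ p ∈ S, GoodPair K p.1 p.2
  N1 : 1 ≤ N
  X : (K ^ 2).trace ≤ N ^ 2
  op : OpB K N
  ge : Ge1 K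
  v0 : 0 ≤ v
  V : Vf K ≤ v ^ 2
  R0 : 0 ≤ R
  R2 : R2f K ≤ R ^ 2
  t0 : 0 ≤ t
  card : (F.card : ℝ) ≤ t ^ 2
  β0 : 0 ≤ β
  bad : ((((F ×ˢ F) \ S).card : ℕ) : ℝ) ≤ β ^ 2
  D0 : 0 ≤ Db
  rowL : ∀ x ∈ F, (((F.filter fun y => (x, y) ∉ S).card : ℕ) : ℝ) ≤ Db
  rowR : ∀ y ∈ F, (((F.filter fun x => (x, y) ∉ S).card : ℕ) : ℝ) ≤ Db

section scalars

variable {s a b c D p q r c3 A B : ℝ}

lemma sc_inv (hs : s = 1 ∨ s = -1) (hD : D = (1 - s * c) ^ 2 - a * b) (hD0 : 5 / 16 ≤ D)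
    (hc : |c| ≤ 1 / 4) :
    |1 / D - 1| ≤ 8 * |c| + 4 * |a * b| ∧ |1 / D - 1 - 2 * s * c| ≤ 12 * c ^ 2 + 5 * |a * b| ∧
      |(1 - s * c) * (1 / D) - 1| ≤ 4 * |c| + 4 * |a * b| := by
  have hDpos : 0 < D := by linarith
  have hs2 : s ^ 2 = 1 := by rcases hs with rfl | rfl <;> norm_num
  have hs1 := abs_s hs2
  have hc0 := abs_nonneg c
  have hm0 := abs_nonneg (a * b)
  have hc2 : c ^ 2 ≤ 1 / 4 * |c| := by rw [← sq_abs]; nlinarith
  have hsc : |s * c| = |c| := by rw [abs_mul, hs1, one_mul]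
  have e1 : 1 / D - 1 = (2 * (s * c) - c ^ 2 + a * b) / D := by
    rw [div_sub_one hDpos.ne']; congr 1; rw [hD]; linear_combination (-c ^ 2) * hs2
  have e2 : 1 / D - 1 - 2 * s * c
      = (3 * c ^ 2 - 2 * (s * c) * c ^ 2 + (a * b) * (1 + 2 * (s * c))) / D := by
    field_simp
    rw [hD]; linear_combination (3 * c ^ 2 - 2 * s * c ^ 3) * hs2
  have e3 : (1 - s * c) * (1 / D) - 1 = (s * c - c ^ 2 + a * b) / D := by
    field_simp
    rw [hD]; linear_combination (-c ^ 2) * hs2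
  have b1 : |2 * (s * c) - c ^ 2 + a * b| ≤ 9 / 4 * |c| + |a * b| := by
    calc _ ≤ |2 * (s * c) - c ^ 2| + |a * b| := abs_add_le _ _
      _ ≤ |2 * (s * c)| + |c ^ 2| + |a * b| := by linarith [abs_sub (2 * (s * c)) (c ^ 2)]
      _ = 2 * |c| + c ^ 2 + |a * b| := by
          rw [abs_mul 2, hsc, abs_of_nonneg (sq_nonneg c)]; norm_num
      _ ≤ _ := by linarith
  have b3 : |s * c - c ^ 2 + a * b| ≤ 5 / 4 * |c| + |a * b| := by
    calc _ ≤ |s * c - c ^ 2| + |a * b| := abs_add_le _ _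
      _ ≤ |s * c| + |c ^ 2| + |a * b| := by linarith [abs_sub (s * c) (c ^ 2)]
      _ = |c| + c ^ 2 + |a * b| := by rw [hsc, abs_of_nonneg (sq_nonneg c)]
      _ ≤ _ := by linarith
  have b2 : |3 * c ^ 2 - 2 * (s * c) * c ^ 2 + (a * b) * (1 + 2 * (s * c))|
      ≤ 7 / 2 * c ^ 2 + 3 / 2 * |a * b| := by
    have h1 : |2 * (s * c) * c ^ 2| ≤ 1 / 2 * c ^ 2 := by
      rw [abs_mul, abs_mul, hsc, abs_of_nonneg (sq_nonneg c)]
      have : |(2 : ℝ)| = 2 := by norm_num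
      rw [this]; nlinarith [sq_nonneg c]
    have h2 : |(a * b) * (1 + 2 * (s * c))| ≤ 3 / 2 * |a * b| := by
      rw [abs_mul]
      have : |1 + 2 * (s * c)| ≤ 3 / 2 := by
        calc _ ≤ |(1 : ℝ)| + |2 * (s * c)| := abs_add_le _ _
          _ = 1 + 2 * |c| := by rw [abs_mul 2, hsc]; norm_num
          _ ≤ _ := by linarith
      calc |a * b| * |1 + 2 * (s * c)| ≤ |a * b| * (3 / 2) :=
            mul_le_mul_of_nonneg_left this hm0
        _ = _ := by ring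
    calc _ ≤ |3 * c ^ 2 - 2 * (s * c) * c ^ 2| + |(a * b) * (1 + 2 * (s * c))| := abs_add_le _ _
      _ ≤ |3 * c ^ 2| + |2 * (s * c) * c ^ 2| + |(a * b) * (1 + 2 * (s * c))| := by
          linarith [abs_sub (3 * c ^ 2) (2 * (s * c) * c ^ 2)]
      _ ≤ _ := by
          rw [abs_mul 3, abs_of_nonneg (sq_nonneg c)]
          have : |(3 : ℝ)| = 3 := by norm_num
          rw [this]; linarith
  refine ⟨?_, ?_, ?_⟩
  · rw [e1, abs_div, abs_of_pos hDpos, div_le_iff₀ hDpos]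
    have h0 : 0 ≤ 8 * |c| + 4 * |a * b| := by positivity
    nlinarith [mul_le_mul_of_nonneg_left hD0 h0]
  · rw [e2, abs_div, abs_of_pos hDpos, div_le_iff₀ hDpos]
    have h0 : 0 ≤ 12 * c ^ 2 + 5 * |a * b| := by positivity
    nlinarith [mul_le_mul_of_nonneg_left hD0 h0, sq_nonneg c]
  · rw [e3, abs_div, abs_of_pos hDpos, div_le_iff₀ hDpos]
    have h0 : 0 ≤ 4 * |c| + 4 * |a * b| := by positivity
    nlinarith [mul_le_mul_of_nonneg_left hD0 h0]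

/-- pointwise upper bound for the change of `X_2` -/
lemma sc_X2 (hs : s = 1 ∨ s = -1) (hD : D = (1 - s * c) ^ 2 - a * b) (hD0 : 5 / 16 ≤ D)
    (hc : |c| ≤ 1 / 4) (hp : 0 ≤ p) (hq : 0 ≤ q) :
    -2 - 2 * ((r ^ 2 - 2 * s * (1 - s * c) * (c3 - c) - a * B - (p - 1) * (q - 1) - b * A) / D)
      ≤ -2 * (p + q) + 4 * s * c3 + 2 * (a * B + b * A)
        + (24 * c ^ 2 + 10 * |a * b|)
        + (p + q) * (16 * |c| + 8 * |a * b|) + 7 * (p * q)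
        + (|c3| + |c|) * (16 * |c| + 16 * |a * b|)
        + (|a| * |B| + |b| * |A|) * (16 * |c| + 8 * |a * b|) := by
  have hDpos : 0 < D := by linarith
  obtain ⟨h1, h2, h3⟩ := sc_inv (a := a) (b := b) hs hD hD0 hc
  have hs2 : s ^ 2 = 1 := by rcases hs with rfl | rfl <;> norm_num
  have hs1 := abs_s hs2
  set i : ℝ := 1 / D with hi
  have hi0 : 0 < i := by rw [hi]; positivity
  have hi1 : i ≤ 16 / 5 := by
    rw [hi, div_le_iff₀ hDpos]; linarith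
  have e : -2 - 2 * ((r ^ 2 - 2 * s * (1 - s * c) * (c3 - c) - a * B - (p - 1) * (q - 1)
        - b * A) / D)
      = -2 * (p + q) + 4 * s * c3 + 2 * (a * B + b * A) - 2 * r ^ 2 * i
        + 4 * (s * ((c3 - c) * ((1 - s * c) * i - 1))) + 2 * ((a * B + b * A) * (i - 1))
        + 2 * (i - 1 - 2 * s * c) - 2 * ((p + q) * (i - 1)) + 2 * (p * q) * i := by
    rw [hi]; field_simp; ring
  rw [e]
  have t1 : 0 ≤ 2 * r ^ 2 * i := by positivity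
  have t2 : s * ((c3 - c) * ((1 - s * c) * i - 1)) ≤ (|c3| + |c|) * (4 * |c| + 4 * |a * b|) := by
    refine (le_abs_self _).trans ?_
    rw [abs_mul, abs_mul, hs1, one_mul]
    exact mul_le_mul (abs_sub _ _) h3 (abs_nonneg _) (by positivity)
  have t3 : (a * B + b * A) * (i - 1) ≤ (|a| * |B| + |b| * |A|) * (8 * |c| + 4 * |a * b|) := by
    refine (le_abs_self _).trans ?_
    rw [abs_mul]
    refine mul_le_mul ?_ h1 (abs_nonneg _) (by positivity)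
    calc |a * B + b * A| ≤ |a * B| + |b * A| := abs_add_le _ _
      _ = _ := by rw [abs_mul, abs_mul]
  have t4 : i - 1 - 2 * s * c ≤ 12 * c ^ 2 + 5 * |a * b| := (le_abs_self _).trans h2
  have t5 : -((p + q) * (i - 1)) ≤ (p + q) * (8 * |c| + 4 * |a * b|) := by
    have : -(i - 1) ≤ 8 * |c| + 4 * |a * b| := (neg_le_abs _).trans h1
    nlinarith [mul_le_mul_of_nonneg_left this (add_nonneg hp hq)]
  have t6 : 2 * (p * q) * i ≤ 7 * (p * q) := by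
    nlinarith [mul_nonneg hp hq]
  nlinarith

end scalars

section

variable {F : Finset ι} {K : Matrix ι ι ℝ} {s : ℝ} {S : Finset (ι × ι)} {N v R t β Db : ℝ}

namespace Ctx

lemma hs2 (h : Ctx F K s S N v R t β Db) : s ^ 2 = 1 := by
  rcases h.hs with rfl | rfl <;> norm_num

lemma N0 (h : Ctx F K s S N v R t β Db) : 0 ≤ N := by linarith [h.N1]

lemma X4 (h : Ctx F K s S N v R t β Db) : (K ^ 4).trace ≤ N ^ 4 := by
  have h1 := trace_even_le h.sym.eq h.op 1 1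
  norm_num at h1
  calc _ ≤ _ := h1
    _ ≤ N ^ 2 * N ^ 2 := mul_le_mul_of_nonneg_left h.X (sq_nonneg N)
    _ = _ := by ring

lemma X6 (h : Ctx F K s S N v R t β Db) : (K ^ 6).trace ≤ N ^ 6 := by
  have h1 := trace_even_le h.sym.eq h.op 2 1
  norm_num at h1
  calc _ ≤ _ := h1
    _ ≤ N ^ 2 * N ^ 4 := mul_le_mul_of_nonneg_left h.X4 (sq_nonneg N)
    _ = _ := by ring

lemma l2a (h : Ctx F K s S N v R t β Db) : L2 F (fun x => K x x) v :=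
  ⟨h.v0, (Finset.sum_le_sum_of_subset_of_nonneg (Finset.subset_univ F)
    fun _ _ _ => sq_nonneg _).trans h.V⟩

lemma l2one (h : Ctx F K s S N v R t β Db) : L2 F (fun _ => (1 : ℝ)) t :=
  ⟨h.t0, by simpa using h.card⟩

lemma l2Q (h : Ctx F K s S N v R t β Db) : L2 F (fun x => (K ^ 2) x x) R :=
  ⟨h.R0, (Finset.sum_le_sum_of_subset_of_nonneg (Finset.subset_univ F)
    fun _ _ _ => sq_nonneg _).trans h.R2⟩

lemma l2K3 (h : Ctx F K s S N v R t β Db) : L2 F (fun x => (K ^ 3) x x) (N * R) := by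
  have h1 : L2 F (fun x => N * (K ^ 2) x x) (|N| * R) := h.l2Q.smul N
  rw [abs_of_nonneg h.N0] at h1
  refine h1.of_abs_le fun x _ => ?_
  have := abs_diag_le h.sym.eq h.op 1 x
  simpa [abs_mul, abs_of_nonneg h.N0, abs_of_nonneg (Q_nonneg h.sym x)] using this

lemma l2B (h : Ctx F K s S N v R t β Db) : L2 F (fun x => (K ^ 3) x x - K x x) (N * R + v) :=
  h.l2K3.sub h.l2a

lemma l2c (h : Ctx F K s S N v R t β Db) (T : Finset (ι × ι)) :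
    L2 T (fun p => K p.1 p.2) N := by
  refine L2.ofMatrix (f := fun x y => K x y) h.N0 ?_ T
  have h1 := frob_pow h.sym.eq 1
  simp only [pow_one, mul_one] at h1
  rw [h1]; exact h.X

lemma l2c2 (h : Ctx F K s S N v R t β Db) (T : Finset (ι × ι)) :
    L2 T (fun p => (K ^ 2) p.1 p.2) (N ^ 2) := by
  refine L2.ofMatrix (f := fun x y => (K ^ 2) x y) (by positivity) ?_ T
  have h1 := frob_pow h.sym.eq 2
  norm_num at h1
  rw [h1]; calc _ ≤ _ := h.X4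
    _ = _ := by ring

lemma l2c3 (h : Ctx F K s S N v R t β Db) (T : Finset (ι × ι)) :
    L2 T (fun p => (K ^ 3) p.1 p.2) (N ^ 3) := by
  have hN := h.N0
  refine L2.ofMatrix (f := fun x y => (K ^ 3) x y) (by positivity) ?_ T
  have h1 := frob_pow h.sym.eq 3
  norm_num at h1
  rw [h1]; calc _ ≤ _ := h.X6
    _ = _ := by ring

/-- sum over `S` of a nonnegative one-variable function -/
lemma sum_bad_left (h : Ctx F K s S N v R t β Db) (f : ι → ℝ) (hf : ∀ x, 0 ≤ f x) :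
    ∑ p ∈ (F ×ˢ F) \ S, f p.1 ≤ Db * ∑ x ∈ F, f x := by
  have e : (F ×ˢ F) \ S = (F ×ˢ F).filter fun p => p ∉ S := by
    ext p; simp [Finset.mem_sdiff, Finset.mem_filter]
  rw [e, Finset.sum_filter, Finset.sum_product, Finset.mul_sum]
  refine Finset.sum_le_sum fun x hx => ?_
  rw [← Finset.sum_filter]
  simp only [Finset.sum_const, nsmul_eq_mul]
  exact mul_le_mul_of_nonneg_right (h.rowL x hx) (hf x)

lemma sum_bad_right (h : Ctx F K s S N v R t β Db) (f : ι → ℝ) (hf : ∀ x, 0 ≤ f x) :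
    ∑ p ∈ (F ×ˢ F) \ S, f p.2 ≤ Db * ∑ x ∈ F, f x := by
  have e : (F ×ˢ F) \ S = (F ×ˢ F).filter fun p => p ∉ S := by
    ext p; simp [Finset.mem_sdiff, Finset.mem_filter]
  rw [e, Finset.sum_filter, Finset.sum_product_right, Finset.mul_sum]
  refine Finset.sum_le_sum fun x hx => ?_
  rw [← Finset.sum_filter]
  simp only [Finset.sum_const, nsmul_eq_mul]
  exact mul_le_mul_of_nonneg_right (h.rowR x hx) (hf x)

lemma sum_FF_left (f : ι → ℝ) : ∑ p ∈ F ×ˢ F, f p.1 = F.card * ∑ x ∈ F, f x := by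
  rw [Finset.sum_product]
  simp [Finset.mul_sum]

lemma sum_FF_right (f : ι → ℝ) : ∑ p ∈ F ×ˢ F, f p.2 = F.card * ∑ x ∈ F, f x := by
  rw [Finset.sum_product]
  simp

lemma sumF_Q (h : Ctx F K s S N v R t β Db) : ∑ x ∈ F, (K ^ 2) x x = (K ^ 2).trace :=
  sum_F_eq_univ F (fun y => (K ^ 2) y y) fun y hy => dead_pow h.sym h.dead 1 y y hy

lemma sumF_a2 (h : Ctx F K s S N v R t β Db) : ∑ x ∈ F, K x x ^ 2 = Vf K :=
  sum_F_eq_univ F (fun y => K y y ^ 2) fun y hy => by rw [h.dead y y hy]; norm_num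

/-- `-∑_S 2 (p+q)` -/
lemma sum_pq (h : Ctx F K s S N v R t β Db) :
    ∑ p ∈ S, (-2 * ((K ^ 2) p.1 p.1 + (K ^ 2) p.2 p.2))
      ≤ -4 * F.card * (K ^ 2).trace + 4 * Db * N ^ 2 := by
  rw [sum_good h.hS, ← Finset.mul_sum, ← Finset.mul_sum, Finset.sum_add_distrib,
    Finset.sum_add_distrib, sum_FF_left (fun x => (K ^ 2) x x),
    sum_FF_right (fun x => (K ^ 2) x x), h.sumF_Q]
  have h1 := h.sum_bad_left (fun x => (K ^ 2) x x) (fun x => Q_nonneg h.sym x)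
  have h2 := h.sum_bad_right (fun x => (K ^ 2) x x) (fun x => Q_nonneg h.sym x)
  rw [h.sumF_Q] at h1 h2
  have h3 : Db * (K ^ 2).trace ≤ Db * N ^ 2 := mul_le_mul_of_nonneg_left h.X h.D0
  linarith

/-- first order term -/
lemma sum_c3 (h : Ctx F K s S N v R t β Db) :
    ∑ p ∈ S, 4 * s * (K ^ 3) p.1 p.2 ≤ 4 * F.card + 4 * β * N ^ 3 := by
  have h1 : ∑ p ∈ F ×ˢ F, (K ^ 3) p.1 p.2 = s ^ 3 * (F.card : ℝ) := sum_FF_pow h.row 3
  have h2 := abs_sum_sub_le h.hS (h.l2c3 (F ×ˢ F)) h.bad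
  rw [h1, Real.sqrt_sq h.β0] at h2
  rw [← Finset.mul_sum]
  have h3 := abs_le.mp h2
  rcases h.hs with rfl | rfl
  · norm_num at h3 ⊢; nlinarith [h3.1, h3.2]
  · norm_num at h3 ⊢; nlinarith [h3.1, h3.2]

/-- `2 ∑_S (aB + bA)` -/
lemma sum_aB (h : Ctx F K s S N v R t β Db) {τ : ℝ} (hτ : |K.trace| ≤ τ) :
    ∑ p ∈ S, 2 * (K p.1 p.1 * ((K ^ 3) p.2 p.2 - K p.2 p.2)
        + K p.2 p.2 * ((K ^ 3) p.1 p.1 - K p.1 p.1))
      ≤ 4 * τ * (N ^ 3 + τ) + 4 * β * (v * (N * R + v)) := by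
  have e1 : ∑ y ∈ F, ((K ^ 3) y y - K y y) = (K ^ 3).trace - K.trace := by
    rw [Finset.sum_sub_distrib, sum_F_eq_univ F (fun y => (K ^ 3) y y)
      (fun y hy => dead_pow h.sym h.dead 2 y y hy), sum_F_eq_univ F (fun y => K y y)
      (fun y hy => h.dead y y hy)]
    rfl
  have e0 : ∑ y ∈ F, K y y = K.trace := sum_F_eq_univ F (fun y => K y y) fun y hy => h.dead y y hy
  have f1 := sum_tensor F F (fun x => K x x) (fun y => (K ^ 3) y y - K y y)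
  have f2 := sum_tensor F F (fun y => (K ^ 3) y y - K y y) (fun x => K x x)
  rw [e0, e1] at f1 f2
  have g1 := abs_sum_sub_le h.hS (L2.tensor h.l2a h.l2B (S := F ×ˢ F) (Finset.Subset.refl _)) h.bad
  have g2 := abs_sum_sub_le h.hS (L2.tensor h.l2B h.l2a (S := F ×ˢ F) (Finset.Subset.refl _)) h.bad
  rw [f1, Real.sqrt_sq h.β0] at g1
  rw [f2, Real.sqrt_sq h.β0] at g2
  rw [← Finset.mul_sum, Finset.sum_add_distrib]
  have e3 : ∑ p ∈ S, K p.2 p.2 * ((K ^ 3) p.1 p.1 - K p.1 p.1)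
      = ∑ p ∈ S, ((K ^ 3) p.1 p.1 - K p.1 p.1) * K p.2 p.2 :=
    Finset.sum_congr rfl fun p _ => mul_comm _ _
  rw [e3]
  have hX3 : |(K ^ 3).trace| ≤ N ^ 3 := by
    have h3 := trace_three_sq_le h.sym.eq
    have h4 : ((K ^ 3).trace) ^ 2 ≤ (N ^ 3) ^ 2 := by
      calc _ ≤ _ := h3
        _ ≤ N ^ 2 * N ^ 4 := mul_le_mul h.X h.X4 (by
            have := trace_even_nonneg h.sym.eq 2; norm_num at this; exact this) (sq_nonneg N)
        _ = _ := by ring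
    exact abs_le_of_sq_le_sq h4 (pow_nonneg h.N0 3)
  have hτ0 : 0 ≤ τ := (abs_nonneg _).trans hτ
  have hp : K.trace * ((K ^ 3).trace - K.trace) ≤ τ * (N ^ 3 + τ) := by
    refine (le_abs_self _).trans ?_
    rw [abs_mul]
    refine mul_le_mul hτ ?_ (abs_nonneg _) hτ0
    exact (abs_sub _ _).trans (add_le_add hX3 hτ)
  have g1' := (abs_le.mp g1).2
  have g2' := (abs_le.mp g2).2
  have hp2 : ((K ^ 3).trace - K.trace) * K.trace = K.trace * ((K ^ 3).trace - K.trace) :=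
    mul_comm _ _
  rw [hp2] at g2'
  nlinarith

lemma sum_abs_ab (h : Ctx F K s S N v R t β Db) :
    ∑ p ∈ S, |K p.1 p.1 * K p.2 p.2| ≤ v ^ 2 * t ^ 2 := by
  have h1 : ∑ p ∈ S, |K p.1 p.1 * K p.2 p.2| ≤ ∑ p ∈ F ×ˢ F, |K p.1 p.1| * |K p.2 p.2| := by
    calc _ ≤ ∑ p ∈ F ×ˢ F, |K p.1 p.1 * K p.2 p.2| :=
          Finset.sum_le_sum_of_subset_of_nonneg h.hS fun _ _ _ => abs_nonneg _
      _ = _ := Finset.sum_congr rfl fun p _ => abs_mul _ _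
  rw [sum_tensor F F (fun x => |K x x|) (fun y => |K y y|)] at h1
  have h2 : ∑ x ∈ F, |K x x| ≤ v * t := by
    have := h.l2a.sum_mul h.l2one
    simpa using this
  have h3 : 0 ≤ ∑ x ∈ F, |K x x| := Finset.sum_nonneg fun _ _ => abs_nonneg _
  calc _ ≤ _ := h1
    _ ≤ (v * t) * (v * t) := mul_le_mul h2 h2 h3 (mul_nonneg h.v0 h.t0)
    _ = _ := by ring

lemma l2ab (h : Ctx F K s S N v R t β Db) :
    L2 S (fun p => K p.1 p.1 * K p.2 p.2) (v * v) :=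
  L2.tensor h.l2a h.l2a h.hS

lemma sum_c_sq (h : Ctx F K s S N v R t β Db) : ∑ p ∈ S, K p.1 p.2 ^ 2 ≤ N ^ 2 := (h.l2c S).2

lemma sum_pq_c (h : Ctx F K s S N v R t β Db) :
    ∑ p ∈ S, ((K ^ 2) p.1 p.1 + (K ^ 2) p.2 p.2)
        * (16 * |K p.1 p.2| + 8 * |K p.1 p.1 * K p.2 p.2|)
      ≤ 2 * (R * t) * (16 * N + 8 * (v * v)) := by
  have a1 : L2 S (fun p => (K ^ 2) p.1 p.1 * 1) (R * t) := L2.tensor h.l2Q h.l2one h.hS
  have a2 : L2 S (fun p => 1 * (K ^ 2) p.2 p.2) (t * R) := L2.tensor h.l2one h.l2Q h.hS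
  have a3 := (a1.add a2)
  have b1 := a3.sum_mul (h.l2c S)
  have b2 := a3.sum_mul h.l2ab
  have e : ∀ p ∈ S, ((K ^ 2) p.1 p.1 + (K ^ 2) p.2 p.2)
        * (16 * |K p.1 p.2| + 8 * |K p.1 p.1 * K p.2 p.2|)
      = 16 * (|(K ^ 2) p.1 p.1 * 1 + 1 * (K ^ 2) p.2 p.2| * |K p.1 p.2|)
        + 8 * (|(K ^ 2) p.1 p.1 * 1 + 1 * (K ^ 2) p.2 p.2| * |K p.1 p.1 * K p.2 p.2|) := by
    intro p _
    have h1 := Q_nonneg h.sym p.1
    have h2 := Q_nonneg h.sym p.2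
    rw [mul_one, one_mul, abs_of_nonneg (add_nonneg h1 h2)]
    ring
  rw [Finset.sum_congr rfl e, Finset.sum_add_distrib, ← Finset.mul_sum, ← Finset.mul_sum]
  linarith

lemma sum_p_q (h : Ctx F K s S N v R t β Db) :
    ∑ p ∈ S, (K ^ 2) p.1 p.1 * (K ^ 2) p.2 p.2 ≤ N ^ 4 := by
  have h1 : ∑ p ∈ S, (K ^ 2) p.1 p.1 * (K ^ 2) p.2 p.2
      ≤ ∑ p ∈ F ×ˢ F, (K ^ 2) p.1 p.1 * (K ^ 2) p.2 p.2 :=
    Finset.sum_le_sum_of_subset_of_nonneg h.hS fun p _ _ =>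
      mul_nonneg (Q_nonneg h.sym _) (Q_nonneg h.sym _)
  rw [sum_tensor F F (fun x => (K ^ 2) x x) (fun y => (K ^ 2) y y), h.sumF_Q] at h1
  calc _ ≤ _ := h1
    _ ≤ N ^ 2 * N ^ 2 := mul_le_mul h.X h.X (X_nonneg h.sym) (sq_nonneg N)
    _ = _ := by ring

lemma sum_c3c (h : Ctx F K s S N v R t β Db) :
    ∑ p ∈ S, (|(K ^ 3) p.1 p.2| + |K p.1 p.2|)
        * (16 * |K p.1 p.2| + 16 * |K p.1 p.1 * K p.2 p.2|)
      ≤ 16 * (N ^ 3 + N) * (N + v * v) := by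
  have b1 := (h.l2c3 S).sum_mul (h.l2c S)
  have b2 := (h.l2c3 S).sum_mul h.l2ab
  have b3 := (h.l2c S).sum_mul (h.l2c S)
  have b4 := (h.l2c S).sum_mul h.l2ab
  have e : ∀ p ∈ S, (|(K ^ 3) p.1 p.2| + |K p.1 p.2|)
        * (16 * |K p.1 p.2| + 16 * |K p.1 p.1 * K p.2 p.2|)
      = 16 * (|(K ^ 3) p.1 p.2| * |K p.1 p.2|) + 16 * (|(K ^ 3) p.1 p.2|
          * |K p.1 p.1 * K p.2 p.2|) + 16 * (|K p.1 p.2| * |K p.1 p.2|)
        + 16 * (|K p.1 p.2| * |K p.1 p.1 * K p.2 p.2|) := by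
    intro p _; ring
  rw [Finset.sum_congr rfl e]
  simp only [Finset.sum_add_distrib, ← Finset.mul_sum]
  nlinarith

lemma sum_aBc (h : Ctx F K s S N v R t β Db) :
    ∑ p ∈ S, (|K p.1 p.1| * |(K ^ 3) p.2 p.2 - K p.2 p.2|
        + |K p.2 p.2| * |(K ^ 3) p.1 p.1 - K p.1 p.1|)
        * (16 * |K p.1 p.2| + 8 * |K p.1 p.1 * K p.2 p.2|)
      ≤ 2 * (v * (N * R + v)) * (16 * N + 8 * (v * v)) := by
  have a1 : L2 S (fun p => K p.1 p.1 * ((K ^ 3) p.2 p.2 - K p.2 p.2)) (v * (N * R + v)) :=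
    L2.tensor h.l2a h.l2B h.hS
  have a2 : L2 S (fun p => ((K ^ 3) p.1 p.1 - K p.1 p.1) * K p.2 p.2) ((N * R + v) * v) :=
    L2.tensor h.l2B h.l2a h.hS
  have b1 := a1.sum_mul (h.l2c S)
  have b2 := a1.sum_mul h.l2ab
  have b3 := a2.sum_mul (h.l2c S)
  have b4 := a2.sum_mul h.l2ab
  have e : ∀ p ∈ S, (|K p.1 p.1| * |(K ^ 3) p.2 p.2 - K p.2 p.2|
        + |K p.2 p.2| * |(K ^ 3) p.1 p.1 - K p.1 p.1|)
        * (16 * |K p.1 p.2| + 8 * |K p.1 p.1 * K p.2 p.2|)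
      = 16 * (|K p.1 p.1 * ((K ^ 3) p.2 p.2 - K p.2 p.2)| * |K p.1 p.2|)
        + 8 * (|K p.1 p.1 * ((K ^ 3) p.2 p.2 - K p.2 p.2)| * |K p.1 p.1 * K p.2 p.2|)
        + 16 * (|((K ^ 3) p.1 p.1 - K p.1 p.1) * K p.2 p.2| * |K p.1 p.2|)
        + 8 * (|((K ^ 3) p.1 p.1 - K p.1 p.1) * K p.2 p.2| * |K p.1 p.1 * K p.2 p.2|) := by
    intro p _
    rw [abs_mul (K p.1 p.1) ((K ^ 3) p.2 p.2 - K p.2 p.2),
      abs_mul ((K ^ 3) p.1 p.1 - K p.1 p.1)]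
    ring
  rw [Finset.sum_congr rfl e]
  simp only [Finset.sum_add_distrib, ← Finset.mul_sum]
  nlinarith

lemma Wf_le (h : Ctx F K s S N v R t β Db) : Wf F K ≤ (R + t) ^ 2 := (h.l2Q.sub h.l2one).2

/-- `∑_S dT²` -/
lemma sum_dT2 (h : Ctx F K s S N v R t β Db) :
    ∑ p ∈ S, dT s K p.1 p.2 ^ 2 ≤ 96 * (v ^ 2 * (R + t) ^ 2) + 192 * N ^ 4 := by
  have h1 := sum_dT_sq h.hs2 h.sym h.hS h.good
  have h2 : Vf K * Wf F K ≤ v ^ 2 * (R + t) ^ 2 :=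
    mul_le_mul h.V h.Wf_le (Wf_nonneg F K) (sq_nonneg v)
  linarith [h.X4]

end Ctx

lemma D1_eq (hs : s = 1 ∨ s = -1) (x y : ι) :
    (UpdX.D1 s K x y / Dl s K x y) ^ 2 = dT s K x y ^ 2 := by
  have hs2 : s ^ 2 = 1 := by rcases hs with rfl | rfl <;> norm_num
  have : UpdX.D1 s K x y / Dl s K x y = - dT s K x y := by
    unfold UpdX.D1 dT
    rw [← neg_div]
    congr 1
    linear_combination (2 * K x y * (K ^ 2) x y) * hs2
  rw [this]; ring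

/-- error term for `X_2` -/
def errX (N v R t β Db τ : ℝ) : ℝ :=
  4 * Db * N ^ 2 + 4 * β * N ^ 3 + (4 * τ * (N ^ 3 + τ) + 4 * β * (v * (N * R + v)))
    + (24 * N ^ 2 + 10 * (v ^ 2 * t ^ 2)) + 2 * (R * t) * (16 * N + 8 * (v * v)) + 7 * N ^ 4
    + 16 * (N ^ 3 + N) * (N + v * v) + 2 * (v * (N * R + v)) * (16 * N + 8 * (v * v))
    + (96 * (v ^ 2 * (R + t) ^ 2) + 192 * N ^ 4)

/-- **late one-step bound for `X_2`** -/
theorem sum_X2 (h : Ctx F K s S N v R t β Db) {τ : ℝ} (hτ : |K.trace| ≤ τ) :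
    ∑ p ∈ S, (((upd s K p.1 p.2) ^ 2).trace - (K ^ 2).trace)
      ≤ -4 * F.card * ((K ^ 2).trace - 1) + errX N v R t β Db τ := by
  have hpt : ∀ p ∈ S, ((upd s K p.1 p.2) ^ 2).trace - (K ^ 2).trace ≤
      (-2 * ((K ^ 2) p.1 p.1 + (K ^ 2) p.2 p.2)) + 4 * s * (K ^ 3) p.1 p.2
      + 2 * (K p.1 p.1 * ((K ^ 3) p.2 p.2 - K p.2 p.2)
        + K p.2 p.2 * ((K ^ 3) p.1 p.1 - K p.1 p.1))
      + (24 * K p.1 p.2 ^ 2 + 10 * |K p.1 p.1 * K p.2 p.2|)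
      + ((K ^ 2) p.1 p.1 + (K ^ 2) p.2 p.2)
        * (16 * |K p.1 p.2| + 8 * |K p.1 p.1 * K p.2 p.2|)
      + 7 * ((K ^ 2) p.1 p.1 * (K ^ 2) p.2 p.2)
      + (|(K ^ 3) p.1 p.2| + |K p.1 p.2|)
        * (16 * |K p.1 p.2| + 16 * |K p.1 p.1 * K p.2 p.2|)
      + (|K p.1 p.1| * |(K ^ 3) p.2 p.2 - K p.2 p.2|
        + |K p.2 p.2| * |(K ^ 3) p.1 p.1 - K p.1 p.1|)
        * (16 * |K p.1 p.2| + 8 * |K p.1 p.1 * K p.2 p.2|)
      + dT s K p.1 p.2 ^ 2 := by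
    intro p hp
    obtain ⟨hxy, hc, hab⟩ := h.good p hp
    have hD := Dl_ge h.hs2 hc hab
    have hD0 : Dl s K p.1 p.2 ≠ 0 := by linarith
    rw [UpdX.X2_upd h.hs h.sym hxy hD0, D1_eq h.hs]
    have := sc_X2 (r := (K ^ 2) p.1 p.2) (c3 := (K ^ 3) p.1 p.2)
      (A := (K ^ 3) p.1 p.1 - K p.1 p.1) (B := (K ^ 3) p.2 p.2 - K p.2 p.2) h.hs rfl hD hc
      (Q_nonneg h.sym p.1) (Q_nonneg h.sym p.2)
    unfold UpdX.D2
    have e : ((K ^ 2) p.1 p.2 ^ 2 - 2 * s * (1 - s * K p.1 p.2) * ((K ^ 3) p.1 p.2 - K p.1 p.2)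
        - K p.1 p.1 * ((K ^ 3) p.2 p.2 - K p.2 p.2)
        - ((K ^ 2) p.1 p.1 - 1) * ((K ^ 2) p.2 p.2 - 1)
        - K p.2 p.2 * ((K ^ 3) p.1 p.1 - K p.1 p.1)) / Dl s K p.1 p.2 =
        ((K ^ 2) p.1 p.2 ^ 2 - 2 * s * (1 - s * K p.1 p.2) * ((K ^ 3) p.1 p.2 - K p.1 p.2)
        - K p.1 p.1 * ((K ^ 3) p.2 p.2 - K p.2 p.2)
        - ((K ^ 2) p.1 p.1 - 1) * ((K ^ 2) p.2 p.2 - 1)
        - K p.2 p.2 * ((K ^ 3) p.1 p.1 - K p.1 p.1)) /
          ((1 - s * K p.1 p.2) ^ 2 - K p.1 p.1 * K p.2 p.2) := rfl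
    rw [e]
    have hDl : Dl s K p.1 p.2 = (1 - s * K p.1 p.2) ^ 2 - K p.1 p.1 * K p.2 p.2 := rfl
    rw [← hDl] at this ⊢
    linarith
  refine (Finset.sum_le_sum hpt).trans ?_
  simp only [Finset.sum_add_distrib, ← Finset.mul_sum]
  have k1 := h.sum_pq
  have k2 := h.sum_c3
  have k3 := h.sum_aB hτ
  have k4 := h.sum_c_sq
  have k5 := h.sum_abs_ab
  have k6 := h.sum_pq_c
  have k7 := h.sum_p_q
  have k8 := h.sum_c3c
  have k9 := h.sum_aBc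
  have k10 := h.sum_dT2
  simp only [Finset.sum_add_distrib, ← Finset.mul_sum] at k1 k2 k3
  unfold errX
  linarith

end

end Crest.Agent.R62.Late
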