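import Crest.Agent.R62.MainCst
import Crest.Agent.R62.Assembly
import Crest.Agent.R62.LateT

/-!
R62 (helper114): the barrier of the main stages and the numerical facts of the final assembly.
-/

set_option autoImplicit false
set_option linter.unusedSectionVars false
set_option linter.unusedVariables false
open scoped Matrix BigOperators

namespace Crest.Agent.R62.MainBar

open Crest.Agent.R62.State Crest.Agent.R62.EvalKit Crest.Agent.R062 Crest.Agent.R062.Mach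
open Crest.Agent.R62.SpecOf Crest.Agent.R62.GoodPairs Crest.Agent.R62.Step
open Crest.Agent.R62.CtxReal Crest.Agent.R62.MainCst Crest.Agent.R62.Assembly
open Crest.Agent.Lib.PT

/-- the barrier of the main stages -/
noncomputable def bar (d n t : ℕ) : ℝ := 1 / 2 + ((Hq d n t : ℚ) : ℝ) / mm n

/-- the barrier as a potential -/
noncomputable def barP (P : Par) (d : ℕ) : Pot P d :=
  Pot.add (Pot.ofCst (Cst.const (1 / 2))) (Pot.smul (mI 1) harm)

lemma barP_val (P : Par) (d n : ℕ) (l : List (ℕ × ℕ)) :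
    (barP P d).val n l = bar d n l.length := by
  unfold barP bar
  rw [add_val, Pot.ofCst_val, Pot.smul_val, harm_val, Cst.const_f, mI_f, pow_one]
  push_cast
  rw [inv_mul_eq_div]

lemma bar_ge (d n t : ℕ) : 1 / 2 ≤ bar d n t := by
  unfold bar
  have h1 : (0 : ℝ) ≤ ((Hq d n t : ℚ) : ℝ) := by exact_mod_cast Hq_nonneg d n t
  have h2 : 0 ≤ ((Hq d n t : ℚ) : ℝ) / mm n := by positivity
  linarith

variable {d n : ℕ}

lemma d_le_m {m : ℕ} (hP : Prm d n m) : (d : ℝ) ≤ m := by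
  have h1 := Box.d_pow_le_m hP 1 (by norm_num)
  have h2 : (0 : ℝ) ≤ d := Nat.cast_nonneg d
  nlinarith

lemma nd_le_pow {m : ℕ} (hP : Prm d n m) : (n : ℝ) * d ≤ (m : ℝ) ^ 1001 := by
  have h1 := Box.d_pow_le_m hP 1 (by norm_num)
  have h2 := Box.d3 hP
  have h3 := hP.hn2
  have hm := Box.m_pos hP
  calc (n : ℝ) * d ≤ 2 * (m : ℝ) ^ 1000 * d := mul_le_mul_of_nonneg_right h3 (by linarith)
    _ = (m : ℝ) ^ 1000 * (2 * d) := by ring
    _ ≤ (m : ℝ) ^ 1000 * m := mul_le_mul_of_nonneg_left (by nlinarith) (by positivity)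
    _ = (m : ℝ) ^ 1001 := by ring

/-- `1 + log (nd) ≤ m / 2` -/
lemma log_le {m : ℕ} (hP : Prm d n m) : 1 + Real.log ((n : ℝ) * d) ≤ m / 2 := by
  have hm := Box.m_pos hP
  have hn := Box.n_pos hP
  have hd := Box.d3 hP
  have h1 : Real.log ((n : ℝ) * d) ≤ 1001 * Real.log m := by
    have h2 := Real.log_le_log (by positivity) (nd_le_pow hP)
    rwa [Real.log_pow] at h2
  have hbig : (10 : ℝ) ^ 10 ≤ m := Box.m_ge hP
  -- `log m = 4 log (m^(1/4)) ≤ 4 m^(1/4)`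
  have h3 : Real.log m ≤ 4 * Real.sqrt (Real.sqrt m) := by
    have h4 : (m : ℝ) = (Real.sqrt (Real.sqrt m)) ^ 4 := by
      rw [show (4 : ℕ) = 2 * 2 from rfl, pow_mul, Real.sq_sqrt (Real.sqrt_nonneg _),
        Real.sq_sqrt hm.le]
    have hs : 0 < Real.sqrt (Real.sqrt m) := Real.sqrt_pos.2 (Real.sqrt_pos.2 hm)
    have h5 : Real.log m = 4 * Real.log (Real.sqrt (Real.sqrt m)) := by
      conv_lhs => rw [h4]
      rw [Real.log_pow]
      push_cast
      ring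
    rw [h5]
    have h6 := Real.log_le_sub_one_of_pos hs
    linarith
  set s := Real.sqrt (Real.sqrt m) with hs
  have hs4 : s ^ 4 = m := by
    rw [hs, show (4 : ℕ) = 2 * 2 from rfl, pow_mul, Real.sq_sqrt (Real.sqrt_nonneg _),
      Real.sq_sqrt hm.le]
  have hs0 : 0 ≤ s := Real.sqrt_nonneg _
  have hs1 : (300 : ℝ) ≤ s := by
    by_contra hc
    push Not at hc
    have : s ^ 4 < 300 ^ 4 := pow_lt_pow_left₀ hc hs0 (by norm_num)
    rw [hs4] at this
    norm_num at this hbig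
    linarith
  have h7 : (m : ℝ) = s ^ 3 * s := by rw [← hs4]; ring
  have h8 : (300 : ℝ) ^ 3 ≤ s ^ 3 := pow_le_pow_left₀ (by norm_num) hs1 3
  nlinarith

lemma bar_le (hP : Prm d n (mm n)) {t : ℕ} (ht : 2 * t ≤ n * d) : bar d n t ≤ 1 := by
  have hm := Box.m_pos hP
  unfold bar
  have h1 := Hq_log ht
  have h2 := log_le hP
  push_cast at h1
  have h3 : ((Hq d n t : ℚ) : ℝ) ≤ (mm n : ℝ) / 2 := h1.trans h2
  have h4 : ((Hq d n t : ℚ) : ℝ) / mm n ≤ 1 / 2 := by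
    rw [div_le_iff₀ hm]
    linarith
  linarith

/-- a power of `n + 2` beats everything -/
lemma eta_le (hP : Prm d n (mm n)) {k : ℝ} (hk0 : 0 < k) (hk : k ≤ n * d) :
    1 / ((n : ℝ) + 2) ^ 3 ≤ 1 / (2 * mm n * k) := by
  have hm := Box.m_pos hP
  have hn := Box.n_pos hP
  have hd := Box.d3 hP
  have hdm := d_le_m hP
  apply one_div_le_one_div_of_le (by positivity)
  have h1 : ((mm n : ℕ) : ℝ) ^ 2 * 2 ≤ n := by
    have h2 := hP.hn1
    have h3 : ((mm n : ℕ) : ℝ) ^ 3 ≤ ((mm n : ℕ) : ℝ) ^ 1000 :=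
      pow_le_pow_right₀ (Box.one_le_m hP) (by norm_num)
    have h4 : ((mm n : ℕ) : ℝ) ^ 3 = ((mm n : ℕ) : ℝ) ^ 2 * mm n := by ring
    have h5 : ((mm n : ℕ) : ℝ) ^ 2 * 2 ≤ ((mm n : ℕ) : ℝ) ^ 2 * mm n := by
      apply mul_le_mul_of_nonneg_left _ (by positivity)
      have := Box.m_ge hP
      linarith
    linarith
  calc 2 * ((mm n : ℕ) : ℝ) * k ≤ 2 * mm n * (n * d) :=
        mul_le_mul_of_nonneg_left hk (by positivity)
    _ ≤ 2 * mm n * (n * mm n) := by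
        apply mul_le_mul_of_nonneg_left _ (by positivity)
        exact mul_le_mul_of_nonneg_left hdm hn.le
    _ = ((mm n : ℕ) : ℝ) ^ 2 * 2 * n := by ring
    _ ≤ n * n := mul_le_mul_of_nonneg_right h1 hn.le
    _ ≤ ((n : ℝ) + 2) ^ 3 := by nlinarith [mul_pos hn hn, mul_pos (mul_pos hn hn) hn]

/-- one step of the main stages is paid by the barrier -/
lemma bar_step (hP : Prm d n (mm n)) {t : ℕ} (ht : 2 * t + 2 ≤ n * d) :
    bar d n t + 38 / (((mm n : ℕ) : ℝ) ^ 2 * ((n : ℝ) * d - 2 * t)) ≤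
      bar d n (t + 1) - 1 / ((n : ℝ) + 2) ^ 3 := by
  have hm := Box.m_pos hP
  have hmg := Box.m_ge hP
  have hk1 : (1 : ℝ) ≤ (n : ℝ) * d - 2 * t := by
    have : ((2 * t + 2 : ℕ) : ℝ) ≤ ((n * d : ℕ) : ℝ) := by exact_mod_cast ht
    push_cast at this
    linarith
  have hk2 : (n : ℝ) * d - 2 * t ≤ n * d := by
    have : (0 : ℝ) ≤ t := Nat.cast_nonneg t
    linarith
  have h1 := eta_le hP (lt_of_lt_of_le one_pos hk1) hk2
  have h2 : (((n * d - 2 * t : ℕ)) : ℝ) = (n : ℝ) * d - 2 * t := by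
    rw [Nat.cast_sub (by omega)]; push_cast; ring
  have h3 : bar d n (t + 1) = bar d n t + 1 / (((mm n : ℕ) : ℝ) * ((n : ℝ) * d - 2 * t)) := by
    unfold bar
    rw [Hq_succ]
    push_cast
    rw [h2, add_div, ← add_assoc, div_div, mul_comm ((n : ℝ) * d - 2 * t)]
  rw [h3]
  set k : ℝ := (n : ℝ) * d - 2 * t with hk
  set m : ℝ := ((mm n : ℕ) : ℝ) with hmdef
  have hk0 : 0 < k := by linarith
  have h4 : 38 / (m ^ 2 * k) ≤ 1 / (2 * m * k) := by
    rw [div_le_div_iff₀ (by positivity) (by positivity)]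
    have : 0 ≤ m * k * (m - 76) := by
      apply mul_nonneg (by positivity)
      linarith [show (76 : ℝ) ≤ 10 ^ 10 by norm_num]
    nlinarith
  have h5 : 1 / (m * k) = 1 / (2 * m * k) + 1 / (2 * m * k) := by
    field_simp
    norm_num
  rw [h5]
  linarith

/-- the slack of stage 3 -/
lemma slack3 (hP : Prm d n (mm n)) {k : ℝ} (hk0 : 0 < k) (hk : k ≤ n * d) :
    1 / ((n : ℝ) + 2) ^ 3 ≤ 1 / (4 * k) := by
  have h1 := eta_le hP hk0 hk
  refine h1.trans ?_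
  apply one_div_le_one_div_of_le (by positivity)
  have := Box.m_ge hP
  nlinarith

lemma nd_le (hP : Prm d n (mm n)) : 2 * ((n : ℝ) * d) ≤ ((n : ℝ) + 2) ^ 3 := by
  have hm := Box.m_pos hP
  have hn := Box.n_pos hP
  have hd := Box.d3 hP
  have h1 := eta_le hP (k := (n : ℝ) * d) (by positivity) le_rfl
  rw [one_div_le_one_div (by positivity) (by positivity)] at h1
  have h2 := Box.one_le_m hP
  have h3 : 0 < (n : ℝ) * d := by positivity
  nlinarith

lemma nd_ge (hP : Prm d n (mm n)) : 3 * ((mm n : ℕ) : ℝ) ^ 1000 ≤ (n : ℝ) * d := by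
  have h1 := hP.hn1
  have hd := Box.d3 hP
  have hn := Box.n_pos hP
  nlinarith

/-- `r1` is much smaller than `m^800` -/
lemma r1_small (hP : Prm d n (mm n)) : r1 d n (mm n) + 8 ≤ ((mm n : ℕ) : ℝ) ^ 800 := by
  have h1 := Box.r1_le' hP
  have hm := Box.m_ge hP
  have h2 : ((mm n : ℕ) : ℝ) ^ 682 ≤ ((mm n : ℕ) : ℝ) ^ 800 :=
    pow_le_pow_right₀ (Box.one_le_m hP) (by norm_num)
  have h3 : ((mm n : ℕ) : ℝ) ^ 682 = ((mm n : ℕ) : ℝ) ^ 681 * mm n := by ring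
  have h4 : (1 : ℝ) ≤ ((mm n : ℕ) : ℝ) ^ 681 := one_le_pow₀ (Box.one_le_m hP)
  nlinarith

/-- `r1` is large -/
lemma r1_large (hP : Prm d n (mm n)) : ((mm n : ℕ) : ℝ) ^ 680 ≤ r1 d n (mm n) := Box.r1_ge' hP

/-- if `10^18 z^8 ≤ m` then the late phase starts with many live stubs -/
lemma Mq_lt (hP : Prm d n (mm n)) (hz : 10 ^ 18 * (LateT.zq d : ℝ) ^ 8 ≤ mm n) :
    (LateT.Mq d : ℝ) + 8 ≤ LateT.x0q d * r1 d n (mm n) := by
  have h1 := r1_large hP
  have hm := Box.m_ge hP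
  have hm1 := Box.one_le_m hP
  have hz0 := LateT.zq_real_pos d
  have hz1 := LateT.zq_real_ge d
  rw [LateT.Mq_cast]
  have h2 : (100 * (LateT.zq d : ℝ) ^ 2) * (((LateT.zq d : ℝ) ^ 2) + 8) ≤ r1 d n (mm n) := by
    refine le_trans ?_ h1
    have h3 : ((mm n : ℕ) : ℝ) ^ 1 ≤ ((mm n : ℕ) : ℝ) ^ 680 := pow_le_pow_right₀ hm1 (by norm_num)
    rw [pow_one] at h3
    refine le_trans ?_ h3
    refine le_trans ?_ hz
    set z : ℝ := (LateT.zq d : ℝ) with hzdef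
    have h4 : (8 : ℝ) ≤ z ^ 2 := by nlinarith
    have h5 : (1 : ℝ) ≤ z ^ 4 := one_le_pow₀ (by linarith)
    have h6 : z ^ 8 = z ^ 4 * z ^ 4 := by ring
    have h7 : z ^ 4 = z ^ 2 * z ^ 2 := by ring
    nlinarith [sq_nonneg (z ^ 2)]
  unfold LateT.x0q
  rw [one_div, inv_mul_eq_div, le_div_iff₀ (by positivity)]
  linarith

/-- integrality: `ρ < m^800 + 2` gives `ρ ≤ m^800 + 1` -/
lemma int800 {m c : ℕ} (h : (c : ℝ) < (m : ℝ) ^ 800 + 2) : (c : ℝ) ≤ (m : ℝ) ^ 800 + 1 := by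
  have h1 : ((c : ℕ) : ℝ) < ((m ^ 800 + 2 : ℕ) : ℝ) := by push_cast; exact h
  have h2 : c < m ^ 800 + 2 := by exact_mod_cast h1
  have h3 : c ≤ m ^ 800 + 1 := by omega
  have h4 : ((c : ℕ) : ℝ) ≤ ((m ^ 800 + 1 : ℕ) : ℝ) := by exact_mod_cast h3
  push_cast at h4
  exact h4

end Crest.Agent.R62.MainBar
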