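import Crest.Agent.R62.PotKit
import Crest.Agent.R062.MachPar

/-!
R62: rational constants of `(n, t)` as potentials; shifts and sums over the time.
-/

set_option autoImplicit false

open scoped BigOperators

namespace Crest.Agent.R062.Mach.Cst

open Crest.Agent.Lib.PT

/-- the constant at time `t + 1` -/
def shift (a : Cst) : Cst where
  f n t := a.f n (t + 1)
  ptf := PTF.comp a.ptf (f := fun p : Un × Un => (p.1, Un.mk (p.2.val + 1)))
    (PTF.prodMk PTF.fst (PTU.succ (PTU.val PTF.snd)))
  deg := 2 * a.deg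
  bd n t := by
    refine (a.bd n (t + 1)).trans ?_
    rw [pow_mul]
    refine pow_le_pow_left₀ (by positivity) ?_ _
    have h1 : (0 : ℚ) ≤ n := Nat.cast_nonneg n
    have h2 : (0 : ℚ) ≤ t := Nat.cast_nonneg t
    push_cast
    nlinarith

@[simp] theorem shift_f (a : Cst) (n t : ℕ) : (shift a).f n t = a.f n (t + 1) := rfl

/-- sum over the previous times -/
def sumT (a : Cst) : Cst where
  f n t := ∑ s ∈ Finset.range t, a.f n s
  ptf := by
    refine (PTF.ratSumRange (n := fun p : Un × Un => p.2.val)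
      (f := fun p s => a.f p.1.val (min s p.2.val)) (PTU.val PTF.snd) ?_).of_eq (fun p => ?_)
    · have h1 : PTF (fun q : (Un × Un) × ℕ => q.1.1) := by fun_prop
      have h2 : PTU (fun q : (Un × Un) × ℕ => min q.2 q.1.2.val) :=
        PTF.natMinUn PTF.snd (PTU.val (by fun_prop))
      exact PTF.comp a.ptf (f := fun q : (Un × Un) × ℕ => (q.1.1, Un.mk (min q.2 q.1.2.val)))
        (PTF.prodMk h1 h2)
    · refine Finset.sum_congr rfl fun s hs => ?_
      rw [min_eq_left (Finset.mem_range.1 hs).le]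
  deg := a.deg + 1
  bd n t := by
    refine (Finset.abs_sum_le_sum_abs _ _).trans ?_
    have h1 : ∀ s ∈ Finset.range t, |a.f n s| ≤ ((n : ℚ) + t + 2) ^ a.deg := by
      intro s hs
      refine (a.bd n s).trans (pow_le_pow_left₀ (by positivity) ?_ _)
      have : (s : ℚ) ≤ t := by exact_mod_cast (Finset.mem_range.1 hs).le
      linarith
    refine (Finset.sum_le_card_nsmul _ _ _ h1).trans ?_
    rw [Finset.card_range, nsmul_eq_mul, pow_succ, mul_comm]
    have h2 : (0 : ℚ) ≤ ((n : ℚ) + t + 2) ^ a.deg := by positivity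
    have h3 : (0 : ℚ) ≤ n := Nat.cast_nonneg n
    nlinarith

@[simp] theorem sumT_f (a : Cst) (n t : ℕ) :
    (sumT a).f n t = ∑ s ∈ Finset.range t, a.f n s := rfl

/-- sum of a list of constants -/
def sumL : List Cst → Cst
  | [] => const 0
  | a :: L => add a (sumL L)

/-- composition with a time depending only on `n` (bounded by a polynomial) -/
def atN (a : Cst) (T : ℕ → ℕ) (hT : PTF (fun n : Un => T n.val)) (e : ℕ)
    (h : ∀ n, T n ≤ (n + 2) ^ e) : Cst where
  f n _ := a.f n (T n)
  ptf := by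
    have hTu : PTU (fun u : Un => T u.val) := by
      refine PTF.toPTU hT ?_
      have h1 : PTU (fun u : Un => (u.val + 2) ^ e) :=
        PTU.pow (PTU.add (PTU.val PTF.id) (PTU.const 2)) e
      exact PB.mono h1.pb (fun u => h u.val)
    have h2 : PTU (fun p : Un × Un => T p.1.val) := PTU.comp (n := fun u : Un => T u.val) hTu PTF.fst
    exact PTF.comp a.ptf (f := fun p : Un × Un => (p.1, Un.mk (T p.1.val)))
      (PTF.prodMk PTF.fst h2)
  deg := (e + 2) * a.deg
  bd n t := by
    refine (a.bd n (T n)).trans ?_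
    rw [pow_mul]
    refine pow_le_pow_left₀ (by positivity) ?_ _
    have h1 : (0 : ℚ) ≤ n := Nat.cast_nonneg n
    have h2 : (0 : ℚ) ≤ t := Nat.cast_nonneg t
    have h3 : (T n : ℚ) ≤ ((n : ℚ) + 2) ^ e := by exact_mod_cast h n
    have h4 : (1 : ℚ) ≤ ((n : ℚ) + 2) ^ e := one_le_pow₀ (by linarith)
    have h5 : ((n : ℚ) + 2) ^ (e + 2) ≤ ((n : ℚ) + t + 2) ^ (e + 2) :=
      pow_le_pow_left₀ (by positivity) (by linarith) _
    refine le_trans ?_ h5
    have h6 : ((n : ℚ) + 2) ^ (e + 2) = ((n : ℚ) + 2) ^ e * ((n : ℚ) + 2) ^ 2 := pow_add _ _ _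
    rw [h6]
    nlinarith [mul_nonneg (mul_nonneg h1 h1) (by linarith : (0 : ℚ) ≤ ((n : ℚ) + 2) ^ e),
      mul_nonneg h1 (by linarith : (0 : ℚ) ≤ ((n : ℚ) + 2) ^ e - 1)]

@[simp] theorem atN_f (a : Cst) (T : ℕ → ℕ) (hT) (e : ℕ) (h) (n t : ℕ) :
    (atN a T hT e h).f n t = a.f n (T n) := rfl

/-- indicator of `a ≤ b` -/
def ind (a b : Cst) : Cst := ite a b (const 1) (const 0)

@[simp] theorem ind_f (a b : Cst) (n t : ℕ) :
    (ind a b).f n t = if a.f n t ≤ b.f n t then 1 else 0 := rfl

/-- inverse of the number of free stubs -/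
def invFree (d : ℕ) : Cst := inv (free d) 0 (fun n t => by
  rw [free_f, pow_zero, mul_one]
  rcases eq_or_ne ((n : ℚ) * d - 2 * t) 0 with h | h
  · exact Or.inl h
  · right
    have h1 : ((n * d : ℤ) - 2 * t : ℤ) ≠ 0 := by
      intro h2
      apply h
      exact_mod_cast h2
    have h2 : (1 : ℤ) ≤ |((n * d : ℤ) - 2 * t : ℤ)| := Int.one_le_abs h1
    have h3 : ((1 : ℤ) : ℚ) ≤ ((|((n * d : ℤ) - 2 * t : ℤ)| : ℤ) : ℚ) := by exact_mod_cast h2
    push_cast at h3
    exact h3)

@[simp] theorem invFree_f (d n t : ℕ) : (invFree d).f n t = ((n : ℚ) * d - 2 * t)⁻¹ := by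
  unfold invFree
  simp

end Crest.Agent.R062.Mach.Cst

namespace Crest.Agent.R62.SpecOf.Pot

open Crest.Agent.R62.State Crest.Agent.R62.EvalKit Crest.Agent.R062 Crest.Agent.R062.Mach

variable {P : Par} {d : ℕ}

/-- a rational constant of `(n, t)` as a potential (evaluated at `t = ` number of pairs) -/
noncomputable def ofCst (c : Cst) : Pot P d where
  val := fun n l => (c.f n l.length : ℝ)
  e := .cst c.shift
  sc := fun n l p => (sc_cst' c.shift).congr (by
    rw [Cst.shift_f]
    rfl)

@[simp] theorem ofCst_val (c : Cst) (n : ℕ) (l : List (ℕ × ℕ)) :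
    (ofCst c : Pot P d).val n l = (c.f n l.length : ℝ) := rfl

/-- product of a constant and a potential -/
noncomputable def smul (c : Cst) (a : Pot P d) : Pot P d := mul (ofCst c) a

@[simp] theorem smul_val (c : Cst) (a : Pot P d) (n : ℕ) (l : List (ℕ × ℕ)) :
    (smul c a).val n l = (c.f n l.length : ℝ) * a.val n l := rfl

/-- finite sum of potentials -/
noncomputable def sumP : List (Pot P d) → Pot P d
  | [] => int 0
  | a :: L => add a (sumP L)

theorem sumP_val (L : List (Pot P d)) (n : ℕ) (l : List (ℕ × ℕ)) :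
    (sumP L).val n l = (L.map fun a => a.val n l).sum := by
  induction L with
  | nil => simp [sumP, int]
  | cons a L ih =>
    change a.val n l + (sumP L).val n l = _
    rw [ih]
    simp

/-- switch at a rational time condition `a ≤ b` -/
noncomputable def switchC (a b : Cst) (u v : Pot P d) : Pot P d :=
  add (smul (Cst.ind a b) u) (smul (Cst.sub (Cst.const 1) (Cst.ind a b)) v)

theorem switchC_val (a b : Cst) (u v : Pot P d) (n : ℕ) (l : List (ℕ × ℕ)) :
    (switchC a b u v).val n l =
      if a.f n l.length ≤ b.f n l.length then u.val n l else v.val n l := by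
  change (smul (Cst.ind a b) u).val n l +
    (smul (Cst.sub (Cst.const 1) (Cst.ind a b)) v).val n l = _
  rw [smul_val, smul_val, Cst.sub_f, Cst.const_f, Cst.ind_f]
  split_ifs <;> simp

end Crest.Agent.R62.SpecOf.Pot
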