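import Crest.Agent.R62.CtxReal
import Crest.Agent.R62.PotCst
import Crest.Agent.R62.Barrier

/-!
R62 (helper114): the potentials of stages 1 and 2 as `Pot`s.
-/

set_option autoImplicit false
set_option linter.unusedSectionVars false
set_option linter.unusedVariables false
open scoped Matrix BigOperators

namespace Crest.Agent.R62.MainCst

open Crest.Agent.R62.State Crest.Agent.R62.EvalKit Crest.Agent.R062 Crest.Agent.R062.Mach
open Crest.Agent.R62.SpecOf Crest.Agent.R62.GoodPairs Crest.Agent.R62.AvBase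
open Crest.Agent.R62.Weights Crest.Agent.R62.Step Crest.Agent.R62.AvX1
open Crest.Agent.R62.CtxReal
open Crest.Agent.Lib.PT

/-- the size parameter -/
def mm (n : ℕ) : ℕ := Nat.nthRoot 1000 n

theorem prm_ev (d : ℕ) (hd : 3 ≤ d) (M0 : ℕ) :
    ∃ n0 : ℕ, 0 < n0 ∧ ∀ n, n0 ≤ n → Prm d n (mm n) ∧ M0 ≤ mm n := by
  have h0 : ∀ᶠ m : ℕ in Filter.atTop, (10 : ℝ) ^ 10 * (d : ℝ) ^ 10 ≤ m ∧ M0 ≤ m := by
    have h1 : ∀ᶠ m : ℕ in Filter.atTop, (10 : ℝ) ^ 10 * (d : ℝ) ^ 10 ≤ m :=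
      tendsto_natCast_atTop_atTop.eventually_ge_atTop _
    exact h1.and (Filter.eventually_ge_atTop M0)
  obtain ⟨n0, hn0⟩ := Barrier.ev_of_root (K := 1000) (by norm_num) h0
  refine ⟨n0 + 1, by omega, fun n hn => ?_⟩
  obtain ⟨⟨h1, h2⟩, h3, h4, h5⟩ := hn0 n (by omega)
  exact ⟨⟨hd, h1, h3, h4⟩, h2⟩

/-! ### constants -/

/-- `m` -/
def mC : Cst := Cst.root 1000 (by norm_num)

lemma mC_f (n t : ℕ) : mC.f n t = (mm n : ℚ) := rfl

/-- `m ^ k` -/
def mP (k : ℕ) : Cst := Cst.pow mC k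

lemma mP_f (k n t : ℕ) : (mP k).f n t = (mm n : ℚ) ^ k := rfl

/-- natural numbers have polynomially bounded inverses -/
lemma inv_ok {x : ℚ} (h : ∃ k : ℤ, x = k) (n t : ℕ) :
    x = 0 ∨ 1 ≤ |x| * ((n : ℚ) + t + 2) ^ 0 := by
  obtain ⟨k, rfl⟩ := h
  rcases eq_or_ne k 0 with h | h
  · left; simp [h]
  · right
    rw [pow_zero, mul_one]
    exact_mod_cast Int.one_le_abs h

/-- `1 / m ^ k` -/
def mI (k : ℕ) : Cst := Cst.inv (mP k) 0 (fun n t => inv_ok ⟨(mm n : ℤ) ^ k, by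
  rw [mP_f]; push_cast; rfl⟩ n t)

lemma mI_f (k n t : ℕ) : (mI k).f n t = ((mm n : ℚ) ^ k)⁻¹ := rfl

/-- `n d` -/
def ndC (d : ℕ) : Cst := Cst.mul Cst.n (Cst.const d)

lemma ndC_f (d n t : ℕ) : (ndC d).f n t = (n : ℚ) * d := rfl

/-- `1 / (n d)` -/
def ndI (d : ℕ) : Cst := Cst.inv (ndC d) 0 (fun n t => inv_ok ⟨(n : ℤ) * d, by
  rw [ndC_f]; push_cast; rfl⟩ n t)

lemma ndI_f (d n t : ℕ) : (ndI d).f n t = ((n : ℚ) * d)⁻¹ := rfl

/-- `1 / n` -/
def nI : Cst := Cst.inv Cst.n 0 (fun n t => inv_ok ⟨(n : ℤ), by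
  rw [Cst.n_f]; push_cast; rfl⟩ n t)

lemma nI_f (n t : ℕ) : nI.f n t = (n : ℚ)⁻¹ := rfl

/-- `ρ = n d - 2 t` -/
def rhoC (d : ℕ) : Cst := Cst.free d

lemma rhoC_f (d n t : ℕ) : (rhoC d).f n t = (n : ℚ) * d - 2 * t := Cst.free_f d n t

/-- minimum -/
def minC (a b : Cst) : Cst := Cst.neg (Cst.max (Cst.neg a) (Cst.neg b))

lemma minC_f (a b : Cst) (n t : ℕ) : (minC a b).f n t = min (a.f n t) (b.f n t) := by
  unfold minC
  rw [Cst.neg_f, Cst.max_f, Cst.neg_f, Cst.neg_f, max_neg_neg, neg_neg]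

/-- `r1` -/
def r1C (d : ℕ) : Cst := Cst.mul (ndC d) (mI 320)

lemma r1C_f (d n t : ℕ) : (r1C d).f n t = (n : ℚ) * d / (mm n : ℚ) ^ 320 := by
  unfold r1C
  rw [Cst.mul_f, ndC_f, mI_f, div_eq_mul_inv]

lemma r1C_real (d n t : ℕ) : (((r1C d).f n t : ℚ) : ℝ) = r1 d n (mm n) := by
  rw [r1C_f]
  unfold r1
  push_cast
  rfl

/-- `1 / r1` -/
def r1I (d : ℕ) : Cst := Cst.mul (ndI d) (mP 320)

lemma r1I_real (d n t : ℕ) : (((r1I d).f n t : ℚ) : ℝ) = (r1 d n (mm n))⁻¹ := by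
  unfold r1I r1
  rw [Cst.mul_f, ndI_f, mP_f]
  push_cast
  rw [inv_div, div_eq_mul_inv, mul_comm]

/-- the barrier `U` of `X_1` -/
def UC (d : ℕ) : Cst :=
  Cst.mul (mP 361) (Cst.max (Cst.const 0) (minC (Cst.const 1)
    (Cst.mul (Cst.sub (rhoC d) (mP 800)) (mI 800))))

lemma UC_real (d n t : ℕ) :
    (((UC d).f n t : ℚ) : ℝ) = U (mm n) ((n : ℝ) * d - 2 * t) := by
  unfold UC U
  rw [Cst.mul_f, mP_f, Cst.max_f, minC_f, Cst.const_f, Cst.const_f, Cst.mul_f, Cst.sub_f,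
    rhoC_f, mP_f, mI_f]
  push_cast
  rw [div_eq_mul_inv]

/-- the barrier `ρ² / (ρ + r1/2)` of `X_2` in stage 2 -/
def phiC (d : ℕ) : Cst :=
  Cst.mul (Cst.mul (Cst.pow (rhoC d) 2) (Cst.mul (Cst.const 2) (mP 320)))
    (Cst.inv (Cst.add (Cst.mul (Cst.mul (Cst.const 2) (mP 320)) (rhoC d)) (ndC d)) 0
      (fun n t => inv_ok ⟨2 * (mm n : ℤ) ^ 320 * ((n : ℤ) * d - 2 * t) + n * d, by
        rw [Cst.add_f, Cst.mul_f, Cst.mul_f, Cst.const_f, mP_f, rhoC_f, ndC_f]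
        push_cast
        rfl⟩ n t))

lemma phiC_real (d n t : ℕ) (hm : mm n ≠ 0) :
    (((phiC d).f n t : ℚ) : ℝ) = phi2 (r1 d n (mm n)) ((n : ℝ) * d - 2 * t) := by
  unfold phiC phi2 r1
  rw [Cst.mul_f, Cst.mul_f, Cst.pow_f, Cst.mul_f, Cst.const_f, Cst.inv_f, Cst.add_f, Cst.mul_f,
    Cst.mul_f, Cst.const_f, mP_f, rhoC_f, ndC_f]
  push_cast
  have h0 : ((mm n : ℕ) : ℝ) ^ 320 ≠ 0 := pow_ne_zero _ (by exact_mod_cast hm)
  set M : ℝ := ((mm n : ℕ) : ℝ) ^ 320 with hM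
  set ρ : ℝ := (n : ℝ) * d - 2 * t with hρ
  have h1 : ρ + (n : ℝ) * d / M / 2 = (2 * M * ρ + (n : ℝ) * d) / (2 * M) := by
    field_simp
  rw [h1, div_div_eq_mul_div, div_eq_mul_inv]

/-! ### the potentials -/

section pots
variable {P : Par} {d : ℕ}

lemma w_val (b : Bool) (n : ℕ) (l : List (ℕ × ℕ)) :
    (Pot.w (P := P) (d := d) b).val n l = Wf (Fs n d l) (KR P d n b l) := by
  change ∑ z, ((KR P d n b l ^ 2) z z - uv n d l z) ^ 2 = _
  rw [Wf_KR]
  symm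
  have h1 : ∀ z ∈ Fs n d l, ((KR P d n b l ^ 2) z z - 1) ^ 2 =
      ((KR P d n b l ^ 2) z z - uv n d l z) ^ 2 := fun z hz => by
    rw [uv_eq_ind, if_pos hz]
  rw [Finset.sum_congr rfl h1]
  refine Finset.sum_subset (Finset.subset_univ _) fun z _ hz => ?_
  rw [diag_dead b hz, uv_eq_ind, if_neg hz]
  simp

lemma v_val (b : Bool) (n : ℕ) (l : List (ℕ × ℕ)) :
    (Pot.v (P := P) (d := d) b).val n l = Vf (KR P d n b l) := rfl

lemma x_val (k : ℕ) (b : Bool) (n : ℕ) (l : List (ℕ × ℕ)) :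
    (Pot.x (P := P) (d := d) k b).val n l = (KR P d n b l ^ k).trace := rfl

lemma x_val1 (b : Bool) (n : ℕ) (l : List (ℕ × ℕ)) :
    (Pot.x (P := P) (d := d) 1 b).val n l = (KR P d n b l).trace := by
  rw [x_val, pow_one]

lemma add_val (a b : Pot P d) (n : ℕ) (l : List (ℕ × ℕ)) :
    (Pot.add a b).val n l = a.val n l + b.val n l := rfl
lemma sub_val (a b : Pot P d) (n : ℕ) (l : List (ℕ × ℕ)) :
    (Pot.sub a b).val n l = a.val n l - b.val n l := rfl
lemma neg_val (a : Pot P d) (n : ℕ) (l : List (ℕ × ℕ)) :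
    (Pot.neg a).val n l = -a.val n l := rfl

/-- `((a)_+)² c` -/
noncomputable def psq (c : Cst) (a : Pot P d) : Pot P d := Pot.smul c (Pot.posSq a)

lemma psq_val (c : Cst) (a : Pot P d) (n : ℕ) (l : List (ℕ × ℕ)) :
    (psq c a).val n l = (c.f n l.length : ℝ) * (max (a.val n l) 0) ^ 2 := rfl

noncomputable def q1X1u (b : Bool) : Pot P d :=
  psq (mI 670) (Pot.sub (Pot.x 1 b) (Pot.ofCst (UC d)))
noncomputable def q1X1l (b : Bool) : Pot P d := psq (mI 670) (Pot.neg (Pot.x 1 b))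
noncomputable def q1X2u (b : Bool) : Pot P d :=
  psq (Cst.mul (Cst.const 16) (Cst.pow (r1I d) 2))
    (Pot.sub (Pot.x 2 b) (Pot.ofCst (Cst.sub (rhoC d) (r1C d))))
noncomputable def q1X2l (b : Bool) : Pot P d :=
  psq (Cst.pow (r1I d) 2)
    (Pot.sub (Pot.ofCst (Cst.sub (rhoC d) (Cst.mul (Cst.const 3) (r1C d)))) (Pot.x 2 b))
noncomputable def q1X3l (b : Bool) : Pot P d :=
  psq (Cst.mul (Cst.const 16) (Cst.pow nI 2))
    (Pot.sub (Pot.ofCst (Cst.mul (Cst.const (3 / 2)) Cst.n)) (Pot.x 3 b))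
noncomputable def q1X3u (b : Bool) : Pot P d :=
  psq (Cst.mul (Cst.const ((((d : ℚ) - 1) ^ 2) ^ 2)⁻¹) (Cst.pow nI 2))
    (Pot.sub (Pot.x 3 b) (Pot.ofCst (Cst.mul (Cst.const (2 * ((d : ℚ) - 1) ^ 2)) Cst.n)))
noncomputable def q1X4 (b : Bool) : Pot P d :=
  Pot.smul (Cst.mul (rhoC d) (mI 2003)) (Pot.x 4 b)
noncomputable def q1V (b : Bool) : Pot P d := Pot.smul (mI 6) (Pot.v b)
noncomputable def q1W (b : Bool) : Pot P d := Pot.smul (mI 610) (Pot.w b)
noncomputable def q1M : Pot P d := Pot.smul (mI 1010) (Pot.cross 2 2)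

/-- the one-sign part of stage 1 -/
noncomputable def pPart1 (b : Bool) : Pot P d :=
  Pot.add (Pot.add (Pot.add (Pot.add (Pot.add (Pot.add (Pot.add (Pot.add (q1X1u b) (q1X1l b))
    (q1X2u b)) (q1X2l b)) (q1X3l b)) (q1X3u b)) (q1X4 b)) (q1V b)) (q1W b)

/-- the potential of stage 1 -/
noncomputable def pPhi1 (P : Par) (d : ℕ) : Pot P d :=
  Pot.add (Pot.add (pPart1 true) (pPart1 false)) q1M

noncomputable def q2X1 (b : Bool) : Pot P d := Pot.smul (mI 672) (Pot.sq (Pot.x 1 b))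
noncomputable def q2X2 (b : Bool) : Pot P d :=
  psq (mI 1340) (Pot.sub (Pot.x 2 b) (Pot.ofCst (phiC d)))
noncomputable def q2X2l (b : Bool) : Pot P d :=
  psq (Cst.pow (r1I d) 2)
    (Pot.sub (Pot.ofCst (Cst.sub (rhoC d) (Cst.mul (Cst.const 5) (r1C d)))) (Pot.x 2 b))
noncomputable def q2X3 (b : Bool) : Pot P d :=
  psq (Cst.mul (Cst.const ((((d : ℚ) - 1) ^ 2) ^ 2)⁻¹) (Cst.pow nI 2))
    (Pot.sub (Pot.x 3 b) (Pot.ofCst (Cst.mul (Cst.const (4 * ((d : ℚ) - 1) ^ 2)) Cst.n)))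
noncomputable def q2X4 (b : Bool) : Pot P d :=
  Pot.smul (Cst.mul (rhoC d) (mI 2004)) (Pot.x 4 b)
noncomputable def q2V (b : Bool) : Pot P d := Pot.smul (mI 8) (Pot.v b)
noncomputable def q2W (b : Bool) : Pot P d := Pot.smul (mI 683) (Pot.w b)

/-- the one-sign part of stage 2 -/
noncomputable def pPart2 (b : Bool) : Pot P d :=
  Pot.add (Pot.add (Pot.add (Pot.add (Pot.add (Pot.add (q2X1 b) (q2X2 b))
    (q2X2l b)) (q2X3 b)) (q2X4 b)) (q2V b)) (q2W b)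

/-- the potential of stage 2 -/
noncomputable def pPhi2 (P : Par) (d : ℕ) : Pot P d :=
  Pot.add (pPart2 true) (pPart2 false)

variable {n : ℕ} {l : List (ℕ × ℕ)}

lemma rho_real (h : (Fs n d l).card + 2 * l.length = n * d) :
    ((Fs n d l).card : ℝ) = (n : ℝ) * d - 2 * l.length := by
  have h1 : (((Fs n d l).card + 2 * l.length : ℕ) : ℝ) = ((n * d : ℕ) : ℝ) := by rw [h]
  push_cast at h1
  linarith

lemma pPart1_val (b : Bool) (h : (Fs n d l).card + 2 * l.length = n * d) :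
    (pPart1 (P := P) (d := d) b).val n l = Box.part1 d n (mm n) (Fs n d l) (KR P d n b l) := by
  have hρ := rho_real h
  have e1 : (q1X1u (P := P) (d := d) b).val n l
      = p1X1u (mm n) (Fs n d l).card (KR P d n b l).trace := by
    unfold q1X1u p1X1u
    rw [psq_val, sub_val, x_val1, Pot.ofCst_val, UC_real, mI_f, hρ]
    push_cast
    rw [div_eq_mul_inv, mul_comm]
  have e2 : (q1X1l (P := P) (d := d) b).val n l = p1X1l (mm n) (KR P d n b l).trace := by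
    unfold q1X1l p1X1l
    rw [psq_val, neg_val, x_val1, mI_f]
    push_cast
    rw [div_eq_mul_inv, mul_comm]
  have e3 : (q1X2u (P := P) (d := d) b).val n l
      = p1X2u (r1 d n (mm n)) (Fs n d l).card (KR P d n b l ^ 2).trace := by
    unfold q1X2u p1X2u
    rw [psq_val, sub_val, x_val, Pot.ofCst_val, Cst.sub_f, rhoC_f, Cst.mul_f, Cst.pow_f,
      Cst.const_f, hρ]
    push_cast
    rw [r1C_real, r1I_real, div_pow, div_div_eq_mul_div, div_eq_mul_inv]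
    have : (KR P d n b l ^ 2).trace - ((n : ℝ) * d - 2 * l.length - r1 d n (mm n)) =
      (KR P d n b l ^ 2).trace - ((n : ℝ) * d - 2 * l.length) + r1 d n (mm n) := by ring
    rw [this, inv_pow]
    ring
  have e4 : (q1X2l (P := P) (d := d) b).val n l
      = p1X2l (r1 d n (mm n)) (Fs n d l).card (KR P d n b l ^ 2).trace := by
    unfold q1X2l p1X2l
    rw [psq_val, sub_val, x_val, Pot.ofCst_val, Cst.sub_f, rhoC_f, Cst.mul_f, Cst.pow_f,
      Cst.const_f, hρ]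
    push_cast
    rw [r1C_real, r1I_real, div_eq_mul_inv, inv_pow]
    ring
  have e5 : (q1X3l (P := P) (d := d) b).val n l = p1X3l n (KR P d n b l ^ 3).trace := by
    unfold q1X3l p1X3l
    rw [psq_val, sub_val, x_val, Pot.ofCst_val, Cst.mul_f, Cst.mul_f, Cst.pow_f,
      Cst.const_f, Cst.const_f, Cst.n_f, nI_f]
    push_cast
    rw [div_pow, div_div_eq_mul_div, div_eq_mul_inv, inv_pow]
    ring
  have e6 : (q1X3u (P := P) (d := d) b).val n l = p1X3u d n (KR P d n b l ^ 3).trace := by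
    unfold q1X3u p1X3u
    rw [psq_val, sub_val, x_val, Pot.ofCst_val, Cst.mul_f, Cst.mul_f, Cst.pow_f,
      Cst.const_f, Cst.const_f, Cst.n_f, nI_f]
    push_cast
    rw [div_eq_mul_inv, mul_pow (((d : ℝ) - 1) ^ 2), mul_inv, inv_pow]
    ring
  have e7 : (q1X4 (P := P) (d := d) b).val n l
      = p1X4 (mm n) (Fs n d l).card (KR P d n b l ^ 4).trace := by
    unfold q1X4 p1X4
    rw [Pot.smul_val, Cst.mul_f, rhoC_f, mI_f, x_val, hρ]
    push_cast
    rw [div_eq_mul_inv]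
    ring
  have e8 : (q1V (P := P) (d := d) b).val n l = p1V (mm n) (Vf (KR P d n b l)) := by
    unfold q1V p1V
    rw [Pot.smul_val, mI_f, v_val]
    push_cast
    rw [div_eq_mul_inv, mul_comm]
  have e9 : (q1W (P := P) (d := d) b).val n l
      = p1W (mm n) (Wf (Fs n d l) (KR P d n b l)) := by
    unfold q1W p1W
    rw [Pot.smul_val, mI_f, w_val]
    push_cast
    rw [div_eq_mul_inv, mul_comm]
  unfold pPart1 Box.part1
  simp only [add_val]
  rw [e1, e2, e3, e4, e5, e6, e7, e8, e9]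

theorem pPhi1_val (h : (Fs n d l).card + 2 * l.length = n * d) :
    (pPhi1 P d).val n l = Phi1R P d n (mm n) l := by
  have e10 : (q1M (P := P) (d := d)).val n l = p1M (mm n) (Mf (fun b => KR P d n b l)) := by
    unfold q1M p1M
    rw [Pot.smul_val, mI_f]
    push_cast
    rw [div_eq_mul_inv, mul_comm]
    rfl
  unfold pPhi1 Phi1R
  rw [Box.Phi1_eq, add_val, add_val, pPart1_val _ h, pPart1_val _ h, e10]

lemma pPart2_val (b : Bool) (h : (Fs n d l).card + 2 * l.length = n * d) (hm : mm n ≠ 0) :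
    (pPart2 (P := P) (d := d) b).val n l = Box.part2 d n (mm n) (Fs n d l) (KR P d n b l) := by
  have hρ := rho_real h
  have e1 : (q2X1 (P := P) (d := d) b).val n l = p2X1 (mm n) (KR P d n b l).trace := by
    unfold q2X1 p2X1
    rw [Pot.smul_val, mI_f]
    change _ * ((Pot.x (P := P) (d := d) 1 b).val n l) ^ 2 = _
    rw [x_val1]
    push_cast
    rw [div_eq_mul_inv, mul_comm]
  have e2 : (q2X2 (P := P) (d := d) b).val n l
      = p2X2 (mm n) (r1 d n (mm n)) (Fs n d l).card (KR P d n b l ^ 2).trace := by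
    unfold q2X2 p2X2
    rw [psq_val, sub_val, x_val, Pot.ofCst_val, phiC_real d n _ hm, mI_f, hρ]
    push_cast
    rw [div_eq_mul_inv, mul_comm]
  have e3 : (q2X2l (P := P) (d := d) b).val n l
      = p2X2l (r1 d n (mm n)) (Fs n d l).card (KR P d n b l ^ 2).trace := by
    unfold q2X2l p2X2l
    rw [psq_val, sub_val, x_val, Pot.ofCst_val, Cst.sub_f, rhoC_f, Cst.mul_f, Cst.pow_f,
      Cst.const_f, hρ]
    push_cast
    rw [r1C_real, r1I_real, div_eq_mul_inv, inv_pow]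
    ring
  have e4 : (q2X3 (P := P) (d := d) b).val n l = p2X3 d n (KR P d n b l ^ 3).trace := by
    unfold q2X3 p2X3
    rw [psq_val, sub_val, x_val, Pot.ofCst_val, Cst.mul_f, Cst.mul_f, Cst.pow_f,
      Cst.const_f, Cst.const_f, Cst.n_f, nI_f]
    push_cast
    rw [div_eq_mul_inv, mul_pow (((d : ℝ) - 1) ^ 2), mul_inv, inv_pow]
    ring
  have e5 : (q2X4 (P := P) (d := d) b).val n l
      = p2X4 (mm n) (Fs n d l).card (KR P d n b l ^ 4).trace := by
    unfold q2X4 p2X4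
    rw [Pot.smul_val, Cst.mul_f, rhoC_f, mI_f, x_val, hρ]
    push_cast
    rw [div_eq_mul_inv]
    ring
  have e6 : (q2V (P := P) (d := d) b).val n l = p2V (mm n) (Vf (KR P d n b l)) := by
    unfold q2V p2V
    rw [Pot.smul_val, mI_f, v_val]
    push_cast
    rw [div_eq_mul_inv, mul_comm]
  have e7 : (q2W (P := P) (d := d) b).val n l
      = p2W (mm n) (Wf (Fs n d l) (KR P d n b l)) := by
    unfold q2W p2W
    rw [Pot.smul_val, mI_f, w_val]
    push_cast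
    rw [div_eq_mul_inv, mul_comm]
  unfold pPart2 Box.part2
  simp only [add_val]
  rw [e1, e2, e3, e4, e5, e6, e7]

theorem pPhi2_val (h : (Fs n d l).card + 2 * l.length = n * d) (hm : mm n ≠ 0) :
    (pPhi2 P d).val n l = Phi2R P d n (mm n) l := by
  unfold pPhi2 Phi2R
  rw [Box.Phi2_eq, add_val, pPart2_val _ h hm, pPart2_val _ h hm]

/-- the card identity after a step -/
lemma card_cons {x y : Fin (n * d)} (h : (Fs n d l).card + 2 * l.length = n * d)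
    (hxy : (x, y) ∈ Sg P d n l) :
    (Fs n d (((x : ℕ), (y : ℕ)) :: l)).card + 2 * (((x : ℕ), (y : ℕ)) :: l).length = n * d := by
  have h1 := card_Fs_cons hxy
  rw [List.length_cons]
  omega

end pots

end Crest.Agent.R62.MainCst
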