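import Crest.Agent.R62.MainCst
import Crest.Agent.R62.LateT
import Crest.Agent.R62.LatePot
import Crest.Agent.R062.MachFinal

/-!
R62: the potential of the whole process, the step of the process, and S0084 from the pieces.
-/

set_option autoImplicit false
set_option linter.unusedSectionVars false
set_option linter.unusedVariables false
open scoped Matrix BigOperators

namespace Crest.Agent.R62.MainPot

open Crest.Agent.R62.State Crest.Agent.R62.EvalKit Crest.Agent.R062 Crest.Agent.R062.Mach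
open Crest.Agent.R62.SpecOf Crest.Agent.R62.GoodPairs Crest.Agent.R62.AvBase
open Crest.Agent.R62.Weights Crest.Agent.R62.Step Crest.Agent.R62.AvX1
open Crest.Agent.R62.CtxReal Crest.Agent.R62.MainCst Crest.Agent.R62.Assembly
open Crest.Agent.Lib.PT

/-! ### the potential -/

/-- `x0 r1` -/
def x0r (d : ℕ) : Cst := Cst.mul (Cst.const (1 / (100 * (LateT.zq d : ℚ) ^ 2))) (r1C d)

lemma x0r_real (d n t : ℕ) : (((x0r d).f n t : ℚ) : ℝ) = LateT.x0q d * r1 d n (mm n) := by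
  unfold x0r LateT.x0q
  rw [Cst.mul_f, Cst.const_f, Rat.cast_mul, r1C_real]
  push_cast
  rfl

/-- the barrier `1/2 + 39 H / m²` -/
noncomputable def bar (P : Par) (d : ℕ) : Pot P d :=
  Pot.add (Pot.ofCst (Cst.const (1 / 2))) (Pot.smul (Cst.mul (Cst.const 39) (mI 2)) harm)

/-- the barrier -/
noncomputable def barR (d n t : ℕ) : ℝ := 1 / 2 + 39 / (mm n : ℝ) ^ 2 * ((Hq d n t : ℚ) : ℝ)

lemma bar_val {P : Par} {d : ℕ} (n : ℕ) (l : List (ℕ × ℕ)) :
    (bar P d).val n l = barR d n l.length := by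
  have e : (bar P d).val n l = (((Cst.const (1 / 2)).f n l.length : ℚ) : ℝ)
      + (((Cst.mul (Cst.const 39) (mI 2)).f n l.length : ℚ) : ℝ) * ((Hq d n l.length : ℚ) : ℝ) :=
    rfl
  rw [e, Cst.const_f, Cst.mul_f, Cst.const_f, mI_f]
  unfold barR
  push_cast
  rw [div_eq_mul_inv (39 : ℝ)]

/-- the potential of the whole process -/
noncomputable def main (P : Par) (d : ℕ) : Pot P d :=
  Pot.switchC (mP 800) (rhoC d) (Pot.sub (pPhi1 P d) (bar P d))
    (Pot.switchC (x0r d) (rhoC d) (Pot.sub (pPhi2 P d) (bar P d))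
      (Pot.sub (Late.psi3 P d (LateT.zq d)) (Pot.int 1)))

section
variable {P : Par} {d n : ℕ} {l : List (ℕ × ℕ)}

lemma cond1 (h : (Fs n d l).card + 2 * l.length = n * d) :
    ((mP 800).f n l.length ≤ (rhoC d).f n l.length) ↔
      ((mm n : ℝ) ^ 800 ≤ ((Fs n d l).card : ℝ)) := by
  rw [rho_real h, mP_f, rhoC_f]
  constructor
  · intro h1
    have h2 := (Rat.cast_le (K := ℝ)).2 h1
    push_cast at h2
    exact h2
  · intro h1
    rw [← Rat.cast_le (K := ℝ)]
    push_cast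
    exact h1

lemma cond2 (h : (Fs n d l).card + 2 * l.length = n * d) :
    ((x0r d).f n l.length ≤ (rhoC d).f n l.length) ↔
      (LateT.x0q d * r1 d n (mm n) ≤ ((Fs n d l).card : ℝ)) := by
  rw [rho_real h, ← x0r_real d n l.length, ← Rat.cast_le (K := ℝ), rhoC_f]
  push_cast
  exact Iff.rfl

lemma main_val1 (h : (Fs n d l).card + 2 * l.length = n * d)
    (h1 : (mm n : ℝ) ^ 800 ≤ ((Fs n d l).card : ℝ)) :
    (main P d).val n l = Phi1R P d n (mm n) l - barR d n l.length := by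
  unfold main
  rw [Pot.switchC_val, if_pos ((cond1 h).2 h1)]
  change (pPhi1 P d).val n l - (bar P d).val n l = _
  rw [pPhi1_val h, bar_val]

lemma main_val2 (h : (Fs n d l).card + 2 * l.length = n * d) (hm : mm n ≠ 0)
    (h1 : ¬ (mm n : ℝ) ^ 800 ≤ ((Fs n d l).card : ℝ))
    (h2 : LateT.x0q d * r1 d n (mm n) ≤ ((Fs n d l).card : ℝ)) :
    (main P d).val n l = Phi2R P d n (mm n) l - barR d n l.length := by
  unfold main
  rw [Pot.switchC_val, if_neg (fun h' => h1 ((cond1 h).1 h')), Pot.switchC_val,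
    if_pos ((cond2 h).2 h2)]
  change (pPhi2 P d).val n l - (bar P d).val n l = _
  rw [pPhi2_val h hm, bar_val]

lemma main_val3 (h : (Fs n d l).card + 2 * l.length = n * d)
    (h1 : ¬ (mm n : ℝ) ^ 800 ≤ ((Fs n d l).card : ℝ))
    (h2 : ¬ LateT.x0q d * r1 d n (mm n) ≤ ((Fs n d l).card : ℝ)) :
    (main P d).val n l = (Late.psi3 P d (LateT.zq d)).val n l - 1 := by
  unfold main
  rw [Pot.switchC_val, if_neg (fun h' => h1 ((cond1 h).1 h')), Pot.switchC_val,
    if_neg (fun h' => h2 ((cond2 h).1 h'))]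
  change (Late.psi3 P d (LateT.zq d)).val n l - ((1 : ℤ) : ℝ) = _
  push_cast
  rfl

lemma barR_succ (h : (Fs n d l).card + 2 * l.length = n * d) :
    barR d n (l.length + 1) = barR d n l.length
      + 39 / ((mm n : ℝ) ^ 2 * ((Fs n d l).card : ℝ)) := by
  unfold barR
  have e : n * d - 2 * l.length = (Fs n d l).card := by omega
  rw [Hq_succ, e]
  push_cast
  rw [mul_add, ← add_assoc, div_mul_div_comm, mul_one]

end

/-! ### numerics -/

/-- everything that is needed about `n` -/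
structure Big (d n : ℕ) : Prop where
  prm : Prm d n (mm n)
  hz : (10 : ℝ) ^ 18 * (LateT.zq d : ℝ) ^ 8 ≤ (mm n : ℝ)
  log : 1 + Real.log ((n * d : ℕ) : ℝ) ≤ (mm n : ℝ)

theorem big_ev (d : ℕ) (hd : 3 ≤ d) : ∃ n0 : ℕ, 0 < n0 ∧ ∀ n, n0 ≤ n → Big d n := by
  obtain ⟨M1, hM1⟩ := Filter.eventually_atTop.1 (Barrier.ev_log_small d 1000 1 one_pos)
  obtain ⟨n0, h0, hn0⟩ := prm_ev d hd (max M1 (10 ^ 18 * LateT.zq d ^ 8))
  refine ⟨n0, h0, fun n hn => ?_⟩
  obtain ⟨h1, h2⟩ := hn0 n hn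
  have hm1 : (1 : ℝ) ≤ (mm n : ℝ) := Box.one_le_m h1
  have hm0 : (0 : ℝ) < (mm n : ℝ) := by linarith
  refine ⟨h1, ?_, ?_⟩
  · exact_mod_cast (le_max_right _ _).trans h2
  · have h3 := hM1 (mm n) ((le_max_left _ _).trans h2)
    rw [div_le_iff₀ hm0, one_mul] at h3
    refine le_trans ?_ h3
    have hn : (0 : ℝ) < n := Box.n_pos h1
    have hd0 : (0 : ℝ) < d := by have : 0 < d := by omega
                                 exact_mod_cast this
    have h4 : (n : ℝ) ≤ ((mm n : ℝ) + 1) ^ 1000 := (Barrier.nthRoot_bounds (by norm_num) n).2.le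
    have h5 : (((n * d : ℕ)) : ℝ) ≤ (d : ℝ) * ((mm n : ℝ) + 1) ^ 1000 := by
      push_cast
      rw [mul_comm]
      exact mul_le_mul_of_nonneg_left h4 hd0.le
    have h6 : (0 : ℝ) < ((n * d : ℕ) : ℝ) := by push_cast; positivity
    have := Real.log_le_log h6 h5
    linarith

namespace Big

variable {d n : ℕ}

lemma m1 (h : Big d n) : (1 : ℝ) ≤ (mm n : ℝ) := Box.one_le_m h.prm
lemma m0 (h : Big d n) : (0 : ℝ) < (mm n : ℝ) := Box.m_pos h.prm
lemma mg (h : Big d n) : (10 : ℝ) ^ 10 ≤ (mm n : ℝ) := Box.m_ge h.prm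
lemma mne (h : Big d n) : mm n ≠ 0 := by
  have := h.m0
  intro e
  rw [e] at this
  simp at this

lemma r1_le (h : Big d n) : r1 d n (mm n) ≤ (mm n : ℝ) ^ 681 := Box.r1_le' h.prm
lemma r1_ge (h : Big d n) : (mm n : ℝ) ^ 680 ≤ r1 d n (mm n) := Box.r1_ge' h.prm

lemma npos (h : Big d n) : 0 < n := by
  have := Box.n_pos h.prm
  exact_mod_cast this

/-- `m ≤ n` -/
lemma m_le_n (h : Big d n) : (mm n : ℝ) ≤ n := by
  have h1 := h.prm.hn1
  have h2 : (mm n : ℝ) ^ 1 ≤ (mm n : ℝ) ^ 1000 := pow_le_pow_right₀ h.m1 (by norm_num)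
  rw [pow_one] at h2
  exact h2.trans h1

/-- `d ≤ m` -/
lemma d_le_m (h : Big d n) : (d : ℝ) ≤ (mm n : ℝ) := by
  have h1 := Box.d_pow_le_m h.prm 1 (by norm_num)
  rw [pow_one] at h1
  have h2 : (0 : ℝ) ≤ d := Nat.cast_nonneg d
  nlinarith

lemma d_le_n (h : Big d n) : (d : ℝ) ≤ n := h.d_le_m.trans h.m_le_n

/-- `x0 r1 + 2 ≤ m^800` -/
lemma x0r_le (h : Big d n) : LateT.x0q d * r1 d n (mm n) + 2 ≤ (mm n : ℝ) ^ 800 := by
  have h0 : 0 < r1 d n (mm n) := Box.r1_pos h.prm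
  have h1 : LateT.x0q d * r1 d n (mm n) ≤ r1 d n (mm n) :=
    mul_le_of_le_one_left h0.le (LateT.x0q_le_one d)
  have h2 := h.r1_le
  have h3 : (mm n : ℝ) ^ 800 = (mm n : ℝ) ^ 681 * (mm n : ℝ) ^ 119 := by
    rw [← pow_add]
  have h4 : (1 : ℝ) ≤ (mm n : ℝ) ^ 681 := one_le_pow₀ h.m1
  have h5 : (mm n : ℝ) ^ 1 ≤ (mm n : ℝ) ^ 119 := pow_le_pow_right₀ h.m1 (by norm_num)
  rw [pow_one] at h5
  have h6 : (3 : ℝ) ≤ (mm n : ℝ) ^ 119 := by
    have := h.mg
    have h7 : (3 : ℝ) ≤ 10 ^ 10 := by norm_num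
    linarith
  rw [h3]
  nlinarith

/-- `z² ≤ x0 r1` -/
lemma z_le (h : Big d n) : (LateT.zq d : ℝ) ^ 2 ≤ LateT.x0q d * r1 d n (mm n) := by
  have hz := LateT.zq_real_pos d
  have hz1 : (1 : ℝ) ≤ LateT.zq d := by
    have := LateT.zq_real_ge d
    linarith [show (1 : ℝ) ≤ 10 ^ 13 by norm_num]
  have h2 : (mm n : ℝ) ^ 1 ≤ (mm n : ℝ) ^ 680 := pow_le_pow_right₀ h.m1 (by norm_num)
  rw [pow_one] at h2
  have h3 : (mm n : ℝ) ≤ r1 d n (mm n) := h2.trans h.r1_ge
  have h4 := h.hz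
  unfold LateT.x0q
  rw [div_mul_eq_mul_div, one_mul, le_div_iff₀ (by positivity)]
  refine le_trans ?_ (h4.trans h3)
  have h5 : (LateT.zq d : ℝ) ^ 4 ≤ (LateT.zq d : ℝ) ^ 8 := pow_le_pow_right₀ hz1 (by norm_num)
  have h6 : (0 : ℝ) < (LateT.zq d : ℝ) ^ 8 := by positivity
  calc (LateT.zq d : ℝ) ^ 2 * (100 * (LateT.zq d : ℝ) ^ 2) = 100 * (LateT.zq d : ℝ) ^ 4 := by ring
    _ ≤ 100 * (LateT.zq d : ℝ) ^ 8 := by linarith
    _ ≤ 10 ^ 18 * (LateT.zq d : ℝ) ^ 8 := by nlinarith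

lemma z2_le_nd (h : Big d n) : (LateT.zq d : ℝ) ^ 2 ≤ (n : ℝ) * d := by
  have h1 := h.z_le
  have h2 := h.x0r_le
  have h3 : (mm n : ℝ) ^ 800 ≤ (mm n : ℝ) ^ 1000 := pow_le_pow_right₀ h.m1 (by norm_num)
  have h4 := h.prm.hn1
  have h5 : (3 : ℝ) ≤ d := Box.d3 h.prm
  have h6 : (0 : ℝ) < n := Box.n_pos h.prm
  nlinarith

lemma Mq_le (h : Big d n) : LateT.Mq d ≤ n * d := by
  have h1 := h.z2_le_nd
  rw [← LateT.Mq_cast] at h1
  exact_mod_cast h1

/-- `m^800 ≤ n d` -/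
lemma m800_le (h : Big d n) : (mm n : ℝ) ^ 800 ≤ (n : ℝ) * d := by
  have h3 : (mm n : ℝ) ^ 800 ≤ (mm n : ℝ) ^ 1000 := pow_le_pow_right₀ h.m1 (by norm_num)
  have h4 := h.prm.hn1
  have h5 : (3 : ℝ) ≤ d := Box.d3 h.prm
  have h6 : (0 : ℝ) < n := Box.n_pos h.prm
  nlinarith

/-- the barrier is at most `1` -/
lemma bar_le (h : Big d n) {t : ℕ} (ht : 2 * t ≤ n * d) : barR d n t ≤ 1 := by
  have h1 := (Hq_log ht).trans h.log
  have h2 := h.m0
  have h3 := h.mg
  unfold barR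
  have h4 : 39 / (mm n : ℝ) ^ 2 * ((Hq d n t : ℚ) : ℝ) ≤ 39 / (mm n : ℝ) ^ 2 * (mm n : ℝ) :=
    mul_le_mul_of_nonneg_left h1 (by positivity)
  have h5 : 39 / (mm n : ℝ) ^ 2 * (mm n : ℝ) = 39 / (mm n : ℝ) := by
    field_simp
  have h6 : 39 / (mm n : ℝ) ≤ 1 / 2 := by
    rw [div_le_div_iff₀ h2 (by norm_num)]
    have : (78 : ℝ) ≤ 10 ^ 10 := by norm_num
    linarith
  linarith

lemma bar_ge (t : ℕ) : 1 / 2 ≤ barR d n t := by
  unfold barR
  have h1 : (0 : ℝ) ≤ ((Hq d n t : ℚ) : ℝ) := by exact_mod_cast Hq_nonneg d n t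
  have h2 : 0 ≤ 39 / (mm n : ℝ) ^ 2 * ((Hq d n t : ℚ) : ℝ) := by positivity
  linarith

lemma bar_zero : barR d n 0 = 1 / 2 := by
  unfold barR
  simp [Hq]

/-- the margin -/
lemma margin (h : Big d n) {ρ : ℝ} (h0 : 0 < ρ) (h1 : ρ ≤ (n : ℝ) * d) :
    1 / ((n : ℝ) + 2) ^ 4 ≤ 1 / ((mm n : ℝ) ^ 2 * ρ) ∧ 1 / ((n : ℝ) + 2) ^ 4 ≤ 1 / (4 * ρ) := by
  have hm0 := h.m0
  have hmn := h.m_le_n
  have hdn := h.d_le_n
  have hn : (0 : ℝ) < n := Box.n_pos h.prm
  have hd0 : (0 : ℝ) ≤ d := Nat.cast_nonneg d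
  have h2 : ρ ≤ (n : ℝ) ^ 2 := by nlinarith
  have h3 : (mm n : ℝ) ^ 2 ≤ (n : ℝ) ^ 2 := pow_le_pow_left₀ hm0.le hmn 2
  have h4 : (4 : ℝ) ≤ (n : ℝ) ^ 2 := by
    have := h.mg
    have h5 : (2 : ℝ) ≤ 10 ^ 10 := by norm_num
    nlinarith
  have h5 : (n : ℝ) ^ 4 ≤ ((n : ℝ) + 2) ^ 4 := pow_le_pow_left₀ hn.le (by linarith) 4
  have h6 : (n : ℝ) ^ 4 = (n : ℝ) ^ 2 * (n : ℝ) ^ 2 := by ring
  constructor
  · refine one_div_le_one_div_of_le (by positivity) ?_
    refine le_trans ?_ h5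
    rw [h6]
    exact mul_le_mul h3 h2 h0.le (by positivity)
  · refine one_div_le_one_div_of_le (by positivity) ?_
    refine le_trans ?_ h5
    rw [h6]
    exact mul_le_mul h4 h2 h0.le (by positivity)

end Big

/-! ### the process -/

/-- the parameter `δ = m ^ (-320)` -/
def dl : Delta := Delta.root 1000 (by norm_num) 320

/-- the parameters of the process -/
noncomputable def PP (d : ℕ) (hd : 3 ≤ d) : Par := parOf d hd dl

lemma dl_f (n : ℕ) : dl.f n = ((mm n : ℚ) ^ 320)⁻¹ := rfl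

lemma dl_lt {d n : ℕ} (h : Big d n) : dl.f n < 1 := by
  rw [dl_f]
  have h1 : (1 : ℚ) < (mm n : ℚ) := by
    have h2 := h.mg
    have h3 : (1 : ℝ) < (mm n : ℝ) := by linarith [show (1 : ℝ) < 10 ^ 10 by norm_num]
    exact_mod_cast h3
  exact inv_lt_one_of_one_lt₀ (one_lt_pow₀ h1 (by norm_num))

lemma gam_sq {d : ℕ} (hd : 3 ≤ d) (n : ℕ) : (PP d hd).gam.v n ^ 2 ≤ 1 / 2 := by
  unfold PP
  rw [parOf_gam]
  unfold Start.gam
  have h0 : (0 : ℝ) ≤ dl.f n := by exact_mod_cast dl.nonneg n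
  have h1 : (dl.f n : ℝ) ≤ 1 := by exact_mod_cast dl.le_one n
  have hd' : (3 : ℝ) ≤ d := by exact_mod_cast hd
  have hs2 : Real.sqrt ((d : ℝ) - 1) ^ 2 = (d : ℝ) - 1 := Real.sq_sqrt (by linarith)
  rw [div_pow, hs2, div_le_div_iff₀ (by linarith) (by norm_num)]
  nlinarith

section
variable {d n : ℕ} {l : List (ℕ × ℕ)}

/-- the list facts -/
lemma lst {hd : 3 ≤ d} (hB : Big d n) (hev : Even n) {F : List (Pot (PP d hd) d)}
    (h : St (PP d hd) d F n l) (hlen : 2 * l.length < n * d) : Lst (PP d hd) d n l := by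
  have h1 := parOf_ok hd dl n (dl_lt hB)
  exact lst_of_St hd hB.npos hev h h1.1 (gam_sq hd n) h1.2.2 (parOf_mu d hd dl n) hlen

/-- **the step** -/
theorem step {hd : 3 ≤ d} (Q1 : Pieces1 (Fin (n * d))) (Q2 : Pieces2 (Fin (n * d)))
    (hB : Big d n) (h : Lst (PP d hd) d n l) (ht : LateT.Mq d + 2 * l.length ≤ n * d)
    (hv : (main (PP d hd) d).val n l ≤ 0) :
    ∃ x y : Fin (n * d), Gp (PP d hd) d n l x y ∧
      (main (PP d hd) d).val n (((x : ℕ), (y : ℕ)) :: l) ≤ -(1 / ((n : ℝ) + 2) ^ 4) := by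
  have hc := h.card
  have hlen := h.len
  set ρ : ℕ := (Fs n d l).card with hρ
  have hρ0 : (0 : ℝ) < (ρ : ℝ) := by
    have : 0 < ρ := by omega
    exact_mod_cast this
  have hρnd : (ρ : ℝ) ≤ (n : ℝ) * d := by
    have : ρ ≤ n * d := by omega
    exact_mod_cast this
  have hmar := hB.margin hρ0 hρnd
  have hbar := hB.bar_le (t := l.length) (by omega)
  have hm0 := hB.m0
  have hmρ : 0 < (mm n : ℝ) ^ 2 * (ρ : ℝ) := by positivity
  have hb1 : barR d n (l.length + 1) = barR d n l.length + 39 / ((mm n : ℝ) ^ 2 * (ρ : ℝ)) :=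
    barR_succ hc
  have hdiv : 38 / ((mm n : ℝ) ^ 2 * (ρ : ℝ)) - 39 / ((mm n : ℝ) ^ 2 * (ρ : ℝ))
      = -(1 / ((mm n : ℝ) ^ 2 * (ρ : ℝ))) := by
    rw [← sub_div]; norm_num [neg_div]
  have hnew : ∀ x y : Fin (n * d), Gp (PP d hd) d n l x y →
      (Fs n d (((x : ℕ), (y : ℕ)) :: l)).card + 2 * (((x : ℕ), (y : ℕ)) :: l).length = n * d ∧
      ((Fs n d (((x : ℕ), (y : ℕ)) :: l)).card : ℝ) = (ρ : ℝ) - 2 := fun x y hg =>
    ⟨card_cons hc (mem_Sg.2 hg), card_Fs_cons' (mem_Sg.2 hg)⟩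
  by_cases hA : (mm n : ℝ) ^ 800 + 2 ≤ (ρ : ℝ)
  · -- stage 1
    rw [main_val1 hc (by linarith)] at hv
    obtain ⟨x, y, hg, h1⟩ := step1_real Q1 hB.prm h (by linarith) hA
    refine ⟨x, y, hg, ?_⟩
    obtain ⟨e1, e2⟩ := hnew x y hg
    rw [main_val1 e1 (by rw [e2]; linarith), List.length_cons, hb1]
    linarith [hmar.1]
  · have hA' : (ρ : ℝ) ≤ (mm n : ℝ) ^ 800 + 1 := by
      rw [not_le] at hA
      have h2 : ρ < mm n ^ 800 + 2 := by exact_mod_cast hA
      have h3 : ρ ≤ mm n ^ 800 + 1 := by omega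
      exact_mod_cast h3
    have hx := hB.x0r_le
    by_cases hC : LateT.x0q d * r1 d n (mm n) + 2 ≤ (ρ : ℝ)
    · -- stage 2
      have hP2 : Phi2R (PP d hd) d n (mm n) l ≤ barR d n l.length := by
        by_cases hs : (mm n : ℝ) ^ 800 ≤ (ρ : ℝ)
        · rw [main_val1 hc hs] at hv
          have h2 : Phi2 d n (mm n) (Fs n d l) (fun b => KR (PP d hd) d n b l) ≤ 3 / (mm n : ℝ) :=
            Box.handover12 hB.prm (fun b => KR_symm b) (fun b i j hi => KR_dead (Or.inl hi))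
              (show Phi1R (PP d hd) d n (mm n) l ≤ 1 by linarith) (by rw [← hρ]; linarith)
          have h3 : 3 / (mm n : ℝ) ≤ 1 / 2 := by
            rw [div_le_div_iff₀ hm0 (by norm_num)]
            have := hB.mg
            have : (6 : ℝ) ≤ 10 ^ 10 := by norm_num
            linarith
          exact (h2.trans h3).trans (Big.bar_ge _)
        · rw [main_val2 hc hB.mne hs (by linarith)] at hv
          linarith
      obtain ⟨x, y, hg, h1⟩ := step2_real (x0 := LateT.x0q d) Q2 hB.prm h (hP2.trans hbar)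
        (LateT.x0q_pos d) (LateT.x0q_le_one d) (LateT.x0q_m hB.hz) hC hA'
      refine ⟨x, y, hg, ?_⟩
      obtain ⟨e1, e2⟩ := hnew x y hg
      rw [main_val2 e1 hB.mne (by rw [e2]; linarith) (by rw [e2]; linarith), List.length_cons, hb1]
      linarith [hmar.1]
    · -- stage 3
      rw [not_le] at hC
      have hs : ¬ (mm n : ℝ) ^ 800 ≤ (ρ : ℝ) := by intro h'; linarith
      have hP3 : (Late.psi3 (PP d hd) d (LateT.zq d)).val n l ≤ 1 := by
        by_cases h2 : LateT.x0q d * r1 d n (mm n) ≤ (ρ : ℝ)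
        · rw [main_val2 hc hB.mne hs h2] at hv
          have h3 := LateT.psi_of_Phi2 (F := Fs n d l) (K := fun b => KR (PP d hd) d n b l)
            hB.prm (fun b => KR_symm b)
            (show Phi2R (PP d hd) d n (mm n) l ≤ 1 by linarith) hB.hz (by rw [← hρ]; exact h2)
            (by rw [← hρ]; linarith)
          rw [Late.psi3_val, ← Late.card_real h]
          have e3 : Late.gl n d l = LateCst.g (n * d + 1) (Fs n d l).card := by
            unfold Late.gl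
            congr 1
            omega
          rw [e3]
          linarith
        · rw [main_val3 hc hs h2] at hv
          linarith
      obtain ⟨x, y, hg, h1⟩ := Late.psi3_step h (z := LateT.zq d)
        (by have := LateT.zq_ge d; omega) ht hP3
      refine ⟨x, y, hg, ?_⟩
      obtain ⟨e1, e2⟩ := hnew x y hg
      rw [main_val3 e1 (by rw [e2]; intro h'; linarith) (by rw [e2]; intro h'; linarith)]
      rw [← rho_real hc] at h1
      linarith [hmar.2]

/-- the bound of `Tr K²` -/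
theorem bnd {hd : 3 ≤ d} (hB : Big d n) (h : Lst (PP d hd) d n l)
    (hv : (main (PP d hd) d).val n l ≤ 0) (b : Bool) :
    (KR (PP d hd) d n b l ^ 2).trace ≤ ((n : ℝ) + 2) ^ 4 := by
  have hc := h.card
  have hlen := h.len
  set ρ : ℕ := (Fs n d l).card with hρ
  have hρ0 : (0 : ℝ) < (ρ : ℝ) := by
    have : 0 < ρ := by omega
    exact_mod_cast this
  have hρnd : (ρ : ℝ) ≤ (n : ℝ) * d := by
    have : ρ ≤ n * d := by omega
    exact_mod_cast this
  have hbar := hB.bar_le (t := l.length) (by omega)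
  have hm0 := hB.m0
  have hn : (0 : ℝ) < n := Box.n_pos hB.prm
  have hd0 : (0 : ℝ) ≤ d := Nat.cast_nonneg d
  have hr : 0 < r1 d n (mm n) := Box.r1_pos hB.prm
  have hnd : (n : ℝ) * d ≤ (n : ℝ) ^ 2 := by
    have := hB.d_le_n
    nlinarith
  have hn1 : (1 : ℝ) ≤ n := by exact_mod_cast hB.npos
  have hfin : ∀ X : ℝ, X ≤ (n : ℝ) ^ 2 + n + 1 → X ≤ ((n : ℝ) + 2) ^ 4 := by
    intro X hX
    refine hX.trans ?_
    have h1 : (n : ℝ) ^ 2 + n + 1 ≤ ((n : ℝ) + 2) ^ 2 := by nlinarith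
    exact h1.trans (pow_le_pow_right₀ (by linarith) (by norm_num))
  apply hfin
  by_cases hs : (mm n : ℝ) ^ 800 ≤ (ρ : ℝ)
  · rw [main_val1 hc hs] at hv
    have h1 := (Box.B1_of_Phi1 (K := fun b => KR (PP d hd) d n b l) hB.prm (fun b => KR_symm b)
      (show Phi1R (PP d hd) d n (mm n) l ≤ 1 by linarith)).X2u b
    rw [← hρ] at h1
    change (KR (PP d hd) d n b l ^ 2).trace ≤ _ at h1
    nlinarith
  · by_cases h2 : LateT.x0q d * r1 d n (mm n) ≤ (ρ : ℝ)
    · rw [main_val2 hc hB.mne hs h2] at hv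
      have h1 := Box.part2_le (K := fun b => KR (PP d hd) d n b l) (fun b => KR_symm b)
        (show Phi2R (PP d hd) d n (mm n) l ≤ 1 by linarith) b
      change Box.part2 d n (mm n) (Fs n d l) (KR (PP d hd) d n b l) ≤ 1 at h1
      have h3 : p2X2 (mm n) (r1 d n (mm n)) (Fs n d l).card (KR (PP d hd) d n b l ^ 2).trace ≤ 1 := by
        unfold Box.part2 at h1
        have e1 : 0 ≤ p2X1 (mm n) (KR (PP d hd) d n b l).trace := by unfold p2X1; positivity
        have e3 := Box.p2X2l_nonneg (r1 d n (mm n)) (Fs n d l).card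
          (KR (PP d hd) d n b l ^ 2).trace
        have e4 := Box.p2X3_nonneg (d := d) (n := n) (KR (PP d hd) d n b l ^ 3).trace
        have e5 := Box.p2X4_nonneg (m := mm n) (Nat.cast_nonneg (α := ℝ) (Fs n d l).card)
          (Box.X4_nonneg (KR_symm (P := PP d hd) (d := d) (n := n) (l := l) b))
        have e6 := Box.p2V_nonneg (m := mm n) (LateT.Vf_nonneg (KR (PP d hd) d n b l))
        have e7 := Box.p2W_nonneg (m := mm n) (Wf_nonneg (Fs n d l) (KR (PP d hd) d n b l))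
        linarith
      have h4 := Box.pos_le (w := (mm n : ℝ) ^ 670) (by positivity) (by ring) h3
      rw [← hρ] at h4
      have h5 : phi2 (r1 d n (mm n)) (ρ : ℝ) ≤ (ρ : ℝ) := by
        unfold phi2
        rw [div_le_iff₀ (by positivity)]
        nlinarith
      have h6 : (mm n : ℝ) ^ 670 ≤ (mm n : ℝ) ^ 1000 := pow_le_pow_right₀ hB.m1 (by norm_num)
      have h7 := hB.prm.hn1
      linarith
    · rw [main_val3 hc hs h2] at hv
      have h1 := Late.psi3_X2 h (LateT.zq_pos d) (by linarith) b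
      rw [← rho_real hc] at h1
      have h3 : ((Fs n d l).card : ℝ) / (LateT.zq d : ℝ) ^ 2 ≤ ρ := by
        rw [← hρ]
        refine div_le_self hρ0.le (one_le_pow₀ ?_)
        have := LateT.zq_real_ge d
        linarith [show (1 : ℝ) ≤ 10 ^ 13 by norm_num]
      linarith

/-- the end -/
theorem end_lt {hd : 3 ≤ d} (hB : Big d n) (h : Lst (PP d hd) d n l)
    (ht : n * d < LateT.Mq d + 2 * l.length)
    (hv : (main (PP d hd) d).val n l ≤ 0) (b : Bool) :
    (KR (PP d hd) d n b l ^ 2).trace < 2 := by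
  have hc := h.card
  have h1 : (((Fs n d l).card : ℕ) : ℝ) < (LateT.zq d : ℝ) ^ 2 := by
    rw [← LateT.Mq_cast]
    have : (Fs n d l).card < LateT.Mq d := by omega
    exact_mod_cast this
  have h2 := hB.z_le
  have h3 := hB.x0r_le
  rw [main_val3 hc (by intro h'; linarith) (by intro h'; linarith)] at hv
  exact Late.psi3_end h (LateT.zq_pos d) ht (by linarith) b

end

open Classical in
/-- **S0084 from the pieces** -/
theorem assemble {d : ℕ} (hd : 3 ≤ d) (Q1 : ∀ N : ℕ, Pieces1 (Fin N))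
    (Q2 : ∀ N : ℕ, Pieces2 (Fin N))
    (hstart : ∀ n, Prm d n (mm n) → Phi1R (PP d hd) d n (mm n) [] ≤ 1 / 2) :
    ∃ n₀ : ℕ, ∃ F : List Bool → List Bool, Crest.Complexity.PolyTime F ∧
      ∀ n : ℕ, n₀ ≤ n → Even n →
        (Crest.CombinatoricsR.GraphCode.adjGraph n
            (F (Crest.CombinatoricsR.GraphCode.unary n))).IsRegularOfDegree d ∧
        ∀ x : Fin n → ℝ, ∑ i, x i = 0 → x ≠ 0 →
          |x ⬝ᵥ ((Crest.CombinatoricsR.GraphCode.adjGraph n
              (F (Crest.CombinatoricsR.GraphCode.unary n))).adjMatrix ℝ *ᵥ x)| <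
            2 * Real.sqrt ((d : ℝ) - 1) * (x ⬝ᵥ x) := by
  obtain ⟨n0, hn0, hbig⟩ := big_ev d hd
  refine SpecOf.final hd (PP d hd) [main (PP d hd) d] (LateT.Tq d) (LateT.Tq_ptf d)
    (LateT.Tq_le d) 4 n0 hn0 (by norm_num)
    (fun S => ⟨S.n0, Mach.machine S (by omega)⟩) (fun n hn _ => parOf_ok hd dl n (dl_lt (hbig n hn)))
    (fun n _ _ => parOf_mu d hd dl n) (fun n hn hev => LateT.Tq_thr (hbig n hn).Mq_le hev)
    ?_ ?_ ?_ ?_
  · intro n hn hev f hf
    rw [List.mem_singleton] at hf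
    subst hf
    have hB := hbig n hn
    have hc : (Fs n d []).card + 2 * ([] : List (ℕ × ℕ)).length = n * d := by
      have h1 : Fs n d [] = Finset.univ := by
        ext i
        simp [mem_Fs, Mach.unused]
      rw [h1]
      simp
    have h1 : (mm n : ℝ) ^ 800 ≤ ((Fs n d []).card : ℝ) := by
      rw [rho_real hc]
      have := hB.m800_le
      simpa using this
    rw [main_val1 hc h1, List.length_nil, Big.bar_zero]
    have := hstart n hB.prm
    linarith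
  · intro n hn hev l hst hlen
    have hB := hbig n hn
    have h1 := LateT.Mq_le_of_lt hB.Mq_le hev hlen
    have h2 := LateT.four_le_Mq d
    have hL := lst hB hev hst (by omega)
    obtain ⟨x, y, hg, h3⟩ := step (Q1 _) (Q2 _) hB hL (by omega)
      (hst.pot _ (List.mem_singleton_self _))
    refine ⟨x, y, hg.1, hg.2.1, hg.2.2, ?_⟩
    intro f hf
    rw [List.mem_singleton] at hf
    subst hf
    exact h3
  · intro n hn hev l hst hlen b
    have hB := hbig n hn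
    have h1 := LateT.Mq_le_of_lt hB.Mq_le hev hlen
    have h2 := LateT.four_le_Mq d
    exact bnd hB (lst hB hev hst (by omega)) (hst.pot _ (List.mem_singleton_self _)) b
  · intro n hn hev l hst hlen b
    have hB := hbig n hn
    have h1 := LateT.Tq_eq hB.Mq_le hev
    have h2 := LateT.four_le_Mq d
    have h3 := hB.Mq_le
    exact end_lt hB (lst hB hev hst (by omega)) (by omega)
      (hst.pot _ (List.mem_singleton_self _)) b

end Crest.Agent.R62.MainPot
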