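import Crest.Agent.R62.StepAbs
import Crest.Agent.R62.ExTilt
import Crest.Agent.R62.Main_X1
import Crest.Agent.R62.MainX2
import Crest.Agent.R62.MainX4
import Crest.Agent.R62.MainV
import Crest.Agent.R62.MainX3
import Crest.Agent.R62.MainM

/-!
R62 (helper800): all pieces of the two main stages together.
-/

set_option autoImplicit false

open Matrix Finset

namespace Crest.Agent.R62.PiecesAll

open Crest.Agent.R62.Step

variable {ι : Type} [Fintype ι] [DecidableEq ι]

/-- everything in stage 1 except the pieces which have not landed -/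
theorem pieces1_of (w : S1W ι) : Pieces1 ι where
  x1u := MainX1.s1x1u
  x1l := MainX1.s1x1l
  x2u := MainX2.s1X2u
  x2l := MainX2.s1X2l
  x3l := MainX3.s1x3l
  x3u := MainX3.s1x3u
  x4 := MainX4.s1x4
  v := MainV.s1v
  w := w
  mm := MainM.s1m
  tilt := ExTilt.exTilt

/-- everything in stage 2 except the pieces which have not landed -/
theorem pieces2_of (w : S2W ι) : Pieces2 ι where
  x1 := MainX1.s2x1
  x2 := MainX2.s2X2
  x2l := MainX2.s2X2l
  x3 := MainX3.s2x3
  x4 := MainX4.s2x4
  v := MainV.s2v
  w := w

end Crest.Agent.R62.PiecesAll
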