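import Crest.Agent.R62.EvalKit

/-!
R62: from an abstract step theorem about the real matrices to `Mach.Spec`, and to S0084.
-/

set_option autoImplicit false
set_option linter.unusedSectionVars false
set_option linter.unusedSimpArgs false
set_option linter.unusedVariables false
open scoped Matrix BigOperators

namespace Crest.Agent.R62.SpecOf

open Crest.Agent.R62.State Crest.Agent.R62.EvalKit Crest.Agent.R062 Crest.Agent.R062.Mach
open Crest.Agent.Lib.PT

/-- A potential: a real function of `n` and of the list of pairs, together with an expression of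
the constraint language for its value AFTER the step.  The invariant is `val ≤ 0`. -/
structure Pot (P : Par) (d : ℕ) where
  /-- the value -/
  val : ℕ → List (ℕ × ℕ) → ℝ
  /-- expression for the value after the step -/
  e : E
  /-- correctness -/
  sc : ∀ (n : ℕ) (l : List (ℕ × ℕ)) (p : ℕ × ℕ), Sc (envR P d n l p) e (val n (p :: l))

/-- The invariant of the process. -/
structure St (P : Par) (d : ℕ) (F : List (Pot P d)) (n : ℕ) (l : List (ℕ × ℕ)) : Prop where
  valid : Pairs.Valid d n l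
  del : ∀ b p L', (p :: L') <:+ l → 1 / 4 ≤ Del (sg b) (P.K d n b L') p.1 p.2
  pot : ∀ f ∈ F, f.val n l ≤ 0

/-- pair constraint `K_xy² ≤ 1/16` -/
def c1E (b : Bool) : E := subE (sqE (.had (intE 4) (.pick false true (.K false b)))) (intE 1)

/-- pair constraint `± 8 K_xx K_yy ≤ 1` -/
def c2E (b : Bool) (k : ℤ) : E :=
  subE (.had (intE k) (.had (.pick false false (.K false b)) (.pick true true (.K false b))))
    (intE 1)

section
variable {P : Par} {d n : ℕ} {l : List (ℕ × ℕ)} {p : ℕ × ℕ}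

lemma sc_c1E (b : Bool) :
    Sc (envR P d n l p) (c1E b) ((4 * P.K d n b l p.1 p.2) ^ 2 - 1) := by
  have h1 : Sc (envR P d n l p) (.pick false true (.K false b)) (P.K d n b l p.1 p.2) :=
    fun i j => rfl
  have := ((sc_intE (P := P) (d := d) (n := n) (l := l) (p := p) 4).had h1).sqE.sub (sc_intE 1)
  refine this.congr ?_
  push_cast; ring

lemma sc_c2E (b : Bool) (k : ℤ) :
    Sc (envR P d n l p) (c2E b k)
      (k * (P.K d n b l p.1 p.1 * P.K d n b l p.2 p.2) - 1) := by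
  have h1 : Sc (envR P d n l p) (.pick false false (.K false b)) (P.K d n b l p.1 p.1) :=
    fun i j => rfl
  have h2 : Sc (envR P d n l p) (.pick true true (.K false b)) (P.K d n b l p.2 p.2) :=
    fun i j => rfl
  have := ((sc_intE (P := P) (d := d) (n := n) (l := l) (p := p) k).had (h1.had h2)).sub
    (sc_intE 1)
  refine this.congr ?_
  push_cast; ring

end

/-- the constraint list -/
def csOf {P : Par} {d : ℕ} (F : List (Pot P d)) : List E :=
  [c1E true, c1E false, c2E true 8, c2E true (-8), c2E false 8, c2E false (-8)] ++ F.map Pot.e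

lemma del_of {a b c s : ℝ} (hs : s = 1 ∨ s = -1) (h1 : (4 * c) ^ 2 - 1 ≤ 0)
    (h2 : 8 * (a * b) - 1 ≤ 0) : 1 / 4 ≤ (1 - s * c) ^ 2 - a * b := by
  have hc : |c| ≤ 1 / 4 := by
    rw [abs_le]; constructor <;> nlinarith
  rw [abs_le] at hc
  rcases hs with rfl | rfl
  · nlinarith [hc.1, hc.2]
  · nlinarith [hc.1, hc.2]

lemma sg_eq (b : Bool) : (sg b : ℝ) = 1 ∨ (sg b : ℝ) = -1 := by
  cases b <;> simp [sg]

/-- a list is `Good` for `csOf F` if ... (its tail satisfies the invariant) -/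
theorem st_of_good {P : Par} {d : ℕ} {F : List (Pot P d)} {n : ℕ} (hnd : 0 < n * d)
    (h0 : ∀ f ∈ F, f.val n [] ≤ 0) (l : List (ℕ × ℕ)) (h : Mach.Good P d n (csOf F) l) :
    St P d F n l := by
  induction l with
  | nil =>
    refine ⟨h.valid, ?_, h0⟩
    intro b p L' hp
    exact absurd (List.suffix_nil.mp hp) (by simp)
  | cons p l ih =>
    have hl := ih h.1
    refine ⟨h.valid, ?_, ?_⟩
    · intro b q L' hq
      rw [List.suffix_cons_iff] at hq
      rcases hq with hq | hq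
      · obtain ⟨rfl, rfl⟩ := List.cons.inj hq
        have e1 := sc_of_holds hnd h.2.2 (a := c1E b) (by cases b <;> simp [csOf])
          (sc_c1E b)
        have e2 := sc_of_holds hnd h.2.2 (a := c2E b 8) (by cases b <;> simp [csOf])
          (sc_c2E b 8)
        simp only [neg_zero] at e1 e2
        push_cast at e2
        exact del_of (sg_eq b) e1 e2
      · exact hl.del b q L' hq
    · intro f hf
      have := sc_of_holds hnd h.2.2 (a := f.e) (by
        unfold csOf
        exact List.mem_append_right _ (List.mem_map.mpr ⟨f, hf, rfl⟩)) (f.sc n l p)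
      simpa using this

/-- the pair conditions bound everything -/
theorem mkSpec {d : ℕ} (hd : 0 < d) (P : Par) (F : List (Pot P d)) (T : ℕ → ℕ)
    (T_ptf : PTF (fun n : Un => T n.val)) (T_le : ∀ n, 2 * T n ≤ n * d) (c n0 : ℕ) (hn0 : 0 < n0)
    (hc : 2 ≤ c)
    (h0 : ∀ n, n0 ≤ n → Even n → ∀ f ∈ F, f.val n [] ≤ 0)
    (hstep : ∀ n, n0 ≤ n → Even n → ∀ l, St P d F n l → l.length < T n →
      ∃ x y : Fin (n * d), Pairs.Adm d n l ((x : ℕ), (y : ℕ)) ∧
        (∀ b, |KR P d n b l x y| ≤ 1 / 5) ∧ (∀ b, |KR P d n b l x x * KR P d n b l y y| ≤ 1 / 10) ∧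
        ∀ f ∈ F, f.val n (((x : ℕ), (y : ℕ)) :: l) ≤ -(1 / ((n : ℝ) + 2) ^ c))
    (hbnd : ∀ n, n0 ≤ n → Even n → ∀ l, St P d F n l → l.length < T n → ∀ b,
      Matrix.trace (KR P d n b l ^ 2) ≤ ((n : ℝ) + 2) ^ c) :
    ∃ S : Mach.Spec d, S.P = P ∧ S.cs = csOf F ∧ S.T = T ∧ S.n0 = n0 := by
  have hpos : ∀ n : ℕ, n0 ≤ n → 0 < n * d := fun n hn => Nat.mul_pos (lt_of_lt_of_le hn0 hn) hd
  refine ⟨{ P := P, cs := csOf F, T := T, T_ptf := T_ptf, T_le := T_le, c := c, n0 := n0,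
            step := ?_, bndK := ?_, bndD := ?_ }, rfl, rfl, rfl, rfl⟩
  · intro n hn hev l hG hlen
    have hst := st_of_good (hpos n hn) (h0 n hn hev) l hG
    obtain ⟨x, y, hadm, hk1, hk2, hf⟩ := hstep n hn hev l hst hlen
    have hη : 1 / ((n : ℝ) + 2) ^ c ≤ 1 / 5 := by
      have hn1 : (1 : ℝ) ≤ n := by exact_mod_cast Nat.one_le_iff_ne_zero.mpr (by omega)
      have h3 : (3 : ℝ) ≤ (n : ℝ) + 2 := by linarith
      have h9 : (5 : ℝ) ≤ ((n : ℝ) + 2) ^ c := by
        calc (5 : ℝ) ≤ ((n : ℝ) + 2) ^ 2 := by nlinarith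
          _ ≤ ((n : ℝ) + 2) ^ c := pow_le_pow_right₀ (by linarith) hc
      exact one_div_le_one_div_of_le (by norm_num) h9
    refine ⟨((x : ℕ), (y : ℕ)), hadm, ?_⟩
    apply holds_of_sc
    intro a ha
    unfold csOf at ha
    rw [List.mem_append] at ha
    have key1 : ∀ b, ((4 * P.K d n b l x y) ^ 2 - 1) ≤ -(1 / ((n : ℝ) + 2) ^ c) := fun b => by
      have h1 : |P.K d n b l x y| ≤ 1 / 5 := hk1 b
      rw [abs_le] at h1
      nlinarith [h1.1, h1.2]
    have key2 : ∀ b, (8 * (P.K d n b l x x * P.K d n b l y y) - 1) ≤ -(1 / ((n : ℝ) + 2) ^ c) ∧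
        (-8 * (P.K d n b l x x * P.K d n b l y y) - 1) ≤ -(1 / ((n : ℝ) + 2) ^ c) := fun b => by
      have h1 : |P.K d n b l x x * P.K d n b l y y| ≤ 1 / 10 := hk2 b
      rw [abs_le] at h1
      constructor <;> linarith [h1.1, h1.2]
    rcases ha with ha | ha
    · simp only [List.mem_cons, List.not_mem_nil, or_false] at ha
      rcases ha with rfl | rfl | rfl | rfl | rfl | rfl
      · exact ⟨_, sc_c1E true, key1 true⟩
      · exact ⟨_, sc_c1E false, key1 false⟩
      · exact ⟨_, sc_c2E true 8, by push_cast; exact (key2 true).1⟩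
      · exact ⟨_, sc_c2E true (-8), by push_cast; exact (key2 true).2⟩
      · exact ⟨_, sc_c2E false 8, by push_cast; exact (key2 false).1⟩
      · exact ⟨_, sc_c2E false (-8), by push_cast; exact (key2 false).2⟩
    · rw [List.mem_map] at ha
      obtain ⟨f, hfF, rfl⟩ := ha
      exact ⟨_, f.sc n l _, hf f hfF⟩
  · intro n hn hev l hG hlen p _ _ b i hi j hj
    have hst := st_of_good (hpos n hn) (h0 n hn hev) l hG
    have h1 := hbnd n hn hev l hst hlen b
    have hsym := Kmat_symm (P.gam.v n) (sg b) (P.mu.v n) n d l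
    have h2 : Matrix.trace (KR P d n b l ^ 2) = ∑ i, ∑ j, KR P d n b l i j ^ 2 := by
      rw [pow_two, Matrix.trace]
      refine Finset.sum_congr rfl fun i _ => ?_
      rw [Matrix.diag_apply, Matrix.mul_apply]
      refine Finset.sum_congr rfl fun j _ => ?_
      have : KR P d n b l j i = KR P d n b l i j := hsym.apply i j
      rw [this, pow_two]
    rw [h2] at h1
    set i' : Fin (n * d) := ⟨i, hi⟩
    set j' : Fin (n * d) := ⟨j, hj⟩
    have h3 : KR P d n b l i' j' ^ 2 ≤ ((n : ℝ) + 2) ^ c := by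
      refine le_trans ?_ h1
      refine le_trans ?_ (Finset.single_le_sum (f := fun i => ∑ j, KR P d n b l i j ^ 2)
        (fun i _ => Finset.sum_nonneg fun j _ => sq_nonneg _) (Finset.mem_univ i'))
      exact Finset.single_le_sum (f := fun j => KR P d n b l i' j ^ 2)
        (fun j _ => sq_nonneg _) (Finset.mem_univ j')
    have h4 : KR P d n b l i' j' = P.K d n b l i j := rfl
    rw [h4] at h3
    have h5 : (1 : ℝ) ≤ ((n : ℝ) + 2) ^ c := one_le_pow₀ (by
      have : (0 : ℝ) ≤ n := Nat.cast_nonneg n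
      linarith)
    have h6 : |P.K d n b l i j| ^ 2 ≤ (((n : ℝ) + 2) ^ c) ^ 2 := by
      rw [sq_abs]; nlinarith
    exact (pow_le_pow_iff_left₀ (abs_nonneg _) (by linarith) two_ne_zero).mp h6
  · intro n hn hev l hG hlen p hadm hH b
    have hst := st_of_good (hpos n hn) (h0 n hn hev) (p :: l) ⟨hG, hadm, hH⟩
    exact hst.del b p l (List.suffix_refl _)

open Classical in
/-- S0084 from the machine theorem and the step theorem -/
theorem final {d : ℕ} (hd : 3 ≤ d) (P : Par) (F : List (Pot P d)) (T : ℕ → ℕ)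
    (T_ptf : PTF (fun n : Un => T n.val)) (T_le : ∀ n, 2 * T n ≤ n * d) (c n0 : ℕ) (hn0 : 0 < n0)
    (hc : 2 ≤ c)
    (hmach : ∀ S : Mach.Spec d, ∃ n2 : ℕ, ∃ sel : Un → List (ℕ × ℕ), PTF sel ∧ ∀ n, n2 ≤ n →
      Even n → Mach.Good S.P d n S.cs (sel ⟨n⟩) ∧ (sel ⟨n⟩).length = S.T n)
    (hγ : ∀ n, n0 ≤ n → Even n → 0 < P.gam.v n ∧ P.gam.v n < 1 ∧
      0 < 2 * Real.sqrt ((d : ℝ) - 1) - P.gam.v n * d)
    (hμ : ∀ n, n0 ≤ n → Even n → P.mu.v n = Glue.muOf d (P.gam.v n))
    (hT : ∀ n, n0 ≤ n → Even n → 2 * T n + EndComplete.thr d ≤ n * d + 1)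
    (h0 : ∀ n, n0 ≤ n → Even n → ∀ f ∈ F, f.val n [] ≤ 0)
    (hstep : ∀ n, n0 ≤ n → Even n → ∀ l, St P d F n l → l.length < T n →
      ∃ x y : Fin (n * d), Pairs.Adm d n l ((x : ℕ), (y : ℕ)) ∧
        (∀ b, |KR P d n b l x y| ≤ 1 / 5) ∧ (∀ b, |KR P d n b l x x * KR P d n b l y y| ≤ 1 / 10) ∧
        ∀ f ∈ F, f.val n (((x : ℕ), (y : ℕ)) :: l) ≤ -(1 / ((n : ℝ) + 2) ^ c))
    (hbnd : ∀ n, n0 ≤ n → Even n → ∀ l, St P d F n l → l.length < T n → ∀ b,
      Matrix.trace (KR P d n b l ^ 2) ≤ ((n : ℝ) + 2) ^ c)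
    (hend : ∀ n, n0 ≤ n → Even n → ∀ l, St P d F n l → l.length = T n → ∀ b,
      Matrix.trace (KR P d n b l ^ 2) < 2) :
    ∃ n₀ : ℕ, ∃ F : List Bool → List Bool, Crest.Complexity.PolyTime F ∧
      ∀ n : ℕ, n₀ ≤ n → Even n →
        (Crest.CombinatoricsR.GraphCode.adjGraph n
            (F (Crest.CombinatoricsR.GraphCode.unary n))).IsRegularOfDegree d ∧
        ∀ x : Fin n → ℝ, ∑ i, x i = 0 → x ≠ 0 →
          |x ⬝ᵥ ((Crest.CombinatoricsR.GraphCode.adjGraph n
              (F (Crest.CombinatoricsR.GraphCode.unary n))).adjMatrix ℝ *ᵥ x)| <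
            2 * Real.sqrt ((d : ℝ) - 1) * (x ⬝ᵥ x) := by
  obtain ⟨S, hSP, hScs, hST, hSn⟩ := mkSpec (by omega : 0 < d) P F T T_ptf T_le c n0 hn0 hc h0 hstep
    hbnd
  refine Glue.glue hd S n0 (hmach S) (by rw [hSP]; exact hγ) (by rw [hSP]; exact hμ)
    (by rw [hST]; exact hT) ?_
  intro n hn hev l hG hlen b
  rw [hSP, hScs] at hG
  rw [hST] at hlen
  have hnd : 0 < n * d := Nat.mul_pos (lt_of_lt_of_le hn0 hn) (by omega)
  have hst := st_of_good hnd (h0 n hn hev) l hG
  have h1 := hend n hn hev l hst hlen b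
  have hsym := Kmat_symm (P.gam.v n) (sg b) (P.mu.v n) n d l
  have h2 : Matrix.trace (KR P d n b l ^ 2) = ∑ i, ∑ j, KR P d n b l i j ^ 2 := by
    rw [pow_two, Matrix.trace]
    refine Finset.sum_congr rfl fun i _ => ?_
    rw [Matrix.diag_apply, Matrix.mul_apply]
    refine Finset.sum_congr rfl fun j _ => ?_
    have : KR P d n b l j i = KR P d n b l i j := hsym.apply i j
    rw [this, pow_two]
  rw [h2] at h1
  rw [hSP]
  rw [Finset.sum_range]
  refine lt_of_eq_of_lt ?_ h1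
  refine Finset.sum_congr rfl fun i _ => ?_
  rw [Finset.sum_range]
  rfl

end Crest.Agent.R62.SpecOf
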