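import Crest.Agent.R62.Glue
import Crest.Agent.R62.Upd
import Crest.Agent.R62.Start

/-!
R62: the real state as a matrix on `Fin (n*d)`; the structural facts used by the analysis.
-/

set_option autoImplicit false
set_option linter.unusedSectionVars false
set_option linter.unusedSimpArgs false
set_option linter.unusedVariables false
open scoped Matrix BigOperators

namespace Crest.Agent.R62.State

open Crest.Agent.R62.Stub Crest.Agent.R062

/-- the stub matrix as a matrix on `Fin (n*d)` (zero rows and columns for dead stubs) -/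
noncomputable def Kmat (γ s μ : ℝ) (n d : ℕ) (L : List (ℕ × ℕ)) :
    Matrix (Fin (n * d)) (Fin (n * d)) ℝ := Matrix.of fun i j => Mach.Kof γ s μ n d L i j

lemma Kmat_apply (γ s μ : ℝ) (n d : ℕ) (L : List (ℕ × ℕ)) (i j : Fin (n * d)) :
    Kmat γ s μ n d L i j = Mach.Kof γ s μ n d L i j := rfl

lemma Kmat_nil (γ s μ : ℝ) (n d : ℕ) : Kmat γ s μ n d [] = Start.K0m γ s μ n d := by
  ext i j; rfl

lemma K0_symm (γ s μ : ℝ) (n d i j : ℕ) : Mach.K0 γ s μ n d i j = Mach.K0 γ s μ n d j i := by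
  simp only [Mach.K0, and_comm (a := i < n * d), eq_comm (a := i / d), eq_comm (a := i)]

lemma Kof_symm (γ s μ : ℝ) (n d : ℕ) (L : List (ℕ × ℕ)) (i j : ℕ) :
    Mach.Kof γ s μ n d L i j = Mach.Kof γ s μ n d L j i := by
  induction L generalizing i j with
  | nil => exact K0_symm γ s μ n d i j
  | cons p L ih =>
    simp only [Mach.Kof, Mach.upd, Mach.updNum]
    by_cases h : i = p.1 ∨ i = p.2 ∨ j = p.1 ∨ j = p.2
    · rw [if_pos h, if_pos (by tauto)]
    · rw [if_neg h, if_neg (by tauto), ih i j, ih i p.1, ih i p.2, ih p.1 j, ih p.2 j]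
      ring

lemma Kmat_symm (γ s μ : ℝ) (n d : ℕ) (L : List (ℕ × ℕ)) : (Kmat γ s μ n d L).IsSymm := by
  ext i j
  rw [Matrix.transpose_apply, Kmat_apply, Kmat_apply, Kof_symm]

lemma dead_iff {L : List (ℕ × ℕ)} {i : ℕ} : Bridge.dead L i ↔ ¬ Mach.unused L i := by
  unfold Bridge.dead Mach.unused
  push Not
  constructor
  · rintro ⟨p, hp, h⟩
    refine ⟨p, hp, fun h1 => ?_⟩
    rcases h with h | h
    · exact absurd h.symm h1
    · exact h.symm
  · rintro ⟨p, hp, h⟩
    refine ⟨p, hp, ?_⟩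
    by_cases h1 : p.1 = i
    · exact Or.inl h1.symm
    · exact Or.inr (h h1).symm

lemma Kmat_dead_left (γ s μ : ℝ) (n d : ℕ) (L : List (ℕ × ℕ)) (i j : Fin (n * d))
    (h : ¬ Mach.unused L i) : Kmat γ s μ n d L i j = 0 := by
  rw [Kmat_apply, Glue.Kof_eq]
  exact Bridge.Kof_dead γ s μ n d L i j (Or.inl (dead_iff.mpr h))

lemma Kmat_dead_right (γ s μ : ℝ) (n d : ℕ) (L : List (ℕ × ℕ)) (i j : Fin (n * d))
    (h : ¬ Mach.unused L j) : Kmat γ s μ n d L i j = 0 := by
  rw [Kmat_apply, Glue.Kof_eq]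
  exact Bridge.Kof_dead γ s μ n d L i j (Or.inr (dead_iff.mpr h))

/-- one step is the Schur step of `Upd` -/
lemma Kmat_cons (γ s μ : ℝ) (n d : ℕ) (L : List (ℕ × ℕ)) (x y : Fin (n * d)) :
    Kmat γ s μ n d (((x : ℕ), (y : ℕ)) :: L) = Upd.upd s (Kmat γ s μ n d L) x y := by
  ext i j
  rw [Kmat_apply, Mach.Kof, Upd.upd]
  simp only [Mach.upd, Upd.Pi2, Fin.ext_iff]
  split_ifs
  · rfl
  · rw [Upd.Khat_apply]
    simp only [Upd.Bxx, Upd.Bxy, Upd.Byy, Upd.Dl, Kmat_apply, Mach.updNum, Mach.Del]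
    rw [Kof_symm γ s μ n d L (x : ℕ) (j : ℕ), Kof_symm γ s μ n d L (y : ℕ) (j : ℕ)]
    ring

lemma Dl_eq (γ s μ : ℝ) (n d : ℕ) (L : List (ℕ × ℕ)) (x y : Fin (n * d)) :
    Upd.Dl s (Kmat γ s μ n d L) x y = Mach.Del s (Mach.Kof γ s μ n d L) x y := rfl

/-- indicator of the live stubs -/
noncomputable def uv (n d : ℕ) (L : List (ℕ × ℕ)) : Fin (n * d) → ℝ :=
  fun i => if Mach.unused L i then 1 else 0

lemma uv_nil (n d : ℕ) : uv n d [] = fun _ => 1 := by
  funext i; simp [uv, Mach.unused]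

lemma unused_cons {L : List (ℕ × ℕ)} {p : ℕ × ℕ} {i : ℕ} :
    Mach.unused (p :: L) i ↔ (p.1 ≠ i ∧ p.2 ≠ i) ∧ Mach.unused L i := by
  simp [Mach.unused]

lemma uv_cons (n d : ℕ) (L : List (ℕ × ℕ)) (x y i : Fin (n * d)) :
    uv n d (((x : ℕ), (y : ℕ)) :: L) i = if i = x ∨ i = y then 0 else uv n d L i := by
  unfold uv
  by_cases h : i = x ∨ i = y
  · rw [if_pos h, if_neg]
    rw [unused_cons]
    rintro ⟨⟨h1, h2⟩, _⟩
    rcases h with rfl | rfl
    · exact h1 rfl
    · exact h2 rfl
  · rw [if_neg h]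
    push Not at h
    have h1 : ((x : ℕ) ≠ (i : ℕ) ∧ (y : ℕ) ≠ (i : ℕ)) :=
      ⟨fun e => h.1 (Fin.ext e).symm, fun e => h.2 (Fin.ext e).symm⟩
    by_cases hu : Mach.unused L i
    · rw [if_pos hu, if_pos (unused_cons.mpr ⟨h1, hu⟩)]
    · rw [if_neg hu, if_neg fun hh => hu (unused_cons.mp hh).2]

/-- `K u = s u` -/
theorem Kmat_row {γ s μ : ℝ} {n d : ℕ} (hs : s = 1 ∨ s = -1) (hn : 0 < n) (hd : 0 < d)
    (L : List (ℕ × ℕ)) (hL : Bridge.Mat n d L)
    (hD : ∀ p L', (p :: L') <:+ L → Mach.Del s (Mach.Kof γ s μ n d L') p.1 p.2 ≠ 0) :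
    (Kmat γ s μ n d L) *ᵥ (uv n d L) = s • uv n d L := by
  have hs2 : s ^ 2 = 1 := by rcases hs with rfl | rfl <;> norm_num
  induction L with
  | nil =>
    funext i
    simp only [Matrix.mulVec, dotProduct, uv_nil, mul_one, Pi.smul_apply, smul_eq_mul]
    have hdiv : (i : ℕ) / d < n := Nat.div_lt_of_lt_mul (by
      have := i.isLt; rw [mul_comm d n]; exact this)
    have e1 : ∑ j : Fin (n * d), Kmat γ s μ n d [] i j
        = ∑ j : Fin (n * d), ((if (i : ℕ) / d = (j : ℕ) / d then μ else 0)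
          - (if i = j then γ else 0) + ((γ + s) / (n * d) - μ / n)) := by
      refine Finset.sum_congr rfl fun j _ => ?_
      rw [Kmat_nil, Start.K0m_apply]; ring
    have e2 : ∑ j : Fin (n * d), (if (i : ℕ) / d = (j : ℕ) / d then μ else 0) = d * μ := by
      rw [← Finset.sum_filter, Finset.sum_const, Start.card_block, nsmul_eq_mul]
    rw [e1, Finset.sum_add_distrib, Finset.sum_sub_distrib, e2, Finset.sum_ite_eq,
      Finset.sum_const, Finset.card_univ, Fintype.card_fin, nsmul_eq_mul]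
    simp only [Finset.mem_univ, if_true]
    have hn' : (n : ℝ) ≠ 0 := by exact_mod_cast hn.ne'
    have hd' : (d : ℝ) ≠ 0 := by exact_mod_cast hd.ne'
    push_cast
    field_simp
    ring
  | cons p L ih =>
    obtain ⟨x0, y0⟩ := p
    have hL' := hL
    obtain ⟨h1, hx, hy, hdx, hdy, hxy⟩ := hL
    simp only at hx hy hdx hdy hxy
    have ih' := ih h1 fun p L' hp => hD p L' (hp.trans (List.suffix_cons _ _))
    have hDel := hD (x0, y0) L (List.suffix_refl _)
    simp only at hDel
    set x : Fin (n * d) := ⟨x0, hx⟩ with hxdef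
    set y : Fin (n * d) := ⟨y0, hy⟩ with hydef
    have hxy' : x ≠ y := fun h => hxy (by
      have : x0 = y0 := by simpa [hxdef, hydef] using h
      rw [this])
    have ecs : Kmat γ s μ n d ((x0, y0) :: L) = Upd.upd s (Kmat γ s μ n d L) x y :=
      Kmat_cons γ s μ n d L x y
    have ecu : ∀ i, uv n d ((x0, y0) :: L) i = if i = x ∨ i = y then 0 else uv n d L i :=
      fun i => uv_cons n d L x y i
    have hsym := Kmat_symm γ s μ n d L
    have hDl : Upd.Dl s (Kmat γ s μ n d L) x y ≠ 0 := hDel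
    rw [ecs]
    generalize hK : Kmat γ s μ n d L = K at *
    have hrow : ∀ i, ∑ j, K i j * uv n d L j = s * uv n d L i := fun i => by
      have := congrFun ih' i
      simpa [Matrix.mulVec, dotProduct] using this
    have hux : uv n d L x = 1 := by
      have : Mach.unused L x0 := by by_contra h; exact hdx (dead_iff.mpr h)
      simp [uv, hxdef, this]
    have huy : uv n d L y = 1 := by
      have : Mach.unused L y0 := by by_contra h; exact hdy (dead_iff.mpr h)
      simp [uv, hydef, this]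
    funext i
    simp only [Matrix.mulVec, dotProduct, Pi.smul_apply, smul_eq_mul, ecu]
    by_cases hi : i = x ∨ i = y
    · rw [if_pos hi, mul_zero]
      exact Finset.sum_eq_zero fun j _ => by
        rcases hi with rfl | rfl <;> simp [Upd.upd, Upd.Pi2]
    · rw [if_neg hi]
      push Not at hi
      have e1 : ∀ j, Upd.upd s K x y i j * (if j = x ∨ j = y then 0 else uv n d L j)
          = if j = x ∨ j = y then 0 else Upd.Khat s K x y i j * uv n d L j := fun j => by
        by_cases hj : j = x ∨ j = y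
        · rw [if_pos hj, if_pos hj, mul_zero]
        · rw [if_neg hj, if_neg hj]
          push Not at hj
          rw [Upd.upd, Upd.Pi2_apply_of_ne _ hi.1 hi.2 hj.1 hj.2]
      simp_rw [e1]
      rw [Upd.sum_ne x y hxy', Upd.Khat_col_x hs2 hsym hDl, Upd.Khat_col_y hs2 hsym hDl, hux, huy]
      have e2 : ∑ j, Upd.Khat s K x y i j * uv n d L j
          = s * uv n d L i + (Upd.Bxx s K x y * K i x * s + Upd.Bxy s K x y * (K i x * s + K i y * s)
            + Upd.Byy s K x y * K i y * s) := by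
        have e3 : ∀ j, Upd.Khat s K x y i j * uv n d L j = K i j * uv n d L j
            + (Upd.Bxx s K x y * K i x + Upd.Bxy s K x y * K i y) * (K x j * uv n d L j)
            + (Upd.Bxy s K x y * K i x + Upd.Byy s K x y * K i y) * (K y j * uv n d L j) :=
          fun j => by
            rw [Upd.Khat_apply, hsym.apply x j, hsym.apply y j]; ring
        simp_rw [e3]
        rw [Finset.sum_add_distrib, Finset.sum_add_distrib, ← Finset.mul_sum, ← Finset.mul_sum,
          hrow, hrow, hrow, hux, huy]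
        ring
      rw [e2]
      simp only [Upd.Bxx, Upd.Bxy, Upd.Byy]
      have hDe : Upd.Dl s K x y = (1 - s * K x y) ^ 2 - K x x * K y y := rfl
      field_simp
      rcases hs with rfl | rfl
      · linear_combination (0 : ℝ) * hDe
      · linear_combination (0 : ℝ) * hDe


/-- number of live stubs -/
lemma uv_sum {n d : ℕ} (L : List (ℕ × ℕ)) (hL : Bridge.Mat n d L) :
    ∑ i, uv n d L i = (n : ℝ) * d - 2 * (L.length : ℝ) := by
  induction L with
  | nil => simp [uv_nil]
  | cons p L ih =>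
    obtain ⟨x0, y0⟩ := p
    obtain ⟨h1, hx, hy, hdx, hdy, hxy⟩ := hL
    simp only at hx hy hdx hdy hxy
    set x : Fin (n * d) := ⟨x0, hx⟩ with hxdef
    set y : Fin (n * d) := ⟨y0, hy⟩ with hydef
    have hxy' : x ≠ y := fun h => hxy (by
      have : x0 = y0 := by simpa [hxdef, hydef] using h
      rw [this])
    have ecu : ∀ i, uv n d ((x0, y0) :: L) i = if i = x ∨ i = y then 0 else uv n d L i :=
      fun i => uv_cons n d L x y i
    simp_rw [ecu]
    have hux : uv n d L x = 1 := by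
      have : Mach.unused L x0 := by by_contra h; exact hdx (dead_iff.mpr h)
      simp [uv, hxdef, this]
    have huy : uv n d L y = 1 := by
      have : Mach.unused L y0 := by by_contra h; exact hdy (dead_iff.mpr h)
      simp [uv, hydef, this]
    rw [Upd.sum_ne x y hxy', ih h1, hux, huy, List.length_cons]
    push_cast
    ring

open Classical in
/-- `K ≥ -γ` on sum zero vectors supported on the live stubs -/
theorem Kmat_ge {γ s b : ℝ} {n d : ℕ} (hs : s = 1 ∨ s = -1) (hγ0 : 0 < γ) (hγ1 : γ < 1)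
    (hb : 0 < b - γ * d) (hn : 0 < n) (hd : 0 < d)
    (L : List (ℕ × ℕ)) (hL : Bridge.Mat n d L) (hlen : 2 * L.length < n * d)
    (hD : ∀ p L', (p :: L') <:+ L →
      0 < Mach.Del s (Mach.Kof γ s ((1 - γ ^ 2) / (b - γ * d)) n d L') p.1 p.2)
    (f : Fin (n * d) → ℝ) (hf : ∑ i, uv n d L i * f i = 0) :
    -γ * ∑ i, uv n d L i * f i ^ 2
      ≤ f ⬝ᵥ (Kmat γ s ((1 - γ ^ 2) / (b - γ * d)) n d L *ᵥ f) := by
  have : NeZero n := ⟨hn.ne'⟩
  have hdr : (d : ℝ) ≠ 0 := by exact_mod_cast hd.ne'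
  set μ := (1 - γ ^ 2) / (b - γ * d) with hμ
  have hDP : Bridge.DelPos γ s μ n d L := Glue.delPos_of L hD
  have hgood := Bridge.good_of_delPos L hL hlen hDP
  have hInv := Good.inv hs hγ0 hγ1 hb hdr (Bridge.mapL n d L) hgood
  set M := runM γ s μ (d : ℝ) (Bridge.mapL n d L) with hM
  set g : Fin (n * d) → ℝ := fun i => uv n d L i * f i with hg
  set c : Fin n → ℝ := fun v => ∑ i : Fin (n * d), if Bridge.vtx n d i = v then g i else 0 with hc
  have hc0 : ∑ v, c v = 0 := by
    rw [hc, Finset.sum_comm]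
    simp only [Finset.sum_ite_eq, Finset.mem_univ, if_true]
    exact hf
  have h1 := hInv.form_nonneg hγ0 hγ1 c hc0
  have h2 : ∑ v, ∑ w, c v * c w * M v w
      = ∑ i, ∑ j, g i * g j * M (Bridge.vtx n d i) (Bridge.vtx n d j) := by
    have e1 : ∀ φ : Fin n → ℝ, ∑ v, c v * φ v = ∑ i, g i * φ (Bridge.vtx n d i) := fun φ => by
      simp only [hc, Finset.sum_mul]
      rw [Finset.sum_comm]
      refine Finset.sum_congr rfl fun i _ => ?_
      simp only [ite_mul, zero_mul, Finset.sum_ite_eq, Finset.mem_univ, if_true]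
    have e2 : ∀ v, ∑ w, c v * c w * M v w = c v * ∑ j, g j * M v (Bridge.vtx n d j) := fun v => by
      rw [← e1 (fun w => M v w), Finset.mul_sum]
      exact Finset.sum_congr rfl fun w _ => by ring
    simp only [e2]
    rw [e1 (fun v => ∑ j, g j * M v (Bridge.vtx n d j))]
    refine Finset.sum_congr rfl fun i _ => ?_
    rw [Finset.mul_sum]
    exact Finset.sum_congr rfl fun j _ => by ring
  rw [h2] at h1
  have h3 : f ⬝ᵥ (Kmat γ s μ n d L *ᵥ f)
      = ∑ i, ∑ j, g i * g j * M (Bridge.vtx n d i) (Bridge.vtx n d j)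
        - γ * ∑ i, uv n d L i * f i ^ 2 := by
    have e0 : f ⬝ᵥ (Kmat γ s μ n d L *ᵥ f) = ∑ i, ∑ j, f i * Kmat γ s μ n d L i j * f j :=
      bil_eq_sum _ _ _
    rw [e0, Finset.mul_sum, ← Finset.sum_sub_distrib]
    refine Finset.sum_congr rfl fun i _ => ?_
    by_cases hi : Mach.unused L i
    · have hi' : ¬ Bridge.dead L i := fun h => (dead_iff.mp h) hi
      have e1 : ∀ j, f i * Kmat γ s μ n d L i j * f j
          = g i * g j * M (Bridge.vtx n d i) (Bridge.vtx n d j)
            - (if i = j then γ * (f i * g j) else 0) := fun j => by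
        by_cases hj : Mach.unused L j
        · have hj' : ¬ Bridge.dead L j := fun h => (dead_iff.mp h) hj
          have e2 : Kmat γ s μ n d L i j = M (Bridge.vtx n d i) (Bridge.vtx n d j)
              - (if (i : ℕ) = (j : ℕ) then γ else 0) := by
            rw [Kmat_apply, Glue.Kof_eq]
            exact Bridge.Kof_eq γ s μ n d L hL i j i.isLt j.isLt hi' hj'
          rw [e2]
          simp only [hg, uv, if_pos hi, if_pos hj, one_mul, ← Fin.ext_iff]
          split_ifs <;> ring
        · rw [Kmat_dead_right γ s μ n d L i j hj]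
          simp only [hg, uv, if_neg hj, zero_mul, mul_zero]
          split_ifs <;> ring
      simp only [e1, Finset.sum_sub_distrib, Finset.sum_ite_eq, Finset.mem_univ, if_true]
      simp only [hg]
      ring
    · have e1 : ∀ j, f i * Kmat γ s μ n d L i j * f j = 0 := fun j => by
        rw [Kmat_dead_left γ s μ n d L i j hi]; ring
      simp only [e1, hg, uv, if_neg hi, zero_mul, Finset.sum_const_zero, mul_zero, sub_zero]
  rw [h3]
  linarith

end Crest.Agent.R62.State
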