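import Mathlib

/-!
R62: the exact stub-matrix model (helper230 / helper704 / helper800), linear algebra layer.
Vertex level: `M v w` is the stub matrix entry between (different) stubs at `v` and `w`; the
diagonal stub entry is `M v v - γ`.
-/

set_option autoImplicit false
set_option linter.unusedSectionVars false
set_option linter.unusedSimpArgs false
set_option linter.unusedVariables false
open scoped Matrix BigOperators

namespace Crest.Agent.R62.Stub

variable {V : Type*} [Fintype V] [DecidableEq V]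

/-- positive definiteness as a quadratic form -/
def QPos (B : Matrix V V ℝ) : Prop := ∀ f : V → ℝ, f ≠ 0 → 0 < f ⬝ᵥ (B *ᵥ f)

/-- the rank one matrix `p pᵀ` -/
def sq (p : V → ℝ) : Matrix V V ℝ := Matrix.vecMulVec p p

lemma sq_mulVec (p f : V → ℝ) : sq p *ᵥ f = (p ⬝ᵥ f) • p := by
  ext i
  simp only [sq, Matrix.mulVec, Matrix.vecMulVec_apply, dotProduct, Pi.smul_apply, smul_eq_mul,
    Finset.sum_mul, Finset.mul_sum]
  refine Finset.sum_congr rfl fun j _ => by ring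

lemma sq_form (p f : V → ℝ) : f ⬝ᵥ (sq p *ᵥ f) = (p ⬝ᵥ f) ^ 2 := by
  rw [sq_mulVec, dotProduct_smul, smul_eq_mul, dotProduct_comm f p]; ring

/-- bilinear form of `G` -/
def bil (G : Matrix V V ℝ) (x y : V → ℝ) : ℝ := x ⬝ᵥ (G *ᵥ y)

lemma bil_add_left (G : Matrix V V ℝ) (x x' y : V → ℝ) :
    bil G (x + x') y = bil G x y + bil G x' y := by
  simp [bil, add_dotProduct]

lemma bil_sub_left (G : Matrix V V ℝ) (x x' y : V → ℝ) :
    bil G (x - x') y = bil G x y - bil G x' y := by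
  simp [bil, sub_dotProduct]

lemma bil_smul_left (G : Matrix V V ℝ) (c : ℝ) (x y : V → ℝ) :
    bil G (c • x) y = c * bil G x y := by
  simp [bil, smul_dotProduct]

lemma bil_add_right (G : Matrix V V ℝ) (x y y' : V → ℝ) :
    bil G x (y + y') = bil G x y + bil G x y' := by
  simp [bil, Matrix.mulVec_add, dotProduct_add]

lemma bil_sub_right (G : Matrix V V ℝ) (x y y' : V → ℝ) :
    bil G x (y - y') = bil G x y - bil G x y' := by
  simp [bil, Matrix.mulVec_sub, dotProduct_sub]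

lemma bil_smul_right (G : Matrix V V ℝ) (c : ℝ) (x y : V → ℝ) :
    bil G x (c • y) = c * bil G x y := by
  simp [bil, Matrix.mulVec_smul, dotProduct_smul]

lemma bil_symm {G : Matrix V V ℝ} (hG : Gᵀ = G) (x y : V → ℝ) : bil G x y = bil G y x := by
  unfold bil
  rw [Matrix.dotProduct_mulVec, ← Matrix.mulVec_transpose, hG, dotProduct_comm]

/-- Cauchy–Schwarz for the rank one vector `q`. -/
lemma cs {B G : Matrix V V ℝ} (hB : QPos B) (hBs : Bᵀ = B) (hG : B * G = 1) (q f : V → ℝ) :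
    (q ⬝ᵥ f) ^ 2 ≤ bil G q q * bil B f f := by
  classical
  have hBG : ∀ q : V → ℝ, B *ᵥ (G *ᵥ q) = q := fun q => by
    rw [Matrix.mulVec_mulVec, hG, Matrix.one_mulVec]
  have hnn : ∀ x : V → ℝ, 0 ≤ bil B x x := fun x => by
    by_cases hx : x = 0
    · subst hx; simp [bil]
    · exact (hB x hx).le
  have h1 : ∀ x : V → ℝ, bil B x (G *ᵥ q) = x ⬝ᵥ q := fun x => by
    unfold bil; rw [hBG]
  have h2 : ∀ x : V → ℝ, bil B (G *ᵥ q) x = x ⬝ᵥ q := fun x => by
    rw [bil_symm hBs, h1]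
  have hτ : bil B (G *ᵥ q) (G *ᵥ q) = bil G q q := by
    rw [h1]; unfold bil; rw [dotProduct_comm]
  have key : ∀ t : ℝ, 0 ≤ bil B f f - 2 * t * (q ⬝ᵥ f) + t ^ 2 * bil G q q := by
    intro t
    have := hnn (f - t • (G *ᵥ q))
    rw [bil_sub_left, bil_sub_right, bil_sub_right, bil_smul_left, bil_smul_left, bil_smul_right,
      bil_smul_right, h1, h2, hτ] at this
    rw [dotProduct_comm q f]
    nlinarith [this]
  by_cases hq : q = 0
  · subst hq; simp [bil]
  have hGq : G *ᵥ q ≠ 0 := by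
    intro h0
    have := hBG q
    rw [h0, Matrix.mulVec_zero] at this
    exact hq this.symm
  have hpos : 0 < bil G q q := by rw [← hτ]; exact hB _ hGq
  have h := key ((q ⬝ᵥ f) / bil G q q)
  have h3 : bil B f f - 2 * ((q ⬝ᵥ f) / bil G q q) * (q ⬝ᵥ f)
      + ((q ⬝ᵥ f) / bil G q q) ^ 2 * bil G q q = bil B f f - (q ⬝ᵥ f) ^ 2 / bil G q q := by
    field_simp; ring
  rw [h3] at h
  have h4 : (q ⬝ᵥ f) ^ 2 / bil G q q ≤ bil B f f := by linarith
  rw [div_le_iff₀ hpos] at h4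
  linarith [h4, mul_comm (bil B f f) (bil G q q)]

lemma bil_self_pos {B G : Matrix V V ℝ} (hB : QPos B) (hG : B * G = 1)
    {q : V → ℝ} (hq : q ≠ 0) : 0 < bil G q q := by
  have hBG : B *ᵥ (G *ᵥ q) = q := by
    rw [Matrix.mulVec_mulVec, hG, Matrix.one_mulVec]
  have hGq : G *ᵥ q ≠ 0 := by
    intro h0
    rw [h0, Matrix.mulVec_zero] at hBG
    exact hq hBG.symm
  have := hB _ hGq
  rw [hBG] at this
  unfold bil; rwa [dotProduct_comm]

lemma bil_self_nonneg {B G : Matrix V V ℝ} (hB : QPos B) (hG : B * G = 1)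
    (q : V → ℝ) : 0 ≤ bil G q q := by
  by_cases hq : q = 0
  · subst hq; simp [bil]
  · exact (bil_self_pos hB hG hq).le

/-- inverse after a rank two update -/
noncomputable def inv2 (G : Matrix V V ℝ) (p q : V → ℝ) (x y : ℝ) : Matrix V V ℝ :=
  let P := bil G p p
  let Q := bil G q q
  let R := bil G p q
  let δ := (1 + x * P) * (1 + y * Q) - x * y * R ^ 2
  G - (x * (1 + y * Q) / δ) • Matrix.vecMulVec (G *ᵥ p) (G *ᵥ p)
    - (y * (1 + x * P) / δ) • Matrix.vecMulVec (G *ᵥ q) (G *ᵥ q)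
    + (x * y * R / δ) • (Matrix.vecMulVec (G *ᵥ p) (G *ᵥ q) + Matrix.vecMulVec (G *ᵥ q) (G *ᵥ p))

lemma mulVec_ext {A B : Matrix V V ℝ} (h : ∀ f, A *ᵥ f = B *ᵥ f) : A = B := by
  ext i j
  have := congrFun (h (Pi.single j 1)) i
  simpa using this

lemma vmv_mulVec (p q f : V → ℝ) : Matrix.vecMulVec p q *ᵥ f = (q ⬝ᵥ f) • p := by
  ext i
  simp only [Matrix.mulVec, Matrix.vecMulVec_apply, dotProduct, Pi.smul_apply, smul_eq_mul,
    Finset.sum_mul]
  refine Finset.sum_congr rfl fun j _ => by ring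

lemma inv2_mulVec (G : Matrix V V ℝ) (hGs : Gᵀ = G) (p q : V → ℝ) (x y : ℝ) (f : V → ℝ) :
    inv2 G p q x y *ᵥ f = G *ᵥ f
      - ((x * (1 + y * bil G q q) / ((1 + x * bil G p p) * (1 + y * bil G q q)
          - x * y * (bil G p q) ^ 2)) * bil G p f) • (G *ᵥ p)
      - ((y * (1 + x * bil G p p) / ((1 + x * bil G p p) * (1 + y * bil G q q)
          - x * y * (bil G p q) ^ 2)) * bil G q f) • (G *ᵥ q)
      + ((x * y * bil G p q / ((1 + x * bil G p p) * (1 + y * bil G q q)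
          - x * y * (bil G p q) ^ 2))) • (bil G q f • (G *ᵥ p) + bil G p f • (G *ᵥ q)) := by
  have hb : ∀ z w : V → ℝ, (G *ᵥ z) ⬝ᵥ w = bil G z w := fun z w => by
    rw [bil_symm hGs]; unfold bil; rw [dotProduct_comm]
  unfold inv2
  simp only [Matrix.add_mulVec, Matrix.sub_mulVec, Matrix.smul_mulVec, vmv_mulVec, hb, smul_smul]

lemma inv2_symm {G : Matrix V V ℝ} (hGs : Gᵀ = G) (p q : V → ℝ) (x y : ℝ) :
    (inv2 G p q x y)ᵀ = inv2 G p q x y := by
  unfold inv2
  simp only [Matrix.transpose_add, Matrix.transpose_sub, Matrix.transpose_smul,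
    Matrix.transpose_vecMulVec, hGs]
  rw [add_comm (Matrix.vecMulVec (G *ᵥ q) (G *ᵥ p))]

lemma mul_inv2 {B G : Matrix V V ℝ} (hGs : Gᵀ = G) (hG : B * G = 1) (p q : V → ℝ) (x y : ℝ)
    (hδ : (1 + x * bil G p p) * (1 + y * bil G q q) - x * y * (bil G p q) ^ 2 ≠ 0) :
    (B + x • sq p + y • sq q) * inv2 G p q x y = 1 := by
  have hBG : ∀ q : V → ℝ, B *ᵥ (G *ᵥ q) = q := fun q => by
    rw [Matrix.mulVec_mulVec, hG, Matrix.one_mulVec]
  apply mulVec_ext
  intro f
  rw [← Matrix.mulVec_mulVec, inv2_mulVec G hGs, Matrix.one_mulVec]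
  simp only [Matrix.add_mulVec, Matrix.smul_mulVec, Matrix.mulVec_add, Matrix.mulVec_sub,
    Matrix.mulVec_smul, hBG, sq_mulVec]
  have hpp : ∀ z w : V → ℝ, z ⬝ᵥ (G *ᵥ w) = bil G z w := fun z w => rfl
  simp only [dotProduct_add, dotProduct_sub, dotProduct_smul, hpp, smul_eq_mul]
  rw [bil_symm hGs q p]
  set P := bil G p p
  set Q := bil G q q
  set R := bil G p q
  set δ := (1 + x * P) * (1 + y * Q) - x * y * R ^ 2 with hδd
  ext i
  simp only [Pi.add_apply, Pi.sub_apply, Pi.smul_apply, smul_eq_mul]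
  field_simp
  rw [hδd]
  ring


lemma QPos.nonneg {B : Matrix V V ℝ} (hB : QPos B) (f : V → ℝ) : 0 ≤ bil B f f := by
  by_cases hx : f = 0
  · subst hx; simp [bil]
  · exact (hB f hx).le

lemma sq_symm (p : V → ℝ) : (sq p)ᵀ = sq p := by
  unfold sq; rw [Matrix.transpose_vecMulVec]

lemma bil_sq (p f g : V → ℝ) : bil (sq p) f g = (p ⬝ᵥ f) * (p ⬝ᵥ g) := by
  unfold bil
  rw [sq_mulVec, dotProduct_smul, smul_eq_mul, dotProduct_comm f p]; ring

lemma bil_add_mat (A B : Matrix V V ℝ) (f g : V → ℝ) :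
    bil (A + B) f g = bil A f g + bil B f g := by
  simp [bil, Matrix.add_mulVec, dotProduct_add]

lemma bil_sub_mat (A B : Matrix V V ℝ) (f g : V → ℝ) :
    bil (A - B) f g = bil A f g - bil B f g := by
  simp [bil, Matrix.sub_mulVec, dotProduct_sub]

lemma bil_smul_mat (c : ℝ) (A : Matrix V V ℝ) (f g : V → ℝ) :
    bil (c • A) f g = c * bil A f g := by
  simp [bil, Matrix.smul_mulVec, dotProduct_smul]

/-- rank one update keeps positivity -/
lemma QPos.rankOne {B G : Matrix V V ℝ} (hB : QPos B) (hBs : Bᵀ = B) (hG : B * G = 1)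
    (q : V → ℝ) (z : ℝ) (hz : 0 < 1 + z * bil G q q) : QPos (B + z • sq q) := by
  intro f hf
  have h1 := cs hB hBs hG q f
  have h2 : 0 < bil B f f := hB f hf
  change 0 < bil (B + z • sq q) f f
  rw [bil_add_mat, bil_smul_mat, bil_sq]
  rcases le_or_gt 0 z with h | h
  · nlinarith [mul_nonneg h (sq_nonneg (q ⬝ᵥ f))]
  · nlinarith [mul_le_mul_of_nonpos_left h1 h.le, mul_pos hz h2]

lemma QPos.rankTwo_aux {B G : Matrix V V ℝ} (hB : QPos B) (hBs : Bᵀ = B) (hG : B * G = 1)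
    (hGs : Gᵀ = G) (p q : V → ℝ) (x y : ℝ) (hx : 0 ≤ x)
    (hδ : 0 < (1 + x * bil G p p) * (1 + y * bil G q q) - x * y * (bil G p q) ^ 2) :
    QPos (B + x • sq p + y • sq q) := by
  have hP : 0 ≤ bil G p p := bil_self_nonneg hB hG p
  have h1 : 0 < 1 + x * bil G p p := by nlinarith [mul_nonneg hx hP]
  have hB1 : QPos (B + x • sq p) := hB.rankOne hBs hG p x h1
  have hG1 : (B + x • sq p) * inv2 G p q x 0 = 1 := by
    have := mul_inv2 (B := B) hGs hG p q x 0 (by simpa using h1.ne')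
    simpa using this
  have hB1s : (B + x • sq p)ᵀ = B + x • sq p := by
    rw [Matrix.transpose_add, Matrix.transpose_smul, sq_symm, hBs]
  refine hB1.rankOne hB1s hG1 q y ?_
  have hval : bil (inv2 G p q x 0) q q
      = bil G q q - x * (bil G p q) ^ 2 / (1 + x * bil G p p) := by
    unfold bil
    rw [inv2_mulVec G hGs]
    have hpp : ∀ z w : V → ℝ, z ⬝ᵥ (G *ᵥ w) = bil G z w := fun z w => rfl
    simp only [dotProduct_add, dotProduct_sub, dotProduct_smul, hpp, smul_eq_mul]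
    rw [bil_symm hGs q p]
    simp
    ring
  rw [hval]
  have : (1 + y * (bil G q q - x * (bil G p q) ^ 2 / (1 + x * bil G p p)))
      = ((1 + x * bil G p p) * (1 + y * bil G q q) - x * y * (bil G p q) ^ 2)
        / (1 + x * bil G p p) := by
    field_simp
    ring
  rw [this]
  exact div_pos hδ h1

/-- rank two update, one of the two coefficients being nonnegative -/
lemma QPos.rankTwo {B G : Matrix V V ℝ} (hB : QPos B) (hBs : Bᵀ = B) (hG : B * G = 1)
    (hGs : Gᵀ = G) (p q : V → ℝ) (x y : ℝ) (hxy : 0 ≤ x ∨ 0 ≤ y)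
    (hδ : 0 < (1 + x * bil G p p) * (1 + y * bil G q q) - x * y * (bil G p q) ^ 2) :
    QPos (B + x • sq p + y • sq q) := by
  rcases hxy with h | h
  · exact hB.rankTwo_aux hBs hG hGs p q x y h hδ
  · have := hB.rankTwo_aux hBs hG hGs q p y x h (by
      rw [bil_symm hGs q p]; nlinarith [hδ])
    rw [add_right_comm] at this
    exact this

/-! ### The model -/

/-- `v̂ = e_v - r/ρ` -/
noncomputable def hat (r : V → ℝ) (ρ : ℝ) (v : V) : V → ℝ := Pi.single v 1 - ρ⁻¹ • r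

/-- `B = b - s (A + r rᵀ/ρ) - γ (diag r - r rᵀ/ρ) + κ J` -/
noncomputable def Bm (γ s b κ : ℝ) (A : Matrix V V ℝ) (r : V → ℝ) (ρ : ℝ) : Matrix V V ℝ :=
  b • (1 : Matrix V V ℝ) - s • A - γ • Matrix.diagonal r + κ • (Matrix.of fun _ _ => (1 : ℝ))
    + ((γ - s) / ρ) • sq r

/-- the adjacency matrix of one edge -/
def edgeM (v w : V) : Matrix V V ℝ :=
  Matrix.vecMulVec (Pi.single v 1) (Pi.single w 1) + Matrix.vecMulVec (Pi.single w 1) (Pi.single v 1)

/-- `e_v + e_w` -/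
def pairV (v w : V) : V → ℝ := Pi.single v 1 + Pi.single w 1

lemma edgeM_symm (v w : V) : (edgeM v w)ᵀ = edgeM v w := by
  unfold edgeM
  rw [Matrix.transpose_add, Matrix.transpose_vecMulVec, Matrix.transpose_vecMulVec, add_comm]

lemma Bm_symm {γ s b κ : ℝ} {A : Matrix V V ℝ} (hA : Aᵀ = A) (r : V → ℝ) (ρ : ℝ) :
    (Bm γ s b κ A r ρ)ᵀ = Bm γ s b κ A r ρ := by
  unfold Bm
  simp only [Matrix.transpose_add, Matrix.transpose_sub, Matrix.transpose_smul,
    Matrix.transpose_one, Matrix.diagonal_transpose, hA, sq_symm]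
  congr 1

lemma hat_step (r : V → ℝ) {ρ : ℝ} (hρ : ρ ≠ 0) (hρ2 : ρ - 2 ≠ 0) (v w t : V) :
    hat (r - pairV v w) (ρ - 2) t = hat r ρ t + (ρ - 2)⁻¹ • (hat r ρ v + hat r ρ w) := by
  ext i
  simp only [hat, pairV, Pi.sub_apply, Pi.add_apply, Pi.smul_apply, smul_eq_mul]
  field_simp
  ring

lemma Bm_step {γ s b κ : ℝ} (A : Matrix V V ℝ) (r : V → ℝ) {ρ : ℝ} (hρ : ρ ≠ 0)
    (hρ2 : ρ - 2 ≠ 0) (v w : V) (hvw : v ≠ w) :
    Bm γ s b κ (A + edgeM v w) (r - pairV v w) (ρ - 2)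
      = Bm γ s b κ A r ρ + ((γ - s) * ρ / (2 * (ρ - 2))) • sq (hat r ρ v + hat r ρ w)
        + ((γ + s) / 2) • sq (hat r ρ v - hat r ρ w) := by
  ext i j
  simp only [Bm, edgeM, pairV, sq, hat, Matrix.add_apply, Matrix.sub_apply, Matrix.smul_apply,
    Matrix.vecMulVec_apply, Matrix.diagonal_apply, Matrix.of_apply, Pi.sub_apply, Pi.add_apply,
    Pi.smul_apply, smul_eq_mul, Pi.single_apply, Matrix.one_apply]
  by_cases hij : i = j
  · subst hij
    by_cases hv : i = v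
    · subst hv
      simp [hvw]
      field_simp
      ring
    · by_cases hw : i = w
      · subst hw
        simp [hv]
        field_simp
        ring
      · simp [hv, hw]
        field_simp
        ring
  · by_cases hv : i = v
    · subst hv
      have hj : ¬ (j = i) := fun h => hij h.symm
      by_cases hw : j = w
      · subst hw
        simp [hij, hj]
        field_simp
        ring
      · simp [hij, hj, hw, hvw]
        field_simp
        ring
    · by_cases hw : i = w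
      · subst hw
        have hj : ¬ (j = i) := fun h => hij h.symm
        by_cases hjv : j = v
        · subst hjv
          simp [hij, hj, hv]
          field_simp
          ring
        · simp [hij, hj, hjv, hv]
          field_simp
          ring
      · by_cases hjv : j = v
        · subst hjv
          simp [hij, hv, hw, hvw]
          field_simp
          ring
        · by_cases hjw : j = w
          · subst hjw
            simp [hij, hv, hw, hjv]
            field_simp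
            ring
          · simp [hij, hv, hw, hjv, hjw]
            field_simp
            ring


/-- The invariant: `M` is the (vertex level) stub matrix of the state `(A, r)`, and `B` is positive
definite. -/
structure Inv (γ s b κ : ℝ) (A : Matrix V V ℝ) (r : V → ℝ) (ρ : ℝ) (M : V → V → ℝ) : Prop where
  symA : Aᵀ = A
  hρ : ∑ v, r v = ρ
  pos : QPos (Bm γ s b κ A r ρ)
  exG : ∃ G : Matrix V V ℝ, Bm γ s b κ A r ρ * G = 1 ∧ Gᵀ = G ∧
    ∀ v w, M v w = (1 - γ ^ 2) * bil G (hat r ρ v) (hat r ρ w) + (γ + s) / ρ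

/-- `D = (1 - s M_vw)^2 - (M_vv - γ)(M_ww - γ)` -/
def Dm (γ s : ℝ) (M : V → V → ℝ) (v w : V) : ℝ :=
  (1 - s * M v w) ^ 2 - (M v v - γ) * (M w w - γ)

/-- the recursion of the stub matrix -/
noncomputable def stepM (γ s : ℝ) (M : V → V → ℝ) (v w : V) : V → V → ℝ := fun t u =>
  M t u + ((M w w - γ) * (M t v * M u v) + (M v v - γ) * (M t w * M u w)
    + s * (1 - s * M v w) * (M t v * M u w + M t w * M u v)) / Dm γ s M v w

lemma delta_eq {γ s ρ gvv gww gvw : ℝ} (hs : s = 1 ∨ s = -1) (hγ : 1 - γ ^ 2 ≠ 0)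
    (hρ : ρ ≠ 0) (hρ2 : ρ - 2 ≠ 0) :
    (1 + (γ - s) * ρ / (2 * (ρ - 2)) * (gvv + 2 * gvw + gww)) *
        (1 + (γ + s) / 2 * (gvv - 2 * gvw + gww))
      - (γ - s) * ρ / (2 * (ρ - 2)) * ((γ + s) / 2) * (gvv - gww) ^ 2
      = ρ / (ρ - 2) * ((1 - s * ((1 - γ ^ 2) * gvw + (γ + s) / ρ)) ^ 2
        - ((1 - γ ^ 2) * gvv + (γ + s) / ρ - γ) * ((1 - γ ^ 2) * gww + (γ + s) / ρ - γ))
          / (1 - γ ^ 2) := by
  rcases hs with rfl | rfl
  · field_simp
    ring
  · field_simp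
    ring


lemma bil_inv2 (G : Matrix V V ℝ) (hGs : Gᵀ = G) (p q : V → ℝ) (x y : ℝ) (f g : V → ℝ) :
    bil (inv2 G p q x y) f g = bil G f g
      - (x * (1 + y * bil G q q) / ((1 + x * bil G p p) * (1 + y * bil G q q)
          - x * y * (bil G p q) ^ 2)) * (bil G f p * bil G g p)
      - (y * (1 + x * bil G p p) / ((1 + x * bil G p p) * (1 + y * bil G q q)
          - x * y * (bil G p q) ^ 2)) * (bil G f q * bil G g q)
      + ((x * y * bil G p q / ((1 + x * bil G p p) * (1 + y * bil G q q)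
          - x * y * (bil G p q) ^ 2))) * (bil G f p * bil G g q + bil G f q * bil G g p) := by
  have hpp : ∀ z w : V → ℝ, z ⬝ᵥ (G *ᵥ w) = bil G z w := fun z w => rfl
  rw [bil_symm hGs g p, bil_symm hGs g q]
  conv_lhs => rw [bil, inv2_mulVec G hGs]
  simp only [dotProduct_add, dotProduct_sub, dotProduct_smul, hpp, smul_eq_mul]
  ring

lemma M_scalar {γ s ρ gvv gww gvw Tv Tw Uv Uw gtu D δ : ℝ} (hs : s = 1 ∨ s = -1)
    (hγ : 1 - γ ^ 2 ≠ 0) (hρ : ρ ≠ 0) (hρ2 : ρ - 2 ≠ 0) (hD0 : D ≠ 0)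
    (hD : D = (1 - s * ((1 - γ ^ 2) * gvw + (γ + s) / ρ)) ^ 2
        - ((1 - γ ^ 2) * gvv + (γ + s) / ρ - γ) * ((1 - γ ^ 2) * gww + (γ + s) / ρ - γ))
    (hδ : δ = ρ / (ρ - 2) * D / (1 - γ ^ 2)) :
    (1 - γ ^ 2) * ((gtu + (ρ - 2)⁻¹ * (Tv + Tw) + (ρ - 2)⁻¹ * (Uv + Uw)
          + (ρ - 2)⁻¹ * ((ρ - 2)⁻¹ * (gvv + 2 * gvw + gww)))
        - ((γ - s) * ρ / (2 * (ρ - 2)) * (1 + (γ + s) / 2 * (gvv - 2 * gvw + gww)) / δ)
          * ((Tv + Tw + (ρ - 2)⁻¹ * (gvv + 2 * gvw + gww))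
            * (Uv + Uw + (ρ - 2)⁻¹ * (gvv + 2 * gvw + gww)))
        - ((γ + s) / 2 * (1 + (γ - s) * ρ / (2 * (ρ - 2)) * (gvv + 2 * gvw + gww)) / δ)
          * ((Tv - Tw + (ρ - 2)⁻¹ * (gvv - gww)) * (Uv - Uw + (ρ - 2)⁻¹ * (gvv - gww)))
        + ((γ - s) * ρ / (2 * (ρ - 2)) * ((γ + s) / 2) * (gvv - gww) / δ)
          * ((Tv + Tw + (ρ - 2)⁻¹ * (gvv + 2 * gvw + gww)) * (Uv - Uw + (ρ - 2)⁻¹ * (gvv - gww))
            + (Tv - Tw + (ρ - 2)⁻¹ * (gvv - gww))
              * (Uv + Uw + (ρ - 2)⁻¹ * (gvv + 2 * gvw + gww)))) + (γ + s) / (ρ - 2)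
    = ((1 - γ ^ 2) * gtu + (γ + s) / ρ)
      + (((1 - γ ^ 2) * gww + (γ + s) / ρ - γ)
          * (((1 - γ ^ 2) * Tv + (γ + s) / ρ) * ((1 - γ ^ 2) * Uv + (γ + s) / ρ))
        + ((1 - γ ^ 2) * gvv + (γ + s) / ρ - γ)
          * (((1 - γ ^ 2) * Tw + (γ + s) / ρ) * ((1 - γ ^ 2) * Uw + (γ + s) / ρ))
        + s * (1 - s * ((1 - γ ^ 2) * gvw + (γ + s) / ρ))
          * (((1 - γ ^ 2) * Tv + (γ + s) / ρ) * ((1 - γ ^ 2) * Uw + (γ + s) / ρ)
            + ((1 - γ ^ 2) * Tw + (γ + s) / ρ) * ((1 - γ ^ 2) * Uv + (γ + s) / ρ))) / D := by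
  subst hδ
  rcases hs with rfl | rfl
  · field_simp
    field_simp at hD
    linear_combination ((1 - γ ^ 2) * ρ * 4 * ((ρ - 2) * (gtu * (ρ - 2) + (Tv + Tw) + (Uv + Uw))
      + (gvv + 2 * gvw + gww)) + ρ * 4 * (ρ - 2) * (γ + 1)
      - 4 * (ρ - 2) ^ 2 * ((1 - γ ^ 2) * gtu * ρ + (γ + 1))) * hD
  · field_simp
    field_simp at hD
    linear_combination ((1 - γ ^ 2) * ρ * 4 * ((ρ - 2) * (gtu * (ρ - 2) + (Tv + Tw) + (Uv + Uw))
      + (gvv + 2 * gvw + gww)) + ρ * 4 * (ρ - 2) * (γ + (-1))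
      - 4 * (ρ - 2) ^ 2 * ((1 - γ ^ 2) * gtu * ρ + (γ + (-1)))) * hD


/-- THE STEP: if `D > 0` then joining a free stub of `v` with one of `w` keeps the invariant, and
the stub matrix moves by the explicit recursion. -/
theorem Inv.step {γ s b κ : ℝ} {A : Matrix V V ℝ} {r : V → ℝ} {ρ : ℝ} {M : V → V → ℝ}
    (h : Inv γ s b κ A r ρ M) (hs : s = 1 ∨ s = -1) (hγ0 : 0 < γ) (hγ1 : γ < 1) (hρ : 2 < ρ)
    {v w : V} (hvw : v ≠ w) (hD : 0 < Dm γ s M v w) :
    Inv γ s b κ (A + edgeM v w) (r - pairV v w) (ρ - 2) (stepM γ s M v w) := by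
  obtain ⟨G, hG, hGs, hM⟩ := h.exG
  have hk : 0 < 1 - γ ^ 2 := by nlinarith
  have hρ0 : ρ ≠ 0 := by linarith
  have hρ2 : ρ - 2 ≠ 0 := by linarith
  have hρ2' : 0 < ρ - 2 := by linarith
  have hBs := Bm_symm (γ := γ) (s := s) (b := b) (κ := κ) h.symA r ρ
  set a := hat r ρ v with ha
  set c := hat r ρ w with hc
  have hvw' : bil G c a = bil G a c := bil_symm hGs c a
  have hP : bil G (a + c) (a + c) = bil G a a + 2 * bil G a c + bil G c c := by
    rw [bil_add_left, bil_add_right, bil_add_right, hvw']; ring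
  have hQ : bil G (a - c) (a - c) = bil G a a - 2 * bil G a c + bil G c c := by
    rw [bil_sub_left, bil_sub_right, bil_sub_right, hvw']; ring
  have hR : bil G (a + c) (a - c) = bil G a a - bil G c c := by
    rw [bil_add_left, bil_sub_right, bil_sub_right, hvw']; ring
  have hDe : Dm γ s M v w = (1 - s * ((1 - γ ^ 2) * bil G a c + (γ + s) / ρ)) ^ 2
      - ((1 - γ ^ 2) * bil G a a + (γ + s) / ρ - γ) * ((1 - γ ^ 2) * bil G c c + (γ + s) / ρ - γ) := by
    unfold Dm; rw [hM v w, hM v v, hM w w]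
  have hδ := delta_eq (γ := γ) (s := s) (ρ := ρ) (gvv := bil G a a) (gww := bil G c c)
    (gvw := bil G a c) hs hk.ne' hρ0 hρ2
  rw [← hDe, ← hP, ← hQ, ← hR] at hδ
  have hδpos : 0 < (1 + (γ - s) * ρ / (2 * (ρ - 2)) * bil G (a + c) (a + c)) *
        (1 + (γ + s) / 2 * bil G (a - c) (a - c))
      - (γ - s) * ρ / (2 * (ρ - 2)) * ((γ + s) / 2) * bil G (a + c) (a - c) ^ 2 := by
    rw [hδ]; positivity
  have hsign : 0 ≤ (γ - s) * ρ / (2 * (ρ - 2)) ∨ 0 ≤ (γ + s) / 2 := by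
    rcases hs with rfl | rfl
    · right; linarith
    · left
      apply div_nonneg (mul_nonneg (by linarith) (by linarith)) (by linarith)
  refine ⟨?_, ?_, ?_, ?_⟩
  · rw [Matrix.transpose_add, edgeM_symm, h.symA]
  · simp only [pairV, Pi.sub_apply, Pi.add_apply, Finset.sum_sub_distrib, Finset.sum_add_distrib,
      h.hρ, Finset.sum_pi_single', Finset.mem_univ, if_true]
    ring
  · rw [Bm_step A r hρ0 hρ2 v w hvw]
    exact h.pos.rankTwo hBs hG hGs _ _ _ _ hsign hδpos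
  · refine ⟨inv2 G (a + c) (a - c) ((γ - s) * ρ / (2 * (ρ - 2))) ((γ + s) / 2), ?_, ?_, ?_⟩
    · rw [Bm_step A r hρ0 hρ2 v w hvw]
      exact mul_inv2 hGs hG _ _ _ _ hδpos.ne'
    · exact inv2_symm hGs _ _ _ _
    · intro t u
      rw [hat_step r hρ0 hρ2 v w t, hat_step r hρ0 hρ2 v w u, bil_inv2 G hGs, ← ha, ← hc, hδ]
      have e1 : bil G (hat r ρ t + (ρ - 2)⁻¹ • (a + c)) (hat r ρ u + (ρ - 2)⁻¹ • (a + c))
          = bil G (hat r ρ t) (hat r ρ u)
            + (ρ - 2)⁻¹ * (bil G (hat r ρ t) a + bil G (hat r ρ t) c)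
            + (ρ - 2)⁻¹ * (bil G (hat r ρ u) a + bil G (hat r ρ u) c)
            + (ρ - 2)⁻¹ * ((ρ - 2)⁻¹ * (bil G a a + 2 * bil G a c + bil G c c)) := by
        rw [← hP, bil_add_left, bil_add_right, bil_add_right, bil_smul_left, bil_smul_left,
          bil_smul_right, bil_smul_right, bil_add_right (x := hat r ρ t),
          bil_symm hGs (a + c) (hat r ρ u), bil_add_right (x := hat r ρ u)]
        ring
      have e2 : ∀ t : V, bil G (hat r ρ t + (ρ - 2)⁻¹ • (a + c)) (a + c)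
          = bil G (hat r ρ t) a + bil G (hat r ρ t) c
            + (ρ - 2)⁻¹ * (bil G a a + 2 * bil G a c + bil G c c) := fun t => by
        rw [← hP, bil_add_left, bil_smul_left, bil_add_right (x := hat r ρ t)]
      have e3 : ∀ t : V, bil G (hat r ρ t + (ρ - 2)⁻¹ • (a + c)) (a - c)
          = bil G (hat r ρ t) a - bil G (hat r ρ t) c
            + (ρ - 2)⁻¹ * (bil G a a - bil G c c) := fun t => by
        rw [← hR, bil_add_left, bil_smul_left, bil_sub_right (x := hat r ρ t)]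
      rw [e1, e2, e2, e3, e3, hP, hQ, hR]
      have key := M_scalar (γ := γ) (s := s) (ρ := ρ) (gvv := bil G a a) (gww := bil G c c)
        (gvw := bil G a c) (Tv := bil G (hat r ρ t) a) (Tw := bil G (hat r ρ t) c)
        (Uv := bil G (hat r ρ u) a) (Uw := bil G (hat r ρ u) c)
        (gtu := bil G (hat r ρ t) (hat r ρ u)) (D := Dm γ s M v w)
        (δ := ρ / (ρ - 2) * Dm γ s M v w / (1 - γ ^ 2)) hs hk.ne' hρ0 hρ2 hD.ne' hDe rfl
      have hst : stepM γ s M v w t u = M t u + ((M w w - γ) * (M t v * M u v)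
        + (M v v - γ) * (M t w * M u w)
        + s * (1 - s * M v w) * (M t v * M u w + M t w * M u v)) / Dm γ s M v w := rfl
      rw [hst, hM t u, hM w w, hM t v, hM u v, hM v v, hM t w, hM u w, hM v w, ← ha, ← hc]
      exact key.symm


lemma dot_eq_sum (f g : V → ℝ) : f ⬝ᵥ g = ∑ v, f v * g v := rfl

lemma bil_eq_sum (A : Matrix V V ℝ) (f g : V → ℝ) :
    bil A f g = ∑ v, ∑ w, f v * A v w * g w := by
  unfold bil
  simp only [dotProduct, Matrix.mulVec, Finset.mul_sum, mul_assoc]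

lemma bil_Bm {γ s b κ : ℝ} (A : Matrix V V ℝ) (r : V → ℝ) (ρ : ℝ) (f : V → ℝ) :
    bil (Bm γ s b κ A r ρ) f f = b * (f ⬝ᵥ f) - s * bil A f f - γ * ∑ v, r v * f v ^ 2
      + κ * (∑ v, f v) ^ 2 + (γ - s) / ρ * (∑ v, r v * f v) ^ 2 := by
  unfold Bm
  rw [bil_add_mat, bil_add_mat, bil_sub_mat, bil_sub_mat, bil_smul_mat, bil_smul_mat,
    bil_smul_mat, bil_smul_mat, bil_smul_mat, bil_sq]
  have h1 : bil (1 : Matrix V V ℝ) f f = f ⬝ᵥ f := by simp [bil]
  have h2 : bil (Matrix.diagonal r) f f = ∑ v, r v * f v ^ 2 := by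
    unfold bil
    simp only [Matrix.mulVec_diagonal, dotProduct]
    exact Finset.sum_congr rfl fun v _ => by ring
  have h3 : bil (Matrix.of fun _ _ => (1 : ℝ)) f f = (∑ v, f v) ^ 2 := by
    rw [bil_eq_sum, pow_two, Finset.sum_mul_sum]
    exact Finset.sum_congr rfl fun v _ => Finset.sum_congr rfl fun w _ => by simp
  rw [h1, h2, h3, dot_eq_sum r f]
  ring

/-- the linear combination `∑ c_v v̂` -/
lemma sum_hat (r : V → ℝ) (ρ : ℝ) (c : V → ℝ) :
    ∑ v, c v • hat r ρ v = c - ((∑ v, c v) * ρ⁻¹) • r := by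
  ext i
  simp only [hat, Finset.sum_apply, Pi.smul_apply, Pi.sub_apply, smul_eq_mul, mul_sub,
    Finset.sum_sub_distrib, Pi.single_apply]
  simp [Finset.sum_mul, mul_assoc]

lemma bil_sum_left {ι : Type*} (G : Matrix V V ℝ) (S : Finset ι) (c : ι → ℝ) (h : ι → V → ℝ)
    (y : V → ℝ) : bil G (∑ i ∈ S, c i • h i) y = ∑ i ∈ S, c i * bil G (h i) y := by
  classical
  induction S using Finset.induction_on with
  | empty => simp [bil]
  | insert i S hi ih => rw [Finset.sum_insert hi, Finset.sum_insert hi, bil_add_left, bil_smul_left, ih]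

lemma bil_sum_right {ι : Type*} (G : Matrix V V ℝ) (S : Finset ι) (c : ι → ℝ) (h : ι → V → ℝ)
    (y : V → ℝ) : bil G y (∑ i ∈ S, c i • h i) = ∑ i ∈ S, c i * bil G y (h i) := by
  classical
  induction S using Finset.induction_on with
  | empty => simp [bil]
  | insert i S hi ih => rw [Finset.sum_insert hi, Finset.sum_insert hi, bil_add_right, bil_smul_right, ih]

/-- the quadratic form of `M` -/
lemma M_form {γ s ρ : ℝ} {r : V → ℝ} {M : V → V → ℝ} {G : Matrix V V ℝ}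
    (hM : ∀ v w, M v w = (1 - γ ^ 2) * bil G (hat r ρ v) (hat r ρ w) + (γ + s) / ρ)
    (c e : V → ℝ) :
    ∑ v, ∑ w, c v * e w * M v w = (1 - γ ^ 2) *
        bil G (c - ((∑ v, c v) * ρ⁻¹) • r) (e - ((∑ v, e v) * ρ⁻¹) • r)
      + (γ + s) / ρ * ((∑ v, c v) * ∑ v, e v) := by
  rw [← sum_hat, ← sum_hat, bil_sum_left, Finset.sum_mul_sum]
  simp only [bil_sum_right, Finset.mul_sum]
  rw [← Finset.sum_add_distrib]
  refine Finset.sum_congr rfl fun v _ => ?_
  rw [← Finset.sum_add_distrib]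
  refine Finset.sum_congr rfl fun w _ => ?_
  rw [hM]
  ring

lemma Inv.M_symm {γ s b κ : ℝ} {A : Matrix V V ℝ} {r : V → ℝ} {ρ : ℝ} {M : V → V → ℝ}
    (h : Inv γ s b κ A r ρ M) (v w : V) : M v w = M w v := by
  obtain ⟨G, hG, hGs, hM⟩ := h.exG
  rw [hM, hM, bil_symm hGs]

/-- row sums of the stub matrix are `s` -/
lemma Inv.row_sum {γ s b κ : ℝ} {A : Matrix V V ℝ} {r : V → ℝ} {ρ : ℝ} {M : V → V → ℝ}
    (h : Inv γ s b κ A r ρ M) (hρ : ρ ≠ 0) (v : V) : ∑ w, r w * M v w = γ + s := by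
  obtain ⟨G, hG, hGs, hM⟩ := h.exG
  have key := M_form hM (Pi.single v 1) r
  have h1 : ∑ v', ∑ w, (Pi.single v 1 : V → ℝ) v' * r w * M v' w = ∑ w, r w * M v w := by
    rw [Finset.sum_eq_single v]
    · exact Finset.sum_congr rfl fun w _ => by simp
    · intro v' _ hv'
      exact Finset.sum_eq_zero fun w _ => by simp [hv']
    · simp
  rw [h1, h.hρ] at key
  have h2 : r - (ρ * ρ⁻¹) • r = 0 := by rw [mul_inv_cancel₀ hρ]; simp
  rw [h2] at key
  have h3 : ∀ x : V → ℝ, bil G x 0 = 0 := fun x => by simp [bil]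
  rw [key, h3]
  simp
  field_simp

/-- the stub matrix is `≥ -γ` on sum zero vectors (vertex level) -/
lemma Inv.form_nonneg {γ s b κ : ℝ} {A : Matrix V V ℝ} {r : V → ℝ} {ρ : ℝ} {M : V → V → ℝ}
    (h : Inv γ s b κ A r ρ M) (hγ0 : 0 < γ) (hγ1 : γ < 1) (c : V → ℝ) (hc : ∑ v, c v = 0) :
    0 ≤ ∑ v, ∑ w, c v * c w * M v w := by
  obtain ⟨G, hG, hGs, hM⟩ := h.exG
  rw [M_form hM, hc]
  have := bil_self_nonneg h.pos hG c
  have hk : 0 ≤ 1 - γ ^ 2 := by nlinarith
  simp
  exact mul_nonneg hk this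

/-- THE START -/
theorem Inv.start [Nonempty V] {γ s b d : ℝ} (hb : 0 < b - γ * d) (hd : d ≠ 0) :
    Inv γ s b ((s - γ) * d / Fintype.card V) (0 : Matrix V V ℝ) (fun _ => d)
      ((Fintype.card V : ℝ) * d)
      (fun v w => (1 - γ ^ 2) / (b - γ * d) * ((if v = w then 1 else 0) - 1 / (Fintype.card V : ℝ))
        + (γ + s) / ((Fintype.card V : ℝ) * d)) := by
  have hn : (Fintype.card V : ℝ) ≠ 0 := by exact_mod_cast Fintype.card_ne_zero
  have hB : Bm γ s b ((s - γ) * d / Fintype.card V) (0 : Matrix V V ℝ) (fun _ => d)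
      ((Fintype.card V : ℝ) * d) = (b - γ * d) • (1 : Matrix V V ℝ) := by
    ext i j
    simp only [Bm, sq, Matrix.add_apply, Matrix.sub_apply, Matrix.smul_apply,
      Matrix.vecMulVec_apply, Matrix.diagonal_apply, Matrix.of_apply, smul_eq_mul,
      Matrix.one_apply, Matrix.zero_apply]
    by_cases hij : i = j
    · simp [hij]; field_simp; ring
    · simp [hij]; field_simp; ring
  refine ⟨by simp, by simp, ?_, ?_⟩
  · rw [hB]
    intro f hf
    have : 0 < f ⬝ᵥ f := by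
      have h0 : 0 ≤ f ⬝ᵥ f := Finset.sum_nonneg fun i _ => mul_self_nonneg _
      have h1 : f ⬝ᵥ f ≠ 0 := fun h => hf (by
        have := dotProduct_self_eq_zero.mp h
        exact this)
      exact lt_of_le_of_ne h0 (Ne.symm h1)
    rw [Matrix.smul_mulVec, Matrix.one_mulVec, dotProduct_smul, smul_eq_mul]
    positivity
  · refine ⟨(b - γ * d)⁻¹ • (1 : Matrix V V ℝ), ?_, by simp, ?_⟩
    · rw [hB]
      simp [smul_smul, hb.ne']
    · intro v w
      have h1 : bil ((b - γ * d)⁻¹ • (1 : Matrix V V ℝ))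
          (hat (fun _ => d) ((Fintype.card V : ℝ) * d) v)
          (hat (fun _ => d) ((Fintype.card V : ℝ) * d) w)
          = (b - γ * d)⁻¹ * ((if v = w then 1 else 0) - 1 / (Fintype.card V : ℝ)) := by
        rw [bil_smul_mat]
        congr 1
        unfold bil
        rw [Matrix.one_mulVec]
        simp only [hat, dotProduct, Pi.sub_apply, Pi.smul_apply, smul_eq_mul, Pi.single_apply,
          sub_mul, mul_sub, Finset.sum_sub_distrib]
        by_cases hvw : v = w
        · subst hvw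
          simp
          field_simp
          ring
        · have hwv : ¬ (w = v) := fun h => hvw h.symm
          simp [hvw, hwv]
          field_simp
          ring
      rw [h1]
      ring

/-- THE END: if the stub matrix is `< 1` on sum zero vectors then every completion works. -/
theorem Inv.finish {γ s b κ : ℝ} {A : Matrix V V ℝ} {r : V → ℝ} {ρ : ℝ} {M : V → V → ℝ}
    (h : Inv γ s b κ A r ρ M) (hs : s = 1 ∨ s = -1) (hγ0 : 0 < γ) (hγ1 : γ < 1) (hρ : 0 < ρ)
    (hr : ∀ v, 0 ≤ r v)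
    (hend : ∀ y : V → ℝ, ∑ v, r v * y v = 0 → (∃ v, r v * y v ≠ 0) →
      ∑ v, ∑ w, (r v * y v) * (r w * y w) * M v w < (1 + γ) * ∑ v, r v * y v ^ 2)
    (C : Matrix V V ℝ) (hC : Cᵀ = C) (hC0 : ∀ v w, 0 ≤ C v w) (hCr : ∀ v, ∑ w, C v w = r v)
    (f : V → ℝ) (hf : f ≠ 0) (hf0 : ∑ v, f v = 0) :
    s * (f ⬝ᵥ ((A + C) *ᵥ f)) < b * (f ⬝ᵥ f) := by
  obtain ⟨G, hG, hGs, hM⟩ := h.exG
  have hBs := Bm_symm (γ := γ) (s := s) (b := b) (κ := κ) h.symA r ρ
  set F := ∑ v, r v * f v with hF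
  set y : V → ℝ := fun v => f v - F / ρ with hy
  set q : V → ℝ := fun v => r v * y v with hq
  set N := ∑ v, r v * y v ^ 2 with hN
  have hq0 : ∑ v, r v * y v = 0 := by
    have : ∑ v, r v * y v = F - (∑ v, r v) * (F / ρ) := by
      rw [hF, Finset.sum_mul, ← Finset.sum_sub_distrib]
      exact Finset.sum_congr rfl fun v _ => by rw [hy]; ring
    rw [this, h.hρ]; field_simp; ring
  have hNf : N = ∑ v, r v * f v ^ 2 - F ^ 2 / ρ := by
    have : N = ∑ v, r v * f v ^ 2 - 2 * (F / ρ) * (∑ v, r v * f v) + (F / ρ) ^ 2 * ∑ v, r v := by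
      rw [hN, Finset.mul_sum, Finset.mul_sum, ← Finset.sum_sub_distrib, ← Finset.sum_add_distrib]
      exact Finset.sum_congr rfl fun v _ => by rw [hy]; ring
    rw [this, ← hF, h.hρ]; field_simp; ring
  have hqf : q ⬝ᵥ f = N := by
    have h1 : q ⬝ᵥ f = N + (F / ρ) * ∑ v, r v * y v := by
      rw [hN, Finset.mul_sum, ← Finset.sum_add_distrib]
      exact Finset.sum_congr rfl fun v _ => by rw [hq, hy]; ring
    rw [h1, hq0]; ring
  have hB0 : 0 < bil (Bm γ s b κ A r ρ) f f := h.pos f hf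
  -- (1-γ) N < f' B f
  have hmain : (1 - γ) * N < bil (Bm γ s b κ A r ρ) f f := by
    by_cases hne : ∃ v, r v * y v ≠ 0
    · have h1 := hend y hq0 hne
      have h2 := M_form hM q q
      have h3 : (∑ v, q v) = 0 := hq0
      rw [h3] at h2
      simp only [zero_mul, zero_smul, sub_zero, mul_zero, add_zero] at h2
      have h4 : (1 - γ ^ 2) * bil G q q < (1 + γ) * N := by rw [← h2]; exact h1
      have h5 : (1 - γ) * bil G q q < N := by
        have : (1 + γ) * ((1 - γ) * bil G q q) < (1 + γ) * N := by nlinarith [h4]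
        exact lt_of_mul_lt_mul_left this (by linarith)
      have hqne : q ≠ 0 := by
        obtain ⟨v, hv⟩ := hne
        intro h0
        exact hv (congrFun h0 v)
      have h6 := bil_self_pos h.pos hG hqne
      have h7 := cs h.pos hBs hG q f
      rw [hqf] at h7
      have hNpos : 0 < N := by nlinarith [mul_pos (show (0 : ℝ) < 1 - γ by linarith) h6]
      have h8 : (1 - γ) * N ^ 2 < N * bil (Bm γ s b κ A r ρ) f f := by
        have h9 : (1 - γ) * N ^ 2 ≤ ((1 - γ) * bil G q q) * bil (Bm γ s b κ A r ρ) f f := by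
          nlinarith [mul_le_mul_of_nonneg_left h7 (show (0 : ℝ) ≤ 1 - γ by linarith)]
        have h10 := mul_lt_mul_of_pos_right h5 hB0
        linarith
      have h11 : N * ((1 - γ) * N) < N * bil (Bm γ s b κ A r ρ) f f := by nlinarith [h8]
      exact lt_of_mul_lt_mul_left h11 hNpos.le
    · push Not at hne
      have hN0 : N = 0 := by
        rw [hN]
        exact Finset.sum_eq_zero fun v _ => by rw [pow_two, ← mul_assoc, hne v, zero_mul]
      rw [hN0, mul_zero]; exact hB0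
  rw [bil_Bm, hf0, ← hF] at hmain
  have hsum : ∑ v, r v * f v ^ 2 = N + F ^ 2 / ρ := by rw [hNf]; ring
  rw [hsum] at hmain
  -- completion
  have hCsum : ∀ w, ∑ v, C v w = r w := fun w => by
    rw [← hCr w]
    exact Finset.sum_congr rfl fun v _ => by
      have := congrFun (congrFun hC w) v
      rw [Matrix.transpose_apply] at this
      exact this
  have hyC : bil C y y = bil C f f - F ^ 2 / ρ := by
    have e1 : y = f - (F / ρ) • (fun _ => (1 : ℝ)) := by
      ext v; simp [hy]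
    have e2 : ∀ g : V → ℝ, bil C g (fun _ => (1 : ℝ)) = ∑ v, r v * g v := fun g => by
      rw [bil_eq_sum]
      refine Finset.sum_congr rfl fun v _ => ?_
      rw [← hCr v, Finset.sum_mul]
      exact Finset.sum_congr rfl fun w _ => by ring
    rw [e1, bil_sub_left, bil_sub_right, bil_sub_right, bil_smul_left, bil_smul_left,
      bil_smul_right, bil_smul_right, bil_symm hC (fun _ => (1 : ℝ)) f, e2, e2, ← hF]
    simp only [mul_one]
    rw [h.hρ]
    field_simp
    ring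
  have hyN : s * bil C y y ≤ N := by
    have h0 : 0 ≤ ∑ v, ∑ w, C v w * (y v - s * y w) ^ 2 :=
      Finset.sum_nonneg fun v _ => Finset.sum_nonneg fun w _ => mul_nonneg (hC0 v w) (sq_nonneg _)
    have h1 : ∑ v, ∑ w, C v w * (y v - s * y w) ^ 2 = N + s ^ 2 * N - 2 * (s * bil C y y) := by
      have a1 : ∑ v, ∑ w, C v w * y v ^ 2 = N := by
        rw [hN]
        exact Finset.sum_congr rfl fun v _ => by rw [← Finset.sum_mul, hCr]
      have a2 : ∑ v, ∑ w, C v w * y w ^ 2 = N := by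
        rw [hN, Finset.sum_comm]
        exact Finset.sum_congr rfl fun v _ => by rw [← Finset.sum_mul, hCsum]
      have a3 : bil C y y = ∑ v, ∑ w, y v * C v w * y w := bil_eq_sum _ _ _
      rw [a3]
      nth_rewrite 2 [← a2]
      rw [← a1]
      simp only [Finset.mul_sum, ← Finset.sum_add_distrib, ← Finset.sum_sub_distrib]
      exact Finset.sum_congr rfl fun v _ => Finset.sum_congr rfl fun w _ => by ring
    rw [h1] at h0
    rcases hs with rfl | rfl
    · nlinarith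
    · nlinarith
  rw [hyC] at hyN
  change s * bil (A + C) f f < b * (f ⬝ᵥ f)
  rw [bil_add_mat]
  have e1 : (γ - s) / ρ * F ^ 2 = γ * (F ^ 2 / ρ) - s * (F ^ 2 / ρ) := by ring
  rw [e1] at hmain
  nlinarith [hmain, hyN]


/-- trace form of the end condition: `∑_{x,y} m_xy² < 2` on the stub level. -/
theorem Inv.end_of_trace {γ s b κ : ℝ} {A : Matrix V V ℝ} {r : V → ℝ} {ρ : ℝ} {M : V → V → ℝ}
    (h : Inv γ s b κ A r ρ M) (hs : s = 1 ∨ s = -1) (hρ : 0 < ρ)
    (hr : ∀ v, r v = 0 ∨ 1 ≤ r v)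
    (hX : ∑ v, ∑ w, r v * r w * M v w ^ 2 - 2 * γ * ∑ v, r v * M v v + γ ^ 2 * ρ < 2)
    (y : V → ℝ) (hy0 : ∑ v, r v * y v = 0) (hne : ∃ v, r v * y v ≠ 0) :
    ∑ v, ∑ w, (r v * y v) * (r w * y w) * M v w < (1 + γ) * ∑ v, r v * y v ^ 2 := by
  have hr0 : ∀ v, 0 ≤ r v := fun v => by rcases hr v with h | h <;> linarith
  set g : V → ℝ := fun v => γ / r v with hg
  have hg1 : ∀ v, r v ^ 2 * g v = γ * r v := fun v => by
    by_cases h0 : r v = 0
    · rw [h0]; ring
    · simp only [hg]; field_simp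
  have hg2 : ∀ v, r v ^ 2 * g v ^ 2 ≤ γ ^ 2 * r v := fun v => by
    rcases hr v with h0 | h0
    · rw [h0]; simp
    · have h1 : r v ≠ 0 := by linarith
      have : r v ^ 2 * g v ^ 2 = γ ^ 2 := by simp only [hg]; field_simp
      rw [this]; nlinarith [sq_nonneg γ]
  set N := ∑ v, r v * y v ^ 2 with hN
  have hNpos : 0 < N := by
    obtain ⟨v, hv⟩ := hne
    have h1 : 0 < r v * y v ^ 2 := by
      have h2 : r v ≠ 0 := fun h => hv (by rw [h]; ring)
      have h3 : y v ≠ 0 := fun h => hv (by rw [h]; ring)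
      have h4 : 0 < r v := lt_of_le_of_ne (hr0 v) (Ne.symm h2)
      positivity
    exact lt_of_lt_of_le h1 (Finset.single_le_sum (f := fun v => r v * y v ^ 2)
      (fun w _ => mul_nonneg (hr0 w) (sq_nonneg _)) (Finset.mem_univ v))
  -- the compressed matrix
  set E : V → V → ℝ := fun v w => M v w - s / ρ - (if v = w then g v else 0) with hE
  have hrowsum : ∀ v, ∑ w, r w * M v w = γ + s := fun v => h.row_sum hρ.ne' v
  have hdiag : ∀ (φ : V → V → ℝ), ∑ v, ∑ w, (if v = w then φ v w else 0) = ∑ v, φ v v := fun φ => by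
    refine Finset.sum_congr rfl fun v _ => ?_
    simp
  have hQ : ∑ v, ∑ w, (r v * y v) * (r w * y w) * E v w
      = ∑ v, ∑ w, (r v * y v) * (r w * y w) * M v w - γ * N := by
    have e1 : ∑ v, ∑ w, (r v * y v) * (r w * y w) * E v w
        = ∑ v, ∑ w, (r v * y v) * (r w * y w) * M v w
          - s / ρ * ((∑ v, r v * y v) * ∑ w, r w * y w)
          - ∑ v, ∑ w, (if v = w then (r v * y v) * (r w * y w) * g v else 0) := by
      rw [Finset.sum_mul_sum, Finset.mul_sum, ← Finset.sum_sub_distrib, ← Finset.sum_sub_distrib]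
      refine Finset.sum_congr rfl fun v _ => ?_
      rw [Finset.mul_sum, ← Finset.sum_sub_distrib, ← Finset.sum_sub_distrib]
      refine Finset.sum_congr rfl fun w _ => ?_
      simp only [hE]
      split_ifs <;> ring
    rw [e1, hy0, hdiag, hN, Finset.mul_sum]
    have e2 : ∑ v, r v * y v * (r v * y v) * g v = ∑ v, γ * (r v * y v ^ 2) :=
      Finset.sum_congr rfl fun v _ => by
        have := hg1 v
        calc r v * y v * (r v * y v) * g v = (r v ^ 2 * g v) * y v ^ 2 := by ring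
          _ = γ * (r v * y v ^ 2) := by rw [this]; ring
    rw [e2]; ring
  have hF : ∑ v, ∑ w, r v * r w * E v w ^ 2 < 1 := by
    have e1 : ∑ v, ∑ w, r v * r w * E v w ^ 2
        = ∑ v, ∑ w, r v * r w * M v w ^ 2 - 2 * (s / ρ) * (∑ v, r v * ∑ w, r w * M v w)
          + (s / ρ) ^ 2 * ((∑ v, r v) * ∑ w, r w)
          + ∑ v, ∑ w, (if v = w then r v * r w * (g v ^ 2 - 2 * g v * (M v w - s / ρ)) else 0) := by
      rw [Finset.sum_mul_sum, Finset.mul_sum, Finset.mul_sum, ← Finset.sum_sub_distrib,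
        ← Finset.sum_add_distrib, ← Finset.sum_add_distrib]
      refine Finset.sum_congr rfl fun v _ => ?_
      rw [Finset.mul_sum, Finset.mul_sum, Finset.mul_sum, ← Finset.sum_sub_distrib,
        ← Finset.sum_add_distrib, ← Finset.sum_add_distrib]
      refine Finset.sum_congr rfl fun w _ => ?_
      simp only [hE]
      split_ifs <;> ring
    have e2 : ∑ v, r v * ∑ w, r w * M v w = ρ * (γ + s) := by
      rw [← h.hρ, Finset.sum_mul]
      exact Finset.sum_congr rfl fun v _ => by rw [hrowsum v]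
    have e3 : ∑ v, r v * r v * (g v ^ 2 - 2 * g v * (M v v - s / ρ))
        ≤ γ ^ 2 * ρ - 2 * γ * (∑ v, r v * M v v) + 2 * γ * s := by
      have e4 : γ ^ 2 * ρ - 2 * γ * (∑ v, r v * M v v) + 2 * γ * s
          = ∑ v, (γ ^ 2 * r v - 2 * γ * (r v * M v v) + 2 * γ * (s / ρ) * r v) := by
        rw [Finset.sum_add_distrib, Finset.sum_sub_distrib, ← Finset.mul_sum, ← Finset.mul_sum,
          ← Finset.mul_sum, h.hρ]
        field_simp
      rw [e4]
      refine Finset.sum_le_sum fun v _ => ?_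
      have h1 := hg1 v
      have h2 := hg2 v
      have e5 : r v * r v * (g v ^ 2 - 2 * g v * (M v v - s / ρ))
          = r v ^ 2 * g v ^ 2 - 2 * (r v ^ 2 * g v) * (M v v - s / ρ) := by ring
      rw [e5, h1]
      nlinarith [h2]
    rw [e1, e2, hdiag, h.hρ]
    have e6 : 2 * (s / ρ) * (ρ * (γ + s)) = 2 * s * γ + 2 := by
      have : s ^ 2 = 1 := by rcases hs with rfl | rfl <;> norm_num
      field_simp
      nlinarith [this]
    have e7 : (s / ρ) ^ 2 * (ρ * ρ) = 1 := by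
      have : s ^ 2 = 1 := by rcases hs with rfl | rfl <;> norm_num
      field_simp
      exact this
    rw [e6, e7]
    linarith [e3, hX]
  -- AM-GM
  have hAG : 2 * ∑ v, ∑ w, (r v * y v) * (r w * y w) * E v w
      ≤ N⁻¹ * (N * N) + N * ∑ v, ∑ w, r v * r w * E v w ^ 2 := by
    have e1 : N * N = ∑ v, ∑ w, (r v * y v ^ 2) * (r w * y w ^ 2) := by
      rw [hN, Finset.sum_mul_sum]
    rw [e1, Finset.mul_sum, Finset.mul_sum, Finset.mul_sum, ← Finset.sum_add_distrib]
    refine Finset.sum_le_sum fun v _ => ?_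
    rw [Finset.mul_sum, Finset.mul_sum, Finset.mul_sum, ← Finset.sum_add_distrib]
    refine Finset.sum_le_sum fun w _ => ?_
    have h1 : 0 ≤ r v * r w := mul_nonneg (hr0 v) (hr0 w)
    have h2 : 0 ≤ N⁻¹ * (y v * y w - N * E v w) ^ 2 := by positivity
    have h3 : N⁻¹ * (y v * y w - N * E v w) ^ 2
        = N⁻¹ * (y v * y w) ^ 2 - 2 * (y v * y w) * E v w + N * E v w ^ 2 := by
      field_simp
      ring
    rw [h3] at h2
    nlinarith [mul_nonneg h1 h2]
  have h5 : N⁻¹ * (N * N) = N := by field_simp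
  rw [h5, hQ] at hAG
  nlinarith [mul_lt_mul_of_pos_left hF hNpos]

/-! ### Packaged form: runs -/

section run
variable (n d : ℕ)

/-- the stub matrix after the list of joined pairs (most recent first) -/
noncomputable def runM (γ s μ : ℝ) (d : ℝ) : List (V × V) → V → V → ℝ
  | [] => fun v w => μ * ((if v = w then 1 else 0) - 1 / (Fintype.card V : ℝ))
      + (γ + s) / ((Fintype.card V : ℝ) * d)
  | p :: L => stepM γ s (runM γ s μ d L) p.1 p.2

/-- free stubs -/
def runR (d : ℝ) : List (V × V) → V → ℝ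
  | [] => fun _ => d
  | p :: L => runR d L - pairV p.1 p.2

/-- adjacency matrix of the joined pairs -/
def runA : List (V × V) → Matrix V V ℝ
  | [] => 0
  | p :: L => runA L + edgeM p.1 p.2

/-- all steps legal: distinct vertices, `ρ > 2`, `D > 0` -/
def Good (γ s μ : ℝ) (d : ℝ) : List (V × V) → Prop
  | [] => True
  | p :: L => Good γ s μ d L ∧ p.1 ≠ p.2 ∧ 2 < (Fintype.card V : ℝ) * d - 2 * (L.length : ℝ) ∧
      0 < Dm γ s (runM γ s μ d L) p.1 p.2

theorem Good.inv [Nonempty V] {γ s b d : ℝ} (hs : s = 1 ∨ s = -1) (hγ0 : 0 < γ) (hγ1 : γ < 1)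
    (hb : 0 < b - γ * d) (hd : d ≠ 0) (L : List (V × V))
    (hL : Good γ s ((1 - γ ^ 2) / (b - γ * d)) d L) :
    Inv γ s b ((s - γ) * d / Fintype.card V) (runA L) (runR d L)
      ((Fintype.card V : ℝ) * d - 2 * (L.length : ℝ))
      (runM γ s ((1 - γ ^ 2) / (b - γ * d)) d L) := by
  induction L with
  | nil =>
    have := Inv.start (V := V) (γ := γ) (s := s) (b := b) (d := d) hb hd
    simp only [runA, runR, runM, List.length_nil, Nat.cast_zero, mul_zero, sub_zero]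
    exact this
  | cons p L ih =>
    obtain ⟨h1, h2, h3, h4⟩ := hL
    have := (ih h1).step hs hγ0 hγ1 h3 h2 h4
    have e : (Fintype.card V : ℝ) * d - 2 * ((p :: L).length : ℝ)
        = (Fintype.card V : ℝ) * d - 2 * (L.length : ℝ) - 2 := by
      rw [List.length_cons]; push_cast; ring
    rw [e]
    exact this

/-- the end condition in trace form for one sign -/
def EndX (γ s μ : ℝ) (d : ℝ) (L : List (V × V)) : Prop :=
  ∑ v, ∑ w, runR d L v * runR d L w * runM γ s μ d L v w ^ 2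
    - 2 * γ * ∑ v, runR d L v * runM γ s μ d L v v
    + γ ^ 2 * ((Fintype.card V : ℝ) * d - 2 * (L.length : ℝ)) < 2

/-- EXACT LAYER: for a legal run for both signs ending with trace condition, every completion `C`
has all nontrivial eigenvalues in `(-b, b)`. -/
theorem exact_layer [Nonempty V] {γ b d : ℝ} (hγ0 : 0 < γ) (hγ1 : γ < 1)
    (hb : 0 < b - γ * d) (hd : d ≠ 0) (L : List (V × V))
    (hL : ∀ s : ℝ, s = 1 ∨ s = -1 → Good γ s ((1 - γ ^ 2) / (b - γ * d)) d L)
    (hρ : 0 < (Fintype.card V : ℝ) * d - 2 * (L.length : ℝ))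
    (hr : ∀ v, runR d L v = 0 ∨ 1 ≤ runR d L v)
    (hX : ∀ s : ℝ, s = 1 ∨ s = -1 → EndX γ s ((1 - γ ^ 2) / (b - γ * d)) d L)
    (C : Matrix V V ℝ) (hC : Cᵀ = C) (hC0 : ∀ v w, 0 ≤ C v w)
    (hCr : ∀ v, ∑ w, C v w = runR d L v)
    (f : V → ℝ) (hf : f ≠ 0) (hf0 : ∑ v, f v = 0) :
    |f ⬝ᵥ ((runA L + C) *ᵥ f)| < b * (f ⬝ᵥ f) := by
  have key : ∀ s : ℝ, s = 1 ∨ s = -1 → s * (f ⬝ᵥ ((runA L + C) *ᵥ f)) < b * (f ⬝ᵥ f) := by
    intro s hs
    have hI := Good.inv hs hγ0 hγ1 hb hd L (hL s hs)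
    refine hI.finish hs hγ0 hγ1 hρ (fun v => ?_) ?_ C hC hC0 hCr f hf hf0
    · rcases hr v with h | h <;> linarith
    · exact hI.end_of_trace hs hρ hr (hX s hs)
  have h1 := key 1 (Or.inl rfl)
  have h2 := key (-1) (Or.inr rfl)
  rw [abs_lt]
  constructor <;> linarith

end run

end Crest.Agent.R62.Stub
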