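import Crest.Agent.R62.AvBase

/-!
R62 (helper110): the truncated tilt matrix `f(K) = K^2 (1 + K^2/ν^2)^{-1}`.

`K` symmetric real matrix on a finite index type; `f(K)` is defined through an orthonormal
eigensystem.  Facts: `0 ≤ f(K) ≤ K^2`, `f(K) ≤ ν^2`, entry bounds, gain and cross bounds for the
restriction to a set `G` of stubs.
-/

set_option autoImplicit false
set_option linter.unusedSectionVars false
set_option linter.unusedVariables false

open scoped Matrix BigOperators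

namespace Crest.Agent.R62.Tilt

open Crest.Agent.R62.AvBase

variable {ι : Type*} [Fintype ι] [DecidableEq ι]

/-- orthonormal eigensystem of a real symmetric matrix -/
structure Eig (K : Matrix ι ι ℝ) where
  /-- eigenvalues -/
  lam : ι → ℝ
  /-- eigenvectors `e i` -/
  e : ι → ι → ℝ
  orth : ∀ i j, ∑ x, e i x * e j x = if i = j then 1 else 0
  compl : ∀ x y, ∑ i, e i x * e i y = if x = y then 1 else 0
  dec : ∀ x y, K x y = ∑ i, lam i * (e i x * e i y)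

theorem exists_eig {K : Matrix ι ι ℝ} (hs : Kᵀ = K) : Nonempty (Eig K) := by
  have hK : K.IsHermitian := by
    rw [Matrix.IsHermitian, Matrix.conjTranspose_eq_transpose_of_trivial]; exact hs
  let U : Matrix ι ι ℝ := (hK.eigenvectorUnitary : Matrix ι ι ℝ)
  have hU1 : U * star U = 1 := Unitary.coe_mul_star_self hK.eigenvectorUnitary
  have hU2 : star U * U = 1 := Unitary.coe_star_mul_self hK.eigenvectorUnitary
  have hst : ∀ i j, (star U) i j = U j i := fun i j => by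
    rw [Matrix.star_apply]; simp
  refine ⟨⟨hK.eigenvalues, fun i x => U x i, ?_, ?_, ?_⟩⟩
  · intro i j
    have := congrFun (congrFun hU2 i) j
    rw [Matrix.mul_apply, Matrix.one_apply] at this
    rw [← this]
    exact Finset.sum_congr rfl fun x _ => by rw [hst]
  · intro x y
    have := congrFun (congrFun hU1 x) y
    rw [Matrix.mul_apply, Matrix.one_apply] at this
    rw [← this]
    exact Finset.sum_congr rfl fun i _ => by rw [hst]
  · intro x y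
    have h := hK.spectral_theorem
    have h2 : K = U * Matrix.diagonal hK.eigenvalues * star U := by
      conv_lhs => rw [h]
      simp [Unitary.conjStarAlgAut_apply, U]
    conv_lhs => rw [h2]
    rw [Matrix.mul_apply]
    refine Finset.sum_congr rfl fun i _ => ?_
    rw [Matrix.mul_diagonal, hst]
    ring


/-- an eigensystem of a symmetric matrix -/
noncomputable def eigOf {K : Matrix ι ι ℝ} (hs : Kᵀ = K) : Eig K := (exists_eig hs).some

namespace Eig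

variable {K : Matrix ι ι ℝ} (E : Eig K)

/-- functional calculus -/
def fc (g : ℝ → ℝ) : Matrix ι ι ℝ := fun x y => ∑ i, g (E.lam i) * (E.e i x * E.e i y)

/-- coefficient of a vector -/
def co (v : ι → ℝ) (i : ι) : ℝ := ∑ x, E.e i x * v x

lemma fc_apply (g : ℝ → ℝ) (x y : ι) :
    E.fc g x y = ∑ i, g (E.lam i) * (E.e i x * E.e i y) := rfl

lemma fc_comm (g : ℝ → ℝ) (x y : ι) : E.fc g x y = E.fc g y x := by
  simp only [fc_apply]
  exact Finset.sum_congr rfl fun i _ => by ring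

lemma fc_symm (g : ℝ → ℝ) : (E.fc g)ᵀ = E.fc g := by
  ext x y; exact E.fc_comm g y x

lemma fc_mul (g h : ℝ → ℝ) : E.fc g * E.fc h = E.fc (fun t => g t * h t) := by
  ext x y
  rw [Matrix.mul_apply]
  simp only [fc_apply, Finset.sum_mul_sum]
  rw [Finset.sum_comm]
  have h1 : ∀ i j, ∑ z, g (E.lam i) * (E.e i x * E.e i z) * (h (E.lam j) * (E.e j z * E.e j y))
      = if i = j then g (E.lam i) * h (E.lam i) * (E.e i x * E.e i y) else 0 := by
    intro i j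
    have : ∀ z, g (E.lam i) * (E.e i x * E.e i z) * (h (E.lam j) * (E.e j z * E.e j y))
        = (g (E.lam i) * h (E.lam j) * (E.e i x * E.e j y)) * (E.e i z * E.e j z) := by
      intro z; ring
    simp_rw [this]
    rw [← Finset.mul_sum, E.orth i j]
    by_cases hij : i = j
    · subst hij; simp
    · simp [hij]
  calc _ = ∑ i, ∑ z, ∑ j, g (E.lam i) * (E.e i x * E.e i z)
        * (h (E.lam j) * (E.e j z * E.e j y)) := by
          refine Finset.sum_congr rfl fun i _ => Finset.sum_congr rfl fun z _ => ?_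
          rfl
    _ = ∑ i, ∑ j, ∑ z, g (E.lam i) * (E.e i x * E.e i z)
        * (h (E.lam j) * (E.e j z * E.e j y)) := by
          refine Finset.sum_congr rfl fun i _ => ?_
          rw [Finset.sum_comm]
    _ = _ := by
          simp_rw [h1]
          simp

lemma fc_one : E.fc (fun _ => 1) = 1 := by
  ext x y
  rw [fc_apply, Matrix.one_apply, ← E.compl x y]
  simp

lemma fc_id : E.fc (fun t => t) = K := by
  ext x y
  rw [fc_apply, E.dec x y]

lemma fc_pow (j : ℕ) : K ^ j = E.fc (fun t => t ^ j) := by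
  induction j with
  | zero => simp [E.fc_one]
  | succ j ih =>
      rw [pow_succ, ih]
      have := E.fc_mul (fun t => t ^ j) (fun t => t)
      rw [E.fc_id] at this
      rw [this]
      rfl

lemma fc_mul_pow (g : ℝ → ℝ) (j : ℕ) : E.fc g * K ^ j = E.fc (fun t => g t * t ^ j) := by
  rw [E.fc_pow j, E.fc_mul]

lemma trace_fc (g : ℝ → ℝ) : (E.fc g).trace = ∑ i, g (E.lam i) := by
  simp only [Matrix.trace, Matrix.diag_apply, fc_apply]
  rw [Finset.sum_comm]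
  refine Finset.sum_congr rfl fun i _ => ?_
  rw [← Finset.mul_sum, E.orth i i]
  simp

lemma trace_pow_eq (j : ℕ) : (K ^ j).trace = ∑ i, E.lam i ^ j := by
  rw [E.fc_pow j, E.trace_fc]

lemma form_fc (g : ℝ → ℝ) (v w : ι → ℝ) :
    v ⬝ᵥ (E.fc g *ᵥ w) = ∑ i, g (E.lam i) * (E.co v i * E.co w i) := by
  simp only [dotProduct, Matrix.mulVec, fc_apply, co]
  have h1 : ∀ x, v x * ∑ y, (∑ i, g (E.lam i) * (E.e i x * E.e i y)) * w y
      = ∑ i, ∑ y, g (E.lam i) * ((E.e i x * v x) * (E.e i y * w y)) := by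
    intro x
    rw [Finset.sum_comm, Finset.mul_sum]
    refine Finset.sum_congr rfl fun y _ => ?_
    rw [Finset.sum_mul, Finset.mul_sum]
    exact Finset.sum_congr rfl fun i _ => by ring
  simp_rw [h1]
  rw [Finset.sum_comm]
  refine Finset.sum_congr rfl fun i _ => ?_
  rw [Finset.sum_mul_sum, Finset.mul_sum]
  refine Finset.sum_congr rfl fun x _ => ?_
  rw [Finset.mul_sum]

lemma form_fc_self (g : ℝ → ℝ) (v : ι → ℝ) :
    v ⬝ᵥ (E.fc g *ᵥ v) = ∑ i, g (E.lam i) * (E.co v i) ^ 2 := by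
  rw [E.form_fc]
  exact Finset.sum_congr rfl fun i _ => by ring

lemma dot_self (v : ι → ℝ) : v ⬝ᵥ v = ∑ i, (E.co v i) ^ 2 := by
  have h := E.form_fc_self (fun _ => 1) v
  rw [E.fc_one, Matrix.one_mulVec] at h
  rw [h]
  simp

/-- monotonicity of the functional calculus -/
lemma form_fc_mono {g h : ℝ → ℝ} (hgh : ∀ i, g (E.lam i) ≤ h (E.lam i)) (v : ι → ℝ) :
    v ⬝ᵥ (E.fc g *ᵥ v) ≤ v ⬝ᵥ (E.fc h *ᵥ v) := by
  rw [E.form_fc_self, E.form_fc_self]
  exact Finset.sum_le_sum fun i _ => mul_le_mul_of_nonneg_right (hgh i) (sq_nonneg _)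

lemma form_fc_nonneg {g : ℝ → ℝ} (hg : ∀ i, 0 ≤ g (E.lam i)) (v : ι → ℝ) :
    0 ≤ v ⬝ᵥ (E.fc g *ᵥ v) := by
  rw [E.form_fc_self]
  exact Finset.sum_nonneg fun i _ => mul_nonneg (hg i) (sq_nonneg _)

lemma trace_fc_mono {g h : ℝ → ℝ} (hgh : ∀ i, g (E.lam i) ≤ h (E.lam i)) :
    (E.fc g).trace ≤ (E.fc h).trace := by
  rw [E.trace_fc, E.trace_fc]
  exact Finset.sum_le_sum fun i _ => hgh i

/-- `⟨A, g(K)⟩ = ∑ g(λ_i) e_i·A e_i` -/
lemma ip_fc (A : Matrix ι ι ℝ) (g : ℝ → ℝ) :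
    ∑ x, ∑ y, A x y * E.fc g x y = ∑ i, g (E.lam i) * (E.e i ⬝ᵥ (A *ᵥ E.e i)) := by
  simp only [fc_apply, dotProduct, Matrix.mulVec, Finset.mul_sum]
  rw [show (∑ x, ∑ y, ∑ i, A x y * (g (E.lam i) * (E.e i x * E.e i y)))
      = ∑ x, ∑ i, ∑ y, A x y * (g (E.lam i) * (E.e i x * E.e i y)) from
    Finset.sum_congr rfl fun x _ => Finset.sum_comm]
  rw [Finset.sum_comm]
  refine Finset.sum_congr rfl fun i _ => Finset.sum_congr rfl fun x _ =>
    Finset.sum_congr rfl fun y _ => by ring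

/-- product of two positive semidefinite matrices has nonnegative trace -/
lemma ip_fc_nonneg {A : Matrix ι ι ℝ} (hA : ∀ v, 0 ≤ v ⬝ᵥ (A *ᵥ v)) {g : ℝ → ℝ}
    (hg : ∀ i, 0 ≤ g (E.lam i)) : 0 ≤ ∑ x, ∑ y, A x y * E.fc g x y := by
  rw [E.ip_fc]
  exact Finset.sum_nonneg fun i _ => mul_nonneg (hg i) (hA _)

lemma ip_fc_mono {A : Matrix ι ι ℝ} (hA : ∀ v, 0 ≤ v ⬝ᵥ (A *ᵥ v)) {g h : ℝ → ℝ}
    (hgh : ∀ i, g (E.lam i) ≤ h (E.lam i)) :
    ∑ x, ∑ y, A x y * E.fc g x y ≤ ∑ x, ∑ y, A x y * E.fc h x y := by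
  rw [E.ip_fc, E.ip_fc]
  exact Finset.sum_le_sum fun i _ => mul_le_mul_of_nonneg_right (hgh i) (hA _)

/-- Cauchy–Schwarz for a nonnegative function of `K` -/
lemma form_fc_sq_le {g : ℝ → ℝ} (hg : ∀ i, 0 ≤ g (E.lam i)) (v w : ι → ℝ) :
    (v ⬝ᵥ (E.fc g *ᵥ w)) ^ 2 ≤ (v ⬝ᵥ (E.fc g *ᵥ v)) * (w ⬝ᵥ (E.fc g *ᵥ w)) := by
  rw [E.form_fc, E.form_fc_self, E.form_fc_self]
  have h := Finset.sum_mul_sq_le_sq_mul_sq Finset.univ
    (fun i => Real.sqrt (g (E.lam i)) * E.co v i) (fun i => Real.sqrt (g (E.lam i)) * E.co w i)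
  have h1 : ∀ i, Real.sqrt (g (E.lam i)) * E.co v i * (Real.sqrt (g (E.lam i)) * E.co w i)
      = g (E.lam i) * (E.co v i * E.co w i) := by
    intro i
    have := Real.mul_self_sqrt (hg i)
    calc _ = (Real.sqrt (g (E.lam i)) * Real.sqrt (g (E.lam i))) * (E.co v i * E.co w i) := by ring
      _ = _ := by rw [this]
  have h2 : ∀ (v : ι → ℝ) i, (Real.sqrt (g (E.lam i)) * E.co v i) ^ 2
      = g (E.lam i) * (E.co v i) ^ 2 := by
    intro v i
    rw [mul_pow, Real.sq_sqrt (hg i)]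
  simp_rw [h1, h2] at h
  exact h

lemma fc_sq_le {g : ℝ → ℝ} (hg : ∀ i, 0 ≤ g (E.lam i)) (x y : ι) :
    (E.fc g x y) ^ 2 ≤ E.fc g x x * E.fc g y y := by
  simp only [fc_apply]
  have h := Finset.sum_mul_sq_le_sq_mul_sq Finset.univ
    (fun i => Real.sqrt (g (E.lam i)) * E.e i x) (fun i => Real.sqrt (g (E.lam i)) * E.e i y)
  have h1 : ∀ i, Real.sqrt (g (E.lam i)) * E.e i x * (Real.sqrt (g (E.lam i)) * E.e i y)
      = g (E.lam i) * (E.e i x * E.e i y) := by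
    intro i
    have := Real.mul_self_sqrt (hg i)
    calc _ = (Real.sqrt (g (E.lam i)) * Real.sqrt (g (E.lam i))) * (E.e i x * E.e i y) := by ring
      _ = _ := by rw [this]
  have h2 : ∀ (x : ι) i, (Real.sqrt (g (E.lam i)) * E.e i x) ^ 2
      = g (E.lam i) * (E.e i x * E.e i x) := by
    intro x i
    rw [mul_pow, Real.sq_sqrt (hg i)]; ring
  simp_rw [h1, h2] at h
  exact h

lemma fc_diag_mono {g h : ℝ → ℝ} (hgh : ∀ i, g (E.lam i) ≤ h (E.lam i)) (x : ι) :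
    E.fc g x x ≤ E.fc h x x := by
  simp only [fc_apply]
  exact Finset.sum_le_sum fun i _ => mul_le_mul_of_nonneg_right (hgh i) (mul_self_nonneg _)

lemma fc_diag_nonneg {g : ℝ → ℝ} (hg : ∀ i, 0 ≤ g (E.lam i)) (x : ι) : 0 ≤ E.fc g x x := by
  simp only [fc_apply]
  exact Finset.sum_nonneg fun i _ => mul_nonneg (hg i) (mul_self_nonneg _)

end Eig

/-! ### the cutoff function -/

/-- `λ² / (1 + λ²/ν²)` written as `ν² λ² / (ν² + λ²)` -/
noncomputable def cut (ν : ℝ) (t : ℝ) : ℝ := ν ^ 2 * t ^ 2 / (ν ^ 2 + t ^ 2)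

lemma cut_nonneg (ν t : ℝ) : 0 ≤ cut ν t := by unfold cut; positivity

lemma cut_le_sq {ν : ℝ} (hν : 0 < ν) (t : ℝ) : cut ν t ≤ t ^ 2 := by
  unfold cut
  have h : 0 < ν ^ 2 + t ^ 2 := by positivity
  rw [div_le_iff₀ h]
  nlinarith [sq_nonneg t, sq_nonneg (t ^ 2), sq_nonneg (t * t)]

lemma cut_le {ν : ℝ} (hν : 0 < ν) (t : ℝ) : cut ν t ≤ ν ^ 2 := by
  unfold cut
  have h : 0 < ν ^ 2 + t ^ 2 := by positivity
  rw [div_le_iff₀ h]
  nlinarith [sq_nonneg (ν ^ 2), sq_nonneg ν]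

/-- `t³ - f(t) t ≤ t⁴/(2ν)` -/
lemma cut_mul_ge {ν : ℝ} (hν : 0 < ν) (t : ℝ) : t ^ 3 - t ^ 4 / (2 * ν) ≤ cut ν t * t ^ 1 := by
  have h : 0 < ν ^ 2 + t ^ 2 := by positivity
  have h1 : t ^ 3 - cut ν t * t ^ 1 = t ^ 5 / (ν ^ 2 + t ^ 2) := by
    unfold cut; field_simp; ring
  have h2 : t ^ 5 / (ν ^ 2 + t ^ 2) ≤ t ^ 4 / (2 * ν) := by
    rw [div_le_div_iff₀ h (by positivity)]
    have h3 : t ^ 5 * (2 * ν) = t ^ 4 * (2 * ν * t) := by ring
    rw [h3]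
    exact mul_le_mul_of_nonneg_left (by nlinarith [sq_nonneg (ν - t)]) (by positivity)
  linarith

section Main

variable {K : Matrix ι ι ℝ}

/-- the truncated square `f(K) = K² (1 + K²/ν²)⁻¹` -/
noncomputable def f (E : Eig K) (ν : ℝ) : Matrix ι ι ℝ := E.fc (cut ν)

variable (E : Eig K) {ν : ℝ}

lemma f_symm (x y : ι) : f E ν x y = f E ν y x := E.fc_comm _ x y

lemma sq_eq_fc : K ^ 2 = E.fc (fun t => t ^ 2) := E.fc_pow 2

lemma f_diag_nonneg (x : ι) : 0 ≤ f E ν x x := E.fc_diag_nonneg (fun _ => cut_nonneg _ _) x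

lemma f_diag_le (hν : 0 < ν) (x : ι) : f E ν x x ≤ (K ^ 2) x x := by
  rw [sq_eq_fc E]
  exact E.fc_diag_mono (fun i => cut_le_sq hν _) x

/-- `f_xy² ≤ (K²)_xx (K²)_yy` -/
lemma f_sq_le (hν : 0 < ν) (x y : ι) : (f E ν x y) ^ 2 ≤ (K ^ 2) x x * (K ^ 2) y y :=
  (E.fc_sq_le (fun _ => cut_nonneg _ _) x y).trans
    (mul_le_mul (f_diag_le E hν x) (f_diag_le E hν y) (f_diag_nonneg E y)
      ((f_diag_nonneg E x).trans (f_diag_le E hν x)))

lemma abs_f_le (hν : 0 < ν) {B : ℝ} {x y : ι} (hx : (K ^ 2) x x ≤ B) (hy : (K ^ 2) y y ≤ B) :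
    |f E ν x y| ≤ B := by
  have h1 := f_sq_le E hν x y
  have h0 : 0 ≤ (K ^ 2) x x := (f_diag_nonneg E x).trans (f_diag_le E hν x)
  have h0' : 0 ≤ (K ^ 2) y y := (f_diag_nonneg E y).trans (f_diag_le E hν y)
  have hB : 0 ≤ B := h0.trans hx
  refine abs_le_of_sq_le_sq (h1.trans ?_) hB
  calc (K ^ 2) x x * (K ^ 2) y y ≤ B * B := mul_le_mul hx hy h0' hB
    _ = B ^ 2 := by ring

/-- Frobenius norm of `f(K)` is at most that of `K²` -/
lemma f_frob_le (hs : Kᵀ = K) (hν : 0 < ν) : ∑ x, ∑ y, (f E ν x y) ^ 2 ≤ (K ^ 4).trace := by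
  have h1 : ∑ x, ∑ y, (f E ν x y) ^ 2 = (E.fc (fun t => cut ν t * cut ν t)).trace := by
    rw [← E.fc_mul]
    simp only [Matrix.trace, Matrix.diag_apply, Matrix.mul_apply]
    refine Finset.sum_congr rfl fun x _ => Finset.sum_congr rfl fun y _ => ?_
    rw [E.fc_comm _ y x]; simp only [f]; ring
  rw [h1, E.fc_pow 4]
  refine E.trace_fc_mono fun i => ?_
  have h2 := cut_le_sq hν (E.lam i)
  have h3 := cut_nonneg ν (E.lam i)
  nlinarith [sq_nonneg (E.lam i)]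

/-- `Tr f(K) K ≥ X_3 - X_4/(2ν)` -/
lemma ip_f_K_ge (hν : 0 < ν) :
    (K ^ 3).trace - (K ^ 4).trace / (2 * ν) ≤ ∑ x, ∑ y, f E ν x y * K x y := by
  have h1 : ∑ x, ∑ y, f E ν x y * K x y = (E.fc (fun t => cut ν t * t ^ 1)).trace := by
    rw [← E.fc_mul_pow, pow_one]
    simp only [Matrix.trace, Matrix.diag_apply, Matrix.mul_apply]
    refine Finset.sum_congr rfl fun x _ => Finset.sum_congr rfl fun y _ => ?_
    have : K x y = K y x := by
      rw [E.dec x y, E.dec y x]; exact Finset.sum_congr rfl fun i _ => by ring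
    rw [this]; rfl
  rw [h1, E.trace_pow_eq, E.trace_pow_eq, E.trace_fc, Finset.sum_div, ← Finset.sum_sub_distrib]
  exact Finset.sum_le_sum fun i _ => cut_mul_ge hν _

end Main

/-! ### restriction to a set of stubs -/

/-- restriction of a matrix to rows and columns in `G` -/
def res (G : Finset ι) (A : Matrix ι ι ℝ) : Matrix ι ι ℝ := fun x y =>
  if x ∈ G ∧ y ∈ G then A x y else 0

/-- restriction of a vector to `G` -/
def rv (G : Finset ι) (v : ι → ℝ) : ι → ℝ := fun x => if x ∈ G then v x else 0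

lemma rv_dot_le (G : Finset ι) (v : ι → ℝ) : rv G v ⬝ᵥ rv G v ≤ v ⬝ᵥ v := by
  simp only [dotProduct, rv]
  refine Finset.sum_le_sum fun x _ => ?_
  split_ifs
  · exact le_refl _
  · simpa using mul_self_nonneg (v x)

lemma form_res (G : Finset ι) (A : Matrix ι ι ℝ) (v w : ι → ℝ) :
    v ⬝ᵥ (res G A *ᵥ w) = rv G v ⬝ᵥ (A *ᵥ rv G w) := by
  simp only [dotProduct, Matrix.mulVec, res, rv, Finset.mul_sum]
  refine Finset.sum_congr rfl fun x _ => Finset.sum_congr rfl fun y _ => ?_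
  by_cases hx : x ∈ G <;> by_cases hy : y ∈ G <;> simp [hx, hy]

lemma res_symm {G : Finset ι} {A : Matrix ι ι ℝ} (hA : ∀ x y, A x y = A y x) (x y : ι) :
    res G A x y = res G A y x := by
  simp only [res, hA x y, and_comm]

lemma res_sq_le (G : Finset ι) (A : Matrix ι ι ℝ) (x y : ι) : (res G A x y) ^ 2 ≤ (A x y) ^ 2 := by
  simp only [res]
  split_ifs
  · exact le_refl _
  · simpa using sq_nonneg (A x y)

lemma res_frob_le (G : Finset ι) (A : Matrix ι ι ℝ) :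
    ∑ x, ∑ y, (res G A x y) ^ 2 ≤ ∑ x, ∑ y, (A x y) ^ 2 :=
  Finset.sum_le_sum fun x _ => Finset.sum_le_sum fun y _ => res_sq_le G A x y

/-- the truncated tilt matrix `Π f(K) Π` -/
noncomputable def P {K : Matrix ι ι ℝ} (E : Eig K) (ν : ℝ) (G : Finset ι) : Matrix ι ι ℝ :=
  res G (f E ν)

section PP

variable {K : Matrix ι ι ℝ} (E : Eig K) {ν : ℝ} {G : Finset ι}

lemma P_symm (x y : ι) : P E ν G x y = P E ν G y x := res_symm (fun x y => f_symm E x y) x y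

lemma P_psd (v : ι → ℝ) : 0 ≤ v ⬝ᵥ (P E ν G *ᵥ v) := by
  rw [P, form_res]
  exact E.form_fc_nonneg (fun _ => cut_nonneg _ _) _

lemma P_form_le (hν : 0 < ν) (v : ι → ℝ) : v ⬝ᵥ (P E ν G *ᵥ v) ≤ ν ^ 2 * (v ⬝ᵥ v) := by
  rw [P, form_res]
  have h1 : rv G v ⬝ᵥ (f E ν *ᵥ rv G v) ≤ ν ^ 2 * (rv G v ⬝ᵥ rv G v) := by
    rw [f, E.form_fc_self, E.dot_self, Finset.mul_sum]
    exact Finset.sum_le_sum fun i _ => mul_le_mul_of_nonneg_right (cut_le hν _) (sq_nonneg _)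
  exact h1.trans (mul_le_mul_of_nonneg_left (rv_dot_le G v) (sq_nonneg _))

lemma P_form_sq_le (v w : ι → ℝ) :
    (v ⬝ᵥ (P E ν G *ᵥ w)) ^ 2 ≤ (v ⬝ᵥ (P E ν G *ᵥ v)) * (w ⬝ᵥ (P E ν G *ᵥ w)) := by
  rw [P, form_res, form_res, form_res]
  exact E.form_fc_sq_le (fun _ => cut_nonneg _ _) _ _

/-- operator norm of the truncated tilt matrix -/
lemma P_opB (hν : 0 < ν) : OpB (P E ν G) (ν ^ 2) := by
  refine ⟨sq_nonneg _, fun v => ?_⟩
  set w := P E ν G *ᵥ v with hw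
  have h1 := P_form_sq_le E (ν := ν) (G := G) w v
  rw [← hw] at h1
  have h2 := P_form_le E (G := G) hν w
  have h3 := P_form_le E (G := G) hν v
  have h4 := P_psd E (ν := ν) (G := G) v
  rw [← hw] at h3 h4
  have hww := dot_self_nonneg w
  have hvv := dot_self_nonneg v
  have h5 : (w ⬝ᵥ w) * (w ⬝ᵥ w) ≤ (ν ^ 2 * (w ⬝ᵥ w)) * (ν ^ 2 * (v ⬝ᵥ v)) := by
    calc (w ⬝ᵥ w) * (w ⬝ᵥ w) = (w ⬝ᵥ w) ^ 2 := by ring
      _ ≤ _ := h1
      _ ≤ (ν ^ 2 * (w ⬝ᵥ w)) * (ν ^ 2 * (v ⬝ᵥ v)) :=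
        mul_le_mul h2 h3 h4 (mul_nonneg (sq_nonneg _) hww)
  rcases hww.eq_or_lt with h0 | h0
  · rw [← h0]; exact mul_nonneg (sq_nonneg _) hvv
  · have h6 : (w ⬝ᵥ w) * (w ⬝ᵥ w) ≤ (w ⬝ᵥ w) * ((ν ^ 2) ^ 2 * (v ⬝ᵥ v)) := by
      calc _ ≤ _ := h5
        _ = _ := by ring
    exact le_of_mul_le_mul_left h6 h0

lemma abs_P_le (hν : 0 < ν) {B : ℝ} (hB : 0 ≤ B) (hG : ∀ x ∈ G, (K ^ 2) x x ≤ B) (x y : ι) :
    |P E ν G x y| ≤ B := by
  simp only [P, res]
  split_ifs with h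
  · exact abs_f_le E hν (hG x h.1) (hG y h.2)
  · simpa using hB

lemma P_frob_le (hs : Kᵀ = K) (hν : 0 < ν) :
    ∑ x, ∑ y, (P E ν G x y) ^ 2 ≤ (K ^ 4).trace :=
  (res_frob_le G _).trans (f_frob_le E hs hν)

/-- gain: `⟨Π f Π, K²⟩ ≥ ‖Π f Π‖²` -/
lemma ip_P_sq_ge (hν : 0 < ν) :
    ∑ x, ∑ y, (P E ν G x y) ^ 2 ≤ ∑ x, ∑ y, P E ν G x y * (K ^ 2) x y := by
  have h1 : ∑ x, ∑ y, (P E ν G x y) ^ 2 = ∑ x, ∑ y, P E ν G x y * f E ν x y := by
    refine Finset.sum_congr rfl fun x _ => Finset.sum_congr rfl fun y _ => ?_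
    simp only [P, res]
    split_ifs
    · ring
    · simp
  rw [h1, sq_eq_fc E]
  exact E.ip_fc_mono (P_psd E) fun i => cut_le_sq hν _

/-- the part of a sum outside `G × G` -/
lemma outside_le {A M : Matrix ι ι ℝ} (hA : ∀ x y, A x y = A y x) (hM : ∀ x y, M x y = M y x) :
    |∑ x, ∑ y, A x y * M x y - ∑ x, ∑ y, res G A x y * M x y|
      ≤ 2 * (Real.sqrt (∑ x ∈ Gᶜ, ∑ y, (M x y) ^ 2) * Real.sqrt (∑ x, ∑ y, (A x y) ^ 2)) := by
  -- bound by the sum of absolute values over `x ∉ G` or `y ∉ G`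
  have hS : ∀ (a b : ι → ι → ℝ), ∑ x ∈ Gᶜ, ∑ y, |a x y| * |b x y|
      ≤ Real.sqrt (∑ x ∈ Gᶜ, ∑ y, (a x y) ^ 2) * Real.sqrt (∑ x, ∑ y, (b x y) ^ 2) := by
    intro a b
    have ha0 : 0 ≤ ∑ x ∈ Gᶜ, ∑ y, (a x y) ^ 2 :=
      Finset.sum_nonneg fun x _ => Finset.sum_nonneg fun y _ => sq_nonneg _
    have hb0 : 0 ≤ ∑ x, ∑ y, (b x y) ^ 2 :=
      Finset.sum_nonneg fun x _ => Finset.sum_nonneg fun y _ => sq_nonneg _
    have h := Finset.sum_mul_sq_le_sq_mul_sq (Gᶜ ×ˢ (Finset.univ : Finset ι))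
      (fun p => |a p.1 p.2|) (fun p => |b p.1 p.2|)
    simp only [Finset.sum_product, sq_abs] at h
    have hb1 : ∑ x ∈ Gᶜ, ∑ y, (b x y) ^ 2 ≤ ∑ x, ∑ y, (b x y) ^ 2 :=
      Finset.sum_le_sum_of_subset_of_nonneg (Finset.subset_univ _)
        fun x _ _ => Finset.sum_nonneg fun y _ => sq_nonneg _
    rw [← Real.sqrt_mul ha0]
    refine Real.le_sqrt_of_sq_le (h.trans (mul_le_mul_of_nonneg_left hb1 ha0))
  have h1 : ∑ x, ∑ y, A x y * M x y - ∑ x, ∑ y, res G A x y * M x y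
      = ∑ x, ∑ y, (if x ∈ G ∧ y ∈ G then 0 else A x y * M x y) := by
    rw [← Finset.sum_sub_distrib]
    refine Finset.sum_congr rfl fun x _ => ?_
    rw [← Finset.sum_sub_distrib]
    refine Finset.sum_congr rfl fun y _ => ?_
    simp only [res]
    split_ifs <;> simp
  rw [h1]
  have h2 : |∑ x, ∑ y, (if x ∈ G ∧ y ∈ G then 0 else A x y * M x y)|
      ≤ ∑ x, ∑ y, ((if x ∈ Gᶜ then |M x y| * |A x y| else 0)
        + (if y ∈ Gᶜ then |M x y| * |A x y| else 0)) := by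
    refine (Finset.abs_sum_le_sum_abs _ _).trans (Finset.sum_le_sum fun x _ => ?_)
    refine (Finset.abs_sum_le_sum_abs _ _).trans (Finset.sum_le_sum fun y _ => ?_)
    have h0 : 0 ≤ |M x y| * |A x y| := mul_nonneg (abs_nonneg _) (abs_nonneg _)
    by_cases hx : x ∈ G <;> by_cases hy : y ∈ G <;>
      simp only [hx, hy, Finset.mem_compl, not_true_eq_false, not_false_eq_true, and_self,
        and_true, and_false, if_true, if_false, abs_zero, abs_mul] <;>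
      nlinarith
  refine h2.trans ?_
  have h3 : ∑ x, ∑ y, (if x ∈ Gᶜ then |M x y| * |A x y| else 0)
      = ∑ x ∈ Gᶜ, ∑ y, |M x y| * |A x y| := by
    rw [← Finset.sum_filter_add_sum_filter_not Finset.univ (fun x => x ∈ Gᶜ)
      (fun x => ∑ y, (if x ∈ Gᶜ then |M x y| * |A x y| else 0))]
    have e1 : (Finset.univ.filter fun x => x ∈ Gᶜ) = Gᶜ := by ext x; simp
    rw [e1]
    have e2 : ∑ x ∈ Finset.univ.filter (fun x => ¬ x ∈ Gᶜ),
        ∑ y, (if x ∈ Gᶜ then |M x y| * |A x y| else 0) = 0 := by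
      refine Finset.sum_eq_zero fun x hx => ?_
      rw [Finset.mem_filter] at hx
      simp [hx.2]
    rw [e2, add_zero]
    refine Finset.sum_congr rfl fun x hx => Finset.sum_congr rfl fun y _ => ?_
    simp only [hx, if_true]
  have h4 : ∑ x, ∑ y, (if y ∈ Gᶜ then |M x y| * |A x y| else 0)
      = ∑ x, ∑ y, (if x ∈ Gᶜ then |M x y| * |A x y| else 0) := by
    rw [Finset.sum_comm]
    refine Finset.sum_congr rfl fun x _ => Finset.sum_congr rfl fun y _ => ?_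
    rw [hA y x, hM y x]
  simp only [Finset.sum_add_distrib]
  rw [h4, h3]
  have h5 := hS M A
  linarith

/-- `⟨Π f Π, M⟩` against a symmetric matrix -/
lemma ip_P_K_ge (hs : Kᵀ = K) (hν : 0 < ν) :
    (K ^ 3).trace - (K ^ 4).trace / (2 * ν)
      - 2 * (Real.sqrt (∑ x ∈ Gᶜ, (K ^ 2) x x) * Real.sqrt ((K ^ 4).trace))
      ≤ ∑ x, ∑ y, P E ν G x y * K x y := by
  have hKs : ∀ x y, K x y = K y x := fun x y => by
    conv_lhs => rw [← hs]
    rfl
  have h1 := ip_f_K_ge E hν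
  have h2 := outside_le (G := G) (A := f E ν) (M := K) (fun x y => f_symm E x y) hKs
  have h3 : ∑ x ∈ Gᶜ, ∑ y, (K x y) ^ 2 = ∑ x ∈ Gᶜ, (K ^ 2) x x := by
    refine Finset.sum_congr rfl fun x _ => ?_
    rw [pow_two, Matrix.mul_apply]
    exact Finset.sum_congr rfl fun y _ => by rw [hKs y x]; ring
  rw [h3] at h2
  have h4 : Real.sqrt (∑ x, ∑ y, (f E ν x y) ^ 2) ≤ Real.sqrt ((K ^ 4).trace) :=
    Real.sqrt_le_sqrt (f_frob_le E hs hν)
  have h5 := mul_le_mul_of_nonneg_left h4 (Real.sqrt_nonneg (∑ x ∈ Gᶜ, (K ^ 2) x x))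
  have h6 := (abs_le.mp h2).2
  unfold P
  linarith

end PP

end Crest.Agent.R62.Tilt
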