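import Crest.Agent.R62.Tilt
import Crest.Agent.R62.TiltK

/-!
R62 (helper110): the tilt matrix of the step design (#4644).

`tphi E ν G Bad` = `Π f(K) Π` with the bad pairs removed, `f(K) = K²(1+K²/ν²)⁻¹`.

* `tphi_symm`, `abs_tphi_le : |φ| ≤ B`, `tphi_eq_zero_of_bad`, `tphi_dead`
* `tphi_opB : OpB φ (ν² + D B)`
* `tphi_frob_le : ∑ φ² ≤ Tr K⁴`
* `tphi_gain : ‖·‖` lower bound of `∑ φ K²`
* `tphi_cross_nonneg`, `tphi_cross_le` : bounds of `∑ φ(K) L²`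
-/

set_option autoImplicit false
set_option linter.unusedSectionVars false
set_option linter.unusedVariables false

open scoped Matrix BigOperators

namespace Crest.Agent.R62.TiltF

open Crest.Agent.R62.AvBase
open Crest.Agent.R62.Tilt (Eig cut cut_nonneg cut_le cut_le_sq f P rv)

variable {ι : Type*} [Fintype ι] [DecidableEq ι]

section

variable {K L : Matrix ι ι ℝ} (E : Eig K) (ν : ℝ) (G : Finset ι) (Bad : Finset (ι × ι))

/-- `Π f(K) Π` without the bad pairs -/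
noncomputable def tphi : Matrix ι ι ℝ := fun x y => if (x, y) ∈ Bad then 0 else P E ν G x y

/-- the part on the bad pairs -/
noncomputable def tbad : Matrix ι ι ℝ := fun x y => if (x, y) ∈ Bad then P E ν G x y else 0

variable {ν G Bad}

lemma tphi_eq : tphi E ν G Bad = P E ν G - tbad E ν G Bad := by
  ext x y
  simp only [tphi, tbad, Matrix.sub_apply]
  split_ifs <;> ring

lemma tphi_symm (hB : ∀ x y, (x, y) ∈ Bad → (y, x) ∈ Bad) (x y : ι) :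
    tphi E ν G Bad x y = tphi E ν G Bad y x := by
  have hb : (x, y) ∈ Bad ↔ (y, x) ∈ Bad := ⟨hB x y, hB y x⟩
  simp only [tphi, hb, Tilt.P_symm E x y]

lemma tbad_symm (hB : ∀ x y, (x, y) ∈ Bad → (y, x) ∈ Bad) (x y : ι) :
    tbad E ν G Bad x y = tbad E ν G Bad y x := by
  have hb : (x, y) ∈ Bad ↔ (y, x) ∈ Bad := ⟨hB x y, hB y x⟩
  simp only [tbad, hb, Tilt.P_symm E x y]

lemma abs_tphi_le (hν : 0 < ν) {B : ℝ} (hB : 0 ≤ B) (hG : ∀ x ∈ G, (K ^ 2) x x ≤ B) (x y : ι) :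
    |tphi E ν G Bad x y| ≤ B := by
  simp only [tphi]
  split_ifs
  · simpa using hB
  · exact Tilt.abs_P_le E hν hB hG x y

lemma tphi_eq_zero_of_bad {x y : ι} (h : (x, y) ∈ Bad) : tphi E ν G Bad x y = 0 := by
  simp [tphi, h]

lemma P_eq_zero_left {x y : ι} (h : x ∉ G) : P E ν G x y = 0 := by
  simp [P, Tilt.res, h]

lemma tphi_eq_zero_left {x y : ι} (h : x ∉ G) : tphi E ν G Bad x y = 0 := by
  simp [tphi, P_eq_zero_left E h]

lemma P_dead (hν : 0 < ν) {x : ι} (h : (K ^ 2) x x = 0) (y : ι) : P E ν G x y = 0 := by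
  have h1 := Tilt.f_sq_le E hν x y
  rw [h, zero_mul] at h1
  have h2 : f E ν x y = 0 := by
    have := le_antisymm h1 (sq_nonneg _)
    exact pow_eq_zero_iff (two_ne_zero) |>.mp this
  simp only [P, Tilt.res, h2, ite_self]

/-- the tilt vanishes on dead stubs -/
lemma tphi_dead (hν : 0 < ν) {x : ι} (h : (K ^ 2) x x = 0) (y : ι) :
    tphi E ν G Bad x y = 0 := by
  simp [tphi, P_dead E hν h y]

lemma tphi_sq_le (x y : ι) : (tphi E ν G Bad x y) ^ 2 ≤ (P E ν G x y) ^ 2 := by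
  simp only [tphi]
  split_ifs
  · simpa using sq_nonneg _
  · exact le_refl _

lemma tphi_frob_le (hs : Kᵀ = K) (hν : 0 < ν) :
    ∑ x, ∑ y, (tphi E ν G Bad x y) ^ 2 ≤ (K ^ 4).trace :=
  (Finset.sum_le_sum fun x _ => Finset.sum_le_sum fun y _ => tphi_sq_le E x y).trans
    (Tilt.P_frob_le E hs hν)

lemma row_tbad_le (hν : 0 < ν) {B D : ℝ} (hB : 0 ≤ B) (hD : 0 ≤ D)
    (hG : ∀ x ∈ G, (K ^ 2) x x ≤ B)
    (hbad : ∀ x ∈ G, ((Finset.univ.filter (fun y => (x, y) ∈ Bad)).card : ℝ) ≤ D) (x : ι) :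
    ∑ y, |tbad E ν G Bad x y| ≤ D * B := by
  by_cases hx : x ∈ G
  · have h1 : ∑ y, |tbad E ν G Bad x y| ≤ ∑ y, (if (x, y) ∈ Bad then B else 0) := by
      refine Finset.sum_le_sum fun y _ => ?_
      simp only [tbad]
      split_ifs
      · exact Tilt.abs_P_le E hν hB hG x y
      · simp
    refine h1.trans ?_
    rw [← Finset.sum_filter, Finset.sum_const, nsmul_eq_mul]
    exact mul_le_mul_of_nonneg_right (hbad x hx) hB
  · have h1 : ∑ y, |tbad E ν G Bad x y| = 0 := by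
      refine Finset.sum_eq_zero fun y _ => ?_
      simp [tbad, P_eq_zero_left E hx]
    rw [h1]
    positivity

/-- operator norm of the tilt -/
theorem tphi_opB (hν : 0 < ν) {B D : ℝ} (hB : 0 ≤ B) (hD : 0 ≤ D)
    (hG : ∀ x ∈ G, (K ^ 2) x x ≤ B) (hBs : ∀ x y, (x, y) ∈ Bad → (y, x) ∈ Bad)
    (hbad : ∀ x ∈ G, ((Finset.univ.filter (fun y => (x, y) ∈ Bad)).card : ℝ) ≤ D) :
    OpB (tphi E ν G Bad) (ν ^ 2 + D * B) := by
  rw [tphi_eq]
  exact TiltK.OpB_sub (Tilt.P_opB E hν) (TiltK.opB_of_rows (by positivity)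
    (fun x y => by rw [tbad_symm E hBs]) (row_tbad_le E hν hB hD hG hbad))

/-- contribution of the bad pairs -/
lemma bad_ip_le (hν : 0 < ν) {M : Matrix ι ι ℝ} (hM : Mᵀ = M) {B Nb : ℝ} (hB : 0 ≤ B)
    (hG : ∀ x ∈ G, (K ^ 2) x x ≤ B) (hGM : ∀ x ∈ G, (M ^ 2) x x ≤ B)
    (hbad : (Bad.card : ℝ) ≤ Nb) :
    |∑ x, ∑ y, tphi E ν G Bad x y * (M ^ 2) x y - ∑ x, ∑ y, P E ν G x y * (M ^ 2) x y|
      ≤ Nb * B ^ 2 := by
  have h1 : ∑ x, ∑ y, tphi E ν G Bad x y * (M ^ 2) x y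
      - ∑ x, ∑ y, P E ν G x y * (M ^ 2) x y
      = - ∑ x, ∑ y, (if (x, y) ∈ Bad then P E ν G x y * (M ^ 2) x y else 0) := by
    rw [← Finset.sum_sub_distrib, ← Finset.sum_neg_distrib]
    refine Finset.sum_congr rfl fun x _ => ?_
    rw [← Finset.sum_sub_distrib, ← Finset.sum_neg_distrib]
    refine Finset.sum_congr rfl fun y _ => ?_
    simp only [tphi]
    split_ifs <;> ring
  rw [h1, abs_neg]
  have h2 : |∑ x, ∑ y, (if (x, y) ∈ Bad then P E ν G x y * (M ^ 2) x y else 0)|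
      ≤ ∑ x, ∑ y, (if (x, y) ∈ Bad then B ^ 2 else 0) := by
    refine (Finset.abs_sum_le_sum_abs _ _).trans (Finset.sum_le_sum fun x _ => ?_)
    refine (Finset.abs_sum_le_sum_abs _ _).trans (Finset.sum_le_sum fun y _ => ?_)
    split_ifs with hb
    · by_cases hx : x ∈ G
      · by_cases hy : y ∈ G
        · rw [abs_mul]
          have e1 := Tilt.abs_P_le E hν hB hG x y
          have e2 := TiltK.abs_sq_entry_le hM hB (hGM x hx) (hGM y hy)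
          calc |P E ν G x y| * |(M ^ 2) x y| ≤ B * B :=
                mul_le_mul e1 e2 (abs_nonneg _) hB
            _ = B ^ 2 := by ring
        · have : P E ν G x y = 0 := by
            rw [Tilt.P_symm E x y]; exact P_eq_zero_left E hy
          rw [this, zero_mul, abs_zero]; positivity
      · rw [P_eq_zero_left E hx, zero_mul, abs_zero]; positivity
    · simp
  refine h2.trans ?_
  have h3 : ∑ x, ∑ y, (if (x, y) ∈ Bad then B ^ 2 else 0) = (Bad.card : ℝ) * B ^ 2 := by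
    have : ∑ p : ι × ι, (if p ∈ Bad then B ^ 2 else 0) = (Bad.card : ℝ) * B ^ 2 := by
      rw [Finset.sum_ite_mem, Finset.univ_inter, Finset.sum_const, nsmul_eq_mul]
    rw [← this, ← Finset.univ_product_univ, Finset.sum_product]
  rw [h3]
  exact mul_le_mul_of_nonneg_right hbad (sq_nonneg _)

/-- lower bound of the own gain: if `g ≥ 0` is a lower bound of `⟨Π f Π, K⟩` -/
theorem tphi_gain (hs : Kᵀ = K) (hν : 0 < ν) {B Nb g X2 : ℝ} (hB : 0 ≤ B)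
    (hG : ∀ x ∈ G, (K ^ 2) x x ≤ B) (hbad : (Bad.card : ℝ) ≤ Nb)
    (hg : 0 ≤ g) (hX2 : 0 < X2) (hX2' : (K ^ 2).trace ≤ X2)
    (hg' : g ≤ (K ^ 3).trace - (K ^ 4).trace / (2 * ν)
      - 2 * (Real.sqrt (∑ x ∈ Gᶜ, (K ^ 2) x x) * Real.sqrt ((K ^ 4).trace))) :
    g ^ 2 / X2 - Nb * B ^ 2 ≤ ∑ x, ∑ y, tphi E ν G Bad x y * (K ^ 2) x y := by
  have h1 := Tilt.ip_P_K_ge E (G := G) hs hν
  have h2 := Tilt.ip_P_sq_ge E (G := G) hν
  have h3 := (abs_le.mp (bad_ip_le E (G := G) (Bad := Bad) hν hs hB hG hG hbad)).1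
  have hgP : g ≤ ∑ x, ∑ y, P E ν G x y * K x y := hg'.trans h1
  -- Cauchy–Schwarz
  have h4 : (∑ x, ∑ y, P E ν G x y * K x y) ^ 2
      ≤ (∑ x, ∑ y, (P E ν G x y) ^ 2) * (K ^ 2).trace := by
    rw [← TiltK.frob_sq hs]
    have h := Finset.sum_mul_sq_le_sq_mul_sq (Finset.univ : Finset (ι × ι))
      (fun p => P E ν G p.1 p.2) (fun p => K p.1 p.2)
    simpa only [← Finset.univ_product_univ, Finset.sum_product] using h
  have h5 : g ^ 2 ≤ (∑ x, ∑ y, (P E ν G x y) ^ 2) * X2 := by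
    have hP0 : 0 ≤ ∑ x, ∑ y, (P E ν G x y) ^ 2 :=
      Finset.sum_nonneg fun x _ => Finset.sum_nonneg fun y _ => sq_nonneg _
    calc g ^ 2 ≤ (∑ x, ∑ y, P E ν G x y * K x y) ^ 2 := pow_le_pow_left₀ hg hgP 2
      _ ≤ _ := h4
      _ ≤ _ := mul_le_mul_of_nonneg_left hX2' hP0
  have h6 : g ^ 2 / X2 ≤ ∑ x, ∑ y, (P E ν G x y) ^ 2 := by
    rw [div_le_iff₀ hX2]; exact h5
  linarith

/-! ### cross terms -/

lemma sq_eq_fc' (EL : Eig L) : L ^ 2 = EL.fc (fun t => t ^ 2) := EL.fc_pow 2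

/-- the cross term of the untruncated matrix is nonnegative -/
lemma ip_P_cross_nonneg (hL : Lᵀ = L) : 0 ≤ ∑ x, ∑ y, P E ν G x y * (L ^ 2) x y := by
  have EL := Tilt.eigOf hL
  rw [sq_eq_fc' EL]
  exact EL.ip_fc_nonneg (Tilt.P_psd E) (fun i => sq_nonneg _)

lemma res_form_nonneg (EL : Eig L) (v : ι → ℝ) :
    0 ≤ v ⬝ᵥ (Tilt.res G (L ^ 2) *ᵥ v) := by
  rw [Tilt.form_res, sq_eq_fc' EL]
  exact EL.form_fc_nonneg (fun _ => sq_nonneg _) _

/-- `⟨Π f(K) Π, L²⟩ ≤ ∑_{z,w ∈ G} (K²)_zw (L²)_zw` -/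
lemma ip_P_cross_le_mid (hL : Lᵀ = L) (hν : 0 < ν) :
    ∑ x, ∑ y, P E ν G x y * (L ^ 2) x y ≤ ∑ z ∈ G, ∑ w ∈ G, (L ^ 2) z w * (K ^ 2) z w := by
  have EL := Tilt.eigOf hL
  have h1 : ∑ x, ∑ y, P E ν G x y * (L ^ 2) x y
      = ∑ x, ∑ y, Tilt.res G (L ^ 2) x y * E.fc (cut ν) x y := by
    refine Finset.sum_congr rfl fun x _ => Finset.sum_congr rfl fun y _ => ?_
    simp only [P, f, Tilt.res]
    split_ifs <;> ring
  have h2 : ∑ x, ∑ y, Tilt.res G (L ^ 2) x y * E.fc (cut ν) x y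
      ≤ ∑ x, ∑ y, Tilt.res G (L ^ 2) x y * E.fc (fun t => t ^ 2) x y :=
    E.ip_fc_mono (res_form_nonneg EL) fun i => cut_le_sq hν _
  rw [h1]
  refine h2.trans (le_of_eq ?_)
  rw [← sq_eq_fc' E]
  have h3 : ∀ x y, Tilt.res G (L ^ 2) x y * (K ^ 2) x y
      = if x ∈ G then (if y ∈ G then (L ^ 2) x y * (K ^ 2) x y else 0) else 0 := by
    intro x y
    simp only [Tilt.res]
    by_cases hx : x ∈ G <;> by_cases hy : y ∈ G <;> simp [hx, hy]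
  simp_rw [h3]
  have h4 : ∀ x, ∑ y, (if x ∈ G then (if y ∈ G then (L ^ 2) x y * (K ^ 2) x y else 0) else 0)
      = if x ∈ G then ∑ y ∈ G, (L ^ 2) x y * (K ^ 2) x y else 0 := by
    intro x
    by_cases hx : x ∈ G
    · simp only [hx, if_true]
      rw [Finset.sum_ite_mem, Finset.univ_inter]
    · simp [hx]
  simp_rw [h4]
  rw [Finset.sum_ite_mem, Finset.univ_inter]

/-- `∑_{z,w ∈ G} (L²)_zw (K²)_zw ≤ 2 ‖LK‖_F² + 2 (∑_{∉G} (K²)_zz)(∑_{∉G} (L²)_zz)` -/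
lemma mid_le (hK : Kᵀ = K) (hL : Lᵀ = L) (G : Finset ι) :
    ∑ z ∈ G, ∑ w ∈ G, (L ^ 2) z w * (K ^ 2) z w
      ≤ 2 * ∑ x, ∑ y, (L ^ 2) x y * (K ^ 2) x y
        + 2 * ((∑ z ∈ Gᶜ, (L ^ 2) z z) * ∑ z ∈ Gᶜ, (K ^ 2) z z) := by
  have e1 := TiltK.frob_mid (K := K) (L := L) hK hL G
  have e2 := TiltK.frob_mid (K := K) (L := L) hK hL Finset.univ
  have e3 := TiltK.frob_mid (K := K) (L := L) hK hL Gᶜ
  have h1 : ∀ x y, (∑ z ∈ G, L x z * K z y) ^ 2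
      ≤ 2 * (∑ z, L x z * K z y) ^ 2 + 2 * (∑ z ∈ Gᶜ, L x z * K z y) ^ 2 := by
    intro x y
    have h := Finset.sum_add_sum_compl G (fun z => L x z * K z y)
    have h' : ∑ z ∈ G, L x z * K z y = ∑ z, L x z * K z y - ∑ z ∈ Gᶜ, L x z * K z y := by
      linarith
    rw [h']
    nlinarith [sq_nonneg (∑ z, L x z * K z y + ∑ z ∈ Gᶜ, L x z * K z y)]
  have h2 : ∑ x, ∑ y, (∑ z ∈ G, L x z * K z y) ^ 2
      ≤ 2 * ∑ x, ∑ y, (∑ z, L x z * K z y) ^ 2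
        + 2 * ∑ x, ∑ y, (∑ z ∈ Gᶜ, L x z * K z y) ^ 2 := by
    rw [Finset.mul_sum, Finset.mul_sum, ← Finset.sum_add_distrib]
    refine Finset.sum_le_sum fun x _ => ?_
    rw [Finset.mul_sum, Finset.mul_sum, ← Finset.sum_add_distrib]
    exact Finset.sum_le_sum fun y _ => h1 x y
  rw [← e1]
  refine h2.trans ?_
  rw [e2, e3]
  have h3 : ∑ z ∈ Gᶜ, ∑ w ∈ Gᶜ, (L ^ 2) z w * (K ^ 2) z w
      ≤ (∑ z ∈ Gᶜ, (L ^ 2) z z) * ∑ z ∈ Gᶜ, (K ^ 2) z z := by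
    have h4 : ∀ z w, (L ^ 2) z w * (K ^ 2) z w
        ≤ (Real.sqrt ((L ^ 2) z z) * Real.sqrt ((K ^ 2) z z))
          * (Real.sqrt ((L ^ 2) w w) * Real.sqrt ((K ^ 2) w w)) := by
      intro z w
      have a1 := abs_entry_le hL (L := Real.sqrt ((L ^ 2).trace) + 1) ?_ 0 z w
      have a2 := abs_entry_le hK (L := Real.sqrt ((K ^ 2).trace) + 1) ?_ 0 z w
      · simp only [pow_zero, one_mul, zero_add] at a1 a2
        calc (L ^ 2) z w * (K ^ 2) z w ≤ |(L ^ 2) z w * (K ^ 2) z w| := le_abs_self _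
          _ = |(L ^ 2) z w| * |(K ^ 2) z w| := abs_mul _ _
          _ ≤ (Real.sqrt ((L ^ 2) z z) * Real.sqrt ((L ^ 2) w w))
            * (Real.sqrt ((K ^ 2) z z) * Real.sqrt ((K ^ 2) w w)) :=
              mul_le_mul a1 a2 (abs_nonneg _) (mul_nonneg (Real.sqrt_nonneg _)
                (Real.sqrt_nonneg _))
          _ = _ := by ring
      · exact opB_frob hK
      · exact opB_frob hL
    have h5 : ∑ z ∈ Gᶜ, ∑ w ∈ Gᶜ, (L ^ 2) z w * (K ^ 2) z w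
        ≤ (∑ z ∈ Gᶜ, Real.sqrt ((L ^ 2) z z) * Real.sqrt ((K ^ 2) z z)) ^ 2 := by
      rw [pow_two (∑ z ∈ Gᶜ, Real.sqrt ((L ^ 2) z z) * Real.sqrt ((K ^ 2) z z)),
        Finset.sum_mul_sum]
      exact Finset.sum_le_sum fun z _ => Finset.sum_le_sum fun w _ => h4 z w
    refine h5.trans ?_
    have h6 := Finset.sum_mul_sq_le_sq_mul_sq Gᶜ (fun z => Real.sqrt ((L ^ 2) z z))
      (fun z => Real.sqrt ((K ^ 2) z z))
    simp only [Real.sq_sqrt (diag_sq_nonneg hL _), Real.sq_sqrt (diag_sq_nonneg hK _)] at h6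
    exact h6
  linarith
where
  opB_frob {K : Matrix ι ι ℝ} (hK : Kᵀ = K) : OpB K (Real.sqrt ((K ^ 2).trace) + 1) := by
    have h0 : 0 ≤ Real.sqrt ((K ^ 2).trace) := Real.sqrt_nonneg _
    refine ⟨by linarith, fun v => ?_⟩
    have h1 : (K *ᵥ v) ⬝ᵥ (K *ᵥ v) ≤ (K ^ 2).trace * (v ⬝ᵥ v) := by
      rw [← TiltK.frob_sq hK]
      simp only [Matrix.mulVec, dotProduct, Finset.sum_mul]
      refine Finset.sum_le_sum fun x _ => ?_
      have := Finset.sum_mul_sq_le_sq_mul_sq Finset.univ (fun y => K x y) v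
      calc _ = (∑ y, K x y * v y) ^ 2 := by rw [← Finset.sum_mul]; ring
        _ ≤ _ := this
        _ = _ := by rw [Finset.sum_mul]; simp only [pow_two (v _)]
    have h2 : (K ^ 2).trace ≤ (Real.sqrt ((K ^ 2).trace) + 1) ^ 2 := by
      have h3 : 0 ≤ (K ^ 2).trace := by simpa using trace_even_nonneg hK 1
      nlinarith [Real.sq_sqrt h3]
    exact h1.trans (mul_le_mul_of_nonneg_right h2 (dot_self_nonneg v))

/-- lower bound of the cross term -/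
theorem tphi_cross_ge (hL : Lᵀ = L) (hν : 0 < ν) {B Nb : ℝ} (hB : 0 ≤ B)
    (hG : ∀ x ∈ G, (K ^ 2) x x ≤ B) (hGL : ∀ x ∈ G, (L ^ 2) x x ≤ B)
    (hbad : (Bad.card : ℝ) ≤ Nb) :
    - (Nb * B ^ 2) ≤ ∑ x, ∑ y, tphi E ν G Bad x y * (L ^ 2) x y := by
  have h1 := ip_P_cross_nonneg E (ν := ν) (G := G) hL
  have h3 := (abs_le.mp (bad_ip_le E (G := G) (Bad := Bad) hν hL hB hG hGL hbad)).1
  linarith

/-- upper bound of the cross term -/
theorem tphi_cross_le (hK : Kᵀ = K) (hL : Lᵀ = L) (hν : 0 < ν) {B Nb : ℝ} (hB : 0 ≤ B)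
    (hG : ∀ x ∈ G, (K ^ 2) x x ≤ B) (hGL : ∀ x ∈ G, (L ^ 2) x x ≤ B)
    (hbad : (Bad.card : ℝ) ≤ Nb) :
    ∑ x, ∑ y, tphi E ν G Bad x y * (L ^ 2) x y
      ≤ 2 * ∑ x, ∑ y, (L ^ 2) x y * (K ^ 2) x y
        + 2 * ((∑ z ∈ Gᶜ, (L ^ 2) z z) * ∑ z ∈ Gᶜ, (K ^ 2) z z) + Nb * B ^ 2 := by
  have h1 := ip_P_cross_le_mid E (G := G) hL hν
  have h2 := mid_le hK hL G
  have h3 := (abs_le.mp (bad_ip_le E (G := G) (Bad := Bad) hν hL hB hG hGL hbad)).2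
  linarith

end

end Crest.Agent.R62.TiltF
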