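import Crest.Agent.R62.KapB
import Crest.Agent.R62.Nums

/-!
R62 (helper644): the drift of `V = ∑ K_zz²` in both stages, numerical part.
-/

set_option autoImplicit false
set_option linter.unusedSectionVars false
set_option linter.unusedVariables false

open Matrix Finset

namespace Crest.Agent.R62.VNum

open Crest.Agent.R62.AvBase (OpB)
open Crest.Agent.R62.AvX1 (ind)
open Crest.Agent.R62.DiagAv
open Crest.Agent.R62.AvV
open Crest.Agent.R62.Expo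

section generic
variable {ι : Type*} [Fintype ι] [DecidableEq ι]
variable {K E : Matrix ι ι ℝ} {F : Finset ι} {w : ι → ι → ℝ} {s γ Λ L2 η ξ ω : ℝ}

lemma row_of_mulVec (hK : K.IsSymm) (hF : ∀ i j, i ∉ F → K i j = 0)
    (hrow : K *ᵥ ind F = s • ind F) : ∀ i ∈ F, ∑ j, K i j = s := by
  intro i hi
  have h := congrFun hrow i
  have h1 : (K *ᵥ ind F) i = ∑ j, K i j := by
    simp only [Matrix.mulVec, dotProduct, ind, mul_ite, mul_one, mul_zero]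
    refine Finset.sum_congr rfl fun j _ => ?_
    split_ifs with hj
    · rfl
    · rw [← hK.apply]; exact (hF j i hj).symm
  rw [h1] at h
  simpa [ind, hi] using h

/-- `∑ K⁴ ≤ 3ρ/5` in the box. -/
lemma kappa_box (hK : K.IsSymm) (hF : ∀ i j, i ∉ F → K i j = 0) (hs : s ^ 2 = 1)
    (hγ0 : 0 ≤ γ) (hγ : γ ^ 2 ≤ 1 / 2) (hrow : K *ᵥ ind F = s • ind F)
    (hlow : ∀ f : ι → ℝ, ∑ i ∈ F, f i = 0 → -γ * ∑ i ∈ F, f i ^ 2 ≤ f ⬝ᵥ (K *ᵥ f))
    (hρ : (1000 : ℝ) ≤ F.card) (hX2 : (K ^ 2).trace ≤ 101 / 100 * F.card)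
    (h1 : Real.sqrt (Vf K) * Real.sqrt (∑ z, (K ^ 2) z z ^ 2) ≤ F.card / 100)
    (h2 : Vf K * Real.sqrt (∑ z, (K ^ 2) z z ^ 2) ≤ F.card / 100) :
    ∑ x, kk K x ≤ 3 / 5 * F.card := by
  have hγ1 : γ ≤ 1 := by nlinarith
  have hγ2 : γ ≤ 71 / 100 := by nlinarith
  have he := KapB.entry_sq_le hK hF hs hγ0 hγ1 hrow hlow
  have hρ0 : (0 : ℝ) < F.card := by linarith
  have hq : (2 : ℝ) / F.card ≤ 2 / 1000 := div_le_div_of_nonneg_left (by norm_num) (by norm_num) hρ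
  have hq0 : (0 : ℝ) ≤ 2 / F.card := by positivity
  have hg0 : 0 ≤ γ + 2 / (F.card : ℝ) := by linarith
  have hk := KapB.kappa_le hK hg0 he
  have hg2 : (γ + 2 / (F.card : ℝ)) ^ 2 ≤ 51 / 100 := by nlinarith
  have hX20 : 0 ≤ (K ^ 2).trace := by
    simp only [Matrix.trace, Matrix.diag_apply]
    exact Finset.sum_nonneg fun z _ => p_nonneg hK z
  have h3 : (γ + 2 / (F.card : ℝ)) ^ 2 * (K ^ 2).trace ≤ 51 / 100 * (101 / 100 * F.card) :=
    mul_le_mul hg2 hX2 hX20 (by norm_num)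
  have h4 : 2 * (γ + 2 / (F.card : ℝ))
      * (Real.sqrt (Vf K) * Real.sqrt (∑ z, (K ^ 2) z z ^ 2)) ≤ 2 * 1 * (F.card / 100) :=
    mul_le_mul (by linarith) h1 (by positivity) (by norm_num)
  linarith

/-- the drift of `V`, generic form (the linear part has a negative rate and is dropped) -/
theorem drift {T R ρ fr v Sqv k : ℝ} (hK : K.IsSymm) (hF : ∀ i j, i ∉ F → K i j = 0)
    (hs : s ^ 2 = 1)
    (hrow : K *ᵥ ind F = s • ind F) (hΛ : OpB K Λ) (hL2 : OpB (Ksq K) L2)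
    (hw : Wt K F w E η ξ ω) (hρ : (F.card : ℝ) = ρ) (hω : ω ≤ 1 / 10) (hξ : ξ ≤ ρ / 10)
    (hκ : ∑ x, kk K x ≤ 3 / 5 * ρ) (hT : |K.trace| ≤ T) (hR : ∑ z, (K ^ 2) z z ^ 2 ≤ R)
    (hfr : frK K ≤ fr) (hv : Vf K ≤ v) (hSq : Sq K (dg K) ≤ Sqv) (hk : n2 (kk K) ≤ k) :
    SW w (fun x y => Vf (Upd.upd s K x y) - Vf K) ≤
      4 * (T + η * Sqv + (T + 8 * (fr + v)) * Sqv)
      + (4 * η * L2 + 28 * (Real.sqrt ρ * v) + 72 * (Real.sqrt ρ * Λ)
          + 64 * ((fr + v) * L2) + 156 * ((Λ + v) * k)) * v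
      + 1200 * R := by
  have h1 := V_avg (h1 := η * Sqv) hK (fun i hi j => hF i j hi) hs (row_of_mulVec hK hF hrow)
    hΛ hL2 hw ((E_Nf hK hw.opb (dg K)).trans (mul_le_mul_of_nonneg_left hSq hw.opb.1))
  rw [hρ] at h1
  have hV0 := Vf_nonneg K
  have hΛ0 := hΛ.1
  have hL0 := hL2.1
  have hη0 := hw.opb.1
  have hω0 := hw.om0
  have hfr0 := frK_nonneg K
  have hSq0 := Sq_nonneg K (dg K)
  have hT0 := abs_nonneg K.trace
  have hk0 := n2_nonneg (kk K)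
  have hρ0 : 0 ≤ ρ := by rw [← hρ]; positivity
  have hκ0 : 0 ≤ ∑ x, kk K x := Finset.sum_nonneg fun x _ => kk_nonneg K x
  have hv0 : 0 ≤ v := hV0.trans hv
  have hfr0' : 0 ≤ fr := hfr0.trans hfr
  have e1 : -(2 * (ρ - ξ) * Vf K) + 9 / 4 * (1 + ω) * ((∑ x, kk K x) * Vf K) ≤ 0 := by
    have a1 : 9 / 4 * (1 + ω) * (∑ x, kk K x) ≤ 9 / 4 * (11 / 10) * (3 / 5 * ρ) :=
      mul_le_mul (by linarith) hκ hκ0 (by norm_num)
    have a2 : -(2 * (ρ - ξ)) + 9 / 4 * (1 + ω) * (∑ x, kk K x) ≤ 0 := by linarith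
    have := mul_le_mul_of_nonneg_right a2 hV0
    linarith
  have e2 : (|K.trace| + 8 * (frK K + Vf K)) * Sq K (dg K) ≤ (T + 8 * (fr + v)) * Sqv :=
    mul_le_mul (by linarith) hSq hSq0 (by linarith)
  have e3 : (4 * η * L2 + 28 * (Real.sqrt ρ * Vf K) + 72 * (Real.sqrt ρ * Λ)
          + 64 * ((frK K + Vf K) * L2) + 156 * ((Λ + Vf K) * n2 (kk K))) * Vf K
      ≤ (4 * η * L2 + 28 * (Real.sqrt ρ * v) + 72 * (Real.sqrt ρ * Λ)
          + 64 * ((fr + v) * L2) + 156 * ((Λ + v) * k)) * v := by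
    refine mul_le_mul ?_ hv hV0 (by have := hk0.trans hk; positivity)
    gcongr
  linarith

end generic

/-! ### numerical closure -/

lemma big_tenth {d n m : ℕ} (P : Nums.Par d n m) : (30 : ℝ) ≤ E m (1 / 10) := by
  have := P.d10; have := P.d3; linarith

lemma big_quarter {d n m : ℕ} (P : Nums.Par d n m) : (4700 : ℝ) ≤ E m (1 / 4) := by
  by_contra h
  push Not at h
  have h0 := (E_pos P.m0 (1 / 4)).le
  have h4 : (E (m : ℝ) (1 / 4)) ^ 4 < (4700 : ℝ) ^ 4 := pow_lt_pow_left₀ h h0 (by norm_num)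
  rw [E_pow P.m0] at h4
  have e : E (m : ℝ) (1 / 4 * ((4 : ℕ) : ℝ)) = m := by
    rw [show (1 : ℝ) / 4 * ((4 : ℕ) : ℝ) = 1 by norm_num, E_one]
  rw [e] at h4
  have := P.mbig
  have e2 : (4700 : ℝ) ^ 4 = 487968100000000 := by norm_num
  rw [e2] at h4
  linarith

/-- conclusion with a fractional spare exponent and a division by a constant -/
lemma final_div' {m C a b e K z : ℝ} (hm : 1 ≤ m) (hK : 0 < K) (h : O m C a z)
    (hC : C * K ≤ E m e) (hab : a + e ≤ b) : z ≤ E m b / K := by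
  rw [le_div_iff₀ hK]
  have h0 : 0 < m := lt_of_lt_of_le one_pos hm
  calc z * K ≤ (C * E m a) * K := mul_le_mul_of_nonneg_right h.2 hK.le
    _ = (C * K) * E m a := by ring
    _ ≤ E m e * E m a := mul_le_mul_of_nonneg_right hC (E_pos h0 a).le
    _ = E m (a + e) := by rw [E_add h0, mul_comm]
    _ ≤ E m b := E_mono hm hab

/-- stage 2 -/
lemma num2 {m x T η L2 fr v Sqv k Λ R ρ : ℝ} (hm : 1 ≤ m) (hb : (5 : ℝ) * 10 ^ 14 ≤ m)
    (hq : 4700 ≤ E m (1 / 4)) (hx : 680 - 1 / 4 ≤ x) (hx' : x ≤ 800 + 1 / 10)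
    (hT : O m 1 336 T) (hη : O m 1 (x / 2 + 1 / 10) η) (hL2 : O m 5 300 L2)
    (hfr : O m 2 (x / 2) fr) (hv : O m 1 8 v) (hSq : O m 2 (x / 2 + 4 + 13 / 8) Sqv)
    (hk : O m 100 (x / 2 + 4 + 13 / 8) k) (hΛ : O m 1 ((2004 - x) / 4) Λ)
    (hR : O m 2 (x + 13 / 4) R) (hρ : O m 1 x ρ) :
    4 * (T + η * Sqv + (T + 8 * (fr + v)) * Sqv)
      + (4 * η * L2 + 28 * (√ρ * v) + 72 * (√ρ * Λ)
          + 64 * ((fr + v) * L2) + 156 * ((Λ + v) * k)) * v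
      + 1200 * R ≤ E m (x + 6) := by
  have h1 : 4 * (T + η * Sqv + (T + 8 * (fr + v)) * Sqv) ≤ E m (x + 6) / 3 := by
    refine final_div' hm (e := 1 / 4) (by norm_num) (by expoO) ?_ ?_
    · norm_num
      try linarith
    · expoMax
  have h2 : (4 * η * L2 + 28 * (√ρ * v) + 72 * (√ρ * Λ)
          + 64 * ((fr + v) * L2) + 156 * ((Λ + v) * k)) * v ≤ E m (x + 6) / 3 := by
    expo_div
  have h3 : 1200 * R ≤ E m (x + 6) / 3 := by
    expo_div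
  linarith

/-- stage 1 -/
lemma num1 {m x T η L2 fr v Sqv k Λ R ρ : ℝ} (hm : 1 ≤ m) (hb : (5 : ℝ) * 10 ^ 14 ≤ m)
    (hq : 4700 ≤ E m (1 / 4)) (hx : 800 ≤ x) (hx' : x ≤ 1000 + 1 / 10)
    (hT : O m 2 361 T) (hη : O m 2 (x / 2 + 1 / 10) η) (hL2 : O m 2 305 L2)
    (hfr : O m 2 (x / 2) fr) (hv : O m 1 6 v) (hSq : O m 2 (x / 2 + 3) Sqv)
    (hk : O m 100 (x / 2 + 3) k) (hΛ : O m 1 ((2003 - x) / 4) Λ)
    (hR : O m 2 x R) (hρ : O m 1 x ρ) :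
    4 * (T + η * Sqv + (T + 8 * (fr + v)) * Sqv)
      + (4 * η * L2 + 28 * (√ρ * v) + 72 * (√ρ * Λ)
          + 64 * ((fr + v) * L2) + 156 * ((Λ + v) * k)) * v
      + 1200 * R ≤ E m (x + 4) := by
  have h1 : 4 * (T + η * Sqv + (T + 8 * (fr + v)) * Sqv) ≤ E m (x + 4) / 3 := by
    refine final_div' hm (e := 1 / 4) (by norm_num) (by expoO) ?_ ?_
    · norm_num
      try linarith
    · expoMax
  have h2 : (4 * η * L2 + 28 * (√ρ * v) + 72 * (√ρ * Λ)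
          + 64 * ((fr + v) * L2) + 156 * ((Λ + v) * k)) * v ≤ E m (x + 4) / 3 := by
    expo_div
  have h3 : 1200 * R ≤ E m (x + 4) / 3 := by
    expo_div
  linarith

end Crest.Agent.R62.VNum
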