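import Crest.Agent.R62.WtOf
import Crest.Agent.R62.AvR3
import Crest.Agent.R62.KapB
import Crest.Agent.R62.MainX2

/-!
R62 (helper610): inputs of `AvR.W_avg2`, `AvV.V_avg2` in the boxes of `StepDefs` (powers of `m`).
-/

set_option autoImplicit false
set_option linter.unusedSectionVars false
set_option linter.unusedVariables false

open Matrix Finset

namespace Crest.Agent.R62.WIn

open Crest.Agent.R62.Step Crest.Agent.R62.AvBase Crest.Agent.R62.DiagAv Crest.Agent.R62.Expo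
open Crest.Agent.R62.Nums Crest.Agent.R62.WtOf
open Crest.Agent.R62.AvV (dg kk kk_nonneg)
open Crest.Agent.R62.AvR (Wc qf Mf pd)
open Crest.Agent.R062

variable {ι : Type} [Fintype ι] [DecidableEq ι]

/-! ### the operator norm of the entrywise square, through `W` -/

theorem opB_Ksq_W {K : Matrix ι ι ℝ} {F : Finset ι} (hK : K.IsSymm)
    (hF : ∀ i j, i ∉ F → K i j = 0) {S2 B : ℝ} (hS2 : ∀ z x, K z x ^ 2 ≤ S2)
    (hS0 : 0 ≤ S2) (hB : 2 ≤ B) :
    OpB (Ksq K) (B + Real.sqrt (8 * S2 * AvX1.Wf F K / B)) := by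
  have hB0 : (0 : ℝ) < B := by linarith
  set A : Matrix ι ι ℝ := fun x y =>
    if (K ^ 2) x x ≤ B ∧ (K ^ 2) y y ≤ B then K x y ^ 2 else 0 with hA
  set C : Matrix ι ι ℝ := fun x y =>
    if (K ^ 2) x x ≤ B ∧ (K ^ 2) y y ≤ B then 0 else K x y ^ 2 with hC
  have e0 : Ksq K = A + C := by
    funext x y
    rw [Matrix.add_apply]
    simp only [Ksq, hA, hC]
    split_ifs <;> ring
  have hR0 : 0 ≤ AvX1.Wf F K := AvX1.Wf_nonneg F K
  rw [e0]
  refine TiltK.OpB_add (TiltK.opB_of_rows hB0.le ?_ ?_) (KapB.opB_of_fro (Real.sqrt_nonneg _) ?_)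
  · intro x y
    simp only [hA]
    rw [hK.apply y x]
    simp only [and_comm]
  · intro x
    by_cases hx : (K ^ 2) x x ≤ B
    · refine le_trans ?_ hx
      rw [sq_diag_eq hK]
      refine Finset.sum_le_sum fun y _ => ?_
      simp only [hA]
      split_ifs
      · rw [abs_of_nonneg (sq_nonneg _)]
      · simp; positivity
    · have : ∀ y, A x y = 0 := fun y => by simp only [hA]; rw [if_neg (fun h => hx h.1)]
      simp only [this, abs_zero, Finset.sum_const_zero]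
      exact hB0.le
  · rw [Real.sq_sqrt (by positivity)]
    have hbig : ∀ x, (if (K ^ 2) x x ≤ B then 0 else kk K x)
        ≤ 4 * S2 / B * (if x ∈ F then ((K ^ 2) x x - 1) ^ 2 else 0) := by
      intro x
      split_ifs with hx hxF hxF
      · positivity
      · simp
      · push Not at hx
        have hp := p_nonneg hK x
        have h1 : kk K x ≤ S2 * (K ^ 2) x x := by
          rw [← KapB.sum_row_sq hK x, Finset.mul_sum]
          unfold kk
          refine Finset.sum_le_sum fun z _ => ?_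
          calc K z x ^ 4 = K z x ^ 2 * K z x ^ 2 := by ring
            _ ≤ _ := mul_le_mul_of_nonneg_right (hS2 z x) (sq_nonneg _)
        refine h1.trans ?_
        rw [div_mul_eq_mul_div, le_div_iff₀ hB0]
        have h2 : (K ^ 2) x x * B ≤ 4 * ((K ^ 2) x x - 1) ^ 2 := by
          have h3 : (K ^ 2) x x * B ≤ (K ^ 2) x x * (K ^ 2) x x :=
            mul_le_mul_of_nonneg_left hx.le hp
          nlinarith
        calc S2 * (K ^ 2) x x * B = S2 * ((K ^ 2) x x * B) := by ring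
          _ ≤ S2 * (4 * ((K ^ 2) x x - 1) ^ 2) := mul_le_mul_of_nonneg_left h2 hS0
          _ = _ := by ring
      · exfalso
        apply hx
        have h0 : (K ^ 2) x x = 0 := by
          rw [pow_two, Matrix.mul_apply]
          exact Finset.sum_eq_zero fun j _ => by rw [hF x j hxF, zero_mul]
        rw [h0]; exact hB0.le
    have h1 : ∑ x, ∑ y, C x y ^ 2 ≤ ∑ x, ∑ y, ((if (K ^ 2) x x ≤ B then 0 else K y x ^ 4)
        + (if (K ^ 2) y y ≤ B then 0 else K x y ^ 4)) := by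
      refine Finset.sum_le_sum fun x _ => Finset.sum_le_sum fun y _ => ?_
      have h4 : (K x y ^ 2) ^ 2 = K x y ^ 4 := by ring
      have h5 : K y x ^ 4 = K x y ^ 4 := by rw [hK.apply x y]
      have h6 : 0 ≤ K x y ^ 4 := by positivity
      simp only [hC, h5]
      by_cases hx : (K ^ 2) x x ≤ B <;> by_cases hy : (K ^ 2) y y ≤ B <;>
        simp only [hx, hy, and_self, and_true, and_false, if_true, if_false,
          h4] <;> nlinarith
    have h2 : ∑ x, ∑ y, ((if (K ^ 2) x x ≤ B then 0 else K y x ^ 4)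
        + (if (K ^ 2) y y ≤ B then 0 else K x y ^ 4))
        = 2 * ∑ x, (if (K ^ 2) x x ≤ B then 0 else kk K x) := by
      simp only [Finset.sum_add_distrib]
      have e1 : ∑ x, ∑ y, (if (K ^ 2) x x ≤ B then 0 else K y x ^ 4)
          = ∑ x, (if (K ^ 2) x x ≤ B then 0 else kk K x) := by
        refine Finset.sum_congr rfl fun x _ => ?_
        by_cases hx : (K ^ 2) x x ≤ B
        · simp [hx]
        · simp only [hx, if_false]; rfl
      have e2 : ∑ x, ∑ y, (if (K ^ 2) y y ≤ B then 0 else K x y ^ 4)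
          = ∑ x, (if (K ^ 2) x x ≤ B then 0 else kk K x) := by
        rw [Finset.sum_comm]; exact e1
      rw [e1, e2]; ring
    have h3 : ∑ x, (if (K ^ 2) x x ≤ B then 0 else kk K x)
        ≤ 4 * S2 / B * AvX1.Wf F K := by
      have h4 : AvX1.Wf F K = ∑ x, (if x ∈ F then ((K ^ 2) x x - 1) ^ 2 else 0) := by
        unfold AvX1.Wf
        rw [Finset.sum_ite_mem, Finset.univ_inter]
      rw [h4, Finset.mul_sum]
      exact Finset.sum_le_sum fun x _ => hbig x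
    calc _ ≤ _ := h1
      _ = _ := h2
      _ ≤ 2 * (4 * S2 / B * AvX1.Wf F K) := by linarith
      _ = _ := by ring

/-! ### common inputs -/

/-- the inputs of `W_avg2` and `V_avg2` which do not depend on the weights -/
structure Inp (m : ℕ) (F : Finset ι) (K : Matrix ι ι ℝ) (x v w y : ℝ) : Prop where
  kap : ∑ z, kk K z ≤ 3 / 5 * F.card
  fK : O m 1 (x / 2) (frK K)
  sq : O m 1 (x / 2) (Real.sqrt F.card)
  V : O m 1 v (AvV.Vf K)
  nd : O m 1 (v / 2) (n2 (dg K))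
  W : O m 1 w (AvX1.Wf F K)
  nq : O m 1 (w / 2) (n2 (qf K F 1))
  R : O m 2 (y) (n2 (pd K) ^ 2)
  np : O m 2 (y / 2) (n2 (pd K))
  rM : O m 2 (w / 4) (Real.sqrt (1 + Real.sqrt (AvX1.Wf F K)))
  rr : ∀ z, rr K z ≤ Real.sqrt (1 + Real.sqrt (AvX1.Wf F K))
  S2 : ∀ z y, K z y ^ 2 ≤ 2 * (1 + AvV.Vf K)
  kk : O m 30 (v / 2 + y / 2) (n2 (kk K))
  kM : ∀ z, AvV.kk K z ≤ 2 * (1 + AvV.Vf K) * (1 + Real.sqrt (AvX1.Wf F K))

lemma dead_sq {K : Matrix ι ι ℝ} {F : Finset ι} (hF : ∀ i j, i ∉ F → K i j = 0) {i : ι}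
    (hi : i ∉ F) : (K ^ 2) i i = 0 := by
  rw [pow_two, Matrix.mul_apply]
  exact Finset.sum_eq_zero fun j _ => by rw [hF i j hi, zero_mul]

theorem inp_of {d m n : ℕ} {γ : ℝ} {F : Finset ι} {K : Bool → Matrix ι ι ℝ}
    {S : Finset (ι × ι)} (P : Par d n m) (c : Ctx d m γ F K S) (b : Bool) {x v w : ℝ}
    (hρ : (F.card : ℝ) = E m x) (hx : 679 ≤ x) (hX2 : (K b ^ 2).trace ≤ F.card)
    (hV : AvX1.Vf (K b) ≤ E m v) (hW : AvX1.Wf F (K b) ≤ E m w) (hv0 : 0 ≤ v) (hv : v ≤ 8)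
    (hw0 : 600 ≤ w) (hw : w ≤ 683) {y : ℝ} (hwy : w ≤ y) (hxy : x ≤ y) (hyx : y ≤ 2 * x - 40) :
    Inp m F (K b) x v w y := by
  have hm1 := P.m1
  have hm0 := P.m0
  have hb := P.mbig
  have hbn : 5 * 10 ^ 14 ≤ m := by exact_mod_cast hb
  have hK : (K b).IsSymm := c.symm b
  have hdead := c.dead b
  have hρ0 : (0 : ℝ) < F.card := by rw [hρ]; exact E_pos hm0 x
  have hρ1 : (1000 : ℝ) ≤ F.card := by
    rw [hρ]
    have h1 : E (m : ℝ) 1 ≤ E m x := E_mono hm1 (by linarith)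
    rw [E_one] at h1
    linarith
  have oρ : O (m : ℝ) 1 x (F.card : ℝ) := O.of_le hρ0.le hρ.le
  have oV : O (m : ℝ) 1 v (AvV.Vf (K b)) := O.of_le (AvV.Vf_nonneg _) hV
  have oW : O (m : ℝ) 1 w (AvX1.Wf F (K b)) := O.of_le (AvX1.Wf_nonneg _ _) hW
  have hRf : ∑ z, ((K b ^ 2) z z) ^ 2 = AvX1.Wf F (K b) + 2 * (K b ^ 2).trace - F.card :=
    Nums.Rf_eq hK hdead
  have hR0 : 0 ≤ ∑ z, ((K b ^ 2) z z) ^ 2 := Finset.sum_nonneg fun _ _ => sq_nonneg _
  have oR : O (m : ℝ) 2 (y) (∑ z, ((K b ^ 2) z z) ^ 2) := by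
    refine ⟨hR0, ?_⟩
    rw [hRf]
    have h1 : E (m : ℝ) w ≤ E m (y) := E_mono hm1 hwy
    have h2 : E (m : ℝ) x ≤ E m (y) := E_mono hm1 hxy
    rw [hρ] at hX2 ⊢
    linarith
  have hpd : n2 (pd (K b)) ^ 2 = ∑ z, ((K b ^ 2) z z) ^ 2 := n2_sq _
  have sqrt_O : ∀ {a z : ℝ}, O (m : ℝ) 1 a (z ^ 2) → 0 ≤ z → O (m : ℝ) 1 (a / 2) z := by
    intro a z h hz
    refine O.of_le hz ?_
    have h1 := h.le
    rw [one_mul] at h1
    have h2 : E (m : ℝ) a = E m (a / 2) ^ 2 := by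
      rw [E_sq hm0]; congr 1; ring
    rw [h2] at h1
    exact le_of_sq_le_sq h1 (E_pos hm0 _).le
  have sqrt_O2 : ∀ {a z : ℝ}, O (m : ℝ) 2 a (z ^ 2) → 0 ≤ z → O (m : ℝ) 2 (a / 2) z := by
    intro a z h hz
    refine ⟨hz, ?_⟩
    have h1 := h.le
    have h2 : E (m : ℝ) a = E m (a / 2) ^ 2 := by
      rw [E_sq hm0]; congr 1; ring
    have h3 := (E_pos hm0 (a / 2)).le
    rw [h2] at h1
    refine le_of_sq_le_sq ?_ (by positivity)
    nlinarith [sq_nonneg (E (m : ℝ) (a / 2))]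
  have onp : O (m : ℝ) 2 (y / 2) (n2 (pd (K b))) :=
    sqrt_O2 (by rw [hpd]; exact oR) (n2_nonneg _)
  have osR : O (m : ℝ) 2 (y / 2) (Real.sqrt (∑ z, ((K b ^ 2) z z) ^ 2)) :=
    sqrt_O2 (by rw [Real.sq_sqrt hR0]; exact oR) (Real.sqrt_nonneg _)
  have osV : O (m : ℝ) 1 (v / 2) (Real.sqrt (AvV.Vf (K b))) :=
    sqrt_O (by rw [Real.sq_sqrt (AvV.Vf_nonneg _)]; exact oV) (Real.sqrt_nonneg _)
  have osW : O (m : ℝ) 1 (w / 2) (Real.sqrt (AvX1.Wf F (K b))) :=
    sqrt_O (by rw [Real.sq_sqrt (AvX1.Wf_nonneg _ _)]; exact oW) (Real.sqrt_nonneg _)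
  have hγ0 := c.γ0
  have hγ1 : γ ≤ 3 / 4 := by
    have := c.γ1
    nlinarith
  have hs : (Mach.sg b : ℝ) ^ 2 = 1 := by cases b <;> norm_num [Mach.sg]
  have he := KapB.entry_sq_le hK hdead hs hγ0.le (by linarith) (c.row b) (c.low b)
  have h2ρ : (2 : ℝ) / F.card ≤ 1 / 500 := by
    rw [div_le_div_iff₀ hρ0 (by norm_num)]; linarith
  have h2ρ0 : (0 : ℝ) < 2 / F.card := by positivity
  have hg1 : γ + 2 / F.card ≤ 1 := by linarith
  have hg0 : 0 ≤ γ + 2 / F.card := by linarith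
  have hS2 : ∀ z y, K b z y ^ 2 ≤ 2 * (1 + AvV.Vf (K b)) := KapB.sup_le hg1 hg0 he
  refine
    { kap := ?_, fK := ?_, sq := ?_, V := oV, nd := ?_, W := oW, nq := ?_, R := ?_, np := onp,
      rM := ?_, rr := ?_, S2 := hS2, kk := ?_, kM := ?_ }
  · -- kappa
    have h1 := KapB.kappa_le hK hg0 he
    have hg2 : (γ + 2 / F.card) ^ 2 * (K b ^ 2).trace ≤ 1 / 2 * F.card + 8 := by
      have e1 : (γ + 2 / F.card) ^ 2 ≤ 1 / 2 + 8 / F.card := by
        have e2 : (2 / (F.card : ℝ)) ^ 2 ≤ 2 / F.card := by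
          rw [pow_two]
          calc 2 / (F.card : ℝ) * (2 / F.card) ≤ 1 * (2 / F.card) :=
                mul_le_mul_of_nonneg_right (by linarith) h2ρ0.le
            _ = _ := one_mul _
        have e3 : (8 : ℝ) / F.card = 4 * (2 / F.card) := by ring
        rw [e3]
        nlinarith [c.γ1]
      have e0 : 0 ≤ (K b ^ 2).trace := by
        have := trace_even_nonneg (show (K b)ᵀ = K b from hK) 1
        simpa using this
      calc (γ + 2 / F.card) ^ 2 * (K b ^ 2).trace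
          ≤ (1 / 2 + 8 / F.card) * (K b ^ 2).trace := mul_le_mul_of_nonneg_right e1 e0
        _ ≤ (1 / 2 + 8 / F.card) * F.card := mul_le_mul_of_nonneg_left hX2 (by positivity)
        _ = _ := by field_simp
    have h3 : 2 * (Real.sqrt (AvV.Vf (K b)) * Real.sqrt (∑ z, ((K b ^ 2) z z) ^ 2))
        + AvV.Vf (K b) * Real.sqrt (∑ z, ((K b ^ 2) z z) ^ 2) + 8 ≤ E m x / 20 := by
      expo_div
    have h4 : 2 * (γ + 2 / F.card) * (Real.sqrt (AvV.Vf (K b))
        * Real.sqrt (∑ z, ((K b ^ 2) z z) ^ 2))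
        ≤ 2 * (Real.sqrt (AvV.Vf (K b)) * Real.sqrt (∑ z, ((K b ^ 2) z z) ^ 2)) :=
      mul_le_mul_of_nonneg_right (by linarith) (by positivity)
    rw [← hρ] at h3
    linarith
  · refine sqrt_O (a := x) ?_ (frK_nonneg _)
    rw [frK_sq hK]
    refine O.of_le ?_ (by rw [← hρ]; exact hX2)
    have := trace_even_nonneg (show (K b)ᵀ = K b from hK) 1
    simpa using this
  · refine sqrt_O (a := x) ?_ (Real.sqrt_nonneg _)
    rw [Real.sq_sqrt hρ0.le]; exact oρ
  · exact sqrt_O (by rw [AvV.n2_dg_sq]; exact oV) (n2_nonneg _)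
  · exact sqrt_O (by rw [AvR.n2_qf_sq]; exact oW) (n2_nonneg _)
  · rw [hpd]; exact oR
  · refine (sqrt_O2 (a := w / 2) ?_ (Real.sqrt_nonneg _)).mono hm1 le_rfl (by linarith)
    rw [Real.sq_sqrt (by positivity)]
    refine ⟨by positivity, ?_⟩
    have h1 := osW.le
    have h2 : 1 ≤ E (m : ℝ) (w / 2) := one_le_E hm1 (by linarith)
    linarith
  · intro z
    refine Real.le_sqrt_of_sq_le ?_
    rw [rr_sq hK]
    by_cases hz : z ∈ F
    · have h1 := diag_W_le (K b) hz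
      have h2 := abs_le_of_sq_le_sq' (h1.trans (Real.sq_sqrt (AvX1.Wf_nonneg F (K b))).ge)
        (Real.sqrt_nonneg _)
      linarith [h2.2]
    · rw [dead_sq hdead hz]; positivity
  · have h1 := KapB.n2_kk_le hK hg1 hg0 he
    refine ⟨n2_nonneg _, h1.trans ?_⟩
    have h2 : 2 * (1 + Real.sqrt (AvV.Vf (K b))) * Real.sqrt (∑ z, ((K b ^ 2) z z) ^ 2)
        ≤ 8 * E m (v / 2 + y / 2) := by
      have a1 := osV.le
      have a2 := osR.le
      have a3 : 1 ≤ E (m : ℝ) (v / 2) := one_le_E hm1 (by linarith)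
      rw [E_add hm0]
      have a4 : 2 * (1 + Real.sqrt (AvV.Vf (K b))) ≤ 4 * E m (v / 2) := by linarith
      calc _ ≤ (4 * E m (v / 2)) * (2 * E m (y / 2)) :=
            mul_le_mul a4 a2 (Real.sqrt_nonneg _) (by positivity)
        _ = _ := by ring
    have h3 : Real.sqrt (8 * (1 + AvV.Vf (K b)) ^ 3 * AvV.Vf (K b)
        * (Real.sqrt (AvV.Vf (K b)) * Real.sqrt (∑ z, ((K b ^ 2) z z) ^ 2)))
        ≤ E m (v / 2 + y / 2) := by
      expo
    have h5 := (E_pos hm0 (v / 2 + y / 2)).le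
    linarith
  · intro z
    have h1 : AvV.kk (K b) z ≤ 2 * (1 + AvV.Vf (K b)) * (K b ^ 2) z z := by
      rw [← KapB.sum_row_sq hK z, Finset.mul_sum]
      unfold AvV.kk
      refine Finset.sum_le_sum fun y _ => ?_
      calc K b y z ^ 4 = K b y z ^ 2 * K b y z ^ 2 := by ring
        _ ≤ _ := mul_le_mul_of_nonneg_right (hS2 y z) (sq_nonneg _)
    have hV0 := AvV.Vf_nonneg (K b)
    refine h1.trans (mul_le_mul_of_nonneg_left ?_ (by positivity))
    by_cases hz : z ∈ F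
    · have h1 := diag_W_le (K b) hz
      have h2 := abs_le_of_sq_le_sq' (h1.trans (Real.sq_sqrt (AvX1.Wf_nonneg F (K b))).ge)
        (Real.sqrt_nonneg _)
      linarith [h2.2]
    · rw [dead_sq hdead hz]; positivity

end Crest.Agent.R62.WIn
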