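import Crest.Agent.R62.X2Upd
import Crest.Agent.R62.Barrier

/-!
R62 (helper420): weighted one-step averages of `X_2` in normalised form, ready for
`Barrier.quad_step`.
-/

set_option autoImplicit false
set_option linter.unusedSectionVars false
set_option linter.unusedVariables false

open Matrix Finset

namespace Crest.Agent.R62.X2Drift

open Crest.Agent.R62.AvX2 Crest.Agent.R62.AvBase

variable {ι : Type*} [Fintype ι] [DecidableEq ι]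

/-- constructor of the numerical hypotheses from an operator norm bound, `X_2, X_4, V, W, R_2` -/
theorem Bd.of {K : Matrix ι ι ℝ} {F : Finset ι} {s N2 N4 v r R2 L : ℝ} (hK : Kᵀ = K)
    (hd : ∀ x, x ∉ F → ∀ y, K x y = 0) (hr : ∀ x ∈ F, ∑ y, K x y = s) (hs : s ^ 2 = 1)
    (hL : OpB K L) (h2 : 0 ≤ N2) (h4 : 0 ≤ N4) (hv : 0 ≤ v) (hr0 : 0 ≤ r)
    (X2 : (K ^ 2).trace ≤ N2 ^ 2) (X4 : (K ^ 4).trace ≤ N4 ^ 2)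
    (V : ∑ x ∈ F, (K x x) ^ 2 ≤ v ^ 2) (R : ∑ x ∈ F, ((K ^ 2) x x - 1) ^ 2 ≤ r ^ 2)
    (Rq : ∑ x ∈ F, ((K ^ 2) x x) ^ 2 ≤ R2) :
    Bd K F s N2 N4 (L * N4) v r (Real.sqrt (2 * (L ^ 2 * R2) + 2 * v ^ 2)) := by
  have hR2 : 0 ≤ R2 := le_trans (Finset.sum_nonneg fun _ _ => sq_nonneg _) Rq
  refine ⟨hK, hd, hr, hs, h2, h4, mul_nonneg hL.1 h4, hv, hr0, Real.sqrt_nonneg _, X2, X4, ?_, V, R,
    ?_⟩
  · have h := trace_six_le hK hL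
    calc (K ^ 6).trace ≤ L ^ 2 * (K ^ 4).trace := h
      _ ≤ L ^ 2 * N4 ^ 2 := mul_le_mul_of_nonneg_left X4 (sq_nonneg L)
      _ = (L * N4) ^ 2 := by ring
  · have h0 : 0 ≤ 2 * (L ^ 2 * R2) + 2 * v ^ 2 := by positivity
    rw [Real.sq_sqrt h0]
    have h1 : ∀ x ∈ F, ((K ^ 3) x x - K x x) ^ 2
        ≤ 2 * (L ^ 2 * ((K ^ 2) x x) ^ 2) + 2 * (K x x) ^ 2 := by
      intro x _
      have h3 := abs_diag_le hK hL 1 x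
      simp only [Nat.reduceAdd, pow_one] at h3
      have h4 : ((K ^ 3) x x) ^ 2 ≤ L ^ 2 * ((K ^ 2) x x) ^ 2 := by
        have h5 : ((K ^ 3) x x) ^ 2 = |(K ^ 3) x x| ^ 2 := (sq_abs _).symm
        rw [h5, ← mul_pow]
        exact pow_le_pow_left₀ (abs_nonneg _) h3 2
      nlinarith [sq_nonneg ((K ^ 3) x x + K x x)]
    calc ∑ x ∈ F, ((K ^ 3) x x - K x x) ^ 2
        ≤ ∑ x ∈ F, (2 * (L ^ 2 * ((K ^ 2) x x) ^ 2) + 2 * (K x x) ^ 2) := Finset.sum_le_sum h1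
      _ = 2 * (L ^ 2 * ∑ x ∈ F, ((K ^ 2) x x) ^ 2) + 2 * ∑ x ∈ F, (K x x) ^ 2 := by
          rw [Finset.sum_add_distrib, Finset.mul_sum, Finset.mul_sum, Finset.mul_sum]
      _ ≤ _ := by
          have := mul_le_mul_of_nonneg_left Rq (sq_nonneg L)
          linarith


/-- total error of the weighted sum of `f2`; `T1` bounds the first order tilt term,
`|Θ| ≤ η`, `∑ Θ² ≤ t²`, complement of the pair set `≤ β²` -/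
noncomputable def Err (N2 N4 N6 v r w β η t T1 : ℝ) : ℝ :=
  Rem N2 N4 N6 v r w + Bias N2 N4 N6 v r w β + T1
    + (η * (4 * (N2 * (2 * (N6 + N2))) + 2 * N4 ^ 2 + Rem N2 N4 N6 v r w)
        + 2 * (t * r ^ 2) + 2 * (t * (2 * v * w)))

section

variable {K : Matrix ι ι ℝ} {F : Finset ι} {s N2 N4 N6 v r w : ℝ}

theorem sum_w (h : Bd K F s N2 N4 N6 v r w) {A : Finset (ι × ι)} (hA : A ⊆ F ×ˢ F)
    (hc : ∀ p ∈ A, |K p.1 p.2| ≤ 1 / 5) (hab : ∀ p ∈ A, |K p.1 p.1 * K p.2 p.2| ≤ 1 / 10)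
    {β : ℝ} (hβ : 0 ≤ β) (hcard : (((F ×ˢ F) \ A).card : ℝ) ≤ β ^ 2)
    (Θ : ι → ι → ℝ) {η t T1 : ℝ} (hη : 0 ≤ η) (ht : 0 ≤ t) (hΘ : ∀ p ∈ A, |Θ p.1 p.2| ≤ η)
    (hΘ2 : ∑ p ∈ A, (Θ p.1 p.2) ^ 2 ≤ t ^ 2)
    (hT1 : |4 * s * ∑ p ∈ A, Θ p.1 p.2 * E3 K p.1 p.2| ≤ T1) :
    |∑ p ∈ A, (1 - Θ p.1 p.2) * f2 s K p.1 p.2 - (6 * (K ^ 4).trace - 4 * (K ^ 2).trace
        + 2 * ((K ^ 2).trace - F.card) ^ 2 + 4 * K.trace * ((K ^ 3).trace - K.trace))|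
      ≤ Err N2 N4 N6 v r w β η t T1 := by
  have h1 := sum_f2 h hA hc hab hβ hcard
  have h2 := sum_tilt h hA hc hab Θ hη ht hΘ hΘ2
  have e : ∑ p ∈ A, (1 - Θ p.1 p.2) * f2 s K p.1 p.2
      = ∑ p ∈ A, f2 s K p.1 p.2 - ∑ p ∈ A, Θ p.1 p.2 * f2 s K p.1 p.2 := by
    rw [← Finset.sum_sub_distrib]
    exact Finset.sum_congr rfl fun p _ => by ring
  rw [e]
  rw [abs_le] at h1 h2 hT1 ⊢
  unfold Err
  constructor <;> linarith [h1.1, h1.2, h2.1, h2.2, hT1.1, hT1.2]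

/-- the bound for the deviation of the average of `X_2' - X_2 + 2` from `2 (X_2/ρ - 1)²` -/
noncomputable def Dev (K : Matrix ι ι ℝ) (ρ E δ : ℝ) : ℝ :=
  2 * (E + 6 * (K ^ 4).trace + 4 * (K ^ 2).trace
      + 4 * (|K.trace| * (|(K ^ 3).trace| + |K.trace|))) / ρ ^ 2
    + 4 * δ * ((K ^ 2).trace / ρ - 1) ^ 2

theorem avg_f2 (h : Bd K F s N2 N4 N6 v r w) {A : Finset (ι × ι)} (hA : A ⊆ F ×ˢ F)
    (hc : ∀ p ∈ A, |K p.1 p.2| ≤ 1 / 5) (hab : ∀ p ∈ A, |K p.1 p.1 * K p.2 p.2| ≤ 1 / 10)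
    {β : ℝ} (hβ : 0 ≤ β) (hcard : (((F ×ˢ F) \ A).card : ℝ) ≤ β ^ 2)
    (Θ : ι → ι → ℝ) {η t T1 : ℝ} (hη : 0 ≤ η) (ht : 0 ≤ t) (hΘ : ∀ p ∈ A, |Θ p.1 p.2| ≤ η)
    (hΘ2 : ∑ p ∈ A, (Θ p.1 p.2) ^ 2 ≤ t ^ 2)
    (hT1 : |4 * s * ∑ p ∈ A, Θ p.1 p.2 * E3 K p.1 p.2| ≤ T1)
    {ρ W δ : ℝ} (hρ : ρ = F.card) (hρ0 : 0 < ρ) (hW : W = ∑ p ∈ A, (1 - Θ p.1 p.2))
    (hW2 : ρ ^ 2 / 2 ≤ W) (hWδ : |W - ρ ^ 2| ≤ δ * ρ ^ 2) :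
    |∑ p ∈ A, (1 - Θ p.1 p.2) / W * f2 s K p.1 p.2 - 2 * ((K ^ 2).trace / ρ - 1) ^ 2|
      ≤ Dev K ρ (Err N2 N4 N6 v r w β η t T1) δ := by
  have h1 := sum_w h hA hc hab hβ hcard Θ hη ht hΘ hΘ2 hT1
  rw [← hρ] at h1
  have e1 : ∑ p ∈ A, (1 - Θ p.1 p.2) / W * f2 s K p.1 p.2
      = (∑ p ∈ A, (1 - Θ p.1 p.2) * f2 s K p.1 p.2) / W := by
    rw [Finset.sum_div]
    exact Finset.sum_congr rfl fun p _ => by ring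
  rw [e1]
  set S := ∑ p ∈ A, (1 - Θ p.1 p.2) * f2 s K p.1 p.2 with hS
  set X2 := (K ^ 2).trace
  set X4 := (K ^ 4).trace
  set X3 := (K ^ 3).trace
  set X1 := K.trace
  set E := Err N2 N4 N6 v r w β η t T1 with hE
  have hρ2 : 0 < ρ ^ 2 := by positivity
  have hWpos : 0 < W := lt_of_lt_of_le (by positivity) hW2
  have hX4 : 0 ≤ X4 := trace_even_nonneg h.symm 2
  have hX2 : 0 ≤ X2 := trace_even_nonneg h.symm 1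
  have h3 : |S - 2 * (X2 - ρ) ^ 2| ≤ E + 6 * X4 + 4 * X2 + 4 * (|X1| * (|X3| + |X1|)) := by
    have h4 : |X1 * (X3 - X1)| ≤ |X1| * (|X3| + |X1|) := by
      rw [abs_mul]
      exact mul_le_mul_of_nonneg_left (abs_sub _ _) (abs_nonneg _)
    rw [abs_le] at h1 h4 ⊢
    constructor <;> nlinarith [h1.1, h1.2, h4.1, h4.2]
  have hE0 : 0 ≤ E + 6 * X4 + 4 * X2 + 4 * (|X1| * (|X3| + |X1|)) := le_trans (abs_nonneg _) h3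
  have e2 : S / W - 2 * (X2 / ρ - 1) ^ 2
      = (S - 2 * (X2 - ρ) ^ 2) / W + 2 * (X2 / ρ - 1) ^ 2 * ((ρ ^ 2 - W) / W) := by
    field_simp
    ring
  rw [e2]
  have h5 : |(S - 2 * (X2 - ρ) ^ 2) / W|
      ≤ 2 * (E + 6 * X4 + 4 * X2 + 4 * (|X1| * (|X3| + |X1|))) / ρ ^ 2 := by
    rw [abs_div, abs_of_pos hWpos, div_le_div_iff₀ hWpos hρ2]
    calc |S - 2 * (X2 - ρ) ^ 2| * ρ ^ 2
        ≤ (E + 6 * X4 + 4 * X2 + 4 * (|X1| * (|X3| + |X1|))) * ρ ^ 2 :=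
          mul_le_mul_of_nonneg_right h3 hρ2.le
      _ ≤ 2 * (E + 6 * X4 + 4 * X2 + 4 * (|X1| * (|X3| + |X1|))) * W := by nlinarith
  have h6 : |2 * (X2 / ρ - 1) ^ 2 * ((ρ ^ 2 - W) / W)| ≤ 4 * δ * (X2 / ρ - 1) ^ 2 := by
    rw [abs_mul, abs_of_nonneg (by positivity : 0 ≤ 2 * (X2 / ρ - 1) ^ 2)]
    have h7 : |(ρ ^ 2 - W) / W| ≤ 2 * δ := by
      rw [abs_div, abs_of_pos hWpos, div_le_iff₀ hWpos, abs_sub_comm]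
      have hδ : 0 ≤ δ := by
        have := le_trans (abs_nonneg _) hWδ
        by_contra hneg
        push Not at hneg
        nlinarith
      calc |W - ρ ^ 2| ≤ δ * ρ ^ 2 := hWδ
        _ ≤ 2 * δ * W := by nlinarith
    calc 2 * (X2 / ρ - 1) ^ 2 * |(ρ ^ 2 - W) / W| ≤ 2 * (X2 / ρ - 1) ^ 2 * (2 * δ) :=
          mul_le_mul_of_nonneg_left h7 (by positivity)
      _ = _ := by ring
  refine (abs_add_le _ _).trans ?_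
  exact add_le_add h5 h6

/-- bound for the unnormalised second moment -/
noncomputable def Q2 (N2 N6 v r w q κ : ℝ) : ℝ :=
  500 * (2 * (N6 + N2)) ^ 2 + 14580 * q ^ 2 + 80 * (2 * v * w) ^ 2 + 80 * (r ^ 2) ^ 2
        + 320 * (κ * (2 * v * r) ^ 2)

theorem avg_f2_sq (h : Bd K F s N2 N4 N6 v r w) {A : Finset (ι × ι)} (hA : A ⊆ F ×ˢ F)
    (hc : ∀ p ∈ A, |K p.1 p.2| ≤ 1 / 5) (hab : ∀ p ∈ A, |K p.1 p.1 * K p.2 p.2| ≤ 1 / 10)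
    {q κ : ℝ} (hκ : 0 ≤ κ) (hT : ∀ p ∈ A, (T2 K p.1 p.2) ^ 2 ≤ κ)
    (hq : ∑ x ∈ F, ((K ^ 2) x x) ^ 2 ≤ q)
    (Θ : ι → ι → ℝ) (hΘ : ∀ p ∈ A, |Θ p.1 p.2| ≤ 1)
    {ρ W : ℝ} (hρ0 : 0 < ρ) (hW2 : ρ ^ 2 / 2 ≤ W) :
    ∑ p ∈ A, (1 - Θ p.1 p.2) / W * (f2 s K p.1 p.2) ^ 2 ≤ 4 * Q2 N2 N6 v r w q κ / ρ ^ 2 := by
  have h1 := sum_f2_sq h hA hc hab hκ hT hq
  have hρ2 : 0 < ρ ^ 2 := by positivity
  have hWpos : 0 < W := lt_of_lt_of_le (by positivity) hW2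
  have h2 : ∑ p ∈ A, (1 - Θ p.1 p.2) / W * (f2 s K p.1 p.2) ^ 2
      ≤ ∑ p ∈ A, 2 / W * (f2 s K p.1 p.2) ^ 2 := by
    refine Finset.sum_le_sum fun p hp => mul_le_mul_of_nonneg_right ?_ (sq_nonneg _)
    have := hΘ p hp
    rw [abs_le] at this
    exact div_le_div_of_nonneg_right (by linarith [this.1]) hWpos.le
  refine h2.trans ?_
  rw [← Finset.mul_sum]
  have h3 : 0 ≤ ∑ p ∈ A, (f2 s K p.1 p.2) ^ 2 := Finset.sum_nonneg fun _ _ => sq_nonneg _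
  have h4 : 2 / W ≤ 4 / ρ ^ 2 := by
    rw [div_le_div_iff₀ hWpos hρ2]; linarith
  calc 2 / W * ∑ p ∈ A, (f2 s K p.1 p.2) ^ 2 ≤ 4 / ρ ^ 2 * ∑ p ∈ A, (f2 s K p.1 p.2) ^ 2 :=
        mul_le_mul_of_nonneg_right h4 h3
    _ ≤ 4 / ρ ^ 2 * Q2 N2 N6 v r w q κ := mul_le_mul_of_nonneg_left h1 (by positivity)
    _ = _ := by ring

end

end Crest.Agent.R62.X2Drift
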