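import Crest.Agent.R62.X2Drift
import Crest.Agent.R62.TiltK

/-!
R62 (helper420): the first order effect of a tilt on `X_2`.
-/

set_option autoImplicit false
set_option linter.unusedSectionVars false
set_option linter.unusedVariables false

open Matrix Finset

namespace Crest.Agent.R62.X2Tilt

open Crest.Agent.R62.AvX2 Crest.Agent.R62.AvBase Crest.Agent.R62.TiltK

variable {ι : Type*} [Fintype ι] [DecidableEq ι]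

lemma sum_A_eq {A : Finset (ι × ι)} {Θ : Matrix ι ι ℝ} (h0 : ∀ x y, (x, y) ∉ A → Θ x y = 0)
    (g : ι → ι → ℝ) : ∑ p ∈ A, Θ p.1 p.2 * g p.1 p.2 = ∑ x, ∑ y, Θ x y * g x y := by
  rw [← Finset.sum_product']
  refine Finset.sum_subset (Finset.subset_univ A) fun p _ hp => ?_
  rw [h0 p.1 p.2 hp, zero_mul]

lemma abs_s {s : ℝ} (hs : s ^ 2 = 1) : |s| = 1 := by
  have h1 : |s| ^ 2 = 1 := by rw [sq_abs]; exact hs
  have h2 : 0 ≤ |s| := abs_nonneg s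
  nlinarith

/-- general form: `a1` bounds `|∑ Θ K³|` -/
theorem T1_gen {K : Matrix ι ι ℝ} {F : Finset ι} {s N2 N4 N6 v r w : ℝ}
    (h : Bd K F s N2 N4 N6 v r w) {A : Finset (ι × ι)} {Θ : Matrix ι ι ℝ}
    (h0 : ∀ x y, (x, y) ∉ A → Θ x y = 0) {a1 t : ℝ} (ht : 0 ≤ t)
    (hΘ2 : ∑ x, ∑ y, (Θ x y) ^ 2 ≤ t ^ 2) (h1 : |∑ x, ∑ y, Θ x y * (K ^ 3) x y| ≤ a1) :
    |4 * s * ∑ p ∈ A, Θ p.1 p.2 * E3 K p.1 p.2| ≤ 4 * (a1 + t * N2) := by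
  rw [sum_A_eq h0, abs_mul, abs_mul, abs_s h.ss, abs_of_pos (by norm_num : (0:ℝ) < 4), mul_one]
  have e1 : ∑ x, ∑ y, Θ x y * E3 K x y
      = ∑ x, ∑ y, Θ x y * (K ^ 3) x y - ∑ x, ∑ y, Θ x y * K x y := by
    rw [← Finset.sum_sub_distrib]
    refine Finset.sum_congr rfl fun x _ => ?_
    rw [← Finset.sum_sub_distrib]
    exact Finset.sum_congr rfl fun y _ => by simp only [E3]; ring
  have h2 : |∑ x, ∑ y, Θ x y * K x y| ≤ t * N2 := by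
    refine abs_ip_le ⟨ht, hΘ2⟩ ⟨h.n2, ?_⟩
    rw [frob_sq h.symm]; exact h.X2
  rw [e1]
  have h3 := abs_sub (∑ x, ∑ y, Θ x y * (K ^ 3) x y) (∑ x, ∑ y, Θ x y * K x y)
  nlinarith

/-- operator norm form -/
theorem T1_op {K : Matrix ι ι ℝ} {F : Finset ι} {s N2 N4 N6 v r w : ℝ}
    (h : Bd K F s N2 N4 N6 v r w) {A : Finset (ι × ι)} {Θ : Matrix ι ι ℝ}
    (h0 : ∀ x y, (x, y) ∉ A → Θ x y = 0) {N t : ℝ} (ht : 0 ≤ t)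
    (hΘ2 : ∑ x, ∑ y, (Θ x y) ^ 2 ≤ t ^ 2) (hN : OpB Θ N) :
    |4 * s * ∑ p ∈ A, Θ p.1 p.2 * E3 K p.1 p.2| ≤ 4 * (N * N2 * N4 + t * N2) := by
  refine T1_gen h h0 ht hΘ2 ?_
  have h1 := ip_mul_le hN K (K ^ 2)
  have e1 : K * K ^ 2 = K ^ 3 := (pow_succ' K 2).symm
  rw [e1] at h1
  refine h1.trans ?_
  have hK2 : Real.sqrt (∑ x, ∑ y, K x y ^ 2) ≤ N2 := by
    rw [frob_sq h.symm]
    exact Real.sqrt_le_iff.mpr ⟨h.n2, h.X2⟩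
  have hK4 : Real.sqrt (∑ x, ∑ y, (K ^ 2) x y ^ 2) ≤ N4 := by
    rw [frob_sq (symm_pow h.symm 2), ← pow_mul]
    exact Real.sqrt_le_iff.mpr ⟨h.n4, h.X4⟩
  have hN0 := hN.1
  rw [mul_assoc]
  exact mul_le_mul_of_nonneg_left (mul_le_mul hK2 hK4 (Real.sqrt_nonneg _) h.n2) hN0

/-- `‖Θ K‖_F` form -/
theorem T1_fr {K : Matrix ι ι ℝ} {F : Finset ι} {s N2 N4 N6 v r w : ℝ}
    (h : Bd K F s N2 N4 N6 v r w) {A : Finset (ι × ι)} {Θ : Matrix ι ι ℝ}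
    (h0 : ∀ x y, (x, y) ∉ A → Θ x y = 0) (hΘs : ∀ x y, Θ x y = Θ y x) {a t : ℝ} (ht : 0 ≤ t)
    (hΘ2 : ∑ x, ∑ y, (Θ x y) ^ 2 ≤ t ^ 2) (ha : Fr (Θ * K) a) :
    |4 * s * ∑ p ∈ A, Θ p.1 p.2 * E3 K p.1 p.2| ≤ 4 * (a * N4 + t * N2) := by
  refine T1_gen h h0 ht hΘ2 ?_
  have hM : Fr (K ^ 2) N4 := by
    refine ⟨h.n4, ?_⟩
    rw [frob_sq (symm_pow h.symm 2), ← pow_mul]
    exact h.X4
  have h1 := ip_phi_mul_le hΘs ha hM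
  have e1 : K * K ^ 2 = K ^ 3 := (pow_succ' K 2).symm
  rwa [e1] at h1

end Crest.Agent.R62.X2Tilt
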