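import Crest.Agent.R62.X2Pot
import Crest.Agent.R62.X2Tilt

/-!
R62 (helper420): numeric part of the `X_2` pieces, table helper800 #4644
(`m = nthRoot 1000 n`; `g = √ρ`).
-/

set_option autoImplicit false
set_option linter.unusedSectionVars false
set_option linter.unusedVariables false

open Matrix Finset

namespace Crest.Agent.R62.X2Num

open Crest.Agent.R62.AvX2 Crest.Agent.R62.AvBase Crest.Agent.R62.X2Drift Crest.Agent.R62.X2Pot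
open Crest.Agent.R62.Barrier

lemma pw {m : ℝ} (hm : 1 ≤ m) {a b : ℕ} (h : a ≤ b) : m ^ a ≤ m ^ b :=
  pow_le_pow_right₀ hm h

lemma cm {m C : ℝ} (hm : 1 ≤ m) (hC : C ≤ m) {a b : ℕ} (h : a + 1 ≤ b) : C * m ^ a ≤ m ^ b := by
  have h0 : 0 ≤ m ^ a := by positivity
  calc C * m ^ a ≤ m * m ^ a := mul_le_mul_of_nonneg_right hC h0
    _ = m ^ (a + 1) := by ring
    _ ≤ m ^ b := pw hm h

/-- comparisons with `m^b g²`, `g ≥ m^k` -/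
lemma c1 {m C g : ℝ} {k : ℕ} (hm : 1 ≤ m) (hC : C ≤ m) (hg : m ^ k ≤ g) {a b : ℕ}
    (h : a + 1 ≤ b + k) : C * (m ^ a * g) ≤ m ^ b * g ^ 2 := by
  have h0 : 0 ≤ m ^ b := by positivity
  have hg0 : 0 ≤ g := le_trans (by positivity) hg
  have h1 : C * m ^ a ≤ m ^ b * g :=
    calc C * m ^ a ≤ m ^ (b + k) := cm hm hC h
      _ = m ^ b * m ^ k := pow_add m b k
      _ ≤ m ^ b * g := mul_le_mul_of_nonneg_left hg h0
  calc C * (m ^ a * g) = C * m ^ a * g := by ring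
    _ ≤ m ^ b * g * g := mul_le_mul_of_nonneg_right h1 hg0
    _ = _ := by ring

lemma c0 {m C g : ℝ} {k : ℕ} (hm : 1 ≤ m) (hC : C ≤ m) (hg : m ^ k ≤ g) {a b : ℕ}
    (h : a + 1 ≤ b + 2 * k) : C * m ^ a ≤ m ^ b * g ^ 2 := by
  have h0 : 0 ≤ m ^ b := by positivity
  have h3 : (0:ℝ) ≤ m ^ k := by positivity
  have hg2 : m ^ (2 * k) ≤ g ^ 2 := by
    calc m ^ (2 * k) = (m ^ k) ^ 2 := by rw [← pow_mul, mul_comm]
      _ ≤ g ^ 2 := pow_le_pow_left₀ h3 hg 2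
  calc C * m ^ a ≤ m ^ (b + 2 * k) := cm hm hC h
    _ = m ^ b * m ^ (2 * k) := pow_add m b (2 * k)
    _ ≤ m ^ b * g ^ 2 := mul_le_mul_of_nonneg_left hg2 h0

lemma c2 {m C g : ℝ} (hm : 1 ≤ m) (hC : C ≤ m) {a b : ℕ}
    (h : a + 1 ≤ b) : C * (m ^ a * g ^ 2) ≤ m ^ b * g ^ 2 := by
  have := mul_le_mul_of_nonneg_right (cm hm hC h) (sq_nonneg g)
  calc C * (m ^ a * g ^ 2) = C * m ^ a * g ^ 2 := by ring
    _ ≤ _ := this

lemma Rem_mono {N2 N4 N6 v r w w' : ℝ} (h2 : 0 ≤ N2) (h4 : 0 ≤ N4) (h6 : 0 ≤ N6) (hv : 0 ≤ v)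
    (hr : 0 ≤ r) (hw : 0 ≤ w) (h : w ≤ w') : Rem N2 N4 N6 v r w ≤ Rem N2 N4 N6 v r w' := by
  unfold Rem
  have h1 : (N2 + v ^ 2) * (2 * v * w) ≤ (N2 + v ^ 2) * (2 * v * w') :=
    mul_le_mul_of_nonneg_left (mul_le_mul_of_nonneg_left h (by positivity)) (by positivity)
  linarith

lemma Bias_mono {N2 N4 N6 v r w w' β : ℝ} (hv : 0 ≤ v) (hβ : 0 ≤ β)
    (h : w ≤ w') : Bias N2 N4 N6 v r w β ≤ Bias N2 N4 N6 v r w' β := by
  unfold Bias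
  have h1 : β * (2 * v * w) ≤ β * (2 * v * w') :=
    mul_le_mul_of_nonneg_left (mul_le_mul_of_nonneg_left h (by positivity)) (by positivity)
  linarith

/-! ### stage 1: `g ≥ m^400`, `N2 = 2g`, `N4 = m^602`, `N6 = m^903`, `v = m^5`, `r = m^310`,
`w ≤ m^302 g`, `β = m g`, `t = m^566` -/

lemma Rem1 {m g w : ℝ} (hm : 1000 ≤ m) (hg : m ^ 400 ≤ g) (hw : 0 ≤ w)
    (hw1 : w ≤ m ^ 302 * g) :
    Rem (2 * g) (m ^ 602) (m ^ 903) (m ^ 5) (m ^ 310) w ≤ m ^ 600 * g ^ 2 := by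
  have hm1 : 1 ≤ m := by linarith
  have hm0 : 0 < m := by linarith
  have hg0 : 0 < g := lt_of_lt_of_le (by positivity) hg
  refine (Rem_mono (by positivity) (by positivity) (by positivity) (by positivity)
    (by positivity) hw hw1).trans ?_
  have e : Rem (2 * g) (m ^ 602) (m ^ 903) (m ^ 5) (m ^ 310) (m ^ 302 * g)
      = 10 * (m ^ 903 * g) + 20 * (m ^ 0 * g ^ 2) + 20 * m ^ 913 + 40 * (m ^ 10 * g)
        + 85 / 8 * m ^ 1204 + 136 * (m ^ 307 * g ^ 2) + 68 * (m ^ 317 * g)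
        + 68 * (m ^ 620 * g) + 34 * m ^ 630 + 40 * m ^ 917 + 16 * m ^ 630 := by
    unfold Rem; ring
  rw [e]
  have t1 : 10 * (m ^ 903 * g) ≤ m ^ 599 * g ^ 2 := c1 hm1 (by linarith) hg (by norm_num)
  have t2 : 20 * (m ^ 0 * g ^ 2) ≤ m ^ 599 * g ^ 2 := c2 hm1 (by linarith) (by norm_num)
  have t3 : 20 * m ^ 913 ≤ m ^ 599 * g ^ 2 := c0 hm1 (by linarith) hg (by norm_num)
  have t4 : 40 * (m ^ 10 * g) ≤ m ^ 599 * g ^ 2 := c1 hm1 (by linarith) hg (by norm_num)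
  have t5 : 85 / 8 * m ^ 1204 ≤ m ^ 599 * g ^ 2 := c0 hm1 (by linarith) hg (by norm_num)
  have t6 : 136 * (m ^ 307 * g ^ 2) ≤ m ^ 599 * g ^ 2 := c2 hm1 (by linarith) (by norm_num)
  have t7 : 68 * (m ^ 317 * g) ≤ m ^ 599 * g ^ 2 := c1 hm1 (by linarith) hg (by norm_num)
  have t8 : 68 * (m ^ 620 * g) ≤ m ^ 599 * g ^ 2 := c1 hm1 (by linarith) hg (by norm_num)
  have t9 : 34 * m ^ 630 ≤ m ^ 599 * g ^ 2 := c0 hm1 (by linarith) hg (by norm_num)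
  have t10 : 40 * m ^ 917 ≤ m ^ 599 * g ^ 2 := c0 hm1 (by linarith) hg (by norm_num)
  have t11 : 16 * m ^ 630 ≤ m ^ 599 * g ^ 2 := c0 hm1 (by linarith) hg (by norm_num)
  have t : 11 * (m ^ 599 * g ^ 2) ≤ m ^ 600 * g ^ 2 := c2 hm1 (by linarith) (by norm_num)
  linarith

lemma Bias1 {m g w : ℝ} (hm : 1000 ≤ m) (hg : m ^ 400 ≤ g) (hw : 0 ≤ w)
    (hw1 : w ≤ m ^ 302 * g) :
    Bias (2 * g) (m ^ 602) (m ^ 903) (m ^ 5) (m ^ 310) w (m * g) ≤ m ^ 600 * g ^ 2 := by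
  have hm1 : 1 ≤ m := by linarith
  have hm0 : 0 < m := by linarith
  have hg0 : 0 < g := lt_of_lt_of_le (by positivity) hg
  refine (Bias_mono (by positivity) (by positivity) hw1).trans ?_
  have e : Bias (2 * g) (m ^ 602) (m ^ 903) (m ^ 5) (m ^ 310) (m ^ 302 * g) (m * g)
      = 8 * (m ^ 904 * g) + 16 * (m ^ 1 * g ^ 2) + 16 * (m ^ 903 * g) + 32 * (m ^ 0 * g ^ 2)
        + 2 * m ^ 1204 + 2 * (m ^ 621 * g) + 4 * (m ^ 308 * g ^ 2) := by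
    unfold Bias; ring
  rw [e]
  have t1 : 8 * (m ^ 904 * g) ≤ m ^ 599 * g ^ 2 := c1 hm1 (by linarith) hg (by norm_num)
  have t2 : 16 * (m ^ 1 * g ^ 2) ≤ m ^ 599 * g ^ 2 := c2 hm1 (by linarith) (by norm_num)
  have t3 : 16 * (m ^ 903 * g) ≤ m ^ 599 * g ^ 2 := c1 hm1 (by linarith) hg (by norm_num)
  have t4 : 32 * (m ^ 0 * g ^ 2) ≤ m ^ 599 * g ^ 2 := c2 hm1 (by linarith) (by norm_num)
  have t5 : 2 * m ^ 1204 ≤ m ^ 599 * g ^ 2 := c0 hm1 (by linarith) hg (by norm_num)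
  have t6 : 2 * (m ^ 621 * g) ≤ m ^ 599 * g ^ 2 := c1 hm1 (by linarith) hg (by norm_num)
  have t7 : 4 * (m ^ 308 * g ^ 2) ≤ m ^ 599 * g ^ 2 := c2 hm1 (by linarith) (by norm_num)
  have t : 11 * (m ^ 599 * g ^ 2) ≤ m ^ 600 * g ^ 2 := c2 hm1 (by linarith) (by norm_num)
  have t0 : 0 ≤ m ^ 599 * g ^ 2 := by positivity
  linarith

lemma Err1 {m g w T1 : ℝ} (hm : 1000 ≤ m) (hg : m ^ 400 ≤ g) (hw : 0 ≤ w)
    (hw1 : w ≤ m ^ 302 * g) (hT1 : T1 ≤ 4 * (m ^ 371 * (2 * g) * m ^ 602 + m ^ 566 * (2 * g))) :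
    Err (2 * g) (m ^ 602) (m ^ 903) (m ^ 5) (m ^ 310) w (m * g) (1 / 2) (m ^ 566) T1
      ≤ m ^ 602 * g ^ 2 := by
  have hm1 : 1 ≤ m := by linarith
  have hm0 : 0 < m := by linarith
  have hg0 : 0 < g := lt_of_lt_of_le (by positivity) hg
  have hR := Rem1 hm hg hw hw1
  have hB := Bias1 hm hg hw hw1
  unfold Err
  set R := Rem (2 * g) (m ^ 602) (m ^ 903) (m ^ 5) (m ^ 310) w
  set B := Bias (2 * g) (m ^ 602) (m ^ 903) (m ^ 5) (m ^ 310) w (m * g)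
  have h1 : 2 * (m ^ 566 * (2 * m ^ 5 * w)) ≤ 4 * (m ^ 873 * g) := by
    have : 2 * (m ^ 566 * (2 * m ^ 5 * w)) = 4 * m ^ 571 * w := by ring
    rw [this]
    calc 4 * m ^ 571 * w ≤ 4 * m ^ 571 * (m ^ 302 * g) :=
          mul_le_mul_of_nonneg_left hw1 (by positivity)
      _ = 4 * (m ^ 873 * g) := by ring
  have e2 : 4 * (2 * g * (2 * (m ^ 903 + 2 * g))) + 2 * (m ^ 602) ^ 2
      = 16 * (m ^ 903 * g) + 32 * (m ^ 0 * g ^ 2) + 2 * m ^ 1204 := by ring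
  have e3 : 2 * (m ^ 566 * (m ^ 310) ^ 2) = 2 * m ^ 1186 := by ring
  have e4 : 4 * (m ^ 371 * (2 * g) * m ^ 602 + m ^ 566 * (2 * g))
      = 8 * (m ^ 973 * g) + 8 * (m ^ 566 * g) := by ring
  rw [e4] at hT1
  rw [e2, e3]
  have t3 : 16 * (m ^ 903 * g) ≤ m ^ 599 * g ^ 2 := c1 hm1 (by linarith) hg (by norm_num)
  have t4 : 32 * (m ^ 0 * g ^ 2) ≤ m ^ 599 * g ^ 2 := c2 hm1 (by linarith) (by norm_num)
  have t5 : 2 * m ^ 1204 ≤ m ^ 599 * g ^ 2 := c0 hm1 (by linarith) hg (by norm_num)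
  have t6 : 2 * m ^ 1186 ≤ m ^ 599 * g ^ 2 := c0 hm1 (by linarith) hg (by norm_num)
  have t7 : 4 * (m ^ 873 * g) ≤ m ^ 599 * g ^ 2 := c1 hm1 (by linarith) hg (by norm_num)
  have t8 : 1 * (m ^ 599 * g ^ 2) ≤ m ^ 600 * g ^ 2 := c2 hm1 (by linarith) (by norm_num)
  have t9 : 8 * (m ^ 973 * g) ≤ m ^ 600 * g ^ 2 := c1 hm1 (by linarith) hg (by norm_num)
  have t10 : 8 * (m ^ 566 * g) ≤ m ^ 600 * g ^ 2 := c1 hm1 (by linarith) hg (by norm_num)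
  have t : 20 * (m ^ 600 * g ^ 2) ≤ m ^ 602 * g ^ 2 := c2 hm1 (by linarith) (by norm_num)
  have t0 : 0 ≤ m ^ 599 * g ^ 2 := by positivity
  linarith

lemma Q1 {m g w q κ : ℝ} (hm : 100000 ≤ m) (hg : m ^ 400 ≤ g) (hg2 : g ^ 2 ≤ m ^ 1001)
    (hw : 0 ≤ w) (hw1 : w ≤ m ^ 302 * g) (hq0 : 0 ≤ q) (hq : q ≤ m * g ^ 2)
    (hκ : κ ≤ 4 * m ^ 630) :
    Q2 (2 * g) (m ^ 903) (m ^ 5) (m ^ 310) w q κ ≤ m ^ 1100 * g ^ 2 := by
  have hm1 : 1 ≤ m := by linarith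
  have hm0 : 0 < m := by linarith
  have hg0 : 0 < g := lt_of_lt_of_le (by positivity) hg
  unfold Q2
  have h1 : 500 * (2 * (m ^ 903 + 2 * g)) ^ 2
      = 2000 * m ^ 1806 + 8000 * (m ^ 903 * g) + 8000 * (m ^ 0 * g ^ 2) := by ring
  have h2 : 14580 * q ^ 2 ≤ 14580 * (m ^ 1003 * g ^ 2) := by
    have : q ^ 2 ≤ m ^ 1003 * g ^ 2 := by
      calc q ^ 2 ≤ (m * g ^ 2) ^ 2 := pow_le_pow_left₀ hq0 hq 2
        _ = m ^ 2 * g ^ 2 * g ^ 2 := by ring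
        _ ≤ m ^ 2 * m ^ 1001 * g ^ 2 := by
            refine mul_le_mul_of_nonneg_right ?_ (sq_nonneg g)
            exact mul_le_mul_of_nonneg_left hg2 (by positivity)
        _ = _ := by ring
    linarith
  have h3 : 80 * (2 * m ^ 5 * w) ^ 2 ≤ 320 * (m ^ 614 * g ^ 2) := by
    have : w ^ 2 ≤ (m ^ 302 * g) ^ 2 := pow_le_pow_left₀ hw hw1 2
    calc 80 * (2 * m ^ 5 * w) ^ 2 = 320 * m ^ 10 * w ^ 2 := by ring
      _ ≤ 320 * m ^ 10 * (m ^ 302 * g) ^ 2 := mul_le_mul_of_nonneg_left this (by positivity)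
      _ = _ := by ring
  have h4 : 80 * ((m ^ 310) ^ 2) ^ 2 = 80 * m ^ 1240 := by ring
  have h5 : 320 * (κ * (2 * m ^ 5 * m ^ 310) ^ 2) ≤ 5120 * m ^ 1260 := by
    calc 320 * (κ * (2 * m ^ 5 * m ^ 310) ^ 2) ≤ 320 * (4 * m ^ 630 * (2 * m ^ 5 * m ^ 310) ^ 2) := by
          refine mul_le_mul_of_nonneg_left ?_ (by norm_num)
          exact mul_le_mul_of_nonneg_right hκ (sq_nonneg _)
      _ = _ := by ring
  rw [h1, h4]
  have t1 : 2000 * m ^ 1806 ≤ m ^ 1099 * g ^ 2 := c0 hm1 (by linarith) hg (by norm_num)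
  have t2 : 8000 * (m ^ 903 * g) ≤ m ^ 1099 * g ^ 2 := c1 hm1 (by linarith) hg (by norm_num)
  have t3 : 8000 * (m ^ 0 * g ^ 2) ≤ m ^ 1099 * g ^ 2 := c2 hm1 (by linarith) (by norm_num)
  have t4 : 14580 * (m ^ 1003 * g ^ 2) ≤ m ^ 1099 * g ^ 2 := c2 hm1 (by linarith) (by norm_num)
  have t5 : 320 * (m ^ 614 * g ^ 2) ≤ m ^ 1099 * g ^ 2 := c2 hm1 (by linarith) (by norm_num)
  have t6 : 80 * m ^ 1240 ≤ m ^ 1099 * g ^ 2 := c0 hm1 (by linarith) hg (by norm_num)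
  have t7 : 5120 * m ^ 1260 ≤ m ^ 1099 * g ^ 2 := c0 hm1 (by linarith) hg (by norm_num)
  have t : 10 * (m ^ 1099 * g ^ 2) ≤ m ^ 1100 * g ^ 2 := c2 hm1 (by linarith) (by norm_num)
  have t0 : 0 ≤ m ^ 1099 * g ^ 2 := by positivity
  linarith

/-! ### stage 2: `g ≥ m^339`, `N2 = 2g`, `N4 = m^664`, `N6 = m^996`, `v = m^70`, `r = m^402`,
`w ≤ m^734`, `β = m g`, no tilt -/

lemma Rem2 {m g w : ℝ} (hm : 1000 ≤ m) (hg : m ^ 339 ≤ g) (hw : 0 ≤ w)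
    (hw1 : w ≤ m ^ 734) :
    Rem (2 * g) (m ^ 664) (m ^ 996) (m ^ 70) (m ^ 402) w ≤ m ^ 661 * g ^ 2 := by
  have hm1 : 1 ≤ m := by linarith
  have hm0 : 0 < m := by linarith
  have hg0 : 0 < g := lt_of_lt_of_le (by positivity) hg
  refine (Rem_mono (by positivity) (by positivity) (by positivity) (by positivity)
    (by positivity) hw hw1).trans ?_
  have e : Rem (2 * g) (m ^ 664) (m ^ 996) (m ^ 70) (m ^ 402) (m ^ 734)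
      = 10 * (m ^ 996 * g) + 20 * (m ^ 0 * g ^ 2) + 20 * m ^ 1136 + 40 * (m ^ 140 * g)
        + 85 / 8 * m ^ 1328 + 136 * (m ^ 804 * g) + 68 * m ^ 944
        + 68 * (m ^ 804 * g) + 34 * m ^ 944 + 40 * m ^ 1136 + 16 * m ^ 944 := by
    unfold Rem; ring
  rw [e]
  have t1 : 10 * (m ^ 996 * g) ≤ m ^ 660 * g ^ 2 := c1 hm1 (by linarith) hg (by norm_num)
  have t2 : 20 * (m ^ 0 * g ^ 2) ≤ m ^ 660 * g ^ 2 := c2 hm1 (by linarith) (by norm_num)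
  have t3 : 20 * m ^ 1136 ≤ m ^ 660 * g ^ 2 := c0 hm1 (by linarith) hg (by norm_num)
  have t4 : 40 * (m ^ 140 * g) ≤ m ^ 660 * g ^ 2 := c1 hm1 (by linarith) hg (by norm_num)
  have t5 : 85 / 8 * m ^ 1328 ≤ m ^ 660 * g ^ 2 := c0 hm1 (by linarith) hg (by norm_num)
  have t6 : 136 * (m ^ 804 * g) ≤ m ^ 660 * g ^ 2 := c1 hm1 (by linarith) hg (by norm_num)
  have t7 : 68 * m ^ 944 ≤ m ^ 660 * g ^ 2 := c0 hm1 (by linarith) hg (by norm_num)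
  have t8 : 68 * (m ^ 804 * g) ≤ m ^ 660 * g ^ 2 := c1 hm1 (by linarith) hg (by norm_num)
  have t9 : 34 * m ^ 944 ≤ m ^ 660 * g ^ 2 := c0 hm1 (by linarith) hg (by norm_num)
  have t10 : 40 * m ^ 1136 ≤ m ^ 660 * g ^ 2 := c0 hm1 (by linarith) hg (by norm_num)
  have t11 : 16 * m ^ 944 ≤ m ^ 660 * g ^ 2 := c0 hm1 (by linarith) hg (by norm_num)
  have t : 11 * (m ^ 660 * g ^ 2) ≤ m ^ 661 * g ^ 2 := c2 hm1 (by linarith) (by norm_num)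
  linarith

lemma Bias2 {m g w : ℝ} (hm : 1000 ≤ m) (hg : m ^ 339 ≤ g) (hw : 0 ≤ w)
    (hw1 : w ≤ m ^ 734) :
    Bias (2 * g) (m ^ 664) (m ^ 996) (m ^ 70) (m ^ 402) w (m * g) ≤ m ^ 661 * g ^ 2 := by
  have hm1 : 1 ≤ m := by linarith
  have hm0 : 0 < m := by linarith
  have hg0 : 0 < g := lt_of_lt_of_le (by positivity) hg
  refine (Bias_mono (by positivity) (by positivity) hw1).trans ?_
  have e : Bias (2 * g) (m ^ 664) (m ^ 996) (m ^ 70) (m ^ 402) (m ^ 734) (m * g)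
      = 8 * (m ^ 997 * g) + 16 * (m ^ 1 * g ^ 2) + 16 * (m ^ 996 * g) + 32 * (m ^ 0 * g ^ 2)
        + 2 * m ^ 1328 + 2 * (m ^ 805 * g) + 4 * (m ^ 805 * g) := by
    unfold Bias; ring
  rw [e]
  have t1 : 8 * (m ^ 997 * g) ≤ m ^ 660 * g ^ 2 := c1 hm1 (by linarith) hg (by norm_num)
  have t2 : 16 * (m ^ 1 * g ^ 2) ≤ m ^ 660 * g ^ 2 := c2 hm1 (by linarith) (by norm_num)
  have t3 : 16 * (m ^ 996 * g) ≤ m ^ 660 * g ^ 2 := c1 hm1 (by linarith) hg (by norm_num)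
  have t4 : 32 * (m ^ 0 * g ^ 2) ≤ m ^ 660 * g ^ 2 := c2 hm1 (by linarith) (by norm_num)
  have t5 : 2 * m ^ 1328 ≤ m ^ 660 * g ^ 2 := c0 hm1 (by linarith) hg (by norm_num)
  have t6 : 2 * (m ^ 805 * g) ≤ m ^ 660 * g ^ 2 := c1 hm1 (by linarith) hg (by norm_num)
  have t7 : 4 * (m ^ 805 * g) ≤ m ^ 660 * g ^ 2 := c1 hm1 (by linarith) hg (by norm_num)
  have t : 11 * (m ^ 660 * g ^ 2) ≤ m ^ 661 * g ^ 2 := c2 hm1 (by linarith) (by norm_num)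
  have t0 : 0 ≤ m ^ 660 * g ^ 2 := by positivity
  linarith

lemma Q22 {m g w q κ : ℝ} (hm : 100000 ≤ m) (hg : m ^ 339 ≤ g)
    (hw : 0 ≤ w) (hw1 : w ≤ m ^ 734) (hq0 : 0 ≤ q) (hq : q ≤ m ^ 803)
    (hκ : κ ≤ 4 * m ^ 944) :
    Q2 (2 * g) (m ^ 996) (m ^ 70) (m ^ 402) w q κ ≤ m ^ 1330 * g ^ 2 := by
  have hm1 : 1 ≤ m := by linarith
  have hm0 : 0 < m := by linarith
  have hg0 : 0 < g := lt_of_lt_of_le (by positivity) hg
  unfold Q2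
  have h1 : 500 * (2 * (m ^ 996 + 2 * g)) ^ 2
      = 2000 * m ^ 1992 + 8000 * (m ^ 996 * g) + 8000 * (m ^ 0 * g ^ 2) := by ring
  have h2 : 14580 * q ^ 2 ≤ 14580 * m ^ 1606 := by
    have : q ^ 2 ≤ (m ^ 803) ^ 2 := pow_le_pow_left₀ hq0 hq 2
    have e : (m ^ 803) ^ 2 = m ^ 1606 := by ring
    rw [e] at this
    linarith
  have h3 : 80 * (2 * m ^ 70 * w) ^ 2 ≤ 320 * m ^ 1608 := by
    have : w ^ 2 ≤ (m ^ 734) ^ 2 := pow_le_pow_left₀ hw hw1 2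
    calc 80 * (2 * m ^ 70 * w) ^ 2 = 320 * m ^ 140 * w ^ 2 := by ring
      _ ≤ 320 * m ^ 140 * (m ^ 734) ^ 2 := mul_le_mul_of_nonneg_left this (by positivity)
      _ = _ := by ring
  have h4 : 80 * ((m ^ 402) ^ 2) ^ 2 = 80 * m ^ 1608 := by ring
  have h5 : 320 * (κ * (2 * m ^ 70 * m ^ 402) ^ 2) ≤ 5120 * m ^ 1888 := by
    calc 320 * (κ * (2 * m ^ 70 * m ^ 402) ^ 2)
        ≤ 320 * (4 * m ^ 944 * (2 * m ^ 70 * m ^ 402) ^ 2) := by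
          refine mul_le_mul_of_nonneg_left ?_ (by norm_num)
          exact mul_le_mul_of_nonneg_right hκ (sq_nonneg _)
      _ = _ := by ring
  rw [h1, h4]
  have t1 : 2000 * m ^ 1992 ≤ m ^ 1329 * g ^ 2 := c0 hm1 (by linarith) hg (by norm_num)
  have t2 : 8000 * (m ^ 996 * g) ≤ m ^ 1329 * g ^ 2 := c1 hm1 (by linarith) hg (by norm_num)
  have t3 : 8000 * (m ^ 0 * g ^ 2) ≤ m ^ 1329 * g ^ 2 := c2 hm1 (by linarith) (by norm_num)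
  have t4 : 14580 * m ^ 1606 ≤ m ^ 1329 * g ^ 2 := c0 hm1 (by linarith) hg (by norm_num)
  have t5 : 320 * m ^ 1608 ≤ m ^ 1329 * g ^ 2 := c0 hm1 (by linarith) hg (by norm_num)
  have t6 : 80 * m ^ 1608 ≤ m ^ 1329 * g ^ 2 := c0 hm1 (by linarith) hg (by norm_num)
  have t7 : 5120 * m ^ 1888 ≤ m ^ 1329 * g ^ 2 := c0 hm1 (by linarith) hg (by norm_num)
  have t : 10 * (m ^ 1329 * g ^ 2) ≤ m ^ 1330 * g ^ 2 := c2 hm1 (by linarith) (by norm_num)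
  have t0 : 0 ≤ m ^ 1329 * g ^ 2 := by positivity
  linarith

end Crest.Agent.R62.X2Num
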