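import Crest.Agent.R62.X2Drift

/-!
R62 (helper420): one step of the quadratic potentials for `X_2` (upper and lower barrier
`phi2 r ρ = ρ²/(ρ+r)`), from the normalised averages of `X2Drift`.
-/

set_option autoImplicit false
set_option linter.unusedSectionVars false
set_option linter.unusedVariables false

open Matrix Finset

namespace Crest.Agent.R62.X2Pot

open Crest.Agent.R62.Barrier

variable {ι : Type*}

/-- upper barrier: `X' = X - 2 + g`, `E g ≈ 2 (X/ρ - 1)²` -/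
theorem upper_step (S : Finset ι) (μ : ι → ℝ) (hμ : ∀ i ∈ S, 0 ≤ μ i) (hμ1 : ∑ i ∈ S, μ i = 1)
    (g : ι → ℝ) {X ρ r w ER ν : ℝ} (hr : 0 < r) (hρ : 2 < ρ) (hw : 0 < w) (hER : 0 ≤ ER)
    (hwr : w ≤ 2 * r * ρ / (ρ + r))
    (hP : (max (X - phi2 r ρ) 0) ^ 2 / w ^ 2 ≤ 1)
    (h1 : |∑ i ∈ S, μ i * g i - 2 * (X / ρ - 1) ^ 2| ≤ ER)
    (h2 : ∑ i ∈ S, μ i * (g i) ^ 2 ≤ ν) :
    ∑ i ∈ S, μ i * ((max (X - 2 + g i - phi2 r (ρ - 2)) 0) ^ 2 / w ^ 2) ≤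
      (max (X - phi2 r ρ) 0) ^ 2 / w ^ 2
        + (2 * w * ER + (2 * ν + 2 * (2 + (phi2 r (ρ - 2) - phi2 r ρ)) ^ 2)) / w ^ 2 := by
  have hρ0 : 0 < ρ := by linarith
  refine quad_step' S μ hμ hμ1 X (fun i => X - 2 + g i) (b := phi2 r ρ) (b' := phi2 r (ρ - 2))
    (η := ER) (lam := 0) hw hw hER hP ?_ ?_ (by simp)
  · intro hb hbw
    have e1 : ∑ i ∈ S, μ i * (X - 2 + g i - X) = -2 + ∑ i ∈ S, μ i * g i := by
      have : ∀ i ∈ S, μ i * (X - 2 + g i - X) = μ i * (-2) + μ i * g i := fun i _ => by ring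
      rw [Finset.sum_congr rfl this, Finset.sum_add_distrib, ← Finset.sum_mul, hμ1, one_mul]
    rw [e1]
    have h3 := X2_drift_cmp hr hρ X
    have h4 := (abs_le.mp h1).2
    have h5 : X / ρ + ff r ρ - 2 ≤ 0 := by
      have h6 : X / ρ ≤ ff r ρ + 2 * r / (ρ + r) := by
        rw [div_le_iff₀ hρ0]
        have : phi2 r ρ = ρ * ff r ρ := phi2_eq r ρ
        have e : (ff r ρ + 2 * r / (ρ + r)) * ρ = phi2 r ρ + 2 * r * ρ / (ρ + r) := by
          rw [this]; ring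
        rw [e]
        linarith
      have h7 : 1 - ff r ρ = r / (ρ + r) := one_sub_ff hr hρ0.le
      have h8 : 2 * r / (ρ + r) = 2 * (1 - ff r ρ) := by rw [h7]; ring
      linarith
    have h9 : 2 / ρ * (X - phi2 r ρ) * (X / ρ + ff r ρ - 2) ≤ 0 :=
      mul_nonpos_of_nonneg_of_nonpos
        (mul_nonneg (by positivity) (by linarith)) h5
    linarith
  · have h3 := var_shift S μ hμ hμ1 g (c := 2 + (phi2 r (ρ - 2) - phi2 r ρ)) h2
    refine le_trans (le_of_eq ?_) h3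
    exact Finset.sum_congr rfl fun i _ => by ring

/-- lower barrier -/
theorem lower_step (S : Finset ι) (μ : ι → ℝ) (hμ : ∀ i ∈ S, 0 ≤ μ i) (hμ1 : ∑ i ∈ S, μ i = 1)
    (g : ι → ℝ) {X ρ r w ER ν : ℝ} (hr : 0 < r) (hρ : 4 ≤ ρ) (hw : 0 < w) (hER : 0 ≤ ER)
    (hP : (max (phi2 r ρ - X) 0) ^ 2 / w ^ 2 ≤ 1)
    (h1 : |∑ i ∈ S, μ i * g i - 2 * (X / ρ - 1) ^ 2| ≤ ER)
    (h2 : ∑ i ∈ S, μ i * (g i) ^ 2 ≤ ν) :
    ∑ i ∈ S, μ i * ((max (phi2 r (ρ - 2) - (X - 2 + g i)) 0) ^ 2 / w ^ 2) ≤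
      (max (phi2 r ρ - X) 0) ^ 2 / w ^ 2
        + (2 * w * (ER + 8 / ρ) + (2 * ν + 2 * (2 + (phi2 r (ρ - 2) - phi2 r ρ)) ^ 2)) / w ^ 2 := by
  have hρ0 : 0 < ρ := by linarith
  have e0 : ∀ a b : ℝ, b - a = -a - -b := fun a b => by ring
  have key := quad_step' S μ hμ hμ1 (-X) (fun i => -(X - 2 + g i)) (b := -phi2 r ρ)
    (b' := -phi2 r (ρ - 2)) (w := w) (w' := w)
    (η := ER + 8 / ρ) (ν := 2 * ν + 2 * (2 + (phi2 r (ρ - 2) - phi2 r ρ)) ^ 2) (lam := 0) hw hw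
    (by positivity) (by rw [← e0]; exact hP) ?_ ?_ (by simp)
  · simp only [← e0] at key
    exact key
  · intro hb hbw
    have e1 : ∑ i ∈ S, μ i * (-(X - 2 + g i) - -X) = 2 - ∑ i ∈ S, μ i * g i := by
      have : ∀ i ∈ S, μ i * (-(X - 2 + g i) - -X) = μ i * 2 - μ i * g i := fun i _ => by ring
      rw [Finset.sum_congr rfl this, Finset.sum_sub_distrib, ← Finset.sum_mul, hμ1, one_mul]
    rw [e1]
    have h3 := phi2_step_le hr hρ
    have h4 := (abs_le.mp h1).1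
    have hf1 := ff_le_one hr hρ0.le
    have h5 : X / ρ ≤ ff r ρ := by
      rw [div_le_iff₀ hρ0]
      have : phi2 r ρ = ρ * ff r ρ := phi2_eq r ρ
      linarith
    have h6 : (ff r ρ - 1) ^ 2 ≤ (X / ρ - 1) ^ 2 := by nlinarith
    linarith
  · have h3 := var_shift S μ hμ hμ1 g (c := 2 + (phi2 r (ρ - 2) - phi2 r ρ)) h2
    refine le_trans (le_of_eq ?_) h3
    exact Finset.sum_congr rfl fun i _ => by ring

end Crest.Agent.R62.X2Pot
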