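import Crest.Agent.R62.X3Upd
import Crest.Agent.R62.AvX2

/-!
R62 (helper420): exact one-step change of `X_2 = Tr K^2`:
`Tr (upd s K x y)^2 = Tr K^2 - 2 + f2 s K x y`.
-/

set_option autoImplicit false
set_option linter.unusedSectionVars false
set_option linter.unusedVariables false

open Matrix Finset

namespace Crest.Agent.R62.X2Upd

open Crest.Agent.R62.Upd Crest.Agent.R62.X3Upd

variable {ι : Type*} [Fintype ι] [DecidableEq ι]

lemma sum_Khat_x {s : ℝ} {K : Matrix ι ι ℝ} {x y : ι} (hs : s ^ 2 = 1) (hK : K.IsSymm)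
    (hD : Upd.Dl s K x y ≠ 0) :
    ∑ j, Khat s K x y j x * Khat s K x y j x
      = Bxy s K x y ^ 2 * (K ^ 2) x x + 2 * Bxy s K x y * Byy s K x y * (K ^ 2) x y
        + Byy s K x y ^ 2 * (K ^ 2) y y := by
  have h11 : ∀ u v, ∑ j, K j u * K j v = (K ^ 2) u v := by
    intro u v
    have := X3Upd.sum_col hK 1 1 u v
    simpa using this
  have e : ∀ j, Khat s K x y j x * Khat s K x y j x
      = Bxy s K x y ^ 2 * (K j x * K j x) + 2 * Bxy s K x y * Byy s K x y * (K j x * K j y)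
        + Byy s K x y ^ 2 * (K j y * K j y) := by
    intro j
    rw [colx hs hK hD]
    linear_combination ((Bxy s K x y * K j x + Byy s K x y * K j y) ^ 2) * hs
  simp_rw [e]
  simp only [Finset.sum_add_distrib, ← Finset.mul_sum, h11]

lemma sum_Khat_y {s : ℝ} {K : Matrix ι ι ℝ} {x y : ι} (hs : s ^ 2 = 1) (hK : K.IsSymm)
    (hD : Upd.Dl s K x y ≠ 0) :
    ∑ j, Khat s K x y j y * Khat s K x y j y
      = Bxx s K x y ^ 2 * (K ^ 2) x x + 2 * Bxx s K x y * Bxy s K x y * (K ^ 2) x y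
        + Bxy s K x y ^ 2 * (K ^ 2) y y := by
  have h11 : ∀ u v, ∑ j, K j u * K j v = (K ^ 2) u v := by
    intro u v
    have := X3Upd.sum_col hK 1 1 u v
    simpa using this
  have e : ∀ j, Khat s K x y j y * Khat s K x y j y
      = Bxx s K x y ^ 2 * (K j x * K j x) + 2 * Bxx s K x y * Bxy s K x y * (K j x * K j y)
        + Bxy s K x y ^ 2 * (K j y * K j y) := by
    intro j
    rw [coly hs hK hD]
    linear_combination ((Bxx s K x y * K j x + Bxy s K x y * K j y) ^ 2) * hs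
  simp_rw [e]
  simp only [Finset.sum_add_distrib, ← Finset.mul_sum, h11]

theorem X2_upd {s : ℝ} (hs : s ^ 2 = 1) {K : Matrix ι ι ℝ} (hK : K.IsSymm) {x y : ι}
    (hxy : x ≠ y) (hD : Upd.Dl s K x y ≠ 0) :
    ip (upd s K x y) (upd s K x y) = ip K K - 2
      + 2 * t1 (Bxx s K x y) (Bxy s K x y) (Byy s K x y) ((K ^ 3) x x - K x x)
          ((K ^ 3) x y - K x y) ((K ^ 3) y y - K y y)
      + t2 (Bxx s K x y) (Bxy s K x y) (Byy s K x y) ((K ^ 2) x x - 1)
          ((K ^ 2) x y) ((K ^ 2) y y - 1) ((K ^ 2) x x - 1) ((K ^ 2) x y) ((K ^ 2) y y - 1) := by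
  have h1 := rel1 (x := x) (y := y) hs hD
  have h4 := rel4 (x := x) (y := y) hs hD
  have e3 : K * K * K = K ^ 3 := by rw [pow_succ, pow_two]
  have e2 : K * K = K ^ 2 := (pow_two K).symm
  have e3' : K ^ 2 * K = K ^ 3 := (pow_succ K 2).symm
  have hyx : (K ^ 2) y x = (K ^ 2) x y := (pow_symm hK 2).apply x y
  rw [upd, ip_Pi2 hxy (Khat_symm s hK x y) (Khat_symm s hK x y), ip_Khat_Khat s s hK hK,
    sum_Khat_x hs hK hD, sum_Khat_y hs hK hD, K_xx hs hK hD, K_xy hs hK hD, K_yy hs hK hD]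
  simp only [e2, e3', hyx, t1, t2]
  linear_combination (2 : ℝ) * h1 + 2 * h4 + 2 * hs

theorem f2_eq {s : ℝ} (hs : s ^ 2 = 1) {K : Matrix ι ι ℝ} {x y : ι}
    (hD : Upd.Dl s K x y ≠ 0) :
    AvX2.f2 s K x y = 2 * t1 (Bxx s K x y) (Bxy s K x y) (Byy s K x y) ((K ^ 3) x x - K x x)
          ((K ^ 3) x y - K x y) ((K ^ 3) y y - K y y)
      + t2 (Bxx s K x y) (Bxy s K x y) (Byy s K x y) ((K ^ 2) x x - 1)
          ((K ^ 2) x y) ((K ^ 2) y y - 1) ((K ^ 2) x x - 1) ((K ^ 2) x y) ((K ^ 2) y y - 1) := by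
  have hD' : AvX2.Dl s K x y = Upd.Dl s K x y := rfl
  have hDef : Upd.Dl s K x y = (1 - s * K x y) ^ 2 - K x x * K y y := rfl
  unfold AvX2.f2 AvX2.E3 AvX2.S2 AvX2.P2 AvX2.T2 t1 t2 Bxx Bxy Byy
  rw [hD']
  set D := Upd.Dl s K x y with hDd
  generalize hp2 : (K ^ 2) x x - 1 = h1
  generalize hq2 : (K ^ 2) y y - 1 = h3
  generalize hc2 : (K ^ 2) x y = h2
  generalize ht3 : (K ^ 3) x x - K x x = g1
  generalize hu3 : (K ^ 3) y y - K y y = g3
  generalize hc3 : (K ^ 3) x y - K x y = g2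
  generalize ha : K x x = a at *
  generalize hb : K y y = b at *
  generalize hc : K x y = c at *
  field_simp
  have key : D * (h1 * h3 - h2 ^ 2) * 2 =
      2 * (s ^ 2 * (1 - s * c) ^ 2 - a * b) * (h1 * h3 - h2 ^ 2) := by
    rw [hDef, hs]; ring
  linear_combination key

theorem trace_sq_upd {s : ℝ} (hs : s ^ 2 = 1) {K : Matrix ι ι ℝ} (hK : K.IsSymm) {x y : ι}
    (hxy : x ≠ y) (hD : Upd.Dl s K x y ≠ 0) :
    ((upd s K x y) ^ 2).trace = (K ^ 2).trace - 2 + AvX2.f2 s K x y := by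
  have h1 : ((upd s K x y) ^ 2).trace = ip (upd s K x y) (upd s K x y) := by
    rw [ip_eq_trace, (upd_symm s hK x y).eq, pow_two]
  have h2 : (K ^ 2).trace = ip K K := by
    rw [ip_eq_trace, hK.eq, pow_two]
  rw [h1, h2, X2_upd hs hK hxy hD, f2_eq hs hD]
  ring

end Crest.Agent.R62.X2Upd
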