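import Crest.Agent.R62.AvX3Sum
import Crest.Agent.R62.AvX3Sq
import Crest.Agent.R62.TiltK
import Crest.Agent.R62.Barrier

/-!
R62: one-step inequalities for the potentials of `X₃` (helper298).
-/

set_option autoImplicit false
set_option linter.unusedSectionVars false
set_option linter.unusedVariables false

open Matrix Finset

namespace Crest.Agent.R62.X3Drift

open Crest.Agent.R62.Upd Crest.Agent.R62.AvX3 Crest.Agent.R62.AvBase

variable {ι : Type*} [Fintype ι] [DecidableEq ι]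

lemma mink {κ : Type*} (S : Finset κ) (f g : κ → ℝ) {a b : ℝ} (ha : 0 ≤ a) (hb : 0 ≤ b)
    (hf : ∑ x ∈ S, f x ^ 2 ≤ a ^ 2) (hg : ∑ x ∈ S, g x ^ 2 ≤ b ^ 2) :
    ∑ x ∈ S, (f x - g x) ^ 2 ≤ (a + b) ^ 2 := by
  have h := Finset.sum_mul_sq_le_sq_mul_sq S f g
  have h1 : (∑ x ∈ S, f x * g x) ^ 2 ≤ (a * b) ^ 2 := by
    rw [mul_pow]
    exact h.trans (mul_le_mul hf hg (Finset.sum_nonneg fun _ _ => sq_nonneg _) (sq_nonneg _))
  have h2 := (abs_le_of_sq_le_sq' h1 (mul_nonneg ha hb)).1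
  have e : ∑ x ∈ S, (f x - g x) ^ 2
      = ∑ x ∈ S, f x ^ 2 - 2 * ∑ x ∈ S, f x * g x + ∑ x ∈ S, g x ^ 2 := by
    rw [Finset.mul_sum, ← Finset.sum_sub_distrib, ← Finset.sum_add_distrib]
    exact Finset.sum_congr rfl fun x _ => by ring
  rw [e]; nlinarith

lemma mink2 (f g : ι → ι → ℝ) {a b : ℝ} (ha : 0 ≤ a) (hb : 0 ≤ b)
    (hf : ∑ x, ∑ y, f x y ^ 2 ≤ a ^ 2) (hg : ∑ x, ∑ y, g x y ^ 2 ≤ b ^ 2) :
    ∑ x, ∑ y, (f x y - g x y) ^ 2 ≤ (a + b) ^ 2 := by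
  have := mink (Finset.univ : Finset (ι × ι)) (fun p => f p.1 p.2) (fun p => g p.1 p.2) ha hb
    (by rw [Fintype.sum_prod_type]; exact hf) (by rw [Fintype.sum_prod_type]; exact hg)
  rwa [Fintype.sum_prod_type] at this

/-- the hypotheses of the averaged inequalities from `X₂, X₄, V, W, R₂` and an operator norm
bound -/
theorem Bds.of {K : Matrix ι ι ℝ} {F : Finset ι} {v w r x1 x2 L : ℝ} (hK : K.IsSymm)
    (hd : ∀ x, x ∉ F → ∀ y, K x y = 0) (hL : OpB K L) (v0 : 0 ≤ v) (w0 : 0 ≤ w) (r0 : 0 ≤ r)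
    (x10 : 0 ≤ x1) (x20 : 0 ≤ x2) (hV : ∑ x, K x x ^ 2 ≤ v ^ 2)
    (hW : ∑ x ∈ F, ((K ^ 2) x x - 1) ^ 2 ≤ w ^ 2) (hR : ∑ x, (K ^ 2) x x ^ 2 ≤ r ^ 2)
    (hX2 : (K ^ 2).trace ≤ x1 ^ 2) (hX4 : (K ^ 4).trace ≤ x2 ^ 2) :
    Bds K F v w r x1 x2 (L * x2 + x1) ((L ^ 2 + 1) * x2) (L * r + v) ((L ^ 2 + 1) * r) := by
  have L0 := hL.1
  have q2 := frob_pow (K := K) hK 1
  have q4 := frob_pow (K := K) hK 2
  have q6 := frob_pow (K := K) hK 3
  have q8 := frob_pow (K := K) hK 4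
  simp only [pow_one, Nat.reduceMul, mul_one] at q2 q4 q6 q8
  have h6 : (K ^ 6).trace ≤ (L * x2) ^ 2 := by
    have := trace_six_le (K := K) hK hL
    calc _ ≤ _ := this
      _ ≤ L ^ 2 * x2 ^ 2 := mul_le_mul_of_nonneg_left hX4 (sq_nonneg _)
      _ = _ := by ring
  have h8 : (K ^ 8).trace ≤ (L ^ 2 * x2) ^ 2 := by
    have := trace_eight_le (K := K) hK hL
    calc _ ≤ _ := this
      _ ≤ L ^ 4 * x2 ^ 2 := mul_le_mul_of_nonneg_left hX4 (by positivity)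
      _ = _ := by ring
  refine ⟨hK, v0, w0, r0, x10, x20, by positivity, by positivity, by positivity, by positivity,
    hV, ?_, hR, by rw [q2]; exact hX2, by rw [q4]; exact hX4, ?_, ?_, ?_, ?_⟩
  · have e : ∑ x, wF K F x ^ 2 = ∑ x ∈ F, ((K ^ 2) x x - 1) ^ 2 := by
      rw [← Finset.sum_subset (Finset.subset_univ F)]
      · exact Finset.sum_congr rfl fun x hx => by simp [wF, hx]
      · intro x _ hx; simp [wF, hx]
    rw [e]; exact hW
  · exact mink2 (fun x y => (K ^ 3) x y) (fun x y => K x y) (by positivity) x10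
      (by rw [q6]; exact h6) (by rw [q2]; exact hX2)
  · have := mink2 (fun x y => (K ^ 4) x y) (fun x y => (K ^ 2) x y) (a := L ^ 2 * x2) (b := x2)
      (by positivity) x20 (by rw [q8]; exact h8) (by rw [q4]; exact hX4)
    have e : (L ^ 2 + 1) * x2 = L ^ 2 * x2 + x2 := by ring
    rw [e]; exact this
  · refine mink Finset.univ (fun x => (K ^ 3) x x) (fun x => K x x) (by positivity) v0 ?_ hV
    calc ∑ x, ((K ^ 3) x x) ^ 2 ≤ ∑ x, L ^ 2 * (K ^ 2) x x ^ 2 := by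
          refine Finset.sum_le_sum fun x _ => ?_
          have h3 := abs_diag_le (K := K) hK hL 1 x
          simp only [Nat.reduceAdd, pow_one] at h3
          rw [← sq_abs, ← mul_pow]
          exact pow_le_pow_left₀ (abs_nonneg _) h3 2
      _ = L ^ 2 * ∑ x, (K ^ 2) x x ^ 2 := by rw [Finset.mul_sum]
      _ ≤ L ^ 2 * r ^ 2 := mul_le_mul_of_nonneg_left hR (sq_nonneg _)
      _ = _ := by ring
  · have h4 : ∑ x, ((K ^ 4) x x) ^ 2 ≤ (L ^ 2 * r) ^ 2 := by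
      calc ∑ x, ((K ^ 4) x x) ^ 2 ≤ ∑ x, L ^ 4 * (K ^ 2) x x ^ 2 := by
            refine Finset.sum_le_sum fun x _ => ?_
            have h3 := abs_diag_le (K := K) hK hL 2 x
            simp only [Nat.reduceAdd] at h3
            have : L ^ 4 * (K ^ 2) x x ^ 2 = (L ^ 2 * (K ^ 2) x x) ^ 2 := by ring
            rw [← sq_abs, this]
            exact pow_le_pow_left₀ (abs_nonneg _) h3 2
        _ = L ^ 4 * ∑ x, (K ^ 2) x x ^ 2 := by rw [Finset.mul_sum]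
        _ ≤ L ^ 4 * r ^ 2 := mul_le_mul_of_nonneg_left hR (by positivity)
        _ = _ := by ring
    have := mink Finset.univ (fun x => (K ^ 4) x x) (fun x => (K ^ 2) x x) (a := L ^ 2 * r)
      (b := r) (by positivity) r0 h4 hR
    have e : (L ^ 2 + 1) * r = L ^ 2 * r + r := by ring
    rw [e]; exact this

/-- `X₃` as a trace -/
lemma trace_step {s : ℝ} (hs : s ^ 2 = 1) {K : Matrix ι ι ℝ} (hK : K.IsSymm) (x y : ι) :
    ((upd s K x y) ^ 3).trace = (K ^ 3).trace + dX3 s K x y := by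
  have e : ∀ M : Matrix ι ι ℝ, M.IsSymm → ip M (M ^ 2) = (M ^ 3).trace := by
    intro M hM
    rw [ip_eq_trace, (pow_symm hM 2).eq, ← pow_succ']
  have h1 := e K hK
  have h2 := e (upd s K x y) (upd_symm s hK x y)
  unfold dX3
  rw [h1, h2]; ring

/-- first order effect of an operator norm bounded weight -/
lemma tilt_first {K : Matrix ι ι ℝ} {F : Finset ι} {v w r x1 x2 t3 t4 d3 d4 : ℝ}
    (h : Bds K F v w r x1 x2 t3 t4 d3 d4) {S : Finset (ι × ι)} {Θ : ι → ι → ℝ} {N : ℝ}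
    (hsupp : ∀ x y, (x, y) ∉ S → Θ x y = 0) (hN : OpB (Matrix.of Θ) N) :
    |∑ p ∈ S, Θ p.1 p.2 * G4 K p.1 p.2| ≤ N * (x1 * t3) := by
  have e1 : ∑ p ∈ S, Θ p.1 p.2 * G4 K p.1 p.2 = ∑ x, ∑ y, Θ x y * G4 K x y := by
    rw [← Fintype.sum_prod_type' (f := fun x y => Θ x y * G4 K x y)]
    exact Finset.sum_subset (Finset.subset_univ S) fun p _ hp => by
      rw [hsupp p.1 p.2 hp, zero_mul]
  have e2 : ∀ x y, G4 K x y = (K * (K ^ 3 - K)) x y := by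
    intro x y
    rw [mul_sub, ← pow_succ', ← pow_two, Matrix.sub_apply]; rfl
  have h1 := TiltK.ip_mul_le hN K (K ^ 3 - K)
  simp only [Matrix.of_apply] at h1
  rw [e1]
  simp only [e2]
  refine h1.trans (mul_le_mul_of_nonneg_left ?_ hN.1)
  have s1 : √(∑ x, ∑ y, K x y ^ 2) ≤ x1 := by
    rw [← Real.sqrt_sq h.x10]; exact Real.sqrt_le_sqrt h.hX1
  have s2 : √(∑ x, ∑ y, (K ^ 3 - K) x y ^ 2) ≤ t3 := by
    rw [← Real.sqrt_sq h.t30]; exact Real.sqrt_le_sqrt h.hT3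
  exact mul_le_mul s1 s2 (Real.sqrt_nonneg _) h.x10

/-- total error of the weighted sum -/
noncomputable def ErrW (v w r x1 x2 t3 t4 d3 d4 β θ η N : ℝ) : ℝ :=
  ErrM v w r x1 x2 t3 t4 d3 d4 β + 6 * (N * (x1 * t3)) + 6 * (θ * (v * d4 + w * d3))
    + η * (6 * (x1 * t4 + x2 * t3) + Err v w r x1 x2 t3 t4 d3 d4)

/-- the main part of the drift -/
noncomputable def mainX3 (K : Matrix ι ι ℝ) (ρ : ℝ) : ℝ :=
  12 * ((K ^ 5).trace - (K ^ 3).trace)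
    + 6 * (K.trace * ((K ^ 4).trace - (K ^ 2).trace)
        + ((K ^ 2).trace - ρ) * ((K ^ 3).trace - K.trace))

theorem sum_w {s : ℝ} (hs1 : s ^ 2 = 1) {K : Matrix ι ι ℝ} {F : Finset ι}
    {v w r x1 x2 t3 t4 d3 d4 : ℝ} (h : Bds K F v w r x1 x2 t3 t4 d3 d4)
    (hd : ∀ x, x ∉ F → ∀ y, K x y = 0) (hr : ∀ x ∈ F, ∑ y, K x y = s) {S : Finset (ι × ι)}
    (hS : GoodS K F S) {β : ℝ} (hβ : 0 ≤ β) (hcard : (((F ×ˢ F) \ S).card : ℝ) ≤ β ^ 2)
    {Θ : ι → ι → ℝ} {η θ N : ℝ} (hη : 0 ≤ η) (hθ : 0 ≤ θ)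
    (hΘ : ∀ p ∈ S, |Θ p.1 p.2| ≤ η) (hΘ2 : ∑ p ∈ S, Θ p.1 p.2 ^ 2 ≤ θ ^ 2)
    (hsupp : ∀ x y, (x, y) ∉ S → Θ x y = 0) (hN : OpB (Matrix.of Θ) N) :
    |∑ p ∈ S, (1 - Θ p.1 p.2) * dX3 s K p.1 p.2 - mainX3 K F.card|
      ≤ ErrW v w r x1 x2 t3 t4 d3 d4 β θ η N := by
  have h1 := mean_X3 hs1 h hd hr hS hβ hcard
  have h2 := tilt_X3 hs1 h hS Θ hη hθ hΘ hΘ2
  have h3 := tilt_first h hsupp hN
  have hs2 : |s| = 1 := by
    have : |s| ^ 2 = 1 := by rw [sq_abs]; exact hs1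
    nlinarith [abs_nonneg s]
  have h4 : |6 * s * ∑ p ∈ S, Θ p.1 p.2 * G4 K p.1 p.2| ≤ 6 * (N * (x1 * t3)) := by
    rw [abs_mul, abs_mul, hs2, abs_of_pos (by norm_num : (0:ℝ) < 6), mul_one]
    exact mul_le_mul_of_nonneg_left h3 (by norm_num)
  have e : ∑ p ∈ S, (1 - Θ p.1 p.2) * dX3 s K p.1 p.2
      = ∑ p ∈ S, dX3 s K p.1 p.2 - ∑ p ∈ S, Θ p.1 p.2 * dX3 s K p.1 p.2 := by
    rw [← Finset.sum_sub_distrib]
    exact Finset.sum_congr rfl fun p _ => by ring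
  rw [e]
  unfold ErrW mainX3
  rw [abs_le] at *
  constructor <;> linarith [h1.1, h1.2, h2.1, h2.2, h4.1, h4.2]

/-- one step of a quadratic potential with a constant barrier -/
theorem pot_step {κ : Type*} (S : Finset κ) (ω δ : κ → ℝ) (hω : ∀ p ∈ S, 0 ≤ ω p)
    {X b c D N2 : ℝ} (hc : 0 < c) (ha : max (X - b) 0 ≤ c) (hD0 : 0 ≤ D)
    (hD : b < X → ∑ p ∈ S, ω p * δ p ≤ D) (hN : ∑ p ∈ S, ω p * δ p ^ 2 ≤ N2) :
    ∑ p ∈ S, ω p * ((max (X + δ p - b) 0) ^ 2 / c ^ 2 - (max (X - b) 0) ^ 2 / c ^ 2)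
      ≤ 2 * D / c + N2 / c ^ 2 := by
  have h1 : ∀ p ∈ S, ω p * ((max (X + δ p - b) 0) ^ 2 / c ^ 2 - (max (X - b) 0) ^ 2 / c ^ 2)
      ≤ (2 * max (X - b) 0 * (ω p * δ p) + ω p * δ p ^ 2) / c ^ 2 := by
    intro p hp
    have h2 := Barrier.posSq_add_le (X - b) (δ p)
    rw [show X - b + δ p = X + δ p - b by ring] at h2
    rw [← sub_div, ← mul_div_assoc]
    refine div_le_div_of_nonneg_right ?_ (by positivity)
    calc ω p * ((max (X + δ p - b) 0) ^ 2 - (max (X - b) 0) ^ 2)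
        ≤ ω p * (2 * max (X - b) 0 * δ p + δ p ^ 2) :=
          mul_le_mul_of_nonneg_left (by linarith) (hω p hp)
      _ = _ := by ring
  refine (Finset.sum_le_sum h1).trans ?_
  rw [← Finset.sum_div, Finset.sum_add_distrib, ← Finset.mul_sum]
  have hc2 : 0 < c ^ 2 := by positivity
  have h3 : 2 * max (X - b) 0 * ∑ p ∈ S, ω p * δ p ≤ 2 * c * D := by
    rcases le_or_gt X b with hX | hX
    · rw [max_eq_right (by linarith : X - b ≤ 0)]
      have : 0 ≤ 2 * c * D := by positivity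
      linarith
    · have h4 := hD hX
      have h5 : 0 ≤ max (X - b) 0 := le_max_right _ _
      calc 2 * max (X - b) 0 * ∑ p ∈ S, ω p * δ p ≤ 2 * max (X - b) 0 * D :=
            mul_le_mul_of_nonneg_left h4 (by positivity)
        _ ≤ 2 * c * D := by
            apply mul_le_mul_of_nonneg_right _ hD0
            linarith
  calc (2 * max (X - b) 0 * ∑ p ∈ S, ω p * δ p + ∑ p ∈ S, ω p * δ p ^ 2) / c ^ 2
      ≤ (2 * c * D + N2) / c ^ 2 := div_le_div_of_nonneg_right (by linarith) hc2.le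
    _ = 2 * D / c + N2 / c ^ 2 := by field_simp

end Crest.Agent.R62.X3Drift
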