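import Crest.Agent.R62.X3Drift
import Crest.Agent.R62.Expo

/-!
R62: numerical closures for the pieces of `X₃` (helper298).
-/

set_option autoImplicit false
set_option linter.unusedSectionVars false
set_option linter.unusedVariables false

open Matrix Finset

namespace Crest.Agent.R62.X3Num

open Crest.Agent.R62.AvX3 Crest.Agent.R62.X3Drift Crest.Agent.R62.Expo

/-- a faster version of `expoO` (monomials and sums of atoms which are hypotheses) -/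
macro "xO" : tactic => `(tactic| repeat' (first
    | assumption
    | with_reducible apply O.mul (by assumption)
    | with_reducible apply O.add (by assumption)
    | with_reducible apply O.sq (by assumption)
    | with_reducible apply O.cube (by assumption)
    | with_reducible apply O.fourth (by assumption)
    | with_reducible exact O.ofNat _
    | exact O.const (by norm_num)
    | exact O.E (by linarith) _))

/-- `z ≤ E m b / K` -/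
macro "xdiv" : tactic => `(tactic| (
    apply O.final_div (by assumption) (by norm_num)
    · xO
    · norm_num
      try linarith
    · expoMax))

/-! ### stage 1 -/

/-- O-bounds of all atoms, stage 1 (`κ = 2003`) and stage 2 (`κ = 2004`) -/
structure At (m x κ e V W : ℝ) (v w r x1 x2 t3 t4 d3 d4 L : ℝ) : Prop where
  hm : 1 ≤ m
  hb : (5 : ℝ) * 10 ^ 14 ≤ m
  v : O m 1 V v
  w : O m 1 W w
  r : O m 2 (x / 2 + e) r
  x1 : O m 1 (x / 2) x1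
  x2 : O m 1 ((κ - x) / 2) x2
  L : O m 1 ((κ - x) / 4) L
  t3 : O m 2 (3 * (κ - x) / 4) t3
  t4 : O m 2 (κ - x) t4
  d3 : O m 3 (κ / 4 + x / 4 + e) d3
  d4 : O m 4 (κ / 2 + e) d4

lemma err1 {m x v w r x1 x2 t3 t4 d3 d4 L : ℝ} (h : At m x 2003 0 3 305 v w r x1 x2 t3 t4 d3 d4 L)
    (h1 : 800 ≤ x) (h2 : x ≤ 1000 + 1 / 10) :
    Err v w r x1 x2 t3 t4 d3 d4 ≤ E m (x + 997) / 1000 := by
  obtain ⟨hm, hb, hv, hw, hr, hx1, hx2, hL, ht3, ht4, hd3, hd4⟩ := h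
  unfold Err
  xdiv

lemma errm1 {m x v w r x1 x2 t3 t4 d3 d4 L β : ℝ}
    (h : At m x 2003 0 3 305 v w r x1 x2 t3 t4 d3 d4 L) (hβ : O m 1 ((x + 1 / 5) / 2) β)
    (h1 : 800 ≤ x) (h2 : x ≤ 1000 + 1 / 10) :
    6 * (β * (t4 + v * d4 + w * d3)) + 6 * (x1 * t4 + x2 * t3) ≤ E m (x + 997) / 1000 := by
  obtain ⟨hm, hb, hv, hw, hr, hx1, hx2, hL, ht3, ht4, hd3, hd4⟩ := h
  xdiv

lemma errt1 {m x v w r x1 x2 t3 t4 d3 d4 L θ N : ℝ}
    (h : At m x 2003 0 3 305 v w r x1 x2 t3 t4 d3 d4 L) (hθ : O m 1 ((1928 - x) / 2) θ)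
    (hN : O m 1 371 N)
    (h1 : 800 ≤ x) (h2 : x ≤ 1000 + 1 / 10) :
    6 * (N * (x1 * t3)) + 6 * (θ * (v * d4 + w * d3)) ≤ E m (x + 997) / 1000 := by
  obtain ⟨hm, hb, hv, hw, hr, hx1, hx2, hL, ht3, ht4, hd3, hd4⟩ := h
  xdiv

set_option maxHeartbeats 2000000 in
lemma sq1 {m x v w r x1 x2 t3 t4 d3 d4 L : ℝ}
    (h : At m x 2003 0 3 305 v w r x1 x2 t3 t4 d3 d4 L)
    (h1 : 800 ≤ x) (h2 : x ≤ 1000 + 1 / 10) :
    SqB L (1 + w) (v * w) v w r x2 d3 d4 t4 ≤ E m (x + 1997) / 1000 := by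
  obtain ⟨hm, hb, hv, hw, hr, hx1, hx2, hL, ht3, ht4, hd3, hd4⟩ := h
  have hu : O m 2 305 (1 + w) := by
    have := (O.one (m := m)).add hm hw
    refine this.mono hm (by norm_num) (by rw [max_le_iff]; constructor <;> norm_num)
  generalize 1 + w = u at hu ⊢
  have z0 : 18 * (400 * t4 ^ 2) ≤ E m (x + 1997) / 20000 := by xdiv
  have z1 : 18 * (450 * (v * d4) ^ 2) ≤ E m (x + 1997) / 20000 := by xdiv
  have z2 : 18 * (1458 * (w * d3) ^ 2) ≤ E m (x + 1997) / 20000 := by xdiv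
  have z3 : 18 * (6084 * (2 * (L ^ 2 * (r * r) ^ 2))) ≤ E m (x + 1997) / 20000 := by xdiv
  have z4 : 18 * (6084 * (1 / 8 * x2 ^ 2)) ≤ E m (x + 1997) / 20000 := by xdiv
  have z5 : 18 * (10368 * (2 * (L ^ 2 * ((r * w ^ 2) * (r * v ^ 2))))) ≤ E m (x + 1997) / 20000 := by xdiv
  have z6 : 18 * (10368 * (1 / 8 * (v * w) ^ 2)) ≤ E m (x + 1997) / 20000 := by xdiv
  have z7 : 18 * (10368 * (u ^ 2 * (v * d3) ^ 2)) ≤ E m (x + 1997) / 20000 := by xdiv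
  have z8 : 18 * (4608 * ((v * w) ^ 2 * (v * d3) ^ 2)) ≤ E m (x + 1997) / 20000 := by xdiv
  have z9 : 18 * (4500000 * ((v * w) ^ 4 * (v * w) ^ 2)) ≤ E m (x + 1997) / 20000 := by xdiv
  have z10 : 18 * (2250000 * (u ^ 2 * (r * r) ^ 2)) ≤ E m (x + 1997) / 20000 := by xdiv
  have z11 : 18 * (80000 * ((v * w) ^ 2 * (w * w) ^ 2)) ≤ E m (x + 1997) / 20000 := by xdiv
  have z12 : 18 * (160000 * (u ^ 2 * (w * w) ^ 2)) ≤ E m (x + 1997) / 20000 := by xdiv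
  unfold SqB
  have hE := E_nonneg (lt_of_lt_of_le one_pos hm) (x + 1997)
  linarith [z0, z1, z2, z3, z4, z5, z6, z7, z8, z9, z10, z11, z12]

set_option maxHeartbeats 2000000 in
lemma sq2 {m x v w r x1 x2 t3 t4 d3 d4 L : ℝ}
    (h : At m x 2004 (13 / 8) 4 (683 / 2) v w r x1 x2 t3 t4 d3 d4 L)
    (h1 : 680 - 1 / 4 ≤ x) (h2 : x ≤ 800 + 1 / 10) :
    SqB L (1 + w) (v * w) v w r x2 d3 d4 t4 ≤ E m (x + 1997) / 1000 := by
  obtain ⟨hm, hb, hv, hw, hr, hx1, hx2, hL, ht3, ht4, hd3, hd4⟩ := h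
  have hu : O m 2 (683 / 2) (1 + w) := by
    have := (O.one (m := m)).add hm hw
    refine this.mono hm (by norm_num) (by rw [max_le_iff]; constructor <;> norm_num)
  generalize 1 + w = u at hu ⊢
  have z0 : 18 * (400 * t4 ^ 2) ≤ E m (x + 1997) / 20000 := by xdiv
  have z1 : 18 * (450 * (v * d4) ^ 2) ≤ E m (x + 1997) / 20000 := by xdiv
  have z2 : 18 * (1458 * (w * d3) ^ 2) ≤ E m (x + 1997) / 20000 := by xdiv
  have z3 : 18 * (6084 * (2 * (L ^ 2 * (r * r) ^ 2))) ≤ E m (x + 1997) / 20000 := by xdiv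
  have z4 : 18 * (6084 * (1 / 8 * x2 ^ 2)) ≤ E m (x + 1997) / 20000 := by xdiv
  have z5 : 18 * (10368 * (2 * (L ^ 2 * ((r * w ^ 2) * (r * v ^ 2))))) ≤ E m (x + 1997) / 20000 := by xdiv
  have z6 : 18 * (10368 * (1 / 8 * (v * w) ^ 2)) ≤ E m (x + 1997) / 20000 := by xdiv
  have z7 : 18 * (10368 * (u ^ 2 * (v * d3) ^ 2)) ≤ E m (x + 1997) / 20000 := by xdiv
  have z8 : 18 * (4608 * ((v * w) ^ 2 * (v * d3) ^ 2)) ≤ E m (x + 1997) / 20000 := by xdiv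
  have z9 : 18 * (4500000 * ((v * w) ^ 4 * (v * w) ^ 2)) ≤ E m (x + 1997) / 20000 := by xdiv
  have z10 : 18 * (2250000 * (u ^ 2 * (r * r) ^ 2)) ≤ E m (x + 1997) / 20000 := by xdiv
  have z11 : 18 * (80000 * ((v * w) ^ 2 * (w * w) ^ 2)) ≤ E m (x + 1997) / 20000 := by xdiv
  have z12 : 18 * (160000 * (u ^ 2 * (w * w) ^ 2)) ≤ E m (x + 1997) / 20000 := by xdiv
  unfold SqB
  have hE := E_nonneg (lt_of_lt_of_le one_pos hm) (x + 1997)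
  linarith [z0, z1, z2, z3, z4, z5, z6, z7, z8, z9, z10, z11, z12]

/-- drift bound, stage 1: `X₅, X₁ X₄, r₁ X₃` -/
lemma main1 {m x v w r x1 x2 t3 t4 d3 d4 L U X3 R1 : ℝ}
    (h : At m x 2003 0 3 305 v w r x1 x2 t3 t4 d3 d4 L) (hU : O m 2 361 U)
    (hX : O m 3 (1000 + 3 / 10) X3) (hR1 : O m 4 (680 + 1 / 10) R1)
    (h1 : 800 ≤ x) (h2 : x ≤ 1000 + 1 / 10) :
    12 * (L * x2 ^ 2) + 12 * X3 + 6 * (U * (x2 ^ 2 + x1 ^ 2)) + 6 * (R1 * (X3 + U))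
      ≤ E m (x + 997) / 1000 := by
  obtain ⟨hm, hb, hv, hw, hr, hx1, hx2, hL, ht3, ht4, hd3, hd4⟩ := h
  xdiv

/-! ### stage 2 -/

/-- drift bound, stage 2 -/
lemma main2 {m x v w r x1 x2 t3 t4 d3 d4 L U : ℝ}
    (h : At m x 2004 (13 / 8) 4 (683 / 2) v w r x1 x2 t3 t4 d3 d4 L) (hU : O m 1 336 U)
    (h1 : 680 - 1 / 4 ≤ x) (h2 : x ≤ 800 + 1 / 10) :
    12 * (L * x2 ^ 2) + 6 * (U * (x2 ^ 2 + 4 * x1 ^ 2)) ≤ E m (x + 997) / 1000 := by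
  obtain ⟨hm, hb, hv, hw, hr, hx1, hx2, hL, ht3, ht4, hd3, hd4⟩ := h
  xdiv

lemma err2 {m x v w r x1 x2 t3 t4 d3 d4 L : ℝ}
    (h : At m x 2004 (13 / 8) 4 (683 / 2) v w r x1 x2 t3 t4 d3 d4 L)
    (h1 : 680 - 1 / 4 ≤ x) (h2 : x ≤ 800 + 1 / 10) :
    Err v w r x1 x2 t3 t4 d3 d4 ≤ E m (x + 997) / 1000 := by
  obtain ⟨hm, hb, hv, hw, hr, hx1, hx2, hL, ht3, ht4, hd3, hd4⟩ := h
  unfold Err
  xdiv

lemma errm2 {m x v w r x1 x2 t3 t4 d3 d4 L β : ℝ}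
    (h : At m x 2004 (13 / 8) 4 (683 / 2) v w r x1 x2 t3 t4 d3 d4 L) (hβ : O m 1 ((x + 1 / 5) / 2) β)
    (h1 : 680 - 1 / 4 ≤ x) (h2 : x ≤ 800 + 1 / 10) :
    6 * (β * (t4 + v * d4 + w * d3)) + 6 * (x1 * t4 + x2 * t3) ≤ E m (x + 997) / 1000 := by
  obtain ⟨hm, hb, hv, hw, hr, hx1, hx2, hL, ht3, ht4, hd3, hd4⟩ := h
  xdiv

end Crest.Agent.R62.X3Num
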