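import Crest.Agent.R62.Upd

/-!
R62: exact one-step change of `X₃ = Tr K³` in "B-form" (helper298).

With `B = (sJ - G₁)⁻¹ = [[B1,B2],[B2,B3]]`, `G_j = [[a_j,c_j],[c_j,b_j]]`,
`H₁ = G₂ - 1`, `H₂ = G₃ - G₁`, `H₃ = G₄ - G₂`:
`X₃' - X₃ = 3 tr(B H₃) + 3 tr(B H₁ B H₂) + tr((B H₁)³)`.
-/

set_option autoImplicit false
set_option linter.unusedSectionVars false
set_option linter.unusedVariables false

open Matrix Finset

namespace Crest.Agent.R62.X3Upd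

open Crest.Agent.R62.Upd

variable {ι : Type*} [Fintype ι] [DecidableEq ι]

/-- `tr (B H)` for symmetric 2x2 matrices. -/
def t1 (B1 B2 B3 h1 h2 h3 : ℝ) : ℝ := B1 * h1 + 2 * B2 * h2 + B3 * h3

/-- `tr (B H B G)` for symmetric 2x2 matrices `B, H, G`. -/
def t2 (B1 B2 B3 h1 h2 h3 g1 g2 g3 : ℝ) : ℝ :=
  (B1 * h1 + B2 * h2) * (B1 * g1 + B2 * g2) + (B1 * h2 + B2 * h3) * (B2 * g1 + B3 * g2)
    + (B2 * h1 + B3 * h2) * (B1 * g2 + B2 * g3) + (B2 * h2 + B3 * h3) * (B2 * g2 + B3 * g3)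

/-- `tr ((B H)^3)`. -/
def t3 (B1 B2 B3 h1 h2 h3 : ℝ) : ℝ :=
  (B1 * h1 + B2 * h2) ^ 3 + 3 * (B1 * h1 + B2 * h2) * (B1 * h2 + B2 * h3) * (B2 * h1 + B3 * h2)
    + 3 * (B2 * h2 + B3 * h3) * (B1 * h2 + B2 * h3) * (B2 * h1 + B3 * h2)
    + (B2 * h2 + B3 * h3) ^ 3

lemma sum_col {K : Matrix ι ι ℝ} (hK : K.IsSymm) (m n : ℕ) (x y : ι) :
    ∑ j, (K ^ m) j x * (K ^ n) j y = (K ^ (m + n)) x y := dot_col hK m n x y

lemma sum_K_Q (s : ℝ) {K : Matrix ι ι ℝ} (hK : K.IsSymm) (x y z w : ι) :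
    ∑ j, K j z * Qhat s K x y j w =
      (K ^ 3) z w
      + (Bxx s K x y * ((K ^ 3) z x * K w x + (K ^ 2) z x * (K ^ 2) w x)
        + Bxy s K x y * ((K ^ 3) z x * K w y + (K ^ 3) z y * K w x + (K ^ 2) z x * (K ^ 2) w y
            + (K ^ 2) z y * (K ^ 2) w x)
        + Byy s K x y * ((K ^ 3) z y * K w y + (K ^ 2) z y * (K ^ 2) w y))
      + (Exx s K x y * ((K ^ 2) z x * K w x)
        + Exy s K x y * ((K ^ 2) z x * K w y + (K ^ 2) z y * K w x)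
        + Eyy s K x y * ((K ^ 2) z y * K w y)) := by
  have h11 : ∀ u v, ∑ j, K j u * K j v = (K ^ 2) u v := by
    intro u v
    have := sum_col hK 1 1 u v
    simpa using this
  have h12 : ∀ u v, ∑ j, K j u * (K ^ 2) j v = (K ^ 3) u v := by
    intro u v
    have := sum_col hK 1 2 u v
    simpa using this
  have e : ∀ j, K j z * Qhat s K x y j w =
      K j z * (K ^ 2) j w
      + (Bxx s K x y * ((K j z * (K ^ 2) j x) * K w x + (K j z * K j x) * (K ^ 2) w x)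
        + Bxy s K x y * ((K j z * (K ^ 2) j x) * K w y + (K j z * (K ^ 2) j y) * K w x
            + (K j z * K j x) * (K ^ 2) w y + (K j z * K j y) * (K ^ 2) w x)
        + Byy s K x y * ((K j z * (K ^ 2) j y) * K w y + (K j z * K j y) * (K ^ 2) w y))
      + (Exx s K x y * ((K j z * K j x) * K w x)
        + Exy s K x y * ((K j z * K j x) * K w y + (K j z * K j y) * K w x)
        + Eyy s K x y * ((K j z * K j y) * K w y)) := by
    intro j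
    rw [Qhat_apply]
    ring
  simp_rw [e]
  simp only [Finset.sum_add_distrib, ← Finset.mul_sum, ← Finset.sum_mul, h11, h12]

/-! ### relations `B (sJ - G₁) = 1` -/

section rel
variable {s : ℝ} {K : Matrix ι ι ℝ} {x y : ι}

lemma rel1 (hs : s ^ 2 = 1) (hD : Dl s K x y ≠ 0) :
    Bxx s K x y * K x x + Bxy s K x y * K x y = s * Bxy s K x y - 1 := by
  have h : Dl s K x y = (1 - s * K x y) ^ 2 - K x x * K y y := rfl
  unfold Bxx Bxy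
  field_simp
  rw [h]
  linear_combination (s * K x y - 1) * hs

lemma rel2 (hs : s ^ 2 = 1) (hD : Dl s K x y ≠ 0) :
    Bxx s K x y * K x y + Bxy s K x y * K y y = s * Bxx s K x y := by
  unfold Bxx Bxy
  field_simp
  linear_combination (-K x y * K y y) * hs

lemma rel3 (hs : s ^ 2 = 1) (hD : Dl s K x y ≠ 0) :
    Bxy s K x y * K x x + Byy s K x y * K x y = s * Byy s K x y := by
  unfold Byy Bxy
  field_simp
  linear_combination (-K x y * K x x) * hs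

lemma rel4 (hs : s ^ 2 = 1) (hD : Dl s K x y ≠ 0) :
    Bxy s K x y * K x y + Byy s K x y * K y y = s * Bxy s K x y - 1 := by
  have h : Dl s K x y = (1 - s * K x y) ^ 2 - K x x * K y y := rfl
  unfold Byy Bxy
  field_simp
  rw [h]
  linear_combination (s * K x y - 1) * hs

lemma colx (hs : s ^ 2 = 1) (hK : K.IsSymm) (hD : Dl s K x y ≠ 0) (i : ι) :
    Khat s K x y i x = s * (Bxy s K x y * K i x + Byy s K x y * K i y) := by
  rw [Khat_col_x hs hK hD]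
  unfold Byy Bxy
  field_simp
  linear_combination ((s * K x y - 1) * K i x) * hs

lemma coly (hs : s ^ 2 = 1) (hK : K.IsSymm) (hD : Dl s K x y ≠ 0) (i : ι) :
    Khat s K x y i y = s * (Bxx s K x y * K i x + Bxy s K x y * K i y) := by
  rw [Khat_col_y hs hK hD]
  unfold Bxx Bxy
  field_simp
  linear_combination ((s * K x y - 1) * K i y) * hs

lemma K_xx (hs : s ^ 2 = 1) (hK : K.IsSymm) (hD : Dl s K x y ≠ 0) :
    Khat s K x y x x = Byy s K x y := by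
  rw [colx hs hK hD, rel3 hs hD]
  linear_combination Byy s K x y * hs

lemma K_xy (hs : s ^ 2 = 1) (hK : K.IsSymm) (hD : Dl s K x y ≠ 0) :
    Khat s K x y x y = Bxy s K x y - s := by
  rw [coly hs hK hD, rel1 hs hD]
  linear_combination Bxy s K x y * hs

lemma K_yy (hs : s ^ 2 = 1) (hK : K.IsSymm) (hD : Dl s K x y ≠ 0) :
    Khat s K x y y y = Bxx s K x y := by
  rw [coly hs hK hD, hK.apply x y, rel2 hs hD]
  linear_combination Bxx s K x y * hs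

end rel

/-- scalar lemma: `Eᵀ Q̂ E`, entry `xx`. -/
lemma sc_xx {s a1 b1 c1 a2 b2 c2 B1 B2 B3 : ℝ} (hs : s ^ 2 = 1)
    (r1 : B1 * a1 + B2 * c1 = s * B2 - 1) (r3 : B2 * a1 + B3 * c1 = s * B3) :
    a2 + (B1 * (a2 * a1 + a1 * a2) + B2 * (a2 * c1 + c2 * a1 + a1 * c2 + c1 * a2)
        + B3 * (c2 * c1 + c1 * c2))
      + ((B1 ^ 2 * (a2 - 1) + 2 * B1 * B2 * c2 + B2 ^ 2 * (b2 - 1)) * (a1 * a1)
        + (B1 * B2 * (a2 - 1) + (B1 * B3 + B2 ^ 2) * c2 + B2 * B3 * (b2 - 1)) * (a1 * c1 + c1 * a1)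
        + (B2 ^ 2 * (a2 - 1) + 2 * B2 * B3 * c2 + B3 ^ 2 * (b2 - 1)) * (c1 * c1))
    = (B2 ^ 2 * (a2 - 1) + 2 * B2 * B3 * c2 + B3 ^ 2 * (b2 - 1)) + 2 * s * B2 - 1 := by
  have e : a2 + (B1 * (a2 * a1 + a1 * a2) + B2 * (a2 * c1 + c2 * a1 + a1 * c2 + c1 * a2)
        + B3 * (c2 * c1 + c1 * c2))
      + ((B1 ^ 2 * (a2 - 1) + 2 * B1 * B2 * c2 + B2 ^ 2 * (b2 - 1)) * (a1 * a1)
        + (B1 * B2 * (a2 - 1) + (B1 * B3 + B2 ^ 2) * c2 + B2 * B3 * (b2 - 1)) * (a1 * c1 + c1 * a1)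
        + (B2 ^ 2 * (a2 - 1) + 2 * B2 * B3 * c2 + B3 ^ 2 * (b2 - 1)) * (c1 * c1))
      = a2 + 2 * a2 * (B1 * a1 + B2 * c1) + 2 * c2 * (B2 * a1 + B3 * c1)
        + ((a2 - 1) * (B1 * a1 + B2 * c1) ^ 2
          + 2 * c2 * ((B1 * a1 + B2 * c1) * (B2 * a1 + B3 * c1))
          + (b2 - 1) * (B2 * a1 + B3 * c1) ^ 2) := by ring
  rw [e, r1, r3]
  linear_combination (a2 * B2 ^ 2 + 2 * c2 * B2 * B3 + b2 * B3 ^ 2 - B2 ^ 2 - B3 ^ 2) * hs

/-- scalar lemma: `Eᵀ Q̂ E`, entry `xy`. -/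
lemma sc_xy {s a1 b1 c1 a2 b2 c2 B1 B2 B3 : ℝ} (hs : s ^ 2 = 1)
    (r1 : B1 * a1 + B2 * c1 = s * B2 - 1) (r2 : B1 * c1 + B2 * b1 = s * B1)
    (r3 : B2 * a1 + B3 * c1 = s * B3) (r4 : B2 * c1 + B3 * b1 = s * B2 - 1) :
    c2 + (B1 * (a2 * c1 + a1 * c2) + B2 * (a2 * b1 + c2 * c1 + a1 * b2 + c1 * c2)
        + B3 * (c2 * b1 + c1 * b2))
      + ((B1 ^ 2 * (a2 - 1) + 2 * B1 * B2 * c2 + B2 ^ 2 * (b2 - 1)) * (a1 * c1)
        + (B1 * B2 * (a2 - 1) + (B1 * B3 + B2 ^ 2) * c2 + B2 * B3 * (b2 - 1)) * (a1 * b1 + c1 * c1)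
        + (B2 ^ 2 * (a2 - 1) + 2 * B2 * B3 * c2 + B3 ^ 2 * (b2 - 1)) * (c1 * b1))
    = (B1 * B2 * (a2 - 1) + (B1 * B3 + B2 ^ 2) * c2 + B2 * B3 * (b2 - 1)) + s * (B1 + B3) := by
  have e : c2 + (B1 * (a2 * c1 + a1 * c2) + B2 * (a2 * b1 + c2 * c1 + a1 * b2 + c1 * c2)
        + B3 * (c2 * b1 + c1 * b2))
      + ((B1 ^ 2 * (a2 - 1) + 2 * B1 * B2 * c2 + B2 ^ 2 * (b2 - 1)) * (a1 * c1)
        + (B1 * B2 * (a2 - 1) + (B1 * B3 + B2 ^ 2) * c2 + B2 * B3 * (b2 - 1)) * (a1 * b1 + c1 * c1)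
        + (B2 ^ 2 * (a2 - 1) + 2 * B2 * B3 * c2 + B3 ^ 2 * (b2 - 1)) * (c1 * b1))
      = c2 + a2 * (B1 * c1 + B2 * b1) + c2 * (B1 * a1 + B2 * c1) + b2 * (B2 * a1 + B3 * c1)
        + c2 * (B2 * c1 + B3 * b1)
        + ((a2 - 1) * ((B1 * a1 + B2 * c1) * (B1 * c1 + B2 * b1))
          + c2 * ((B1 * a1 + B2 * c1) * (B2 * c1 + B3 * b1)
              + (B2 * a1 + B3 * c1) * (B1 * c1 + B2 * b1))
          + (b2 - 1) * ((B2 * a1 + B3 * c1) * (B2 * c1 + B3 * b1))) := by ring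
  rw [e, r1, r2, r3, r4]
  linear_combination (a2 * B1 * B2 - B1 * B2 + c2 * B2 ^ 2 + c2 * B1 * B3 + b2 * B2 * B3
    - B2 * B3) * hs

lemma Q_xx {s : ℝ} (hs : s ^ 2 = 1) {K : Matrix ι ι ℝ} (hK : K.IsSymm) {x y : ι}
    (hD : Dl s K x y ≠ 0) :
    Qhat s K x y x x = Eyy s K x y + 2 * s * Bxy s K x y - 1 := by
  rw [Qhat_apply]
  exact sc_xx (b1 := K y y) hs (rel1 hs hD) (rel3 hs hD)

lemma Q_xy {s : ℝ} (hs : s ^ 2 = 1) {K : Matrix ι ι ℝ} (hK : K.IsSymm) {x y : ι}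
    (hD : Dl s K x y ≠ 0) :
    Qhat s K x y x y = Exy s K x y + s * (Bxx s K x y + Byy s K x y) := by
  rw [Qhat_apply, pow_apply_comm hK 2 y x, hK.apply x y]
  exact sc_xy hs (rel1 hs hD) (rel2 hs hD) (rel3 hs hD) (rel4 hs hD)

lemma Q_yy {s : ℝ} (hs : s ^ 2 = 1) {K : Matrix ι ι ℝ} (hK : K.IsSymm) {x y : ι}
    (hD : Dl s K x y ≠ 0) :
    Qhat s K x y y y = Exx s K x y + 2 * s * Bxy s K x y - 1 := by
  rw [Qhat_apply, pow_apply_comm hK 2 y x, hK.apply x y]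
  have h := sc_xx (s := s) (a1 := K y y) (b1 := K x x) (c1 := K x y) (a2 := (K ^ 2) y y)
    (b2 := (K ^ 2) x x) (c2 := (K ^ 2) x y) (B1 := Byy s K x y) (B2 := Bxy s K x y)
    (B3 := Bxx s K x y) hs (by linear_combination rel4 hs hD)
    (by linear_combination rel2 hs hD)
  simp only [Exx, Exy, Eyy]
  linear_combination h

/-- `Eᵀ-free` column sums: `Σ_j K_jz Q̂_jx`. -/
lemma S_x {s : ℝ} (hs : s ^ 2 = 1) {K : Matrix ι ι ℝ} (hK : K.IsSymm) {x y : ι}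
    (hD : Dl s K x y ≠ 0) (z : ι) :
    ∑ j, K j z * Qhat s K x y j x =
      s * (Bxy s K x y * (K ^ 3) z x + Byy s K x y * (K ^ 3) z y)
      + s * (Exy s K x y * (K ^ 2) z x + Eyy s K x y * (K ^ 2) z y)
      + (Bxx s K x y * (K ^ 2) z x + Bxy s K x y * (K ^ 2) z y) := by
  rw [sum_K_Q s hK]
  have r1 := rel1 hs hD
  have r3 := rel3 hs hD
  simp only [Exx, Exy, Eyy]
  linear_combination ((K ^ 3) z x + ((K ^ 2) x x - 1) * Bxx s K x y * (K ^ 2) z x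
      + (K ^ 2) x y * Bxy s K x y * (K ^ 2) z x + ((K ^ 2) x x - 1) * Bxy s K x y * (K ^ 2) z y
      + (K ^ 2) x y * Byy s K x y * (K ^ 2) z y) * r1
    + ((K ^ 3) z y + ((K ^ 2) y y - 1) * Bxy s K x y * (K ^ 2) z x
      + (K ^ 2) x y * Bxx s K x y * (K ^ 2) z x + ((K ^ 2) y y - 1) * Byy s K x y * (K ^ 2) z y
      + (K ^ 2) x y * Bxy s K x y * (K ^ 2) z y) * r3

lemma S_y {s : ℝ} (hs : s ^ 2 = 1) {K : Matrix ι ι ℝ} (hK : K.IsSymm) {x y : ι}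
    (hD : Dl s K x y ≠ 0) (z : ι) :
    ∑ j, K j z * Qhat s K x y j y =
      s * (Bxx s K x y * (K ^ 3) z x + Bxy s K x y * (K ^ 3) z y)
      + s * (Exx s K x y * (K ^ 2) z x + Exy s K x y * (K ^ 2) z y)
      + (Bxy s K x y * (K ^ 2) z x + Byy s K x y * (K ^ 2) z y) := by
  rw [sum_K_Q s hK]
  rw [pow_apply_comm hK 2 y x, hK.apply x y]
  have r2 := rel2 hs hD
  have r4 := rel4 hs hD
  simp only [Exx, Exy, Eyy]
  linear_combination ((K ^ 3) z x + ((K ^ 2) x x - 1) * Bxx s K x y * (K ^ 2) z x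
      + (K ^ 2) x y * Bxy s K x y * (K ^ 2) z x + ((K ^ 2) x x - 1) * Bxy s K x y * (K ^ 2) z y
      + (K ^ 2) x y * Byy s K x y * (K ^ 2) z y) * r2
    + ((K ^ 3) z y + ((K ^ 2) y y - 1) * Bxy s K x y * (K ^ 2) z x
      + (K ^ 2) x y * Bxx s K x y * (K ^ 2) z x + ((K ^ 2) y y - 1) * Byy s K x y * (K ^ 2) z y
      + (K ^ 2) x y * Bxy s K x y * (K ^ 2) z y) * r4

lemma sum_Khat_Qhat_x {s : ℝ} (hs : s ^ 2 = 1) {K : Matrix ι ι ℝ} (hK : K.IsSymm) {x y : ι}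
    (hD : Dl s K x y ≠ 0) (w : ι) :
    ∑ j, Khat s K x y j x * Qhat s K x y j w =
      s * (Bxy s K x y * (∑ j, K j x * Qhat s K x y j w)
        + Byy s K x y * (∑ j, K j y * Qhat s K x y j w)) := by
  rw [Finset.mul_sum, Finset.mul_sum, ← Finset.sum_add_distrib, Finset.mul_sum]
  refine Finset.sum_congr rfl fun j _ => ?_
  rw [colx hs hK hD]; ring

lemma sum_Khat_Qhat_y {s : ℝ} (hs : s ^ 2 = 1) {K : Matrix ι ι ℝ} (hK : K.IsSymm) {x y : ι}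
    (hD : Dl s K x y ≠ 0) (w : ι) :
    ∑ j, Khat s K x y j y * Qhat s K x y j w =
      s * (Bxx s K x y * (∑ j, K j x * Qhat s K x y j w)
        + Bxy s K x y * (∑ j, K j y * Qhat s K x y j w)) := by
  rw [Finset.mul_sum, Finset.mul_sum, ← Finset.sum_add_distrib, Finset.mul_sum]
  refine Finset.sum_congr rfl fun j _ => ?_
  rw [coly hs hK hD]; ring

/-- the scalar part of the full product `<K̂, Q̂>`. -/
lemma ip_KQ_self (s : ℝ) {K : Matrix ι ι ℝ} (hK : K.IsSymm) (x y : ι) :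
    ip (Khat s K x y) (Qhat s K x y) =
      ip K (K ^ 2)
      + 3 * (Bxx s K x y * (K ^ 4) x x + 2 * Bxy s K x y * (K ^ 4) x y
          + Byy s K x y * (K ^ 4) y y)
      + (Exx s K x y * (K ^ 3) x x + 2 * Exy s K x y * (K ^ 3) x y
          + Eyy s K x y * (K ^ 3) y y)
      + 2 * t2 (Bxx s K x y) (Bxy s K x y) (Byy s K x y) ((K ^ 3) x x) ((K ^ 3) x y)
          ((K ^ 3) y y) ((K ^ 2) x x) ((K ^ 2) x y) ((K ^ 2) y y)
      + (Bxx s K x y * (Exx s K x y * (K ^ 2) x x ^ 2 + 2 * Exy s K x y * ((K ^ 2) x x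
            * (K ^ 2) x y) + Eyy s K x y * (K ^ 2) x y ^ 2)
        + 2 * Bxy s K x y * (Exx s K x y * ((K ^ 2) x x * (K ^ 2) x y)
            + Exy s K x y * ((K ^ 2) x x * (K ^ 2) y y + (K ^ 2) x y * (K ^ 2) x y)
            + Eyy s K x y * ((K ^ 2) x y * (K ^ 2) y y))
        + Byy s K x y * (Exx s K x y * (K ^ 2) x y ^ 2 + 2 * Exy s K x y * ((K ^ 2) x y
            * (K ^ 2) y y) + Eyy s K x y * (K ^ 2) y y ^ 2)) := by
  rw [ip_Khat_Qhat s s hK hK x y, ip_sym2_mix2, ip_sym2_sym2]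
  simp only [dot_col hK]
  have e1 : K ^ 2 * K * K = K ^ 4 := by
    rw [← pow_succ, ← pow_succ]
  have e2 : K * K * K = K ^ 3 := by
    rw [← pow_two, ← pow_succ]
  have e3 : K * K ^ 2 * K = K ^ 4 := by
    rw [← pow_succ', ← pow_succ]
  rw [e1, e2, e3]
  have c2 := pow_apply_comm hK 2 y x
  have c3 := pow_apply_comm hK 3 y x
  have c4 := pow_apply_comm hK 4 y x
  simp only [show (1:ℕ) + 1 = 2 from rfl, show (1:ℕ) + 2 = 3 from rfl, c2, c3, c4, t2]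
  ring

/-- **Exact one-step change of `X₃`** (as `<K, K²>`). -/
theorem X3_upd {s : ℝ} (hs : s ^ 2 = 1) {K : Matrix ι ι ℝ} (hK : K.IsSymm) {x y : ι}
    (hxy : x ≠ y) (hD : Dl s K x y ≠ 0) :
    ip (upd s K x y) ((upd s K x y) ^ 2) = ip K (K ^ 2)
      + 3 * t1 (Bxx s K x y) (Bxy s K x y) (Byy s K x y) ((K ^ 4) x x - (K ^ 2) x x)
          ((K ^ 4) x y - (K ^ 2) x y) ((K ^ 4) y y - (K ^ 2) y y)
      + 3 * t2 (Bxx s K x y) (Bxy s K x y) (Byy s K x y) ((K ^ 2) x x - 1)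
          ((K ^ 2) x y) ((K ^ 2) y y - 1) ((K ^ 3) x x - K x x)
          ((K ^ 3) x y - K x y) ((K ^ 3) y y - K y y)
      + t3 (Bxx s K x y) (Bxy s K x y) (Byy s K x y) ((K ^ 2) x x - 1)
          ((K ^ 2) x y) ((K ^ 2) y y - 1) := by
  rw [upd_sq hs hK hxy hD, upd, ip_Pi2 hxy (Khat_symm s hK x y) (Qhat_symm s hK x y),
    ip_KQ_self s hK, sum_Khat_Qhat_x hs hK hD, sum_Khat_Qhat_y hs hK hD,
    S_x hs hK hD, S_x hs hK hD, S_y hs hK hD, S_y hs hK hD, K_xx hs hK hD, K_xy hs hK hD,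
    K_yy hs hK hD, Q_xx hs hK hD, Q_xy hs hK hD, Q_yy hs hK hD,
    pow_apply_comm hK 3 y x, pow_apply_comm hK 2 y x]
  have r1 := rel1 hs hD
  have r2 := rel2 hs hD
  have r3 := rel3 hs hD
  have r4 := rel4 hs hD
  simp only [Exx, Exy, Eyy, t1, t2, t3]
  generalize Bxx s K x y = B1 at *
  generalize Bxy s K x y = B2 at *
  generalize Byy s K x y = B3 at *
  generalize (K ^ 2) x x = a2
  generalize (K ^ 2) x y = c2
  generalize (K ^ 2) y y = b2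
  generalize (K ^ 3) x x = a3
  generalize (K ^ 3) x y = c3
  generalize (K ^ 3) y y = b3
  generalize (K ^ 4) x x = a4
  generalize (K ^ 4) x y = c4
  generalize (K ^ 4) y y = b4
  generalize K x x = a1 at *
  generalize K x y = c1 at *
  generalize K y y = b1 at *
  linear_combination 3 * ((a2 - 1) * B1 + c2 * B2) * r1 + 3 * ((a2 - 1) * B2 + c2 * B3) * r2
    + 3 * (c2 * B1 + (b2 - 1) * B2) * r3 + 3 * (c2 * B2 + (b2 - 1) * B3) * r4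
    + (-2 * ((B1 ^ 2 + B2 ^ 2) * a3 + 2 * B2 * (B1 + B3) * c3 + (B2 ^ 2 + B3 ^ 2) * b3
        + (B1 * a2 + B2 * c2) * (B1 ^ 2 * (a2 - 1) + 2 * B1 * B2 * c2 + B2 ^ 2 * (b2 - 1))
        + (B1 * c2 + B2 * b2 + B2 * a2 + B3 * c2)
          * (B1 * B2 * (a2 - 1) + (B1 * B3 + B2 ^ 2) * c2 + B2 * B3 * (b2 - 1))
        + (B2 * c2 + B3 * b2) * (B2 ^ 2 * (a2 - 1) + 2 * B2 * B3 * c2 + B3 ^ 2 * (b2 - 1)))
      - 2 * (B1 + B3)) * hs

end Crest.Agent.R62.X3Upd
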