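import Crest.Agent.R62.AvX4
import Crest.Agent.R62.UpdX

/-!
R62 (helper486): one step of the normalised functional `X₄ ρ / L₄` under weights `1 - Θ`.
-/

set_option autoImplicit false
set_option linter.unusedSectionVars false
set_option linter.unusedVariables false

open scoped Matrix BigOperators

namespace Crest.Agent.R62.X4Drift

open Crest.Agent.R62.AvBase Crest.Agent.R62.L2P Crest.Agent.R62.AvX4

variable {ι : Type*} [Fintype ι] [DecidableEq ι]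

/-- the exact step in the notation of `AvX4`. -/
theorem X4_step {s : ℝ} (hs : s = 1 ∨ s = -1) {K : Matrix ι ι ℝ} (hK : K.IsSymm) {p : ι × ι}
    (hxy : p.1 ≠ p.2) (hD : Upd.Dl s K p.1 p.2 ≠ 0) :
    ((Upd.upd s K p.1 p.2) ^ 4).trace = (K ^ 4).trace + dX4 s K p := by
  rw [UpdX.X4_upd hs hK hxy hD]
  have e0 : d0 s (C0 K p) (W0 K p) = Upd.Dl s K p.1 p.2 := rfl
  have e1 : d1 s (C0 K p) (C1 K p) (P1 K p) = UpdX.D1 s K p.1 p.2 := by
    unfold d1 UpdX.D1 C0 C1 P1 A0 A1; ring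
  have e2 : d2 s (C0 K p) (C1 K p) (C2 K p) (P2 K p) = UpdX.D2 s K p.1 p.2 := by
    unfold d2 UpdX.D2 C0 C1 C2 P2 A0 A1 A2; ring
  have e3 : d3 s (C0 K p) (C1 K p) (C2 K p) (C3 K p) (P3 K p) = UpdX.D3 s K p.1 p.2 := by
    unfold d3 UpdX.D3 C0 C1 C2 C3 P3 A0 A1 A2 A3; ring
  have e4 : d4 s (C0 K p) (C1 K p) (C2 K p) (C3 K p) (C4 K p) (P4 K p)
      = UpdX.D4 s K p.1 p.2 := by
    unfold d4 UpdX.D4 C0 C1 C2 C3 C4 P4 A0 A1 A2 A3 A4; ring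
  unfold dX4 inc4
  rw [e0, e1, e2, e3, e4]
  ring

lemma row_ind {K : Matrix ι ι ℝ} {F : Finset ι} {s : ℝ} (hK : Kᵀ = K)
    (hF : ∀ i j, i ∉ F → K i j = 0) (hr : ∀ x ∈ F, ∑ y, K x y = s) :
    K *ᵥ ind F = s • ind F := by
  funext i
  have hF' : ∀ i j, j ∉ F → K i j = 0 := fun i j hj => by
    have : K i j = K j i := congrFun (congrFun hK j) i
    rw [this]; exact hF j i hj
  have e : (K *ᵥ ind F) i = ∑ y, K i y := by
    simp only [Matrix.mulVec, dotProduct, ind]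
    refine Finset.sum_congr rfl fun y _ => ?_
    by_cases hy : y ∈ F
    · simp [hy]
    · simp [hy, hF' i y hy]
  rw [e]
  by_cases hi : i ∈ F
  · rw [hr i hi]; simp [ind, hi]
  · simp only [ind, Pi.smul_apply, smul_eq_mul, if_neg hi, mul_zero]
    exact Finset.sum_eq_zero fun y _ => hF i y hi

/-! ### absolute sums of the diagonal quantities -/

section abs
variable {K : Matrix ι ι ℝ} {F : Finset ι} {L : ℝ}

lemma diag_odd_le (hK : Kᵀ = K) (hL : OpB K L) (i : ℕ) (x : ι) :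
    |(K ^ (i + (1 + i))) x x| ≤ L * (K ^ (2 * i)) x x := by
  have e : (K ^ (i + (1 + i))) x x = (fun z => (K ^ i) z x) ⬝ᵥ (K ^ 1 *ᵥ fun z => (K ^ i) z x) := by
    rw [pow_add_apply hK i (1 + i) x x]
    congr 1
    funext z
    rw [pow_add, Matrix.mul_apply]; rfl
  rw [e, ← col_sq hK]
  simpa using form_self_le hL 1 (fun z => (K ^ i) z x)

lemma sum_abs_A3 (hK : Kᵀ = K) (F : Finset ι) :
    ∑ x ∈ F, |A3 K x| ≤ (K ^ 4).trace + (K ^ 2).trace := by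
  calc _ ≤ ∑ x, |A3 K x| :=
        Finset.sum_le_sum_of_subset_of_nonneg (Finset.subset_univ F) fun _ _ _ => abs_nonneg _
    _ ≤ ∑ x, ((K ^ 4) x x + (K ^ 2) x x) := Finset.sum_le_sum fun x _ => by
        unfold A3
        have a := diag_four_nonneg hK x
        have b := diag_sq_nonneg hK x
        rw [abs_le]; constructor <;> linarith
    _ = _ := by rw [Finset.sum_add_distrib]; rfl

lemma sum_abs_A4 (hK : Kᵀ = K) (hL : OpB K L) (F : Finset ι) :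
    ∑ x ∈ F, |A4 K x| ≤ L * ((K ^ 4).trace + (K ^ 2).trace) := by
  calc _ ≤ ∑ x, |A4 K x| :=
        Finset.sum_le_sum_of_subset_of_nonneg (Finset.subset_univ F) fun _ _ _ => abs_nonneg _
    _ ≤ ∑ x, L * ((K ^ 4) x x + (K ^ 2) x x) := Finset.sum_le_sum fun x _ => by
        unfold A4
        have a := diag_odd_le hK hL 2 x
        have b := diag_odd_le hK hL 1 x
        simp only [Nat.reduceAdd, Nat.reduceMul] at a b
        calc _ ≤ |(K ^ 5) x x| + |(K ^ 3) x x| := abs_sub _ _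
          _ ≤ _ := by linarith
    _ = _ := by rw [← Finset.mul_sum, Finset.sum_add_distrib]; rfl

lemma sum_abs_cube (hK : Kᵀ = K) (F : Finset ι) {x2 x4 : ℝ} (h2 : 0 ≤ x2) (h4 : 0 ≤ x4)
    (X2 : (K ^ 2).trace ≤ x2 ^ 2) (X4 : (K ^ 4).trace ≤ x4 ^ 2) :
    ∑ x ∈ F, |(K ^ 3) x x| ≤ x2 * x4 := by
  have a : L2 (Finset.univ : Finset (ι × ι)) (C0 K) x2 :=
    (l2_C0 hK _).mono ((Real.sqrt_le_left h2).mpr X2)
  have b : L2 (Finset.univ : Finset (ι × ι)) (C1 K) x4 :=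
    (l2_C1 hK _).mono ((Real.sqrt_le_left h4).mpr X4)
  have h := a.sum_mul b
  refine le_trans ?_ h
  rw [← Finset.univ_product_univ, Finset.sum_product]
  calc _ ≤ ∑ x, |(K ^ 3) x x| :=
        Finset.sum_le_sum_of_subset_of_nonneg (Finset.subset_univ F) fun _ _ _ => abs_nonneg _
    _ ≤ _ := Finset.sum_le_sum fun x _ => by
        have e := pow_add_apply hK 1 2 x x
        simp only [Nat.reduceAdd, pow_one, dotProduct] at e
        rw [e]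
        refine (Finset.abs_sum_le_sum_abs _ _).trans (Finset.sum_le_sum fun z _ => ?_)
        rw [abs_mul]
        have e1 : K z x = K x z := by simpa using pow_apply_comm hK 1 z x
        rw [e1, pow_apply_comm hK 2 z x]
        exact le_rfl

end abs


/-! ### the numerical hypotheses -/

/-- state, pair set `A`, tilt `Θ` (weights `1 - Θ`) and the numerical bounds for one sign -/
structure Hyp (K : Matrix ι ι ℝ) (F : Finset ι) (s : ℝ) (A : Finset (ι × ι))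
    (Θ : ι → ι → ℝ) (x1 yp x2 x3 x4 v om q y L be η t T1 ρ : ℝ) : Prop where
  symm : K.IsSymm
  sgn : s = 1 ∨ s = -1
  dead : ∀ i j, i ∉ F → K i j = 0
  row : K *ᵥ ind F = s • ind F
  sub : A ⊆ F ×ˢ F
  ne : ∀ p ∈ A, p.1 ≠ p.2
  good1 : ∀ p ∈ A, |K p.1 p.2| ≤ 1 / 4
  good2 : ∀ p ∈ A, |K p.1 p.1 * K p.2 p.2| ≤ 1 / 8
  opb : OpB K L
  L1 : 1 ≤ L
  x2n : 0 ≤ x2
  x4n : 0 ≤ x4
  vn : 0 ≤ v
  omn : 0 ≤ om
  qn : 0 ≤ q
  yn : 0 ≤ y
  ypn : 0 ≤ yp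
  tn : 0 ≤ t
  ben : 0 ≤ be
  etan : 0 ≤ η
  X1 : |K.trace| ≤ x1
  Yp : (K ^ 2).trace - ρ ≤ yp
  X2 : (K ^ 2).trace ≤ x2 ^ 2
  X3 : |(K ^ 3).trace| ≤ x3
  X4 : (K ^ 4).trace ≤ x4 ^ 2
  V : ∑ x, (K x x) ^ 2 ≤ v ^ 2
  Om : ∑ x ∈ F, ((K ^ 2) x x - 1) ^ 2 ≤ om ^ 2
  Q : ∑ x, ((K ^ 2) x x) ^ 2 ≤ q ^ 2
  Y : ∑ x, (K ^ 2) x x * (K ^ 4) x x ≤ y ^ 2
  card : (((F ×ˢ F) \ A).card : ℝ) ≤ be ^ 2
  th : ∀ p ∈ A, |Θ p.1 p.2| ≤ η
  frob : ∑ p ∈ A, Θ p.1 p.2 ^ 2 ≤ t ^ 2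
  tilt : |8 * s * ∑ p ∈ A, Θ p.1 p.2 * C4 K p| ≤ T1
  rho : ρ = F.card
  rho2 : 2 ≤ ρ

/-- total of the remainder monomials in terms of the numerical bounds -/
noncomputable def eTot (x2 x4 v om q y L : ℝ) : ℝ :=
  errTot v om (2 * (y + v)) (2 * L ^ 2 * q) (2 * L ^ 3 * q) x2 x4 (2 * (L * x4 + x2))
    (2 * L ^ 2 * x4) (2 * L ^ 3 * x4) (q * y ^ 2)

/-- bound for the Frobenius norm of `P₄` -/
noncomputable def mm4 (v om q y L : ℝ) : ℝ :=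
  m4 v om (2 * (y + v)) (2 * L ^ 2 * q) (2 * L ^ 3 * q)

/-- total upper bound for `∑_A (1 - Θ) (X₄' - X₄)` -/
noncomputable def UU (x1 yp x2 x3 x4 v om q y L be η t T1 ρ : ℝ) : ℝ :=
  8 * (yp * x4 ^ 2) + 8 * (ρ * x2 ^ 2) + 8 * x3 ^ 2 + 8 * x1 ^ 2
    + 8 * (x1 * (L * x4 ^ 2 + x3))
    + be * (8 * (2 * L ^ 3 * x4) + 4 * mm4 v om q y L)
    + (1 + η) * (32000 * eTot x2 x4 v om q y L)
    + η * (2 * ρ ^ 2) + 4 * (t * mm4 v om q y L) + T1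

section main
variable {K : Matrix ι ι ℝ} {F : Finset ι} {s : ℝ} {A : Finset (ι × ι)} {Θ : ι → ι → ℝ}
  {x1 yp x2 x3 x4 v om q y L be η t T1 ρ : ℝ}

theorem Hyp.bnd (h : Hyp K F s A Θ x1 yp x2 x3 x4 v om q y L be η t T1 ρ) :
    Bnd K F v om (2 * (y + v)) (2 * L ^ 2 * q) (2 * L ^ 3 * q) x2 x4 (2 * (L * x4 + x2))
      (2 * L ^ 2 * x4) (2 * L ^ 3 * x4) (q * y ^ 2) := by
  have hK : Kᵀ = K := h.symm
  have hL0 : 0 ≤ L := zero_le_one.trans h.L1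
  have B := AvX4.bnd hK h.opb h.L1 F
  have sv : Real.sqrt (Vv K) ≤ v := (Real.sqrt_le_left h.vn).mpr h.V
  have so : Real.sqrt (Wv K F) ≤ om := (Real.sqrt_le_left h.omn).mpr h.Om
  have sq : Real.sqrt (R2v K) ≤ q := (Real.sqrt_le_left h.qn).mpr h.Q
  have s2 : Real.sqrt ((K ^ 2).trace) ≤ x2 := (Real.sqrt_le_left h.x2n).mpr h.X2
  have s4 : Real.sqrt ((K ^ 4).trace) ≤ x4 := (Real.sqrt_le_left h.x4n).mpr h.X4
  refine ⟨B.a0.mono sv, B.a1.mono so, B.a2.mono ?_, B.a3.mono ?_, B.a4.mono ?_, B.c0.mono s2,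
    B.c1.mono s4, B.c2.mono ?_, B.c3.mono ?_, B.c4.mono ?_, B.cq.trans ?_⟩
  · have hyv : 0 ≤ 2 * (y + v) := by have := h.yn; have := h.vn; positivity
    rw [Real.sqrt_le_left hyv]
    have a : Yv K ≤ y ^ 2 := h.Y
    have b : Vv K ≤ v ^ 2 := h.V
    nlinarith [mul_nonneg h.yn h.vn, sq_nonneg y, sq_nonneg v]
  · exact mul_le_mul_of_nonneg_left sq (by positivity)
  · exact mul_le_mul_of_nonneg_left sq (by positivity)
  · have hh : 0 ≤ 2 * (L * x4 + x2) := by have := h.x4n; have := h.x2n; positivity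
    rw [Real.sqrt_le_left hh]
    have a := mul_le_mul_of_nonneg_left h.X4 (sq_nonneg L)
    nlinarith [h.X2, mul_nonneg (mul_nonneg hL0 h.x4n) h.x2n, sq_nonneg (L * x4), sq_nonneg x2]
  · exact mul_le_mul_of_nonneg_left s4 (by positivity)
  · exact mul_le_mul_of_nonneg_left s4 (by positivity)
  · exact mul_le_mul sq h.Y (Yv_nonneg hK) h.qn

lemma eTot_nonneg (h : Hyp K F s A Θ x1 yp x2 x3 x4 v om q y L be η t T1 ρ) :
    0 ≤ eTot x2 x4 v om q y L :=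
  (Finset.sum_nonneg fun p _ => mono_nonneg K p).trans (h.bnd.sum_mono_le (S := ∅) (by simp))

lemma mm4_nonneg (h : Hyp K F s A Θ x1 yp x2 x3 x4 v om q y L be η t T1 ρ) :
    0 ≤ mm4 v om q y L := h.bnd.p4.nonneg

/-- **upper bound for the weighted sum of the increments of `X₄`** -/
theorem Hyp.sum_dX4 (h : Hyp K F s A Θ x1 yp x2 x3 x4 v om q y L be η t T1 ρ) :
    ∑ p ∈ A, (1 - Θ p.1 p.2) * dX4 s K p ≤ UU x1 yp x2 x3 x4 v om q y L be η t T1 ρ := by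
  have hK : Kᵀ = K := h.symm
  have hL0 : 0 ≤ L := zero_le_one.trans h.L1
  have hs2 : s ^ 2 = 1 := by rcases h.sgn with rfl | rfl <;> norm_num
  have hgood : ∀ p ∈ A, Good K p := fun p hp => ⟨h.good1 p hp, h.good2 p hp⟩
  have hC4 := sum_C4 hs2 h.dead h.row
  have B := h.bnd
  have e1 := B.sum_dX4 hs2 h.sub hgood h.card hC4
  have e2 := B.sum_weight' hs2 h.sub hgood (θ := fun p => Θ p.1 p.2) h.etan h.th ⟨h.tn, h.frob⟩
  rw [Real.sqrt_sq h.ben] at e1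
  have e3 : ∑ p ∈ A, (1 - Θ p.1 p.2) * dX4 s K p
      = ∑ p ∈ A, dX4 s K p - (∑ p ∈ A, Θ p.1 p.2 * dX4 s K p
          - 8 * s * ∑ p ∈ A, Θ p.1 p.2 * C4 K p) - 8 * s * ∑ p ∈ A, Θ p.1 p.2 * C4 K p := by
    rw [sub_sub, sub_add_cancel, ← Finset.sum_sub_distrib]
    exact Finset.sum_congr rfl fun p _ => by ring
  have hcardA : (A.card : ℝ) ≤ ρ ^ 2 := by
    have : A.card ≤ (F ×ˢ F).card := Finset.card_le_card h.sub
    rw [Finset.card_product] at this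
    rw [h.rho, pow_two]; exact_mod_cast this
  have hP4 := sum_P4 (K := K) h.dead
  rw [← h.rho] at hP4
  have i1 := (abs_le.mp e1).2
  have i2 := (abs_le.mp e2).1
  have i3 := (abs_le.mp h.tilt).1
  have hη := h.etan
  have hX4n := tr4_nonneg hK
  have hX2n := tr2_nonneg hK
  have hρ0 : 0 ≤ ρ := by linarith [h.rho2]
  -- the main terms
  have g1 : ((K ^ 2).trace - ρ) * ((K ^ 4).trace - (K ^ 2).trace) ≤ yp * x4 ^ 2 + ρ * x2 ^ 2 := by
    have t1 : ((K ^ 2).trace - ρ) * (K ^ 4).trace ≤ yp * x4 ^ 2 :=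
      (mul_le_mul_of_nonneg_right h.Yp hX4n).trans (mul_le_mul_of_nonneg_left h.X4 h.ypn)
    have t2 : -(((K ^ 2).trace - ρ) * (K ^ 2).trace) ≤ ρ * x2 ^ 2 := by
      have := mul_le_mul_of_nonneg_left h.X2 hρ0
      nlinarith [mul_nonneg hX2n hX2n]
    linarith
  have g2 : ((K ^ 3).trace - K.trace) ^ 2 ≤ 2 * x3 ^ 2 + 2 * x1 ^ 2 := by
    have t1 : (K ^ 3).trace ^ 2 ≤ x3 ^ 2 := by
      rw [← sq_abs]; exact pow_le_pow_left₀ (abs_nonneg _) h.X3 2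
    have t2 : K.trace ^ 2 ≤ x1 ^ 2 := by
      rw [← sq_abs]; exact pow_le_pow_left₀ (abs_nonneg _) h.X1 2
    have := sq_add_le ((K ^ 3).trace) (K.trace)
    linarith
  have g3 : K.trace * ((K ^ 5).trace - (K ^ 3).trace) ≤ x1 * (L * x4 ^ 2 + x3) := by
    have t1 := abs_trace_five_le hK h.opb
    have t2 : |(K ^ 5).trace - (K ^ 3).trace| ≤ L * x4 ^ 2 + x3 :=
      (abs_sub _ _).trans (add_le_add (t1.trans (mul_le_mul_of_nonneg_left h.X4 hL0)) h.X3)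
    calc _ ≤ |K.trace * ((K ^ 5).trace - (K ^ 3).trace)| := le_abs_self _
      _ = |K.trace| * |(K ^ 5).trace - (K ^ 3).trace| := abs_mul _ _
      _ ≤ _ := mul_le_mul h.X1 t2 (abs_nonneg _) ((abs_nonneg _).trans h.X1)
  have hP4' : 4 * ∑ p ∈ F ×ˢ F, P4 K p ≤ 8 * (yp * x4 ^ 2) + 8 * (ρ * x2 ^ 2) + 8 * x3 ^ 2
      + 8 * x1 ^ 2 + 8 * (x1 * (L * x4 ^ 2 + x3)) := by
    rw [hP4]; linarith
  have hE : errTot v om (2 * (y + v)) (2 * L ^ 2 * q) (2 * L ^ 3 * q) x2 x4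
            (2 * (L * x4 + x2)) (2 * L ^ 2 * x4) (2 * L ^ 3 * x4) (q * y ^ 2)
      = eTot x2 x4 v om q y L := rfl
  have hM : m4 v om (2 * (y + v)) (2 * L ^ 2 * q) (2 * L ^ 3 * q) = mm4 v om q y L := rfl
  rw [hE, hM] at i1 i2
  have hw : η * (2 * (A.card : ℝ) + 32000 * eTot x2 x4 v om q y L)
      ≤ η * (2 * ρ ^ 2 + 32000 * eTot x2 x4 v om q y L) :=
    mul_le_mul_of_nonneg_left (by linarith) hη
  have hA0 : (0 : ℝ) ≤ (A.card : ℝ) := Nat.cast_nonneg _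
  rw [e3]
  unfold UU
  nlinarith [i1, i2, i3, hw, hP4']

lemma Hyp.nn (h : Hyp K F s A Θ x1 yp x2 x3 x4 v om q y L be η t T1 ρ) :
    0 ≤ UU x1 yp x2 x3 x4 v om q y L be η t T1 ρ := by
  have hL0 : 0 ≤ L := zero_le_one.trans h.L1
  have a1 : 0 ≤ x1 := (abs_nonneg _).trans h.X1
  have a3 : 0 ≤ x3 := (abs_nonneg _).trans h.X3
  have aT : 0 ≤ T1 := (abs_nonneg _).trans h.tilt
  have hρ0 : 0 ≤ ρ := by linarith [h.rho2]
  have e0 := eTot_nonneg h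
  have e1 := mm4_nonneg h
  have hη := h.etan
  have := h.x2n
  have := h.x4n
  have := h.vn
  have := h.omn
  have := h.qn
  have := h.yn
  have := h.ypn
  have := h.tn
  have := h.ben
  unfold UU
  positivity

/-- **one step of `X₄ ρ / L₄`** (increment form) -/
theorem Hyp.inc_le (h : Hyp K F s A Θ x1 yp x2 x3 x4 v om q y L be η t T1 ρ) {L4 : ℝ}
    (hL4 : 0 < L4) (hη1 : η ≤ 1) :
    ∑ p ∈ A, (1 - Θ p.1 p.2) * (((Upd.upd s K p.1 p.2) ^ 4).trace * (ρ - 2) / L4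
        - (K ^ 4).trace * ρ / L4)
      ≤ ρ / L4 * UU x1 yp x2 x3 x4 v om q y L be η t T1 ρ := by
  have hs2 : s ^ 2 = 1 := by rcases h.sgn with rfl | rfl <;> norm_num
  have hρ0 : 0 < ρ := by linarith [h.rho2]
  have hρ2 := h.rho2
  have hD : ∀ p ∈ A, Upd.Dl s K p.1 p.2 ≠ 0 := fun p hp => by
    have h0 := d0_lower hs2 (h.good1 p hp) (h.good2 p hp)
    have : d0 s (K p.1 p.2) (K p.1 p.1 * K p.2 p.2) = Upd.Dl s K p.1 p.2 := rfl
    rw [← this]; linarith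
  have hX4n := tr4_nonneg (K := K) h.symm
  have e1 : ∑ p ∈ A, (1 - Θ p.1 p.2) * (((Upd.upd s K p.1 p.2) ^ 4).trace * (ρ - 2) / L4
        - (K ^ 4).trace * ρ / L4)
      = -(2 * (K ^ 4).trace / L4 * ∑ p ∈ A, (1 - Θ p.1 p.2))
        + (ρ - 2) / L4 * ∑ p ∈ A, (1 - Θ p.1 p.2) * dX4 s K p := by
    rw [Finset.mul_sum, Finset.mul_sum, ← Finset.sum_neg_distrib, ← Finset.sum_add_distrib]
    refine Finset.sum_congr rfl fun p hp => ?_
    rw [X4_step h.sgn h.symm (h.ne p hp) (hD p hp)]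
    ring
  have hS := h.sum_dX4
  have hU := h.nn
  set U := UU x1 yp x2 x3 x4 v om q y L be η t T1 ρ with hUdef
  rw [e1]
  have i1 : (ρ - 2) / L4 * ∑ p ∈ A, (1 - Θ p.1 p.2) * dX4 s K p ≤ ρ / L4 * U :=
    calc _ ≤ (ρ - 2) / L4 * U :=
          mul_le_mul_of_nonneg_left hS (div_nonneg (by linarith) hL4.le)
      _ ≤ _ := mul_le_mul_of_nonneg_right (div_le_div_of_nonneg_right (by linarith) hL4.le) hU
  have i2 : 0 ≤ 2 * (K ^ 4).trace / L4 * ∑ p ∈ A, (1 - Θ p.1 p.2) := by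
    refine mul_nonneg (div_nonneg (by positivity) hL4.le) (Finset.sum_nonneg fun p hp => ?_)
    have := (abs_le.mp (h.th p hp)).2
    linarith
  linarith

end main

end Crest.Agent.R62.X4Drift
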